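import Mathlib
import Vale.Agent.P322.Numerics

/-!
P322: logarithms and entropies used by the bands at the largest middle noise levels.
-/

open Real

namespace Vale.Agent.P322.Band

set_option linter.style.longLine false

lemma log19_20000 : (-69590487 / 10000000 : ℝ) ≤ log (19 / 20000 : ℝ) ∧ log (19 / 20000 : ℝ) ≤ (-17397621 / 2500000 : ℝ) := by
  obtain ⟨h1, h2⟩ := log_bracket (a := (19 / 20000 : ℝ)) (x := (591 / 1841 : ℝ)) (-11) 10 (by norm_num) (by norm_num) (by norm_num)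
  norm_num [Finset.sum_range_succ] at h1 h2
  constructor <;> linarith [log_two_gt_d9, log_two_lt_d9]

lemma log91_62500 : (-104513 / 16000 : ℝ) ≤ log (91 / 62500 : ℝ) ∧ log (91 / 62500 : ℝ) ≤ (-32660311 / 5000000 : ℝ) := by
  obtain ⟨h1, h2⟩ := log_bracket (a := (91 / 62500 : ℝ)) (x := (7671 / 38921 : ℝ)) (-10) 10 (by norm_num) (by norm_num) (by norm_num)
  norm_num [Finset.sum_range_succ] at h1 h2
  constructor <;> linarith [log_two_gt_d9, log_two_lt_d9]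

lemma log1_500 : (-31073041 / 5000000 : ℝ) ≤ log (1 / 500 : ℝ) ∧ log (1 / 500 : ℝ) ≤ (-62146079 / 10000000 : ℝ) := by
  obtain ⟨h1, h2⟩ := log_bracket (a := (1 / 500 : ℝ)) (x := (3 / 253 : ℝ)) (-9) 10 (by norm_num) (by norm_num) (by norm_num)
  norm_num [Finset.sum_range_succ] at h1 h2
  constructor <;> linarith [log_two_gt_d9, log_two_lt_d9]

lemma log1_400 : (-59914647 / 10000000 : ℝ) ≤ log (1 / 400 : ℝ) ∧ log (1 / 400 : ℝ) ≤ (-14978661 / 2500000 : ℝ) := by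
  obtain ⟨h1, h2⟩ := log_bracket (a := (1 / 400 : ℝ)) (x := (7 / 57 : ℝ)) (-9) 10 (by norm_num) (by norm_num) (by norm_num)
  norm_num [Finset.sum_range_succ] at h1 h2
  constructor <;> linarith [log_two_gt_d9, log_two_lt_d9]

lemma log513_200000 : (-5965797 / 1000000 : ℝ) ≤ log (513 / 200000 : ℝ) ∧ log (513 / 200000 : ℝ) ≤ (-59657967 / 10000000 : ℝ) := by
  obtain ⟨h1, h2⟩ := log_bracket (a := (513 / 200000 : ℝ)) (x := (979 / 7229 : ℝ)) (-9) 10 (by norm_num) (by norm_num) (by norm_num)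
  norm_num [Finset.sum_range_succ] at h1 h2
  constructor <;> linarith [log_two_gt_d9, log_two_lt_d9]

lemma log3_1000 : (-58091431 / 10000000 : ℝ) ≤ log (3 / 1000 : ℝ) ∧ log (3 / 1000 : ℝ) ≤ (-14522857 / 2500000 : ℝ) := by
  obtain ⟨h1, h2⟩ := log_bracket (a := (3 / 1000 : ℝ)) (x := (67 / 317 : ℝ)) (-9) 10 (by norm_num) (by norm_num) (by norm_num)
  norm_num [Finset.sum_range_succ] at h1 h2
  constructor <;> linarith [log_two_gt_d9, log_two_lt_d9]

lemma log51_15625 : (-2862401 / 500000 : ℝ) ≤ log (51 / 15625 : ℝ) ∧ log (51 / 15625 : ℝ) ≤ (-57248017 / 10000000 : ℝ) := by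
  obtain ⟨h1, h2⟩ := log_bracket (a := (51 / 15625 : ℝ)) (x := (10487 / 41737 : ℝ)) (-9) 10 (by norm_num) (by norm_num) (by norm_num)
  norm_num [Finset.sum_range_succ] at h1 h2
  constructor <;> linarith [log_two_gt_d9, log_two_lt_d9]

lemma log7_2000 : (-2261997 / 400000 : ℝ) ≤ log (7 / 2000 : ℝ) ∧ log (7 / 2000 : ℝ) ≤ (-28274961 / 5000000 : ℝ) := by
  obtain ⟨h1, h2⟩ := log_bracket (a := (7 / 2000 : ℝ)) (x := (99 / 349 : ℝ)) (-9) 10 (by norm_num) (by norm_num) (by norm_num)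
  norm_num [Finset.sum_range_succ] at h1 h2
  constructor <;> linarith [log_two_gt_d9, log_two_lt_d9]

lemma log1_200 : (-2119327 / 400000 : ℝ) ≤ log (1 / 200 : ℝ) ∧ log (1 / 200 : ℝ) ≤ (-13245793 / 2500000 : ℝ) := by
  obtain ⟨h1, h2⟩ := log_bracket (a := (1 / 200 : ℝ)) (x := (7 / 57 : ℝ)) (-8) 10 (by norm_num) (by norm_num) (by norm_num)
  norm_num [Finset.sum_range_succ] at h1 h2
  constructor <;> linarith [log_two_gt_d9, log_two_lt_d9]

lemma log3_500 : (-1278999 / 250000 : ℝ) ≤ log (3 / 500 : ℝ) ∧ log (3 / 500 : ℝ) ≤ (-51159957 / 10000000 : ℝ) := by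
  obtain ⟨h1, h2⟩ := log_bracket (a := (3 / 500 : ℝ)) (x := (67 / 317 : ℝ)) (-8) 10 (by norm_num) (by norm_num) (by norm_num)
  norm_num [Finset.sum_range_succ] at h1 h2
  constructor <;> linarith [log_two_gt_d9, log_two_lt_d9]

lemma log7_1000 : (-49618453 / 10000000 : ℝ) ≤ log (7 / 1000 : ℝ) ∧ log (7 / 1000 : ℝ) ≤ (-992369 / 200000 : ℝ) := by
  obtain ⟨h1, h2⟩ := log_bracket (a := (7 / 1000 : ℝ)) (x := (99 / 349 : ℝ)) (-8) 10 (by norm_num) (by norm_num) (by norm_num)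
  norm_num [Finset.sum_range_succ] at h1 h2
  constructor <;> linarith [log_two_gt_d9, log_two_lt_d9]

lemma log3_400 : (-12232131 / 2500000 : ℝ) ≤ log (3 / 400 : ℝ) ∧ log (3 / 400 : ℝ) ≤ (-48928521 / 10000000 : ℝ) := by
  obtain ⟨h1, h2⟩ := log_bracket (a := (3 / 400 : ℝ)) (x := (23 / 73 : ℝ)) (-8) 10 (by norm_num) (by norm_num) (by norm_num)
  norm_num [Finset.sum_range_succ] at h1 h2
  constructor <;> linarith [log_two_gt_d9, log_two_lt_d9]

lemma log17_2000 : (-47676893 / 10000000 : ℝ) ≤ log (17 / 2000 : ℝ) ∧ log (17 / 2000 : ℝ) ≤ (-4767689 / 1000000 : ℝ) := by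
  obtain ⟨h1, h2⟩ := log_bracket (a := (17 / 2000 : ℝ)) (x := (11 / 261 : ℝ)) (-7) 10 (by norm_num) (by norm_num) (by norm_num)
  norm_num [Finset.sum_range_succ] at h1 h2
  constructor <;> linarith [log_two_gt_d9, log_two_lt_d9]

lemma log1_100 : (-46051703 / 10000000 : ℝ) ≤ log (1 / 100 : ℝ) ∧ log (1 / 100 : ℝ) ≤ (-460517 / 100000 : ℝ) := by
  obtain ⟨h1, h2⟩ := log_bracket (a := (1 / 100 : ℝ)) (x := (7 / 57 : ℝ)) (-7) 10 (by norm_num) (by norm_num) (by norm_num)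
  norm_num [Finset.sum_range_succ] at h1 h2
  constructor <;> linarith [log_two_gt_d9, log_two_lt_d9]

lemma log13_1000 : (-43428061 / 10000000 : ℝ) ≤ log (13 / 1000 : ℝ) ∧ log (13 / 1000 : ℝ) ≤ (-21714029 / 5000000 : ℝ) := by
  obtain ⟨h1, h2⟩ := log_bracket (a := (13 / 1000 : ℝ)) (x := (83 / 333 : ℝ)) (-7) 10 (by norm_num) (by norm_num) (by norm_num)
  norm_num [Finset.sum_range_succ] at h1 h2
  constructor <;> linarith [log_two_gt_d9, log_two_lt_d9]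

lemma log3_200 : (-10499263 / 2500000 : ℝ) ≤ log (3 / 200 : ℝ) ∧ log (3 / 200 : ℝ) ≤ (-41997049 / 10000000 : ℝ) := by
  obtain ⟨h1, h2⟩ := log_bracket (a := (3 / 200 : ℝ)) (x := (23 / 73 : ℝ)) (-7) 10 (by norm_num) (by norm_num) (by norm_num)
  norm_num [Finset.sum_range_succ] at h1 h2
  constructor <;> linarith [log_two_gt_d9, log_two_lt_d9]

lemma log17_1000 : (-40745421 / 10000000 : ℝ) ≤ log (17 / 1000 : ℝ) ∧ log (17 / 1000 : ℝ) ≤ (-20372709 / 5000000 : ℝ) := by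
  obtain ⟨h1, h2⟩ := log_bracket (a := (17 / 1000 : ℝ)) (x := (11 / 261 : ℝ)) (-6) 10 (by norm_num) (by norm_num) (by norm_num)
  norm_num [Finset.sum_range_succ] at h1 h2
  constructor <;> linarith [log_two_gt_d9, log_two_lt_d9]

lemma log1_40 : (-9222199 / 2500000 : ℝ) ≤ log (1 / 40 : ℝ) ∧ log (1 / 40 : ℝ) ≤ (-36888793 / 10000000 : ℝ) := by
  obtain ⟨h1, h2⟩ := log_bracket (a := (1 / 40 : ℝ)) (x := (3 / 13 : ℝ)) (-6) 10 (by norm_num) (by norm_num) (by norm_num)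
  norm_num [Finset.sum_range_succ] at h1 h2
  constructor <;> linarith [log_two_gt_d9, log_two_lt_d9]

lemma log13_500 : (-36496589 / 10000000 : ℝ) ≤ log (13 / 500 : ℝ) ∧ log (13 / 500 : ℝ) ≤ (-18248293 / 5000000 : ℝ) := by
  obtain ⟨h1, h2⟩ := log_bracket (a := (13 / 500 : ℝ)) (x := (83 / 333 : ℝ)) (-6) 10 (by norm_num) (by norm_num) (by norm_num)
  norm_num [Finset.sum_range_succ] at h1 h2
  constructor <;> linarith [log_two_gt_d9, log_two_lt_d9]

lemma log29_1000 : (-8851149 / 2500000 : ℝ) ≤ log (29 / 1000 : ℝ) ∧ log (29 / 1000 : ℝ) ≤ (-35404593 / 10000000 : ℝ) := by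
  obtain ⟨h1, h2⟩ := log_bracket (a := (29 / 1000 : ℝ)) (x := (107 / 357 : ℝ)) (-6) 10 (by norm_num) (by norm_num) (by norm_num)
  norm_num [Finset.sum_range_succ] at h1 h2
  constructor <;> linarith [log_two_gt_d9, log_two_lt_d9]

lemma log17_500 : (-33813949 / 10000000 : ℝ) ≤ log (17 / 500 : ℝ) ∧ log (17 / 500 : ℝ) ≤ (-16906973 / 5000000 : ℝ) := by
  obtain ⟨h1, h2⟩ := log_bracket (a := (17 / 500 : ℝ)) (x := (11 / 261 : ℝ)) (-5) 10 (by norm_num) (by norm_num) (by norm_num)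
  norm_num [Finset.sum_range_succ] at h1 h2
  constructor <;> linarith [log_two_gt_d9, log_two_lt_d9]

lemma log77_2000 : (-8142743 / 2500000 : ℝ) ≤ log (77 / 2000 : ℝ) ∧ log (77 / 2000 : ℝ) ≤ (-32570969 / 10000000 : ℝ) := by
  obtain ⟨h1, h2⟩ := log_bracket (a := (77 / 2000 : ℝ)) (x := (29 / 279 : ℝ)) (-5) 10 (by norm_num) (by norm_num) (by norm_num)
  norm_num [Finset.sum_range_succ] at h1 h2
  constructor <;> linarith [log_two_gt_d9, log_two_lt_d9]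

lemma log83_2000 : (-1591031 / 500000 : ℝ) ≤ log (83 / 2000 : ℝ) ∧ log (83 / 2000 : ℝ) ≤ (-31820617 / 10000000 : ℝ) := by
  obtain ⟨h1, h2⟩ := log_bracket (a := (83 / 2000 : ℝ)) (x := (41 / 291 : ℝ)) (-5) 10 (by norm_num) (by norm_num) (by norm_num)
  norm_num [Finset.sum_range_succ] at h1 h2
  constructor <;> linarith [log_two_gt_d9, log_two_lt_d9]

lemma log9_200 : (-31010929 / 10000000 : ℝ) ≤ log (9 / 200 : ℝ) ∧ log (9 / 200 : ℝ) ≤ (-15505463 / 5000000 : ℝ) := by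
  obtain ⟨h1, h2⟩ := log_bracket (a := (9 / 200 : ℝ)) (x := (11 / 61 : ℝ)) (-5) 10 (by norm_num) (by norm_num) (by norm_num)
  norm_num [Finset.sum_range_succ] at h1 h2
  constructor <;> linarith [log_two_gt_d9, log_two_lt_d9]

lemma log47_1000 : (-15288039 / 5000000 : ℝ) ≤ log (47 / 1000 : ℝ) ∧ log (47 / 1000 : ℝ) ≤ (-1223043 / 400000 : ℝ) := by
  obtain ⟨h1, h2⟩ := log_bracket (a := (47 / 1000 : ℝ)) (x := (63 / 313 : ℝ)) (-5) 10 (by norm_num) (by norm_num) (by norm_num)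
  norm_num [Finset.sum_range_succ] at h1 h2
  constructor <;> linarith [log_two_gt_d9, log_two_lt_d9]

lemma log109_2000 : (-29095547 / 10000000 : ℝ) ≤ log (109 / 2000 : ℝ) ∧ log (109 / 2000 : ℝ) ≤ (-3636943 / 1250000 : ℝ) := by
  obtain ⟨h1, h2⟩ := log_bracket (a := (109 / 2000 : ℝ)) (x := (93 / 343 : ℝ)) (-5) 10 (by norm_num) (by norm_num) (by norm_num)
  norm_num [Finset.sum_range_succ] at h1 h2
  constructor <;> linarith [log_two_gt_d9, log_two_lt_d9]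

lemma log11_200 : (-14502111 / 5000000 : ℝ) ≤ log (11 / 200 : ℝ) ∧ log (11 / 200 : ℝ) ≤ (-29004219 / 10000000 : ℝ) := by
  obtain ⟨h1, h2⟩ := log_bracket (a := (11 / 200 : ℝ)) (x := (19 / 69 : ℝ)) (-5) 10 (by norm_num) (by norm_num) (by norm_num)
  norm_num [Finset.sum_range_succ] at h1 h2
  constructor <;> linarith [log_two_gt_d9, log_two_lt_d9]

lemma log77_1000 : (-51279 / 20000 : ℝ) ≤ log (77 / 1000 : ℝ) ∧ log (77 / 1000 : ℝ) ≤ (-25639497 / 10000000 : ℝ) := by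
  obtain ⟨h1, h2⟩ := log_bracket (a := (77 / 1000 : ℝ)) (x := (29 / 279 : ℝ)) (-4) 10 (by norm_num) (by norm_num) (by norm_num)
  norm_num [Finset.sum_range_succ] at h1 h2
  constructor <;> linarith [log_two_gt_d9, log_two_lt_d9]

lemma log83_1000 : (-6222287 / 2500000 : ℝ) ≤ log (83 / 1000 : ℝ) ∧ log (83 / 1000 : ℝ) ≤ (-4977829 / 2000000 : ℝ) := by
  obtain ⟨h1, h2⟩ := log_bracket (a := (83 / 1000 : ℝ)) (x := (41 / 291 : ℝ)) (-4) 10 (by norm_num) (by norm_num) (by norm_num)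
  norm_num [Finset.sum_range_succ] at h1 h2
  constructor <;> linarith [log_two_gt_d9, log_two_lt_d9]

lemma log21_250 : (-12384693 / 5000000 : ℝ) ≤ log (21 / 250 : ℝ) ∧ log (21 / 250 : ℝ) ≤ (-24769383 / 10000000 : ℝ) := by
  obtain ⟨h1, h2⟩ := log_bracket (a := (21 / 250 : ℝ)) (x := (43 / 293 : ℝ)) (-4) 10 (by norm_num) (by norm_num) (by norm_num)
  norm_num [Finset.sum_range_succ] at h1 h2
  constructor <;> linarith [log_two_gt_d9, log_two_lt_d9]

lemma log9_100 : (-12039729 / 5000000 : ℝ) ≤ log (9 / 100 : ℝ) ∧ log (9 / 100 : ℝ) ≤ (-4815891 / 2000000 : ℝ) := by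
  obtain ⟨h1, h2⟩ := log_bracket (a := (9 / 100 : ℝ)) (x := (11 / 61 : ℝ)) (-4) 10 (by norm_num) (by norm_num) (by norm_num)
  norm_num [Finset.sum_range_succ] at h1 h2
  constructor <;> linarith [log_two_gt_d9, log_two_lt_d9]

lemma log91_1000 : (-23968959 / 10000000 : ℝ) ≤ log (91 / 1000 : ℝ) ∧ log (91 / 1000 : ℝ) ≤ (-5992239 / 2500000 : ℝ) := by
  obtain ⟨h1, h2⟩ := log_bracket (a := (91 / 1000 : ℝ)) (x := (57 / 307 : ℝ)) (-4) 10 (by norm_num) (by norm_num) (by norm_num)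
  norm_num [Finset.sum_range_succ] at h1 h2
  constructor <;> linarith [log_two_gt_d9, log_two_lt_d9]

lemma log41_400 : (-11389463 / 5000000 : ℝ) ≤ log (41 / 400 : ℝ) ∧ log (41 / 400 : ℝ) ≤ (-22778923 / 10000000 : ℝ) := by
  obtain ⟨h1, h2⟩ := log_bracket (a := (41 / 400 : ℝ)) (x := (8 / 33 : ℝ)) (-4) 10 (by norm_num) (by norm_num) (by norm_num)
  norm_num [Finset.sum_range_succ] at h1 h2
  constructor <;> linarith [log_two_gt_d9, log_two_lt_d9]

lemma log21_200 : (-22537951 / 10000000 : ℝ) ≤ log (21 / 200 : ℝ) ∧ log (21 / 200 : ℝ) ≤ (-5634487 / 2500000 : ℝ) := by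
  obtain ⟨h1, h2⟩ := log_bracket (a := (21 / 200 : ℝ)) (x := (17 / 67 : ℝ)) (-4) 10 (by norm_num) (by norm_num) (by norm_num)
  norm_num [Finset.sum_range_succ] at h1 h2
  constructor <;> linarith [log_two_gt_d9, log_two_lt_d9]

lemma log109_1000 : (-886563 / 400000 : ℝ) ≤ log (109 / 1000 : ℝ) ∧ log (109 / 1000 : ℝ) ≤ (-2770509 / 1250000 : ℝ) := by
  obtain ⟨h1, h2⟩ := log_bracket (a := (109 / 1000 : ℝ)) (x := (93 / 343 : ℝ)) (-4) 10 (by norm_num) (by norm_num) (by norm_num)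
  norm_num [Finset.sum_range_succ] at h1 h2
  constructor <;> linarith [log_two_gt_d9, log_two_lt_d9]

lemma log23_200 : (-21628233 / 10000000 : ℝ) ≤ log (23 / 200 : ℝ) ∧ log (23 / 200 : ℝ) ≤ (-2162823 / 1000000 : ℝ) := by
  obtain ⟨h1, h2⟩ := log_bracket (a := (23 / 200 : ℝ)) (x := (21 / 71 : ℝ)) (-4) 10 (by norm_num) (by norm_num) (by norm_num)
  norm_num [Finset.sum_range_succ] at h1 h2
  constructor <;> linarith [log_two_gt_d9, log_two_lt_d9]

lemma log2339501_20000000 : (-5364487 / 2500000 : ℝ) ≤ log (2339501 / 20000000 : ℝ) ∧ log (2339501 / 20000000 : ℝ) ≤ (-4291589 / 2000000 : ℝ) := by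
  obtain ⟨h1, h2⟩ := log_bracket (a := (2339501 / 20000000 : ℝ)) (x := (1089501 / 3589501 : ℝ)) (-4) 10 (by norm_num) (by norm_num) (by norm_num)
  norm_num [Finset.sum_range_succ] at h1 h2
  constructor <;> linarith [log_two_gt_d9, log_two_lt_d9]

lemma log5981_50000 : (-10617177 / 5000000 : ℝ) ≤ log (5981 / 50000 : ℝ) ∧ log (5981 / 50000 : ℝ) ≤ (-21234351 / 10000000 : ℝ) := by
  obtain ⟨h1, h2⟩ := log_bracket (a := (5981 / 50000 : ℝ)) (x := (1428 / 4553 : ℝ)) (-4) 10 (by norm_num) (by norm_num) (by norm_num)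
  norm_num [Finset.sum_range_succ] at h1 h2
  constructor <;> linarith [log_two_gt_d9, log_two_lt_d9]

lemma log1_8 : (-20794417 / 10000000 : ℝ) ≤ log (1 / 8 : ℝ) ∧ log (1 / 8 : ℝ) ≤ (-10397207 / 5000000 : ℝ) := by
  obtain ⟨h1, h2⟩ := log_bracket (a := (1 / 8 : ℝ)) (x := (0 : ℝ)) (-3) 10 (by norm_num) (by norm_num) (by norm_num)
  norm_num [Finset.sum_range_succ] at h1 h2
  constructor <;> linarith [log_two_gt_d9, log_two_lt_d9]

lemma log10057_80000 : (-20737579 / 10000000 : ℝ) ≤ log (10057 / 80000 : ℝ) ∧ log (10057 / 80000 : ℝ) ≤ (-2592197 / 1250000 : ℝ) := by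
  obtain ⟨h1, h2⟩ := log_bracket (a := (10057 / 80000 : ℝ)) (x := (57 / 20057 : ℝ)) (-3) 10 (by norm_num) (by norm_num) (by norm_num)
  norm_num [Finset.sum_range_succ] at h1 h2
  constructor <;> linarith [log_two_gt_d9, log_two_lt_d9]

lemma log253_2000 : (-20675131 / 10000000 : ℝ) ≤ log (253 / 2000 : ℝ) ∧ log (253 / 2000 : ℝ) ≤ (-2584391 / 1250000 : ℝ) := by
  obtain ⟨h1, h2⟩ := log_bracket (a := (253 / 2000 : ℝ)) (x := (3 / 503 : ℝ)) (-3) 10 (by norm_num) (by norm_num) (by norm_num)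
  norm_num [Finset.sum_range_succ] at h1 h2
  constructor <;> linarith [log_two_gt_d9, log_two_lt_d9]

lemma log33_250 : (-4049907 / 2000000 : ℝ) ≤ log (33 / 250 : ℝ) ∧ log (33 / 250 : ℝ) ≤ (-5062383 / 2500000 : ℝ) := by
  obtain ⟨h1, h2⟩ := log_bracket (a := (33 / 250 : ℝ)) (x := (7 / 257 : ℝ)) (-3) 10 (by norm_num) (by norm_num) (by norm_num)
  norm_num [Finset.sum_range_succ] at h1 h2
  constructor <;> linarith [log_two_gt_d9, log_two_lt_d9]

lemma log53_400 : (-1263233 / 625000 : ℝ) ≤ log (53 / 400 : ℝ) ∧ log (53 / 400 : ℝ) ≤ (-808469 / 400000 : ℝ) := by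
  obtain ⟨h1, h2⟩ := log_bracket (a := (53 / 400 : ℝ)) (x := (3 / 103 : ℝ)) (-3) 10 (by norm_num) (by norm_num) (by norm_num)
  norm_num [Finset.sum_range_succ] at h1 h2
  constructor <;> linarith [log_two_gt_d9, log_two_lt_d9]

lemma log525009_3906250 : (-20069179 / 10000000 : ℝ) ≤ log (525009 / 3906250 : ℝ) ∧ log (525009 / 3906250 : ℝ) ≤ (-2508647 / 1250000 : ℝ) := by
  obtain ⟨h1, h2⟩ := log_bracket (a := (525009 / 3906250 : ℝ)) (x := (146911 / 4053161 : ℝ)) (-3) 10 (by norm_num) (by norm_num) (by norm_num)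
  norm_num [Finset.sum_range_succ] at h1 h2
  constructor <;> linarith [log_two_gt_d9, log_two_lt_d9]

lemma log2143_15625 : (-620833 / 312500 : ℝ) ≤ log (2143 / 15625 : ℝ) ∧ log (2143 / 15625 : ℝ) ≤ (-19866653 / 10000000 : ℝ) := by
  obtain ⟨h1, h2⟩ := log_bracket (a := (2143 / 15625 : ℝ)) (x := (1519 / 32769 : ℝ)) (-3) 10 (by norm_num) (by norm_num) (by norm_num)
  norm_num [Finset.sum_range_succ] at h1 h2
  constructor <;> linarith [log_two_gt_d9, log_two_lt_d9]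

lemma log13733_100000 : (-9926843 / 5000000 : ℝ) ≤ log (13733 / 100000 : ℝ) ∧ log (13733 / 100000 : ℝ) ≤ (-19853683 / 10000000 : ℝ) := by
  obtain ⟨h1, h2⟩ := log_bracket (a := (13733 / 100000 : ℝ)) (x := (1233 / 26233 : ℝ)) (-3) 10 (by norm_num) (by norm_num) (by norm_num)
  norm_num [Finset.sum_range_succ] at h1 h2
  constructor <;> linarith [log_two_gt_d9, log_two_lt_d9]

lemma log7_50 : (-1966113 / 1000000 : ℝ) ≤ log (7 / 50 : ℝ) ∧ log (7 / 50 : ℝ) ≤ (-19661127 / 10000000 : ℝ) := by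
  obtain ⟨h1, h2⟩ := log_bracket (a := (7 / 50 : ℝ)) (x := (3 / 53 : ℝ)) (-3) 10 (by norm_num) (by norm_num) (by norm_num)
  norm_num [Finset.sum_range_succ] at h1 h2
  constructor <;> linarith [log_two_gt_d9, log_two_lt_d9]

lemma log55097_390625 : (-19586529 / 10000000 : ℝ) ≤ log (55097 / 390625 : ℝ) ∧ log (55097 / 390625 : ℝ) ≤ (-9793263 / 5000000 : ℝ) := by
  obtain ⟨h1, h2⟩ := log_bracket (a := (55097 / 390625 : ℝ)) (x := (50151 / 831401 : ℝ)) (-3) 10 (by norm_num) (by norm_num) (by norm_num)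
  norm_num [Finset.sum_range_succ] at h1 h2
  constructor <;> linarith [log_two_gt_d9, log_two_lt_d9]

lemma log1777_12500 : (-9754011 / 5000000 : ℝ) ≤ log (1777 / 12500 : ℝ) ∧ log (1777 / 12500 : ℝ) ≤ (-19508019 / 10000000 : ℝ) := by
  obtain ⟨h1, h2⟩ := log_bracket (a := (1777 / 12500 : ℝ)) (x := (429 / 6679 : ℝ)) (-3) 10 (by norm_num) (by norm_num) (by norm_num)
  norm_num [Finset.sum_range_succ] at h1 h2
  constructor <;> linarith [log_two_gt_d9, log_two_lt_d9]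

lemma log92_625 : (-1197477 / 625000 : ℝ) ≤ log (92 / 625 : ℝ) ∧ log (92 / 625 : ℝ) ≤ (-19159629 / 10000000 : ℝ) := by
  obtain ⟨h1, h2⟩ := log_bracket (a := (92 / 625 : ℝ)) (x := (111 / 1361 : ℝ)) (-3) 10 (by norm_num) (by norm_num) (by norm_num)
  norm_num [Finset.sum_range_succ] at h1 h2
  constructor <;> linarith [log_two_gt_d9, log_two_lt_d9]

lemma log37_250 : (-2388179 / 1250000 : ℝ) ≤ log (37 / 250 : ℝ) ∧ log (37 / 250 : ℝ) ≤ (-19105429 / 10000000 : ℝ) := by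
  obtain ⟨h1, h2⟩ := log_bracket (a := (37 / 250 : ℝ)) (x := (23 / 273 : ℝ)) (-3) 10 (by norm_num) (by norm_num) (by norm_num)
  norm_num [Finset.sum_range_succ] at h1 h2
  constructor <;> linarith [log_two_gt_d9, log_two_lt_d9]

lemma log94_625 : (-1894457 / 1000000 : ℝ) ≤ log (94 / 625 : ℝ) ∧ log (94 / 625 : ℝ) ≤ (-18944567 / 10000000 : ℝ) := by
  obtain ⟨h1, h2⟩ := log_bracket (a := (94 / 625 : ℝ)) (x := (127 / 1377 : ℝ)) (-3) 10 (by norm_num) (by norm_num) (by norm_num)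
  norm_num [Finset.sum_range_succ] at h1 h2
  constructor <;> linarith [log_two_gt_d9, log_two_lt_d9]

lemma log301_2000 : (-18937923 / 10000000 : ℝ) ≤ log (301 / 2000 : ℝ) ∧ log (301 / 2000 : ℝ) ≤ (-59181 / 31250 : ℝ) := by
  obtain ⟨h1, h2⟩ := log_bracket (a := (301 / 2000 : ℝ)) (x := (51 / 551 : ℝ)) (-3) 10 (by norm_num) (by norm_num) (by norm_num)
  norm_num [Finset.sum_range_succ] at h1 h2
  constructor <;> linarith [log_two_gt_d9, log_two_lt_d9]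

lemma log309_2000 : (-18675613 / 10000000 : ℝ) ≤ log (309 / 2000 : ℝ) ∧ log (309 / 2000 : ℝ) ≤ (-1867561 / 1000000 : ℝ) := by
  obtain ⟨h1, h2⟩ := log_bracket (a := (309 / 2000 : ℝ)) (x := (59 / 559 : ℝ)) (-3) 10 (by norm_num) (by norm_num) (by norm_num)
  norm_num [Finset.sum_range_succ] at h1 h2
  constructor <;> linarith [log_two_gt_d9, log_two_lt_d9]

lemma log496_3125 : (-9203069 / 5000000 : ℝ) ≤ log (496 / 3125 : ℝ) ∧ log (496 / 3125 : ℝ) ≤ (-3681227 / 2000000 : ℝ) := by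
  obtain ⟨h1, h2⟩ := log_bracket (a := (496 / 3125 : ℝ)) (x := (843 / 7093 : ℝ)) (-3) 10 (by norm_num) (by norm_num) (by norm_num)
  norm_num [Finset.sum_range_succ] at h1 h2
  constructor <;> linarith [log_two_gt_d9, log_two_lt_d9]

lemma log171_1000 : (-17660919 / 10000000 : ℝ) ≤ log (171 / 1000 : ℝ) ∧ log (171 / 1000 : ℝ) ≤ (-4415229 / 2500000 : ℝ) := by
  obtain ⟨h1, h2⟩ := log_bracket (a := (171 / 1000 : ℝ)) (x := (23 / 148 : ℝ)) (-3) 10 (by norm_num) (by norm_num) (by norm_num)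
  norm_num [Finset.sum_range_succ] at h1 h2
  constructor <;> linarith [log_two_gt_d9, log_two_lt_d9]

lemma log539_3125 : (-17574741 / 10000000 : ℝ) ≤ log (539 / 3125 : ℝ) ∧ log (539 / 3125 : ℝ) ≤ (-8787369 / 5000000 : ℝ) := by
  obtain ⟨h1, h2⟩ := log_bracket (a := (539 / 3125 : ℝ)) (x := (1187 / 7437 : ℝ)) (-3) 10 (by norm_num) (by norm_num) (by norm_num)
  norm_num [Finset.sum_range_succ] at h1 h2
  constructor <;> linarith [log_two_gt_d9, log_two_lt_d9]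

lemma log2173_12500 : (-17496201 / 10000000 : ℝ) ≤ log (2173 / 12500 : ℝ) ∧ log (2173 / 12500 : ℝ) ≤ (-8748099 / 5000000 : ℝ) := by
  obtain ⟨h1, h2⟩ := log_bracket (a := (2173 / 12500 : ℝ)) (x := (1221 / 7471 : ℝ)) (-3) 10 (by norm_num) (by norm_num) (by norm_num)
  norm_num [Finset.sum_range_succ] at h1 h2
  constructor <;> linarith [log_two_gt_d9, log_two_lt_d9]

lemma log71_400 : (-2160981 / 1250000 : ℝ) ≤ log (71 / 400 : ℝ) ∧ log (71 / 400 : ℝ) ≤ (-3457569 / 2000000 : ℝ) := by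
  obtain ⟨h1, h2⟩ := log_bracket (a := (71 / 400 : ℝ)) (x := (21 / 121 : ℝ)) (-3) 10 (by norm_num) (by norm_num) (by norm_num)
  norm_num [Finset.sum_range_succ] at h1 h2
  constructor <;> linarith [log_two_gt_d9, log_two_lt_d9]

lemma log1123_6250 : (-17165779 / 10000000 : ℝ) ≤ log (1123 / 6250 : ℝ) ∧ log (1123 / 6250 : ℝ) ≤ (-1072861 / 625000 : ℝ) := by
  obtain ⟨h1, h2⟩ := log_bracket (a := (1123 / 6250 : ℝ)) (x := (1367 / 7617 : ℝ)) (-3) 10 (by norm_num) (by norm_num) (by norm_num)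
  norm_num [Finset.sum_range_succ] at h1 h2
  constructor <;> linarith [log_two_gt_d9, log_two_lt_d9]

lemma log91_500 : (-17037487 / 10000000 : ℝ) ≤ log (91 / 500 : ℝ) ∧ log (91 / 500 : ℝ) ≤ (-4259371 / 2500000 : ℝ) := by
  obtain ⟨h1, h2⟩ := log_bracket (a := (91 / 500 : ℝ)) (x := (57 / 307 : ℝ)) (-3) 10 (by norm_num) (by norm_num) (by norm_num)
  norm_num [Finset.sum_range_succ] at h1 h2
  constructor <;> linarith [log_two_gt_d9, log_two_lt_d9]

lemma log731_4000 : (-16996363 / 10000000 : ℝ) ≤ log (731 / 4000 : ℝ) ∧ log (731 / 4000 : ℝ) ≤ (-424909 / 250000 : ℝ) := by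
  obtain ⟨h1, h2⟩ := log_bracket (a := (731 / 4000 : ℝ)) (x := (231 / 1231 : ℝ)) (-3) 10 (by norm_num) (by norm_num) (by norm_num)
  norm_num [Finset.sum_range_succ] at h1 h2
  constructor <;> linarith [log_two_gt_d9, log_two_lt_d9]

lemma log19_100 : (-8303657 / 5000000 : ℝ) ≤ log (19 / 100 : ℝ) ∧ log (19 / 100 : ℝ) ≤ (-16607311 / 10000000 : ℝ) := by
  obtain ⟨h1, h2⟩ := log_bracket (a := (19 / 100 : ℝ)) (x := (13 / 63 : ℝ)) (-3) 10 (by norm_num) (by norm_num) (by norm_num)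
  norm_num [Finset.sum_range_succ] at h1 h2
  constructor <;> linarith [log_two_gt_d9, log_two_lt_d9]

lemma log24_125 : (-16502601 / 10000000 : ℝ) ≤ log (24 / 125 : ℝ) ∧ log (24 / 125 : ℝ) ≤ (-8251299 / 5000000 : ℝ) := by
  obtain ⟨h1, h2⟩ := log_bracket (a := (24 / 125 : ℝ)) (x := (67 / 317 : ℝ)) (-3) 10 (by norm_num) (by norm_num) (by norm_num)
  norm_num [Finset.sum_range_succ] at h1 h2
  constructor <;> linarith [log_two_gt_d9, log_two_lt_d9]

lemma log41_200 : (-7923727 / 5000000 : ℝ) ≤ log (41 / 200 : ℝ) ∧ log (41 / 200 : ℝ) ≤ (-15847451 / 10000000 : ℝ) := by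
  obtain ⟨h1, h2⟩ := log_bracket (a := (41 / 200 : ℝ)) (x := (8 / 33 : ℝ)) (-3) 10 (by norm_num) (by norm_num) (by norm_num)
  norm_num [Finset.sum_range_succ] at h1 h2
  constructor <;> linarith [log_two_gt_d9, log_two_lt_d9]

lemma log83_400 : (-15726241 / 10000000 : ℝ) ≤ log (83 / 400 : ℝ) ∧ log (83 / 400 : ℝ) ≤ (-7863119 / 5000000 : ℝ) := by
  obtain ⟨h1, h2⟩ := log_bracket (a := (83 / 400 : ℝ)) (x := (33 / 133 : ℝ)) (-3) 10 (by norm_num) (by norm_num) (by norm_num)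
  norm_num [Finset.sum_range_succ] at h1 h2
  constructor <;> linarith [log_two_gt_d9, log_two_lt_d9]

lemma log26_125 : (-15702173 / 10000000 : ℝ) ≤ log (26 / 125 : ℝ) ∧ log (26 / 125 : ℝ) ≤ (-1570217 / 1000000 : ℝ) := by
  obtain ⟨h1, h2⟩ := log_bracket (a := (26 / 125 : ℝ)) (x := (83 / 333 : ℝ)) (-3) 10 (by norm_num) (by norm_num) (by norm_num)
  norm_num [Finset.sum_range_succ] at h1 h2
  constructor <;> linarith [log_two_gt_d9, log_two_lt_d9]

lemma log99_400 : (-1745431 / 1250000 : ℝ) ≤ log (99 / 400 : ℝ) ∧ log (99 / 400 : ℝ) ≤ (-2792689 / 2000000 : ℝ) := by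
  obtain ⟨h1, h2⟩ := log_bracket (a := (99 / 400 : ℝ)) (x := (49 / 149 : ℝ)) (-3) 10 (by norm_num) (by norm_num) (by norm_num)
  norm_num [Finset.sum_range_succ] at h1 h2
  constructor <;> linarith [log_two_gt_d9, log_two_lt_d9]

lemma log101_400 : (-6881721 / 5000000 : ℝ) ≤ log (101 / 400 : ℝ) ∧ log (101 / 400 : ℝ) ≤ (-13763439 / 10000000 : ℝ) := by
  obtain ⟨h1, h2⟩ := log_bracket (a := (101 / 400 : ℝ)) (x := (1 / 201 : ℝ)) (-2) 10 (by norm_num) (by norm_num) (by norm_num)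
  norm_num [Finset.sum_range_succ] at h1 h2
  constructor <;> linarith [log_two_gt_d9, log_two_lt_d9]

lemma log53_200 : (-103752 / 78125 : ℝ) ≤ log (53 / 200 : ℝ) ∧ log (53 / 200 : ℝ) ≤ (-13280253 / 10000000 : ℝ) := by
  obtain ⟨h1, h2⟩ := log_bracket (a := (53 / 200 : ℝ)) (x := (3 / 103 : ℝ)) (-2) 10 (by norm_num) (by norm_num) (by norm_num)
  norm_num [Finset.sum_range_succ] at h1 h2
  constructor <;> linarith [log_two_gt_d9, log_two_lt_d9]

lemma log117_400 : (-3073227 / 2500000 : ℝ) ≤ log (117 / 400 : ℝ) ∧ log (117 / 400 : ℝ) ≤ (-2458581 / 2000000 : ℝ) := by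
  obtain ⟨h1, h2⟩ := log_bracket (a := (117 / 400 : ℝ)) (x := (17 / 217 : ℝ)) (-2) 10 (by norm_num) (by norm_num) (by norm_num)
  norm_num [Finset.sum_range_succ] at h1 h2
  constructor <;> linarith [log_two_gt_d9, log_two_lt_d9]

lemma log37_125 : (-304349 / 250000 : ℝ) ≤ log (37 / 125 : ℝ) ∧ log (37 / 125 : ℝ) ≤ (-12173957 / 10000000 : ℝ) := by
  obtain ⟨h1, h2⟩ := log_bracket (a := (37 / 125 : ℝ)) (x := (23 / 273 : ℝ)) (-2) 10 (by norm_num) (by norm_num) (by norm_num)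
  norm_num [Finset.sum_range_succ] at h1 h2
  constructor <;> linarith [log_two_gt_d9, log_two_lt_d9]

lemma log309_1000 : (-5872071 / 5000000 : ℝ) ≤ log (309 / 1000 : ℝ) ∧ log (309 / 1000 : ℝ) ≤ (-11744139 / 10000000 : ℝ) := by
  obtain ⟨h1, h2⟩ := log_bracket (a := (309 / 1000 : ℝ)) (x := (59 / 559 : ℝ)) (-2) 10 (by norm_num) (by norm_num) (by norm_num)
  norm_num [Finset.sum_range_succ] at h1 h2
  constructor <;> linarith [log_two_gt_d9, log_two_lt_d9]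

lemma log129_400 : (-11316523 / 10000000 : ℝ) ≤ log (129 / 400 : ℝ) ∧ log (129 / 400 : ℝ) ≤ (-282913 / 250000 : ℝ) := by
  obtain ⟨h1, h2⟩ := log_bracket (a := (129 / 400 : ℝ)) (x := (29 / 229 : ℝ)) (-2) 10 (by norm_num) (by norm_num) (by norm_num)
  norm_num [Finset.sum_range_succ] at h1 h2
  constructor <;> linarith [log_two_gt_d9, log_two_lt_d9]

lemma log691_2000 : (-2656907 / 2500000 : ℝ) ≤ log (691 / 2000 : ℝ) ∧ log (691 / 2000 : ℝ) ≤ (-85021 / 80000 : ℝ) := by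
  obtain ⟨h1, h2⟩ := log_bracket (a := (691 / 2000 : ℝ)) (x := (191 / 1191 : ℝ)) (-2) 10 (by norm_num) (by norm_num) (by norm_num)
  norm_num [Finset.sum_range_succ] at h1 h2
  constructor <;> linarith [log_two_gt_d9, log_two_lt_d9]

lemma log44_125 : (-10441243 / 10000000 : ℝ) ≤ log (44 / 125 : ℝ) ∧ log (44 / 125 : ℝ) ≤ (-261031 / 250000 : ℝ) := by
  obtain ⟨h1, h2⟩ := log_bracket (a := (44 / 125 : ℝ)) (x := (51 / 301 : ℝ)) (-2) 10 (by norm_num) (by norm_num) (by norm_num)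
  norm_num [Finset.sum_range_succ] at h1 h2
  constructor <;> linarith [log_two_gt_d9, log_two_lt_d9]

lemma log71_200 : (-1294547 / 1250000 : ℝ) ≤ log (71 / 200 : ℝ) ∧ log (71 / 200 : ℝ) ≤ (-10356373 / 10000000 : ℝ) := by
  obtain ⟨h1, h2⟩ := log_bracket (a := (71 / 200 : ℝ)) (x := (21 / 121 : ℝ)) (-2) 10 (by norm_num) (by norm_num) (by norm_num)
  norm_num [Finset.sum_range_succ] at h1 h2
  constructor <;> linarith [log_two_gt_d9, log_two_lt_d9]

lemma log147_400 : (-10010321 / 10000000 : ℝ) ≤ log (147 / 400 : ℝ) ∧ log (147 / 400 : ℝ) ≤ (-5005159 / 5000000 : ℝ) := by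
  obtain ⟨h1, h2⟩ := log_bracket (a := (147 / 400 : ℝ)) (x := (47 / 247 : ℝ)) (-2) 10 (by norm_num) (by norm_num) (by norm_num)
  norm_num [Finset.sum_range_succ] at h1 h2
  constructor <;> linarith [log_two_gt_d9, log_two_lt_d9]

lemma log159_400 : (-1845121 / 2000000 : ℝ) ≤ log (159 / 400 : ℝ) ∧ log (159 / 400 : ℝ) ≤ (-4612801 / 5000000 : ℝ) := by
  obtain ⟨h1, h2⟩ := log_bracket (a := (159 / 400 : ℝ)) (x := (59 / 259 : ℝ)) (-2) 10 (by norm_num) (by norm_num) (by norm_num)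
  norm_num [Finset.sum_range_succ] at h1 h2
  constructor <;> linarith [log_two_gt_d9, log_two_lt_d9]

lemma log409_1000 : (-8940403 / 10000000 : ℝ) ≤ log (409 / 1000 : ℝ) ∧ log (409 / 1000 : ℝ) ≤ (-22351 / 25000 : ℝ) := by
  obtain ⟨h1, h2⟩ := log_bracket (a := (409 / 1000 : ℝ)) (x := (159 / 659 : ℝ)) (-2) 10 (by norm_num) (by norm_num) (by norm_num)
  norm_num [Finset.sum_range_succ] at h1 h2
  constructor <;> linarith [log_two_gt_d9, log_two_lt_d9]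

lemma log83_200 : (-8794769 / 10000000 : ℝ) ≤ log (83 / 200 : ℝ) ∧ log (83 / 200 : ℝ) ≤ (-4397383 / 5000000 : ℝ) := by
  obtain ⟨h1, h2⟩ := log_bracket (a := (83 / 200 : ℝ)) (x := (33 / 133 : ℝ)) (-2) 10 (by norm_num) (by norm_num) (by norm_num)
  norm_num [Finset.sum_range_succ] at h1 h2
  constructor <;> linarith [log_two_gt_d9, log_two_lt_d9]

lemma log891_2000 : (-4042791 / 5000000 : ℝ) ≤ log (891 / 2000 : ℝ) ∧ log (891 / 2000 : ℝ) ≤ (-8085579 / 10000000 : ℝ) := by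
  obtain ⟨h1, h2⟩ := log_bracket (a := (891 / 2000 : ℝ)) (x := (391 / 1391 : ℝ)) (-2) 10 (by norm_num) (by norm_num) (by norm_num)
  norm_num [Finset.sum_range_succ] at h1 h2
  constructor <;> linarith [log_two_gt_d9, log_two_lt_d9]

lemma log91_200 : (-393729 / 500000 : ℝ) ≤ log (91 / 200 : ℝ) ∧ log (91 / 200 : ℝ) ≤ (-7874577 / 10000000 : ℝ) := by
  obtain ⟨h1, h2⟩ := log_bracket (a := (91 / 200 : ℝ)) (x := (41 / 141 : ℝ)) (-2) 10 (by norm_num) (by norm_num) (by norm_num)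
  norm_num [Finset.sum_range_succ] at h1 h2
  constructor <;> linarith [log_two_gt_d9, log_two_lt_d9]

lemma log917_2000 : (-7797951 / 10000000 : ℝ) ≤ log (917 / 2000 : ℝ) ∧ log (917 / 2000 : ℝ) ≤ (-1949487 / 2500000 : ℝ) := by
  obtain ⟨h1, h2⟩ := log_bracket (a := (917 / 2000 : ℝ)) (x := (417 / 1417 : ℝ)) (-2) 10 (by norm_num) (by norm_num) (by norm_num)
  norm_num [Finset.sum_range_succ] at h1 h2
  constructor <;> linarith [log_two_gt_d9, log_two_lt_d9]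

lemma log923_2000 : (-3866367 / 5000000 : ℝ) ≤ log (923 / 2000 : ℝ) ∧ log (923 / 2000 : ℝ) ≤ (-7732731 / 10000000 : ℝ) := by
  obtain ⟨h1, h2⟩ := log_bracket (a := (923 / 2000 : ℝ)) (x := (423 / 1423 : ℝ)) (-2) 10 (by norm_num) (by norm_num) (by norm_num)
  norm_num [Finset.sum_range_succ] at h1 h2
  constructor <;> linarith [log_two_gt_d9, log_two_lt_d9]

lemma log487_1000 : (-7194913 / 10000000 : ℝ) ≤ log (487 / 1000 : ℝ) ∧ log (487 / 1000 : ℝ) ≤ (-719491 / 1000000 : ℝ) := by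
  obtain ⟨h1, h2⟩ := log_bracket (a := (487 / 1000 : ℝ)) (x := (237 / 737 : ℝ)) (-2) 10 (by norm_num) (by norm_num) (by norm_num)
  norm_num [Finset.sum_range_succ] at h1 h2
  constructor <;> linarith [log_two_gt_d9, log_two_lt_d9]

lemma log983_2000 : (-1420587 / 2000000 : ℝ) ≤ log (983 / 2000 : ℝ) ∧ log (983 / 2000 : ℝ) ≤ (-1775733 / 2500000 : ℝ) := by
  obtain ⟨h1, h2⟩ := log_bracket (a := (983 / 2000 : ℝ)) (x := (483 / 1483 : ℝ)) (-2) 10 (by norm_num) (by norm_num) (by norm_num)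
  norm_num [Finset.sum_range_succ] at h1 h2
  constructor <;> linarith [log_two_gt_d9, log_two_lt_d9]

lemma log197_400 : (-708261 / 1000000 : ℝ) ≤ log (197 / 400 : ℝ) ∧ log (197 / 400 : ℝ) ≤ (-7082607 / 10000000 : ℝ) := by
  obtain ⟨h1, h2⟩ := log_bracket (a := (197 / 400 : ℝ)) (x := (97 / 297 : ℝ)) (-2) 10 (by norm_num) (by norm_num) (by norm_num)
  norm_num [Finset.sum_range_succ] at h1 h2
  constructor <;> linarith [log_two_gt_d9, log_two_lt_d9]

lemma log99_200 : (-7031977 / 10000000 : ℝ) ≤ log (99 / 200 : ℝ) ∧ log (99 / 200 : ℝ) ≤ (-3515987 / 5000000 : ℝ) := by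
  obtain ⟨h1, h2⟩ := log_bracket (a := (99 / 200 : ℝ)) (x := (49 / 149 : ℝ)) (-2) 10 (by norm_num) (by norm_num) (by norm_num)
  norm_num [Finset.sum_range_succ] at h1 h2
  constructor <;> linarith [log_two_gt_d9, log_two_lt_d9]

lemma log993_2000 : (-7001719 / 10000000 : ℝ) ≤ log (993 / 2000 : ℝ) ∧ log (993 / 2000 : ℝ) ≤ (-1750429 / 2500000 : ℝ) := by
  obtain ⟨h1, h2⟩ := log_bracket (a := (993 / 2000 : ℝ)) (x := (493 / 1493 : ℝ)) (-2) 10 (by norm_num) (by norm_num) (by norm_num)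
  norm_num [Finset.sum_range_succ] at h1 h2
  constructor <;> linarith [log_two_gt_d9, log_two_lt_d9]

lemma log199_400 : (-6981599 / 10000000 : ℝ) ≤ log (199 / 400 : ℝ) ∧ log (199 / 400 : ℝ) ≤ (-1745399 / 2500000 : ℝ) := by
  obtain ⟨h1, h2⟩ := log_bracket (a := (199 / 400 : ℝ)) (x := (99 / 299 : ℝ)) (-2) 10 (by norm_num) (by norm_num) (by norm_num)
  norm_num [Finset.sum_range_succ] at h1 h2
  constructor <;> linarith [log_two_gt_d9, log_two_lt_d9]

lemma log201_400 : (-3440799 / 5000000 : ℝ) ≤ log (201 / 400 : ℝ) ∧ log (201 / 400 : ℝ) ≤ (-1376319 / 2000000 : ℝ) := by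
  obtain ⟨h1, h2⟩ := log_bracket (a := (201 / 400 : ℝ)) (x := (1 / 401 : ℝ)) (-1) 10 (by norm_num) (by norm_num) (by norm_num)
  norm_num [Finset.sum_range_succ] at h1 h2
  constructor <;> linarith [log_two_gt_d9, log_two_lt_d9]

lemma log1007_2000 : (-6861717 / 10000000 : ℝ) ≤ log (1007 / 2000 : ℝ) ∧ log (1007 / 2000 : ℝ) ≤ (-3430857 / 5000000 : ℝ) := by
  obtain ⟨h1, h2⟩ := log_bracket (a := (1007 / 2000 : ℝ)) (x := (7 / 2007 : ℝ)) (-1) 10 (by norm_num) (by norm_num) (by norm_num)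
  norm_num [Finset.sum_range_succ] at h1 h2
  constructor <;> linarith [log_two_gt_d9, log_two_lt_d9]

lemma log101_200 : (-683197 / 1000000 : ℝ) ≤ log (101 / 200 : ℝ) ∧ log (101 / 200 : ℝ) ≤ (-6831967 / 10000000 : ℝ) := by
  obtain ⟨h1, h2⟩ := log_bracket (a := (101 / 200 : ℝ)) (x := (1 / 201 : ℝ)) (-1) 10 (by norm_num) (by norm_num) (by norm_num)
  norm_num [Finset.sum_range_succ] at h1 h2
  constructor <;> linarith [log_two_gt_d9, log_two_lt_d9]

lemma log203_400 : (-6782587 / 10000000 : ℝ) ≤ log (203 / 400 : ℝ) ∧ log (203 / 400 : ℝ) ≤ (-847823 / 1250000 : ℝ) := by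
  obtain ⟨h1, h2⟩ := log_bracket (a := (203 / 400 : ℝ)) (x := (3 / 403 : ℝ)) (-1) 10 (by norm_num) (by norm_num) (by norm_num)
  norm_num [Finset.sum_range_succ] at h1 h2
  constructor <;> linarith [log_two_gt_d9, log_two_lt_d9]

lemma log1017_2000 : (-3381451 / 5000000 : ℝ) ≤ log (1017 / 2000 : ℝ) ∧ log (1017 / 2000 : ℝ) ≤ (-6762899 / 10000000 : ℝ) := by
  obtain ⟨h1, h2⟩ := log_bracket (a := (1017 / 2000 : ℝ)) (x := (17 / 2017 : ℝ)) (-1) 10 (by norm_num) (by norm_num) (by norm_num)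
  norm_num [Finset.sum_range_succ] at h1 h2
  constructor <;> linarith [log_two_gt_d9, log_two_lt_d9]

lemma log513_1000 : (-1668699 / 2500000 : ℝ) ≤ log (513 / 1000 : ℝ) ∧ log (513 / 1000 : ℝ) ≤ (-6674793 / 10000000 : ℝ) := by
  obtain ⟨h1, h2⟩ := log_bracket (a := (513 / 1000 : ℝ)) (x := (13 / 1013 : ℝ)) (-1) 10 (by norm_num) (by norm_num) (by norm_num)
  norm_num [Finset.sum_range_succ] at h1 h2
  constructor <;> linarith [log_two_gt_d9, log_two_lt_d9]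

lemma log1077_2000 : (-6189679 / 10000000 : ℝ) ≤ log (1077 / 2000 : ℝ) ∧ log (1077 / 2000 : ℝ) ≤ (-1547419 / 2500000 : ℝ) := by
  obtain ⟨h1, h2⟩ := log_bracket (a := (1077 / 2000 : ℝ)) (x := (77 / 2077 : ℝ)) (-1) 10 (by norm_num) (by norm_num) (by norm_num)
  norm_num [Finset.sum_range_succ] at h1 h2
  constructor <;> linarith [log_two_gt_d9, log_two_lt_d9]

lemma log1083_2000 : (-1533531 / 2500000 : ℝ) ≤ log (1083 / 2000 : ℝ) ∧ log (1083 / 2000 : ℝ) ≤ (-6134121 / 10000000 : ℝ) := by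
  obtain ⟨h1, h2⟩ := log_bracket (a := (1083 / 2000 : ℝ)) (x := (83 / 2083 : ℝ)) (-1) 10 (by norm_num) (by norm_num) (by norm_num)
  norm_num [Finset.sum_range_succ] at h1 h2
  constructor <;> linarith [log_two_gt_d9, log_two_lt_d9]

lemma log109_200 : (-94839 / 156250 : ℝ) ≤ log (109 / 200 : ℝ) ∧ log (109 / 200 : ℝ) ≤ (-6069693 / 10000000 : ℝ) := by
  obtain ⟨h1, h2⟩ := log_bracket (a := (109 / 200 : ℝ)) (x := (9 / 209 : ℝ)) (-1) 10 (by norm_num) (by norm_num) (by norm_num)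
  norm_num [Finset.sum_range_succ] at h1 h2
  constructor <;> linarith [log_two_gt_d9, log_two_lt_d9]

lemma log1109_2000 : (-2948443 / 5000000 : ℝ) ≤ log (1109 / 2000 : ℝ) ∧ log (1109 / 2000 : ℝ) ≤ (-5896883 / 10000000 : ℝ) := by
  obtain ⟨h1, h2⟩ := log_bracket (a := (1109 / 2000 : ℝ)) (x := (109 / 2109 : ℝ)) (-1) 10 (by norm_num) (by norm_num) (by norm_num)
  norm_num [Finset.sum_range_succ] at h1 h2
  constructor <;> linarith [log_two_gt_d9, log_two_lt_d9]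

lemma log117_200 : (-1340359 / 2500000 : ℝ) ≤ log (117 / 200 : ℝ) ∧ log (117 / 200 : ℝ) ≤ (-5361433 / 10000000 : ℝ) := by
  obtain ⟨h1, h2⟩ := log_bracket (a := (117 / 200 : ℝ)) (x := (17 / 217 : ℝ)) (-1) 10 (by norm_num) (by norm_num) (by norm_num)
  norm_num [Finset.sum_range_succ] at h1 h2
  constructor <;> linarith [log_two_gt_d9, log_two_lt_d9]

lemma log591_1000 : (-2629697 / 5000000 : ℝ) ≤ log (591 / 1000 : ℝ) ∧ log (591 / 1000 : ℝ) ≤ (-5259391 / 10000000 : ℝ) := by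
  obtain ⟨h1, h2⟩ := log_bracket (a := (591 / 1000 : ℝ)) (x := (91 / 1091 : ℝ)) (-1) 10 (by norm_num) (by norm_num) (by norm_num)
  norm_num [Finset.sum_range_succ] at h1 h2
  constructor <;> linarith [log_two_gt_d9, log_two_lt_d9]

lemma log241_400 : (-2533339 / 5000000 : ℝ) ≤ log (241 / 400 : ℝ) ∧ log (241 / 400 : ℝ) ≤ (-202667 / 400000 : ℝ) := by
  obtain ⟨h1, h2⟩ := log_bracket (a := (241 / 400 : ℝ)) (x := (41 / 441 : ℝ)) (-1) 10 (by norm_num) (by norm_num) (by norm_num)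
  norm_num [Finset.sum_range_succ] at h1 h2
  constructor <;> linarith [log_two_gt_d9, log_two_lt_d9]

lemma log253_400 : (-286297 / 625000 : ℝ) ≤ log (253 / 400 : ℝ) ∧ log (253 / 400 : ℝ) ≤ (-4580749 / 10000000 : ℝ) := by
  obtain ⟨h1, h2⟩ := log_bracket (a := (253 / 400 : ℝ)) (x := (53 / 453 : ℝ)) (-1) 10 (by norm_num) (by norm_num) (by norm_num)
  norm_num [Finset.sum_range_succ] at h1 h2
  constructor <;> linarith [log_two_gt_d9, log_two_lt_d9]

lemma log129_200 : (-4385051 / 10000000 : ℝ) ≤ log (129 / 200 : ℝ) ∧ log (129 / 200 : ℝ) ≤ (-548131 / 1250000 : ℝ) := by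
  obtain ⟨h1, h2⟩ := log_bracket (a := (129 / 200 : ℝ)) (x := (29 / 229 : ℝ)) (-1) 10 (by norm_num) (by norm_num) (by norm_num)
  norm_num [Finset.sum_range_succ] at h1 h2
  constructor <;> linarith [log_two_gt_d9, log_two_lt_d9]

lemma log81_125 : (-4338647 / 10000000 : ℝ) ≤ log (81 / 125 : ℝ) ∧ log (81 / 125 : ℝ) ≤ (-1084661 / 2500000 : ℝ) := by
  obtain ⟨h1, h2⟩ := log_bracket (a := (81 / 125 : ℝ)) (x := (37 / 287 : ℝ)) (-1) 10 (by norm_num) (by norm_num) (by norm_num)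
  norm_num [Finset.sum_range_succ] at h1 h2
  constructor <;> linarith [log_two_gt_d9, log_two_lt_d9]

lemma log1309_2000 : (-2119419 / 5000000 : ℝ) ≤ log (1309 / 2000 : ℝ) ∧ log (1309 / 2000 : ℝ) ≤ (-847767 / 2000000 : ℝ) := by
  obtain ⟨h1, h2⟩ := log_bracket (a := (1309 / 2000 : ℝ)) (x := (309 / 2309 : ℝ)) (-1) 10 (by norm_num) (by norm_num) (by norm_num)
  norm_num [Finset.sum_range_succ] at h1 h2
  constructor <;> linarith [log_two_gt_d9, log_two_lt_d9]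

lemma log271_400 : (-3893459 / 10000000 : ℝ) ≤ log (271 / 400 : ℝ) ∧ log (271 / 400 : ℝ) ≤ (-243341 / 625000 : ℝ) := by
  obtain ⟨h1, h2⟩ := log_bracket (a := (271 / 400 : ℝ)) (x := (71 / 471 : ℝ)) (-1) 10 (by norm_num) (by norm_num) (by norm_num)
  norm_num [Finset.sum_range_succ] at h1 h2
  constructor <;> linarith [log_two_gt_d9, log_two_lt_d9]

lemma log691_1000 : (-924039 / 2500000 : ℝ) ≤ log (691 / 1000 : ℝ) ∧ log (691 / 1000 : ℝ) ≤ (-3696153 / 10000000 : ℝ) := by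
  obtain ⟨h1, h2⟩ := log_bracket (a := (691 / 1000 : ℝ)) (x := (191 / 1191 : ℝ)) (-1) 10 (by norm_num) (by norm_num) (by norm_num)
  norm_num [Finset.sum_range_succ] at h1 h2
  constructor <;> linarith [log_two_gt_d9, log_two_lt_d9]

lemma log88_125 : (-3509771 / 10000000 : ℝ) ≤ log (88 / 125 : ℝ) ∧ log (88 / 125 : ℝ) ≤ (-438721 / 1250000 : ℝ) := by
  obtain ⟨h1, h2⟩ := log_bracket (a := (88 / 125 : ℝ)) (x := (51 / 301 : ℝ)) (-1) 10 (by norm_num) (by norm_num) (by norm_num)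
  norm_num [Finset.sum_range_succ] at h1 h2
  constructor <;> linarith [log_two_gt_d9, log_two_lt_d9]

lemma log283_400 : (-1730089 / 5000000 : ℝ) ≤ log (283 / 400 : ℝ) ∧ log (283 / 400 : ℝ) ≤ (-138407 / 400000 : ℝ) := by
  obtain ⟨h1, h2⟩ := log_bracket (a := (283 / 400 : ℝ)) (x := (83 / 483 : ℝ)) (-1) 10 (by norm_num) (by norm_num) (by norm_num)
  norm_num [Finset.sum_range_succ] at h1 h2
  constructor <;> linarith [log_two_gt_d9, log_two_lt_d9]

lemma log147_200 : (-3078849 / 10000000 : ℝ) ≤ log (147 / 200 : ℝ) ∧ log (147 / 200 : ℝ) ≤ (-1539423 / 5000000 : ℝ) := by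
  obtain ⟨h1, h2⟩ := log_bracket (a := (147 / 200 : ℝ)) (x := (47 / 247 : ℝ)) (-1) 10 (by norm_num) (by norm_num) (by norm_num)
  norm_num [Finset.sum_range_succ] at h1 h2
  constructor <;> linarith [log_two_gt_d9, log_two_lt_d9]

lemma log299_400 : (-2910211 / 10000000 : ℝ) ≤ log (299 / 400 : ℝ) ∧ log (299 / 400 : ℝ) ≤ (-22736 / 78125 : ℝ) := by
  obtain ⟨h1, h2⟩ := log_bracket (a := (299 / 400 : ℝ)) (x := (99 / 499 : ℝ)) (-1) 10 (by norm_num) (by norm_num) (by norm_num)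
  norm_num [Finset.sum_range_succ] at h1 h2
  constructor <;> linarith [log_two_gt_d9, log_two_lt_d9]

lemma log301_400 : (-355443 / 1250000 : ℝ) ≤ log (301 / 400 : ℝ) ∧ log (301 / 400 : ℝ) ≤ (-2843541 / 10000000 : ℝ) := by
  obtain ⟨h1, h2⟩ := log_bracket (a := (301 / 400 : ℝ)) (x := (101 / 501 : ℝ)) (-1) 10 (by norm_num) (by norm_num) (by norm_num)
  norm_num [Finset.sum_range_succ] at h1 h2
  constructor <;> linarith [log_two_gt_d9, log_two_lt_d9]

lemma log317_400 : (-2325629 / 10000000 : ℝ) ≤ log (317 / 400 : ℝ) ∧ log (317 / 400 : ℝ) ≤ (-1162813 / 5000000 : ℝ) := by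
  obtain ⟨h1, h2⟩ := log_bracket (a := (317 / 400 : ℝ)) (x := (117 / 517 : ℝ)) (-1) 10 (by norm_num) (by norm_num) (by norm_num)
  norm_num [Finset.sum_range_succ] at h1 h2
  constructor <;> linarith [log_two_gt_d9, log_two_lt_d9]

lemma log159_200 : (-2294133 / 10000000 : ℝ) ≤ log (159 / 200 : ℝ) ∧ log (159 / 200 : ℝ) ≤ (-229413 / 1000000 : ℝ) := by
  obtain ⟨h1, h2⟩ := log_bracket (a := (159 / 200 : ℝ)) (x := (59 / 259 : ℝ)) (-1) 10 (by norm_num) (by norm_num) (by norm_num)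
  norm_num [Finset.sum_range_succ] at h1 h2
  constructor <;> linarith [log_two_gt_d9, log_two_lt_d9]

lemma log3269_4000 : (-252263 / 1250000 : ℝ) ≤ log (3269 / 4000 : ℝ) ∧ log (3269 / 4000 : ℝ) ≤ (-2018101 / 10000000 : ℝ) := by
  obtain ⟨h1, h2⟩ := log_bracket (a := (3269 / 4000 : ℝ)) (x := (1269 / 5269 : ℝ)) (-1) 10 (by norm_num) (by norm_num) (by norm_num)
  norm_num [Finset.sum_range_succ] at h1 h2
  constructor <;> linarith [log_two_gt_d9, log_two_lt_d9]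

lemma log409_500 : (-2008931 / 10000000 : ℝ) ≤ log (409 / 500 : ℝ) ∧ log (409 / 500 : ℝ) ≤ (-62779 / 312500 : ℝ) := by
  obtain ⟨h1, h2⟩ := log_bracket (a := (409 / 500 : ℝ)) (x := (159 / 659 : ℝ)) (-1) 10 (by norm_num) (by norm_num) (by norm_num)
  norm_num [Finset.sum_range_succ] at h1 h2
  constructor <;> linarith [log_two_gt_d9, log_two_lt_d9]

lemma log5127_6250 : (-1980609 / 10000000 : ℝ) ≤ log (5127 / 6250 : ℝ) ∧ log (5127 / 6250 : ℝ) ≤ (-990303 / 5000000 : ℝ) := by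
  obtain ⟨h1, h2⟩ := log_bracket (a := (5127 / 6250 : ℝ)) (x := (1001 / 4126 : ℝ)) (-1) 10 (by norm_num) (by norm_num) (by norm_num)
  norm_num [Finset.sum_range_succ] at h1 h2
  constructor <;> linarith [log_two_gt_d9, log_two_lt_d9]

lemma log329_400 : (-1954069 / 10000000 : ℝ) ≤ log (329 / 400 : ℝ) ∧ log (329 / 400 : ℝ) ≤ (-977033 / 5000000 : ℝ) := by
  obtain ⟨h1, h2⟩ := log_bracket (a := (329 / 400 : ℝ)) (x := (129 / 529 : ℝ)) (-1) 10 (by norm_num) (by norm_num) (by norm_num)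
  norm_num [Finset.sum_range_succ] at h1 h2
  constructor <;> linarith [log_two_gt_d9, log_two_lt_d9]

lemma log10327_12500 : (-190967 / 1000000 : ℝ) ≤ log (10327 / 12500 : ℝ) ∧ log (10327 / 12500 : ℝ) ≤ (-1909667 / 10000000 : ℝ) := by
  obtain ⟨h1, h2⟩ := log_bracket (a := (10327 / 12500 : ℝ)) (x := (4077 / 16577 : ℝ)) (-1) 10 (by norm_num) (by norm_num) (by norm_num)
  norm_num [Finset.sum_range_succ] at h1 h2
  constructor <;> linarith [log_two_gt_d9, log_two_lt_d9]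

lemma log2586_3125 : (-946611 / 5000000 : ℝ) ≤ log (2586 / 3125 : ℝ) ∧ log (2586 / 3125 : ℝ) ≤ (-1893219 / 10000000 : ℝ) := by
  obtain ⟨h1, h2⟩ := log_bracket (a := (2586 / 3125 : ℝ)) (x := (2047 / 8297 : ℝ)) (-1) 10 (by norm_num) (by norm_num) (by norm_num)
  norm_num [Finset.sum_range_succ] at h1 h2
  constructor <;> linarith [log_two_gt_d9, log_two_lt_d9]

lemma log2629_3125 : (-1728309 / 10000000 : ℝ) ≤ log (2629 / 3125 : ℝ) ∧ log (2629 / 3125 : ℝ) ≤ (-864153 / 5000000 : ℝ) := by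
  obtain ⟨h1, h2⟩ := log_bracket (a := (2629 / 3125 : ℝ)) (x := (2133 / 8383 : ℝ)) (-1) 10 (by norm_num) (by norm_num) (by norm_num)
  norm_num [Finset.sum_range_succ] at h1 h2
  constructor <;> linarith [log_two_gt_d9, log_two_lt_d9]

lemma log1691_2000 : (-1678273 / 10000000 : ℝ) ≤ log (1691 / 2000 : ℝ) ∧ log (1691 / 2000 : ℝ) ≤ (-167827 / 1000000 : ℝ) := by
  obtain ⟨h1, h2⟩ := log_bracket (a := (1691 / 2000 : ℝ)) (x := (691 / 2691 : ℝ)) (-1) 10 (by norm_num) (by norm_num) (by norm_num)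
  norm_num [Finset.sum_range_succ] at h1 h2
  constructor <;> linarith [log_two_gt_d9, log_two_lt_d9]

lemma log1699_2000 : (-65243 / 400000 : ℝ) ≤ log (1699 / 2000 : ℝ) ∧ log (1699 / 2000 : ℝ) ≤ (-50971 / 312500 : ℝ) := by
  obtain ⟨h1, h2⟩ := log_bracket (a := (1699 / 2000 : ℝ)) (x := (699 / 2699 : ℝ)) (-1) 10 (by norm_num) (by norm_num) (by norm_num)
  norm_num [Finset.sum_range_succ] at h1 h2
  constructor <;> linarith [log_two_gt_d9, log_two_lt_d9]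

lemma log531_625 : (-814949 / 5000000 : ℝ) ≤ log (531 / 625 : ℝ) ∧ log (531 / 625 : ℝ) ≤ (-325979 / 2000000 : ℝ) := by
  obtain ⟨h1, h2⟩ := log_bracket (a := (531 / 625 : ℝ)) (x := (437 / 1687 : ℝ)) (-1) 10 (by norm_num) (by norm_num) (by norm_num)
  norm_num [Finset.sum_range_succ] at h1 h2
  constructor <;> linarith [log_two_gt_d9, log_two_lt_d9]

lemma log213_250 : (-1601689 / 10000000 : ℝ) ≤ log (213 / 250 : ℝ) ∧ log (213 / 250 : ℝ) ≤ (-800843 / 5000000 : ℝ) := by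
  obtain ⟨h1, h2⟩ := log_bracket (a := (213 / 250 : ℝ)) (x := (44 / 169 : ℝ)) (-1) 10 (by norm_num) (by norm_num) (by norm_num)
  norm_num [Finset.sum_range_succ] at h1 h2
  constructor <;> linarith [log_two_gt_d9, log_two_lt_d9]

lemma log533_625 : (-99519 / 625000 : ℝ) ≤ log (533 / 625 : ℝ) ∧ log (533 / 625 : ℝ) ≤ (-1592301 / 10000000 : ℝ) := by
  obtain ⟨h1, h2⟩ := log_bracket (a := (533 / 625 : ℝ)) (x := (441 / 1691 : ℝ)) (-1) 10 (by norm_num) (by norm_num) (by norm_num)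
  norm_num [Finset.sum_range_succ] at h1 h2
  constructor <;> linarith [log_two_gt_d9, log_two_lt_d9]

lemma log10723_12500 : (-766689 / 5000000 : ℝ) ≤ log (10723 / 12500 : ℝ) ∧ log (10723 / 12500 : ℝ) ≤ (-12267 / 80000 : ℝ) := by
  obtain ⟨h1, h2⟩ := log_bracket (a := (10723 / 12500 : ℝ)) (x := (4473 / 16973 : ℝ)) (-1) 10 (by norm_num) (by norm_num) (by norm_num)
  norm_num [Finset.sum_range_succ] at h1 h2
  constructor <;> linarith [log_two_gt_d9, log_two_lt_d9]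

lemma log335528_390625 : (-380107 / 2500000 : ℝ) ≤ log (335528 / 390625 : ℝ) ∧ log (335528 / 390625 : ℝ) ≤ (-60817 / 400000 : ℝ) := by
  obtain ⟨h1, h2⟩ := log_bracket (a := (335528 / 390625 : ℝ)) (x := (280431 / 1061681 : ℝ)) (-1) 10 (by norm_num) (by norm_num) (by norm_num)
  norm_num [Finset.sum_range_succ] at h1 h2
  constructor <;> linarith [log_two_gt_d9, log_two_lt_d9]

lemma log43_50 : (-150823 / 1000000 : ℝ) ≤ log (43 / 50 : ℝ) ∧ log (43 / 50 : ℝ) ≤ (-1508227 / 10000000 : ℝ) := by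
  obtain ⟨h1, h2⟩ := log_bracket (a := (43 / 50 : ℝ)) (x := (9 / 34 : ℝ)) (-1) 10 (by norm_num) (by norm_num) (by norm_num)
  norm_num [Finset.sum_range_succ] at h1 h2
  constructor <;> linarith [log_two_gt_d9, log_two_lt_d9]

lemma log86267_100000 : (-92327 / 625000 : ℝ) ≤ log (86267 / 100000 : ℝ) ∧ log (86267 / 100000 : ℝ) ≤ (-1477229 / 10000000 : ℝ) := by
  obtain ⟨h1, h2⟩ := log_bracket (a := (86267 / 100000 : ℝ)) (x := (36267 / 136267 : ℝ)) (-1) 10 (by norm_num) (by norm_num) (by norm_num)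
  norm_num [Finset.sum_range_succ] at h1 h2
  constructor <;> linarith [log_two_gt_d9, log_two_lt_d9]

lemma log13482_15625 : (-1475169 / 10000000 : ℝ) ≤ log (13482 / 15625 : ℝ) ∧ log (13482 / 15625 : ℝ) ≤ (-737583 / 5000000 : ℝ) := by
  obtain ⟨h1, h2⟩ := log_bracket (a := (13482 / 15625 : ℝ)) (x := (11339 / 42589 : ℝ)) (-1) 10 (by norm_num) (by norm_num) (by norm_num)
  norm_num [Finset.sum_range_succ] at h1 h2
  constructor <;> linarith [log_two_gt_d9, log_two_lt_d9]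

lemma log3381241_3906250 : (-180419 / 1250000 : ℝ) ≤ log (3381241 / 3906250 : ℝ) ∧ log (3381241 / 3906250 : ℝ) ≤ (-1443349 / 10000000 : ℝ) := by
  obtain ⟨h1, h2⟩ := log_bracket (a := (3381241 / 3906250 : ℝ)) (x := (714058 / 2667183 : ℝ)) (-1) 10 (by norm_num) (by norm_num) (by norm_num)
  norm_num [Finset.sum_range_succ] at h1 h2
  constructor <;> linarith [log_two_gt_d9, log_two_lt_d9]

lemma log347_400 : (-1421399 / 10000000 : ℝ) ≤ log (347 / 400 : ℝ) ∧ log (347 / 400 : ℝ) ≤ (-355349 / 2500000 : ℝ) := by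
  obtain ⟨h1, h2⟩ := log_bracket (a := (347 / 400 : ℝ)) (x := (147 / 547 : ℝ)) (-1) 10 (by norm_num) (by norm_num) (by norm_num)
  norm_num [Finset.sum_range_succ] at h1 h2
  constructor <;> linarith [log_two_gt_d9, log_two_lt_d9]

lemma log217_250 : (-1415637 / 10000000 : ℝ) ≤ log (217 / 250 : ℝ) ∧ log (217 / 250 : ℝ) ≤ (-707817 / 5000000 : ℝ) := by
  obtain ⟨h1, h2⟩ := log_bracket (a := (217 / 250 : ℝ)) (x := (46 / 171 : ℝ)) (-1) 10 (by norm_num) (by norm_num) (by norm_num)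
  norm_num [Finset.sum_range_succ] at h1 h2
  constructor <;> linarith [log_two_gt_d9, log_two_lt_d9]

lemma log1747_2000 : (-1352473 / 10000000 : ℝ) ≤ log (1747 / 2000 : ℝ) ∧ log (1747 / 2000 : ℝ) ≤ (-135247 / 1000000 : ℝ) := by
  obtain ⟨h1, h2⟩ := log_bracket (a := (1747 / 2000 : ℝ)) (x := (747 / 2747 : ℝ)) (-1) 10 (by norm_num) (by norm_num) (by norm_num)
  norm_num [Finset.sum_range_succ] at h1 h2
  constructor <;> linarith [log_two_gt_d9, log_two_lt_d9]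

lemma log69943_80000 : (-671731 / 5000000 : ℝ) ≤ log (69943 / 80000 : ℝ) ∧ log (69943 / 80000 : ℝ) ≤ (-1343459 / 10000000 : ℝ) := by
  obtain ⟨h1, h2⟩ := log_bracket (a := (69943 / 80000 : ℝ)) (x := (29943 / 109943 : ℝ)) (-1) 10 (by norm_num) (by norm_num) (by norm_num)
  norm_num [Finset.sum_range_succ] at h1 h2
  constructor <;> linarith [log_two_gt_d9, log_two_lt_d9]

lemma log7_8 : (-267063 / 2000000 : ℝ) ≤ log (7 / 8 : ℝ) ∧ log (7 / 8 : ℝ) ≤ (-83457 / 625000 : ℝ) := by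
  obtain ⟨h1, h2⟩ := log_bracket (a := (7 / 8 : ℝ)) (x := (3 / 11 : ℝ)) (-1) 10 (by norm_num) (by norm_num) (by norm_num)
  norm_num [Finset.sum_range_succ] at h1 h2
  constructor <;> linarith [log_two_gt_d9, log_two_lt_d9]

lemma log44019_50000 : (-637009 / 5000000 : ℝ) ≤ log (44019 / 50000 : ℝ) ∧ log (44019 / 50000 : ℝ) ≤ (-254803 / 2000000 : ℝ) := by
  obtain ⟨h1, h2⟩ := log_bracket (a := (44019 / 50000 : ℝ)) (x := (19019 / 69019 : ℝ)) (-1) 10 (by norm_num) (by norm_num) (by norm_num)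
  norm_num [Finset.sum_range_succ] at h1 h2
  constructor <;> linarith [log_two_gt_d9, log_two_lt_d9]

lemma log17660499_20000000 : (-62201 / 500000 : ℝ) ≤ log (17660499 / 20000000 : ℝ) ∧ log (17660499 / 20000000 : ℝ) ≤ (-1244017 / 10000000 : ℝ) := by
  obtain ⟨h1, h2⟩ := log_bracket (a := (17660499 / 20000000 : ℝ)) (x := (7660499 / 27660499 : ℝ)) (-1) 10 (by norm_num) (by norm_num) (by norm_num)
  norm_num [Finset.sum_range_succ] at h1 h2
  constructor <;> linarith [log_two_gt_d9, log_two_lt_d9]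

lemma log177_200 : (-610839 / 5000000 : ℝ) ≤ log (177 / 200 : ℝ) ∧ log (177 / 200 : ℝ) ≤ (-48867 / 400000 : ℝ) := by
  obtain ⟨h1, h2⟩ := log_bracket (a := (177 / 200 : ℝ)) (x := (77 / 277 : ℝ)) (-1) 10 (by norm_num) (by norm_num) (by norm_num)
  norm_num [Finset.sum_range_succ] at h1 h2
  constructor <;> linarith [log_two_gt_d9, log_two_lt_d9]

lemma log891_1000 : (-115411 / 1000000 : ℝ) ≤ log (891 / 1000 : ℝ) ∧ log (891 / 1000 : ℝ) ≤ (-1154107 / 10000000 : ℝ) := by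
  obtain ⟨h1, h2⟩ := log_bracket (a := (891 / 1000 : ℝ)) (x := (391 / 1391 : ℝ)) (-1) 10 (by norm_num) (by norm_num) (by norm_num)
  norm_num [Finset.sum_range_succ] at h1 h2
  constructor <;> linarith [log_two_gt_d9, log_two_lt_d9]

lemma log179_200 : (-1109317 / 10000000 : ℝ) ≤ log (179 / 200 : ℝ) ∧ log (179 / 200 : ℝ) ≤ (-554657 / 5000000 : ℝ) := by
  obtain ⟨h1, h2⟩ := log_bracket (a := (179 / 200 : ℝ)) (x := (79 / 279 : ℝ)) (-1) 10 (by norm_num) (by norm_num) (by norm_num)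
  norm_num [Finset.sum_range_succ] at h1 h2
  constructor <;> linarith [log_two_gt_d9, log_two_lt_d9]

lemma log359_400 : (-1081423 / 10000000 : ℝ) ≤ log (359 / 400 : ℝ) ∧ log (359 / 400 : ℝ) ≤ (-54071 / 500000 : ℝ) := by
  obtain ⟨h1, h2⟩ := log_bracket (a := (359 / 400 : ℝ)) (x := (159 / 559 : ℝ)) (-1) 10 (by norm_num) (by norm_num) (by norm_num)
  norm_num [Finset.sum_range_succ] at h1 h2
  constructor <;> linarith [log_two_gt_d9, log_two_lt_d9]

lemma log909_1000 : (-954103 / 10000000 : ℝ) ≤ log (909 / 1000 : ℝ) ∧ log (909 / 1000 : ℝ) ≤ (-9541 / 100000 : ℝ) := by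
  obtain ⟨h1, h2⟩ := log_bracket (a := (909 / 1000 : ℝ)) (x := (409 / 1409 : ℝ)) (-1) 10 (by norm_num) (by norm_num) (by norm_num)
  norm_num [Finset.sum_range_succ] at h1 h2
  constructor <;> linarith [log_two_gt_d9, log_two_lt_d9]

lemma log91_100 : (-235777 / 2500000 : ℝ) ≤ log (91 / 100 : ℝ) ∧ log (91 / 100 : ℝ) ≤ (-188621 / 2000000 : ℝ) := by
  obtain ⟨h1, h2⟩ := log_bracket (a := (91 / 100 : ℝ)) (x := (41 / 141 : ℝ)) (-1) 10 (by norm_num) (by norm_num) (by norm_num)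
  norm_num [Finset.sum_range_succ] at h1 h2
  constructor <;> linarith [log_two_gt_d9, log_two_lt_d9]

lemma log229_250 : (-877391 / 10000000 : ℝ) ≤ log (229 / 250 : ℝ) ∧ log (229 / 250 : ℝ) ≤ (-219347 / 2500000 : ℝ) := by
  obtain ⟨h1, h2⟩ := log_bracket (a := (229 / 250 : ℝ)) (x := (52 / 177 : ℝ)) (-1) 10 (by norm_num) (by norm_num) (by norm_num)
  norm_num [Finset.sum_range_succ] at h1 h2
  constructor <;> linarith [log_two_gt_d9, log_two_lt_d9]

lemma log917_1000 : (-10831 / 125000 : ℝ) ≤ log (917 / 1000 : ℝ) ∧ log (917 / 1000 : ℝ) ≤ (-866477 / 10000000 : ℝ) := by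
  obtain ⟨h1, h2⟩ := log_bracket (a := (917 / 1000 : ℝ)) (x := (417 / 1417 : ℝ)) (-1) 10 (by norm_num) (by norm_num) (by norm_num)
  norm_num [Finset.sum_range_succ] at h1 h2
  constructor <;> linarith [log_two_gt_d9, log_two_lt_d9]

lemma log923_1000 : (-400631 / 5000000 : ℝ) ≤ log (923 / 1000 : ℝ) ∧ log (923 / 1000 : ℝ) ≤ (-801259 / 10000000 : ℝ) := by
  obtain ⟨h1, h2⟩ := log_bracket (a := (923 / 1000 : ℝ)) (x := (423 / 1423 : ℝ)) (-1) 10 (by norm_num) (by norm_num) (by norm_num)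
  norm_num [Finset.sum_range_succ] at h1 h2
  constructor <;> linarith [log_two_gt_d9, log_two_lt_d9]

lemma log189_200 : (-113141 / 2000000 : ℝ) ≤ log (189 / 200 : ℝ) ∧ log (189 / 200 : ℝ) ≤ (-282851 / 5000000 : ℝ) := by
  obtain ⟨h1, h2⟩ := log_bracket (a := (189 / 200 : ℝ)) (x := (89 / 289 : ℝ)) (-1) 10 (by norm_num) (by norm_num) (by norm_num)
  norm_num [Finset.sum_range_succ] at h1 h2
  constructor <;> linarith [log_two_gt_d9, log_two_lt_d9]

lemma log1891_2000 : (-112083 / 2000000 : ℝ) ≤ log (1891 / 2000 : ℝ) ∧ log (1891 / 2000 : ℝ) ≤ (-140103 / 2500000 : ℝ) := by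
  obtain ⟨h1, h2⟩ := log_bracket (a := (1891 / 2000 : ℝ)) (x := (891 / 2891 : ℝ)) (-1) 10 (by norm_num) (by norm_num) (by norm_num)
  norm_num [Finset.sum_range_succ] at h1 h2
  constructor <;> linarith [log_two_gt_d9, log_two_lt_d9]

lemma log953_1000 : (-96281 / 2000000 : ℝ) ≤ log (953 / 1000 : ℝ) ∧ log (953 / 1000 : ℝ) ≤ (-240701 / 5000000 : ℝ) := by
  obtain ⟨h1, h2⟩ := log_bracket (a := (953 / 1000 : ℝ)) (x := (453 / 1453 : ℝ)) (-1) 10 (by norm_num) (by norm_num) (by norm_num)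
  norm_num [Finset.sum_range_succ] at h1 h2
  constructor <;> linarith [log_two_gt_d9, log_two_lt_d9]

lemma log191_200 : (-460441 / 10000000 : ℝ) ≤ log (191 / 200 : ℝ) ∧ log (191 / 200 : ℝ) ≤ (-230219 / 5000000 : ℝ) := by
  obtain ⟨h1, h2⟩ := log_bracket (a := (191 / 200 : ℝ)) (x := (91 / 291 : ℝ)) (-1) 10 (by norm_num) (by norm_num) (by norm_num)
  norm_num [Finset.sum_range_succ] at h1 h2
  constructor <;> linarith [log_two_gt_d9, log_two_lt_d9]

lemma log1917_2000 : (-423859 / 10000000 : ℝ) ≤ log (1917 / 2000 : ℝ) ∧ log (1917 / 2000 : ℝ) ≤ (-26491 / 625000 : ℝ) := by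
  obtain ⟨h1, h2⟩ := log_bracket (a := (1917 / 2000 : ℝ)) (x := (917 / 2917 : ℝ)) (-1) 10 (by norm_num) (by norm_num) (by norm_num)
  norm_num [Finset.sum_range_succ] at h1 h2
  constructor <;> linarith [log_two_gt_d9, log_two_lt_d9]

lemma log1923_2000 : (-392609 / 10000000 : ℝ) ≤ log (1923 / 2000 : ℝ) ∧ log (1923 / 2000 : ℝ) ≤ (-196303 / 5000000 : ℝ) := by
  obtain ⟨h1, h2⟩ := log_bracket (a := (1923 / 2000 : ℝ)) (x := (923 / 2923 : ℝ)) (-1) 10 (by norm_num) (by norm_num) (by norm_num)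
  norm_num [Finset.sum_range_succ] at h1 h2
  constructor <;> linarith [log_two_gt_d9, log_two_lt_d9]

lemma log483_500 : (-86479 / 2500000 : ℝ) ≤ log (483 / 500 : ℝ) ∧ log (483 / 500 : ℝ) ≤ (-345913 / 10000000 : ℝ) := by
  obtain ⟨h1, h2⟩ := log_bracket (a := (483 / 500 : ℝ)) (x := (233 / 733 : ℝ)) (-1) 10 (by norm_num) (by norm_num) (by norm_num)
  norm_num [Finset.sum_range_succ] at h1 h2
  constructor <;> linarith [log_two_gt_d9, log_two_lt_d9]

lemma log971_1000 : (-29429 / 1000000 : ℝ) ≤ log (971 / 1000 : ℝ) ∧ log (971 / 1000 : ℝ) ≤ (-294287 / 10000000 : ℝ) := by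
  obtain ⟨h1, h2⟩ := log_bracket (a := (971 / 1000 : ℝ)) (x := (471 / 1471 : ℝ)) (-1) 10 (by norm_num) (by norm_num) (by norm_num)
  norm_num [Finset.sum_range_succ] at h1 h2
  constructor <;> linarith [log_two_gt_d9, log_two_lt_d9]

lemma log487_500 : (-263441 / 10000000 : ℝ) ≤ log (487 / 500 : ℝ) ∧ log (487 / 500 : ℝ) ≤ (-131719 / 5000000 : ℝ) := by
  obtain ⟨h1, h2⟩ := log_bracket (a := (487 / 500 : ℝ)) (x := (237 / 737 : ℝ)) (-1) 10 (by norm_num) (by norm_num) (by norm_num)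
  norm_num [Finset.sum_range_succ] at h1 h2
  constructor <;> linarith [log_two_gt_d9, log_two_lt_d9]

lemma log39_40 : (-12659 / 500000 : ℝ) ≤ log (39 / 40 : ℝ) ∧ log (39 / 40 : ℝ) ≤ (-253177 / 10000000 : ℝ) := by
  obtain ⟨h1, h2⟩ := log_bracket (a := (39 / 40 : ℝ)) (x := (19 / 59 : ℝ)) (-1) 10 (by norm_num) (by norm_num) (by norm_num)
  norm_num [Finset.sum_range_succ] at h1 h2
  constructor <;> linarith [log_two_gt_d9, log_two_lt_d9]

lemma log983_1000 : (-171463 / 10000000 : ℝ) ≤ log (983 / 1000 : ℝ) ∧ log (983 / 1000 : ℝ) ≤ (-8573 / 500000 : ℝ) := by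
  obtain ⟨h1, h2⟩ := log_bracket (a := (983 / 1000 : ℝ)) (x := (483 / 1483 : ℝ)) (-1) 10 (by norm_num) (by norm_num) (by norm_num)
  norm_num [Finset.sum_range_succ] at h1 h2
  constructor <;> linarith [log_two_gt_d9, log_two_lt_d9]

lemma log197_200 : (-75569 / 5000000 : ℝ) ≤ log (197 / 200 : ℝ) ∧ log (197 / 200 : ℝ) ≤ (-30227 / 2000000 : ℝ) := by
  obtain ⟨h1, h2⟩ := log_bracket (a := (197 / 200 : ℝ)) (x := (97 / 297 : ℝ)) (-1) 10 (by norm_num) (by norm_num) (by norm_num)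
  norm_num [Finset.sum_range_succ] at h1 h2
  constructor <;> linarith [log_two_gt_d9, log_two_lt_d9]

lemma log987_1000 : (-65427 / 5000000 : ℝ) ≤ log (987 / 1000 : ℝ) ∧ log (987 / 1000 : ℝ) ≤ (-130851 / 10000000 : ℝ) := by
  obtain ⟨h1, h2⟩ := log_bracket (a := (987 / 1000 : ℝ)) (x := (487 / 1487 : ℝ)) (-1) 10 (by norm_num) (by norm_num) (by norm_num)
  norm_num [Finset.sum_range_succ] at h1 h2
  constructor <;> linarith [log_two_gt_d9, log_two_lt_d9]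

lemma log99_100 : (-20101 / 2000000 : ℝ) ≤ log (99 / 100 : ℝ) ∧ log (99 / 100 : ℝ) ≤ (-50251 / 5000000 : ℝ) := by
  obtain ⟨h1, h2⟩ := log_bracket (a := (99 / 100 : ℝ)) (x := (49 / 149 : ℝ)) (-1) 10 (by norm_num) (by norm_num) (by norm_num)
  norm_num [Finset.sum_range_succ] at h1 h2
  constructor <;> linarith [log_two_gt_d9, log_two_lt_d9]

lemma log1983_2000 : (-17073 / 2000000 : ℝ) ≤ log (1983 / 2000 : ℝ) ∧ log (1983 / 2000 : ℝ) ≤ (-42681 / 5000000 : ℝ) := by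
  obtain ⟨h1, h2⟩ := log_bracket (a := (1983 / 2000 : ℝ)) (x := (983 / 2983 : ℝ)) (-1) 10 (by norm_num) (by norm_num) (by norm_num)
  norm_num [Finset.sum_range_succ] at h1 h2
  constructor <;> linarith [log_two_gt_d9, log_two_lt_d9]

lemma log397_400 : (-18821 / 2500000 : ℝ) ≤ log (397 / 400 : ℝ) ∧ log (397 / 400 : ℝ) ≤ (-75281 / 10000000 : ℝ) := by
  obtain ⟨h1, h2⟩ := log_bracket (a := (397 / 400 : ℝ)) (x := (197 / 597 : ℝ)) (-1) 10 (by norm_num) (by norm_num) (by norm_num)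
  norm_num [Finset.sum_range_succ] at h1 h2
  constructor <;> linarith [log_two_gt_d9, log_two_lt_d9]

lemma log993_1000 : (-8781 / 1250000 : ℝ) ≤ log (993 / 1000 : ℝ) ∧ log (993 / 1000 : ℝ) ≤ (-14049 / 2000000 : ℝ) := by
  obtain ⟨h1, h2⟩ := log_bracket (a := (993 / 1000 : ℝ)) (x := (493 / 1493 : ℝ)) (-1) 10 (by norm_num) (by norm_num) (by norm_num)
  norm_num [Finset.sum_range_succ] at h1 h2
  constructor <;> linarith [log_two_gt_d9, log_two_lt_d9]

lemma log497_500 : (-30091 / 5000000 : ℝ) ≤ log (497 / 500 : ℝ) ∧ log (497 / 500 : ℝ) ≤ (-60179 / 10000000 : ℝ) := by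
  obtain ⟨h1, h2⟩ := log_bracket (a := (497 / 500 : ℝ)) (x := (247 / 747 : ℝ)) (-1) 10 (by norm_num) (by norm_num) (by norm_num)
  norm_num [Finset.sum_range_succ] at h1 h2
  constructor <;> linarith [log_two_gt_d9, log_two_lt_d9]

lemma log199_200 : (-50127 / 10000000 : ℝ) ≤ log (199 / 200 : ℝ) ∧ log (199 / 200 : ℝ) ≤ (-12531 / 2500000 : ℝ) := by
  obtain ⟨h1, h2⟩ := log_bracket (a := (199 / 200 : ℝ)) (x := (99 / 299 : ℝ)) (-1) 10 (by norm_num) (by norm_num) (by norm_num)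
  norm_num [Finset.sum_range_succ] at h1 h2
  constructor <;> linarith [log_two_gt_d9, log_two_lt_d9]

lemma log1993_2000 : (-35063 / 10000000 : ℝ) ≤ log (1993 / 2000 : ℝ) ∧ log (1993 / 2000 : ℝ) ≤ (-1753 / 500000 : ℝ) := by
  obtain ⟨h1, h2⟩ := log_bracket (a := (1993 / 2000 : ℝ)) (x := (993 / 2993 : ℝ)) (-1) 10 (by norm_num) (by norm_num) (by norm_num)
  norm_num [Finset.sum_range_succ] at h1 h2
  constructor <;> linarith [log_two_gt_d9, log_two_lt_d9]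

lemma log997_1000 : (-30047 / 10000000 : ℝ) ≤ log (997 / 1000 : ℝ) ∧ log (997 / 1000 : ℝ) ≤ (-7511 / 2500000 : ℝ) := by
  obtain ⟨h1, h2⟩ := log_bracket (a := (997 / 1000 : ℝ)) (x := (497 / 1497 : ℝ)) (-1) 10 (by norm_num) (by norm_num) (by norm_num)
  norm_num [Finset.sum_range_succ] at h1 h2
  constructor <;> linarith [log_two_gt_d9, log_two_lt_d9]

lemma log399_400 : (-25033 / 10000000 : ℝ) ≤ log (399 / 400 : ℝ) ∧ log (399 / 400 : ℝ) ≤ (-2503 / 1000000 : ℝ) := by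
  obtain ⟨h1, h2⟩ := log_bracket (a := (399 / 400 : ℝ)) (x := (199 / 599 : ℝ)) (-1) 10 (by norm_num) (by norm_num) (by norm_num)
  norm_num [Finset.sum_range_succ] at h1 h2
  constructor <;> linarith [log_two_gt_d9, log_two_lt_d9]

lemma log499_500 : (-10011 / 5000000 : ℝ) ≤ log (499 / 500 : ℝ) ∧ log (499 / 500 : ℝ) ≤ (-20019 / 10000000 : ℝ) := by
  obtain ⟨h1, h2⟩ := log_bracket (a := (499 / 500 : ℝ)) (x := (249 / 749 : ℝ)) (-1) 10 (by norm_num) (by norm_num) (by norm_num)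
  norm_num [Finset.sum_range_succ] at h1 h2
  constructor <;> linarith [log_two_gt_d9, log_two_lt_d9]

lemma ent1_500 : (14427 / 1000000 : ℝ) ≤ binEntropy (1 / 500 : ℝ) ∧ binEntropy (1 / 500 : ℝ) ≤ (5771 / 400000 : ℝ) := by
  obtain ⟨a1, a2⟩ := log1_500
  obtain ⟨b1, b2⟩ := log499_500
  rw [binEntropy_eq_negMulLog_add_negMulLog_one_sub]
  norm_num [negMulLog]
  constructor <;> linarith

lemma ent1_400 : (174753 / 10000000 : ℝ) ≤ binEntropy (1 / 400 : ℝ) ∧ binEntropy (1 / 400 : ℝ) ≤ (87379 / 5000000 : ℝ) := by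
  obtain ⟨a1, a2⟩ := log1_400
  obtain ⟨b1, b2⟩ := log399_400
  rw [binEntropy_eq_negMulLog_add_negMulLog_one_sub]
  norm_num [negMulLog]
  constructor <;> linarith

lemma ent3_1000 : (204227 / 10000000 : ℝ) ≤ binEntropy (3 / 1000 : ℝ) ∧ binEntropy (3 / 1000 : ℝ) ≤ (25529 / 1250000 : ℝ) := by
  obtain ⟨a1, a2⟩ := log3_1000
  obtain ⟨b1, b2⟩ := log997_1000
  rw [binEntropy_eq_negMulLog_add_negMulLog_one_sub]
  norm_num [negMulLog]
  constructor <;> linarith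

lemma ent7_2000 : (232861 / 10000000 : ℝ) ≤ binEntropy (7 / 2000 : ℝ) ∧ binEntropy (7 / 2000 : ℝ) ≤ (116433 / 5000000 : ℝ) := by
  obtain ⟨a1, a2⟩ := log7_2000
  obtain ⟨b1, b2⟩ := log1993_2000
  rw [binEntropy_eq_negMulLog_add_negMulLog_one_sub]
  norm_num [negMulLog]
  constructor <;> linarith

lemma ent3_500 : (366777 / 10000000 : ℝ) ≤ binEntropy (3 / 500 : ℝ) ∧ binEntropy (3 / 500 : ℝ) ≤ (183391 / 5000000 : ℝ) := by
  obtain ⟨a1, a2⟩ := log3_500
  obtain ⟨b1, b2⟩ := log497_500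
  rw [binEntropy_eq_negMulLog_add_negMulLog_one_sub]
  norm_num [negMulLog]
  constructor <;> linarith

lemma ent7_1000 : (417081 / 10000000 : ℝ) ≤ binEntropy (7 / 1000 : ℝ) ∧ binEntropy (7 / 1000 : ℝ) ≤ (208543 / 5000000 : ℝ) := by
  obtain ⟨a1, a2⟩ := log7_1000
  obtain ⟨b1, b2⟩ := log993_1000
  rw [binEntropy_eq_negMulLog_add_negMulLog_one_sub]
  norm_num [negMulLog]
  constructor <;> linarith

lemma ent3_400 : (441679 / 10000000 : ℝ) ≤ binEntropy (3 / 400 : ℝ) ∧ binEntropy (3 / 400 : ℝ) ≤ (110421 / 2500000 : ℝ) := by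
  obtain ⟨a1, a2⟩ := log3_400
  obtain ⟨b1, b2⟩ := log397_400
  rw [binEntropy_eq_negMulLog_add_negMulLog_one_sub]
  norm_num [negMulLog]
  constructor <;> linarith

lemma ent17_2000 : (489889 / 10000000 : ℝ) ≤ binEntropy (17 / 2000 : ℝ) ∧ binEntropy (17 / 2000 : ℝ) ≤ (244947 / 5000000 : ℝ) := by
  obtain ⟨a1, a2⟩ := log17_2000
  obtain ⟨b1, b2⟩ := log1983_2000
  rw [binEntropy_eq_negMulLog_add_negMulLog_one_sub]
  norm_num [negMulLog]
  constructor <;> linarith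

lemma ent1_100 : (560013 / 10000000 : ℝ) ≤ binEntropy (1 / 100 : ℝ) ∧ binEntropy (1 / 100 : ℝ) ≤ (280009 / 5000000 : ℝ) := by
  obtain ⟨a1, a2⟩ := log1_100
  obtain ⟨b1, b2⟩ := log99_100
  rw [binEntropy_eq_negMulLog_add_negMulLog_one_sub]
  norm_num [negMulLog]
  constructor <;> linarith

lemma ent13_1000 : (346857 / 5000000 : ℝ) ≤ binEntropy (13 / 1000 : ℝ) ∧ binEntropy (13 / 1000 : ℝ) ≤ (693719 / 10000000 : ℝ) := by
  obtain ⟨a1, a2⟩ := log13_1000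
  obtain ⟨b1, b2⟩ := log987_1000
  rw [binEntropy_eq_negMulLog_add_negMulLog_one_sub]
  norm_num [negMulLog]
  constructor <;> linarith

lemma ent1_40 : (584533 / 5000000 : ℝ) ≤ binEntropy (1 / 40 : ℝ) ∧ binEntropy (1 / 40 : ℝ) ≤ (1169071 / 10000000 : ℝ) := by
  obtain ⟨a1, a2⟩ := log1_40
  obtain ⟨b1, b2⟩ := log39_40
  rw [binEntropy_eq_negMulLog_add_negMulLog_one_sub]
  norm_num [negMulLog]
  constructor <;> linarith

lemma ent13_500 : (1205499 / 10000000 : ℝ) ≤ binEntropy (13 / 500 : ℝ) ∧ binEntropy (13 / 500 : ℝ) ≤ (9418 / 78125 : ℝ) := by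
  obtain ⟨a1, a2⟩ := log13_500
  obtain ⟨b1, b2⟩ := log487_500
  rw [binEntropy_eq_negMulLog_add_negMulLog_one_sub]
  norm_num [negMulLog]
  constructor <;> linarith

lemma ent29_1000 : (328121 / 2500000 : ℝ) ≤ binEntropy (29 / 1000 : ℝ) ∧ binEntropy (29 / 1000 : ℝ) ≤ (1312489 / 10000000 : ℝ) := by
  obtain ⟨a1, a2⟩ := log29_1000
  obtain ⟨b1, b2⟩ := log971_1000
  rw [binEntropy_eq_negMulLog_add_negMulLog_one_sub]
  norm_num [negMulLog]
  constructor <;> linarith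

lemma ent17_500 : (59353 / 400000 : ℝ) ≤ binEntropy (17 / 500 : ℝ) ∧ binEntropy (17 / 500 : ℝ) ≤ (148383 / 1000000 : ℝ) := by
  obtain ⟨a1, a2⟩ := log17_500
  obtain ⟨b1, b2⟩ := log483_500
  rw [binEntropy_eq_negMulLog_add_negMulLog_one_sub]
  norm_num [negMulLog]
  constructor <;> linarith

lemma ent77_2000 : (101967 / 625000 : ℝ) ≤ binEntropy (77 / 2000 : ℝ) ∧ binEntropy (77 / 2000 : ℝ) ≤ (1631477 / 10000000 : ℝ) := by
  obtain ⟨a1, a2⟩ := log77_2000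
  obtain ⟨b1, b2⟩ := log1923_2000
  rw [binEntropy_eq_negMulLog_add_negMulLog_one_sub]
  norm_num [negMulLog]
  constructor <;> linarith

lemma ent83_2000 : (86341 / 500000 : ℝ) ≤ binEntropy (83 / 2000 : ℝ) ∧ binEntropy (83 / 2000 : ℝ) ≤ (69073 / 400000 : ℝ) := by
  obtain ⟨a1, a2⟩ := log83_2000
  obtain ⟨b1, b2⟩ := log1917_2000
  rw [binEntropy_eq_negMulLog_add_negMulLog_one_sub]
  norm_num [negMulLog]
  constructor <;> linarith

lemma ent9_200 : (1835209 / 10000000 : ℝ) ≤ binEntropy (9 / 200 : ℝ) ∧ binEntropy (9 / 200 : ℝ) ≤ (917607 / 5000000 : ℝ) := by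
  obtain ⟨a1, a2⟩ := log9_200
  obtain ⟨b1, b2⟩ := log191_200
  rw [binEntropy_eq_negMulLog_add_negMulLog_one_sub]
  norm_num [negMulLog]
  constructor <;> linarith

lemma ent47_1000 : (1895851 / 10000000 : ℝ) ≤ binEntropy (47 / 1000 : ℝ) ∧ binEntropy (47 / 1000 : ℝ) ≤ (118491 / 625000 : ℝ) := by
  obtain ⟨a1, a2⟩ := log47_1000
  obtain ⟨b1, b2⟩ := log953_1000
  rw [binEntropy_eq_negMulLog_add_negMulLog_one_sub]
  norm_num [negMulLog]
  constructor <;> linarith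

lemma ent109_2000 : (264447 / 1250000 : ℝ) ≤ binEntropy (109 / 2000 : ℝ) ∧ binEntropy (109 / 2000 : ℝ) ≤ (2115581 / 10000000 : ℝ) := by
  obtain ⟨a1, a2⟩ := log109_2000
  obtain ⟨b1, b2⟩ := log1891_2000
  rw [binEntropy_eq_negMulLog_add_negMulLog_one_sub]
  norm_num [negMulLog]
  constructor <;> linarith

lemma ent11_200 : (2129819 / 10000000 : ℝ) ≤ binEntropy (11 / 200 : ℝ) ∧ binEntropy (11 / 200 : ℝ) ≤ (66557 / 312500 : ℝ) := by
  obtain ⟨a1, a2⟩ := log11_200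
  obtain ⟨b1, b2⟩ := log189_200
  rw [binEntropy_eq_negMulLog_add_negMulLog_one_sub]
  norm_num [negMulLog]
  constructor <;> linarith

lemma ent77_1000 : (1356901 / 5000000 : ℝ) ≤ binEntropy (77 / 1000 : ℝ) ∧ binEntropy (77 / 1000 : ℝ) ≤ (2713807 / 10000000 : ℝ) := by
  obtain ⟨a1, a2⟩ := log77_1000
  obtain ⟨b1, b2⟩ := log923_1000
  rw [binEntropy_eq_negMulLog_add_negMulLog_one_sub]
  norm_num [negMulLog]
  constructor <;> linarith

lemma ent21_250 : (1442157 / 5000000 : ℝ) ≤ binEntropy (21 / 250 : ℝ) ∧ binEntropy (21 / 250 : ℝ) ≤ (2884319 / 10000000 : ℝ) := by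
  obtain ⟨a1, a2⟩ := log21_250
  obtain ⟨b1, b2⟩ := log229_250
  rw [binEntropy_eq_negMulLog_add_negMulLog_one_sub]
  norm_num [negMulLog]
  constructor <;> linarith

lemma ent91_1000 : (3048451 / 10000000 : ℝ) ≤ binEntropy (91 / 1000 : ℝ) ∧ binEntropy (91 / 1000 : ℝ) ≤ (381057 / 1250000 : ℝ) := by
  obtain ⟨a1, a2⟩ := log91_1000
  obtain ⟨b1, b2⟩ := log909_1000
  rw [binEntropy_eq_negMulLog_add_negMulLog_one_sub]
  norm_num [negMulLog]
  constructor <;> linarith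

lemma ent41_400 : (3305413 / 10000000 : ℝ) ≤ binEntropy (41 / 400 : ℝ) ∧ binEntropy (41 / 400 : ℝ) ≤ (1652709 / 5000000 : ℝ) := by
  obtain ⟨a1, a2⟩ := log41_400
  obtain ⟨b1, b2⟩ := log359_400
  rw [binEntropy_eq_negMulLog_add_negMulLog_one_sub]
  norm_num [negMulLog]
  constructor <;> linarith

lemma ent21_200 : (83983 / 250000 : ℝ) ≤ binEntropy (21 / 200 : ℝ) ∧ binEntropy (21 / 200 : ℝ) ≤ (134373 / 400000 : ℝ) := by
  obtain ⟨a1, a2⟩ := log21_200
  obtain ⟨b1, b2⟩ := log179_200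
  rw [binEntropy_eq_negMulLog_add_negMulLog_one_sub]
  norm_num [negMulLog]
  constructor <;> linarith

lemma ent23_200 : (892107 / 2500000 : ℝ) ≤ binEntropy (23 / 200 : ℝ) ∧ binEntropy (23 / 200 : ℝ) ≤ (3568433 / 10000000 : ℝ) := by
  obtain ⟨a1, a2⟩ := log23_200
  obtain ⟨b1, b2⟩ := log177_200
  rw [binEntropy_eq_negMulLog_add_negMulLog_one_sub]
  norm_num [negMulLog]
  constructor <;> linarith

lemma ent5981_50000 : (3661669 / 10000000 : ℝ) ≤ binEntropy (5981 / 50000 : ℝ) ∧ binEntropy (5981 / 50000 : ℝ) ≤ (1830837 / 5000000 : ℝ) := by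
  obtain ⟨a1, a2⟩ := log5981_50000
  obtain ⟨b1, b2⟩ := log44019_50000
  rw [binEntropy_eq_negMulLog_add_negMulLog_one_sub]
  norm_num [negMulLog]
  constructor <;> linarith

lemma ent1_8 : (3767699 / 10000000 : ℝ) ≤ binEntropy (1 / 8 : ℝ) ∧ binEntropy (1 / 8 : ℝ) ≤ (470963 / 1250000 : ℝ) := by
  obtain ⟨a1, a2⟩ := log1_8
  obtain ⟨b1, b2⟩ := log7_8
  rw [binEntropy_eq_negMulLog_add_negMulLog_one_sub]
  norm_num [negMulLog]
  constructor <;> linarith

lemma ent253_2000 : (759357 / 2000000 : ℝ) ≤ binEntropy (253 / 2000 : ℝ) ∧ binEntropy (253 / 2000 : ℝ) ≤ (379679 / 1000000 : ℝ) := by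
  obtain ⟨a1, a2⟩ := log253_2000
  obtain ⟨b1, b2⟩ := log1747_2000
  rw [binEntropy_eq_negMulLog_add_negMulLog_one_sub]
  norm_num [negMulLog]
  constructor <;> linarith

lemma ent33_250 : (975427 / 2500000 : ℝ) ≤ binEntropy (33 / 250 : ℝ) ∧ binEntropy (33 / 250 : ℝ) ≤ (3901713 / 10000000 : ℝ) := by
  obtain ⟨a1, a2⟩ := log33_250
  obtain ⟨b1, b2⟩ := log217_250
  rw [binEntropy_eq_negMulLog_add_negMulLog_one_sub]
  norm_num [negMulLog]
  constructor <;> linarith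

lemma ent53_400 : (1955557 / 5000000 : ℝ) ≤ binEntropy (53 / 400 : ℝ) ∧ binEntropy (53 / 400 : ℝ) ≤ (3911119 / 10000000 : ℝ) := by
  obtain ⟨a1, a2⟩ := log53_400
  obtain ⟨b1, b2⟩ := log347_400
  rw [binEntropy_eq_negMulLog_add_negMulLog_one_sub]
  norm_num [negMulLog]
  constructor <;> linarith

lemma ent2143_15625 : (1998797 / 5000000 : ℝ) ≤ binEntropy (2143 / 15625 : ℝ) ∧ binEntropy (2143 / 15625 : ℝ) ≤ (3997599 / 10000000 : ℝ) := by
  obtain ⟨a1, a2⟩ := log2143_15625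
  obtain ⟨b1, b2⟩ := log13482_15625
  rw [binEntropy_eq_negMulLog_add_negMulLog_one_sub]
  norm_num [negMulLog]
  constructor <;> linarith

lemma ent13733_100000 : (2000433 / 5000000 : ℝ) ≤ binEntropy (13733 / 100000 : ℝ) ∧ binEntropy (13733 / 100000 : ℝ) ≤ (4000871 / 10000000 : ℝ) := by
  obtain ⟨a1, a2⟩ := log13733_100000
  obtain ⟨b1, b2⟩ := log86267_100000
  rw [binEntropy_eq_negMulLog_add_negMulLog_one_sub]
  norm_num [negMulLog]
  constructor <;> linarith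

lemma ent7_50 : (126551 / 312500 : ℝ) ≤ binEntropy (7 / 50 : ℝ) ∧ binEntropy (7 / 50 : ℝ) ≤ (4049637 / 10000000 : ℝ) := by
  obtain ⟨a1, a2⟩ := log7_50
  obtain ⟨b1, b2⟩ := log43_50
  rw [binEntropy_eq_negMulLog_add_negMulLog_one_sub]
  norm_num [negMulLog]
  constructor <;> linarith

lemma ent1777_12500 : (81773 / 200000 : ℝ) ≤ binEntropy (1777 / 12500 : ℝ) ∧ binEntropy (1777 / 12500 : ℝ) ≤ (817731 / 2000000 : ℝ) := by
  obtain ⟨a1, a2⟩ := log1777_12500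
  obtain ⟨b1, b2⟩ := log10723_12500
  rw [binEntropy_eq_negMulLog_add_negMulLog_one_sub]
  norm_num [negMulLog]
  constructor <;> linarith

lemma ent92_625 : (4178211 / 10000000 : ℝ) ≤ binEntropy (92 / 625 : ℝ) ∧ binEntropy (92 / 625 : ℝ) ≤ (522277 / 1250000 : ℝ) := by
  obtain ⟨a1, a2⟩ := log92_625
  obtain ⟨b1, b2⟩ := log533_625
  rw [binEntropy_eq_negMulLog_add_negMulLog_one_sub]
  norm_num [negMulLog]
  constructor <;> linarith

lemma ent37_250 : (4192239 / 10000000 : ℝ) ≤ binEntropy (37 / 250 : ℝ) ∧ binEntropy (37 / 250 : ℝ) ≤ (1048061 / 2500000 : ℝ) := by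
  obtain ⟨a1, a2⟩ := log37_250
  obtain ⟨b1, b2⟩ := log213_250
  rw [binEntropy_eq_negMulLog_add_negMulLog_one_sub]
  norm_num [negMulLog]
  constructor <;> linarith

lemma ent94_625 : (4234021 / 10000000 : ℝ) ≤ binEntropy (94 / 625 : ℝ) ∧ binEntropy (94 / 625 : ℝ) ≤ (2117013 / 5000000 : ℝ) := by
  obtain ⟨a1, a2⟩ := log94_625
  obtain ⟨b1, b2⟩ := log531_625
  rw [binEntropy_eq_negMulLog_add_negMulLog_one_sub]
  norm_num [negMulLog]
  constructor <;> linarith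

lemma ent301_2000 : (529469 / 1250000 : ℝ) ≤ binEntropy (301 / 2000 : ℝ) ∧ binEntropy (301 / 2000 : ℝ) ≤ (4235757 / 10000000 : ℝ) := by
  obtain ⟨a1, a2⟩ := log301_2000
  obtain ⟨b1, b2⟩ := log1699_2000
  rw [binEntropy_eq_negMulLog_add_negMulLog_one_sub]
  norm_num [negMulLog]
  constructor <;> linarith

lemma ent309_2000 : (2152179 / 5000000 : ℝ) ≤ binEntropy (309 / 2000 : ℝ) ∧ binEntropy (309 / 2000 : ℝ) ≤ (4304363 / 10000000 : ℝ) := by
  obtain ⟨a1, a2⟩ := log309_2000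
  obtain ⟨b1, b2⟩ := log1691_2000
  rw [binEntropy_eq_negMulLog_add_negMulLog_one_sub]
  norm_num [negMulLog]
  constructor <;> linarith

lemma ent496_3125 : (437541 / 1000000 : ℝ) ≤ binEntropy (496 / 3125 : ℝ) ∧ binEntropy (496 / 3125 : ℝ) ≤ (875083 / 2000000 : ℝ) := by
  obtain ⟨a1, a2⟩ := log496_3125
  obtain ⟨b1, b2⟩ := log2629_3125
  rw [binEntropy_eq_negMulLog_add_negMulLog_one_sub]
  norm_num [negMulLog]
  constructor <;> linarith

lemma ent539_3125 : (2298983 / 5000000 : ℝ) ≤ binEntropy (539 / 3125 : ℝ) ∧ binEntropy (539 / 3125 : ℝ) ≤ (4597971 / 10000000 : ℝ) := by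
  obtain ⟨a1, a2⟩ := log539_3125
  obtain ⟨b1, b2⟩ := log2586_3125
  rw [binEntropy_eq_negMulLog_add_negMulLog_one_sub]
  norm_num [negMulLog]
  constructor <;> linarith

lemma ent2173_12500 : (1154807 / 2500000 : ℝ) ≤ binEntropy (2173 / 12500 : ℝ) ∧ binEntropy (2173 / 12500 : ℝ) ≤ (4619233 / 10000000 : ℝ) := by
  obtain ⟨a1, a2⟩ := log2173_12500
  obtain ⟨b1, b2⟩ := log10327_12500
  rw [binEntropy_eq_negMulLog_add_negMulLog_one_sub]
  norm_num [negMulLog]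
  constructor <;> linarith

lemma ent71_400 : (4675811 / 10000000 : ℝ) ≤ binEntropy (71 / 400 : ℝ) ∧ binEntropy (71 / 400 : ℝ) ≤ (584477 / 1250000 : ℝ) := by
  obtain ⟨a1, a2⟩ := log71_400
  obtain ⟨b1, b2⟩ := log329_400
  rw [binEntropy_eq_negMulLog_add_negMulLog_one_sub]
  norm_num [negMulLog]
  constructor <;> linarith

lemma ent1123_6250 : (4709077 / 10000000 : ℝ) ≤ binEntropy (1123 / 6250 : ℝ) ∧ binEntropy (1123 / 6250 : ℝ) ≤ (2354541 / 5000000 : ℝ) := by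
  obtain ⟨a1, a2⟩ := log1123_6250
  obtain ⟨b1, b2⟩ := log5127_6250
  rw [binEntropy_eq_negMulLog_add_negMulLog_one_sub]
  norm_num [negMulLog]
  constructor <;> linarith

lemma ent731_4000 : (4755377 / 10000000 : ℝ) ≤ binEntropy (731 / 4000 : ℝ) ∧ binEntropy (731 / 4000 : ℝ) ≤ (2377691 / 5000000 : ℝ) := by
  obtain ⟨a1, a2⟩ := log731_4000
  obtain ⟨b1, b2⟩ := log3269_4000
  rw [binEntropy_eq_negMulLog_add_negMulLog_one_sub]
  norm_num [negMulLog]
  constructor <;> linarith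

lemma ent83_400 : (1276563 / 2500000 : ℝ) ≤ binEntropy (83 / 400 : ℝ) ∧ binEntropy (83 / 400 : ℝ) ≤ (5106257 / 10000000 : ℝ) := by
  obtain ⟨a1, a2⟩ := log83_400
  obtain ⟨b1, b2⟩ := log317_400
  rw [binEntropy_eq_negMulLog_add_negMulLog_one_sub]
  norm_num [negMulLog]
  constructor <;> linarith

lemma ent99_400 : (5595717 / 10000000 : ℝ) ≤ binEntropy (99 / 400 : ℝ) ∧ binEntropy (99 / 400 : ℝ) ≤ (2797861 / 5000000 : ℝ) := by
  obtain ⟨a1, a2⟩ := log99_400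
  obtain ⟨b1, b2⟩ := log301_400
  rw [binEntropy_eq_negMulLog_add_negMulLog_one_sub]
  norm_num [negMulLog]
  constructor <;> linarith

lemma ent101_400 : (706331 / 1250000 : ℝ) ≤ binEntropy (101 / 400 : ℝ) ∧ binEntropy (101 / 400 : ℝ) ≤ (5650653 / 10000000 : ℝ) := by
  obtain ⟨a1, a2⟩ := log101_400
  obtain ⟨b1, b2⟩ := log299_400
  rw [binEntropy_eq_negMulLog_add_negMulLog_one_sub]
  norm_num [negMulLog]
  constructor <;> linarith

lemma ent117_400 : (6043747 / 10000000 : ℝ) ≤ binEntropy (117 / 400 : ℝ) ∧ binEntropy (117 / 400 : ℝ) ≤ (755469 / 1250000 : ℝ) := by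
  obtain ⟨a1, a2⟩ := log117_400
  obtain ⟨b1, b2⟩ := log283_400
  rw [binEntropy_eq_negMulLog_add_negMulLog_one_sub]
  norm_num [negMulLog]
  constructor <;> linarith

lemma ent129_400 : (6287393 / 10000000 : ℝ) ≤ binEntropy (129 / 400 : ℝ) ∧ binEntropy (129 / 400 : ℝ) ≤ (3143699 / 5000000 : ℝ) := by
  obtain ⟨a1, a2⟩ := log129_400
  obtain ⟨b1, b2⟩ := log271_400
  rw [binEntropy_eq_negMulLog_add_negMulLog_one_sub]
  norm_num [negMulLog]
  constructor <;> linarith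

lemma ent691_2000 : (6446161 / 10000000 : ℝ) ≤ binEntropy (691 / 2000 : ℝ) ∧ binEntropy (691 / 2000 : ℝ) ≤ (3223083 / 5000000 : ℝ) := by
  obtain ⟨a1, a2⟩ := log691_2000
  obtain ⟨b1, b2⟩ := log1309_2000
  rw [binEntropy_eq_negMulLog_add_negMulLog_one_sub]
  norm_num [negMulLog]
  constructor <;> linarith

lemma ent44_125 : (6486757 / 10000000 : ℝ) ≤ binEntropy (44 / 125 : ℝ) ∧ binEntropy (44 / 125 : ℝ) ≤ (3243381 / 5000000 : ℝ) := by
  obtain ⟨a1, a2⟩ := log44_125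
  obtain ⟨b1, b2⟩ := log81_125
  rw [binEntropy_eq_negMulLog_add_negMulLog_one_sub]
  norm_num [negMulLog]
  constructor <;> linarith

lemma ent147_400 : (1315223 / 2000000 : ℝ) ≤ binEntropy (147 / 400 : ℝ) ∧ binEntropy (147 / 400 : ℝ) ≤ (164403 / 250000 : ℝ) := by
  obtain ⟨a1, a2⟩ := log147_400
  obtain ⟨b1, b2⟩ := log253_400
  rw [binEntropy_eq_negMulLog_add_negMulLog_one_sub]
  norm_num [negMulLog]
  constructor <;> linarith

lemma ent159_400 : (6719847 / 10000000 : ℝ) ≤ binEntropy (159 / 400 : ℝ) ∧ binEntropy (159 / 400 : ℝ) ≤ (1679963 / 2500000 : ℝ) := by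
  obtain ⟨a1, a2⟩ := log159_400
  obtain ⟨b1, b2⟩ := log241_400
  rw [binEntropy_eq_negMulLog_add_negMulLog_one_sub]
  norm_num [negMulLog]
  constructor <;> linarith

lemma ent409_1000 : (6764923 / 10000000 : ℝ) ≤ binEntropy (409 / 1000 : ℝ) ∧ binEntropy (409 / 1000 : ℝ) ≤ (52851 / 78125 : ℝ) := by
  obtain ⟨a1, a2⟩ := log409_1000
  obtain ⟨b1, b2⟩ := log591_1000
  rw [binEntropy_eq_negMulLog_add_negMulLog_one_sub]
  norm_num [negMulLog]
  constructor <;> linarith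

lemma ent83_200 : (1357253 / 2000000 : ℝ) ≤ binEntropy (83 / 200 : ℝ) ∧ binEntropy (83 / 200 : ℝ) ≤ (678627 / 1000000 : ℝ) := by
  obtain ⟨a1, a2⟩ := log83_200
  obtain ⟨b1, b2⟩ := log117_200
  rw [binEntropy_eq_negMulLog_add_negMulLog_one_sub]
  norm_num [negMulLog]
  constructor <;> linarith

lemma ent891_2000 : (3435973 / 5000000 : ℝ) ≤ binEntropy (891 / 2000 : ℝ) ∧ binEntropy (891 / 2000 : ℝ) ≤ (6871951 / 10000000 : ℝ) := by
  obtain ⟨a1, a2⟩ := log891_2000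
  obtain ⟨b1, b2⟩ := log1109_2000
  rw [binEntropy_eq_negMulLog_add_negMulLog_one_sub]
  norm_num [negMulLog]
  constructor <;> linarith

lemma ent91_200 : (3445457 / 5000000 : ℝ) ≤ binEntropy (91 / 200 : ℝ) ∧ binEntropy (91 / 200 : ℝ) ≤ (6890919 / 10000000 : ℝ) := by
  obtain ⟨a1, a2⟩ := log91_200
  obtain ⟨b1, b2⟩ := log109_200
  rw [binEntropy_eq_negMulLog_add_negMulLog_one_sub]
  norm_num [negMulLog]
  constructor <;> linarith

lemma ent917_2000 : (1379397 / 2000000 : ℝ) ≤ binEntropy (917 / 2000 : ℝ) ∧ binEntropy (917 / 2000 : ℝ) ≤ (689699 / 1000000 : ℝ) := by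
  obtain ⟨a1, a2⟩ := log917_2000
  obtain ⟨b1, b2⟩ := log1083_2000
  rw [binEntropy_eq_negMulLog_add_negMulLog_one_sub]
  norm_num [negMulLog]
  constructor <;> linarith

lemma ent923_2000 : (1380359 / 2000000 : ℝ) ≤ binEntropy (923 / 2000 : ℝ) ∧ binEntropy (923 / 2000 : ℝ) ≤ (34509 / 50000 : ℝ) := by
  obtain ⟨a1, a2⟩ := log923_2000
  obtain ⟨b1, b2⟩ := log1077_2000
  rw [binEntropy_eq_negMulLog_add_negMulLog_one_sub]
  norm_num [negMulLog]
  constructor <;> linarith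

lemma ent487_1000 : (6928089 / 10000000 : ℝ) ≤ binEntropy (487 / 1000 : ℝ) ∧ binEntropy (487 / 1000 : ℝ) ≤ (3464047 / 5000000 : ℝ) := by
  obtain ⟨a1, a2⟩ := log487_1000
  obtain ⟨b1, b2⟩ := log513_1000
  rw [binEntropy_eq_negMulLog_add_negMulLog_one_sub]
  norm_num [negMulLog]
  constructor <;> linarith

lemma ent983_2000 : (866253 / 1250000 : ℝ) ≤ binEntropy (983 / 2000 : ℝ) ∧ binEntropy (983 / 2000 : ℝ) ≤ (6930029 / 10000000 : ℝ) := by
  obtain ⟨a1, a2⟩ := log983_2000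
  obtain ⟨b1, b2⟩ := log1017_2000
  rw [binEntropy_eq_negMulLog_add_negMulLog_one_sub]
  norm_num [negMulLog]
  constructor <;> linarith

lemma ent197_400 : (866293 / 1250000 : ℝ) ≤ binEntropy (197 / 400 : ℝ) ∧ binEntropy (197 / 400 : ℝ) ≤ (6930349 / 10000000 : ℝ) := by
  obtain ⟨a1, a2⟩ := log197_400
  obtain ⟨b1, b2⟩ := log203_400
  rw [binEntropy_eq_negMulLog_add_negMulLog_one_sub]
  norm_num [negMulLog]
  constructor <;> linarith

lemma ent993_2000 : (866403 / 1250000 : ℝ) ≤ binEntropy (993 / 2000 : ℝ) ∧ binEntropy (993 / 2000 : ℝ) ≤ (6931229 / 10000000 : ℝ) := by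
  obtain ⟨a1, a2⟩ := log993_2000
  obtain ⟨b1, b2⟩ := log1007_2000
  rw [binEntropy_eq_negMulLog_add_negMulLog_one_sub]
  norm_num [negMulLog]
  constructor <;> linarith

lemma ent199_400 : (433209 / 625000 : ℝ) ≤ binEntropy (199 / 400 : ℝ) ∧ binEntropy (199 / 400 : ℝ) ≤ (6931349 / 10000000 : ℝ) := by
  obtain ⟨a1, a2⟩ := log199_400
  obtain ⟨b1, b2⟩ := log201_400
  rw [binEntropy_eq_negMulLog_add_negMulLog_one_sub]
  norm_num [negMulLog]
  constructor <;> linarith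

lemma ent101_200 : (6930969 / 10000000 : ℝ) ≤ binEntropy (101 / 200 : ℝ) ∧ binEntropy (101 / 200 : ℝ) ≤ (3465487 / 5000000 : ℝ) := by
  obtain ⟨a1, a2⟩ := log101_200
  obtain ⟨b1, b2⟩ := log99_200
  rw [binEntropy_eq_negMulLog_add_negMulLog_one_sub]
  norm_num [negMulLog]
  constructor <;> linarith

lemma ent129_200 : (1626217 / 2500000 : ℝ) ≤ binEntropy (129 / 200 : ℝ) ∧ binEntropy (129 / 200 : ℝ) ≤ (6504873 / 10000000 : ℝ) := by
  obtain ⟨a1, a2⟩ := log129_200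
  obtain ⟨b1, b2⟩ := log71_200
  rw [binEntropy_eq_negMulLog_add_negMulLog_one_sub]
  norm_num [negMulLog]
  constructor <;> linarith

lemma ent691_1000 : (309149 / 500000 : ℝ) ≤ binEntropy (691 / 1000 : ℝ) ∧ binEntropy (691 / 1000 : ℝ) ≤ (1236597 / 2000000 : ℝ) := by
  obtain ⟨a1, a2⟩ := log691_1000
  obtain ⟨b1, b2⟩ := log309_1000
  rw [binEntropy_eq_negMulLog_add_negMulLog_one_sub]
  norm_num [negMulLog]
  constructor <;> linarith

lemma ent88_125 : (6074367 / 10000000 : ℝ) ≤ binEntropy (88 / 125 : ℝ) ∧ binEntropy (88 / 125 : ℝ) ≤ (1518593 / 2500000 : ℝ) := by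
  obtain ⟨a1, a2⟩ := log88_125
  obtain ⟨b1, b2⟩ := log37_125
  rw [binEntropy_eq_negMulLog_add_negMulLog_one_sub]
  norm_num [negMulLog]
  constructor <;> linarith

lemma ent147_200 : (2891109 / 5000000 : ℝ) ≤ binEntropy (147 / 200 : ℝ) ∧ binEntropy (147 / 200 : ℝ) ≤ (5782223 / 10000000 : ℝ) := by
  obtain ⟨a1, a2⟩ := log147_200
  obtain ⟨b1, b2⟩ := log53_200
  rw [binEntropy_eq_negMulLog_add_negMulLog_one_sub]
  norm_num [negMulLog]
  constructor <;> linarith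

lemma ent159_200 : (63407 / 125000 : ℝ) ≤ binEntropy (159 / 200 : ℝ) ∧ binEntropy (159 / 200 : ℝ) ≤ (1014513 / 2000000 : ℝ) := by
  obtain ⟨a1, a2⟩ := log159_200
  obtain ⟨b1, b2⟩ := log41_200
  rw [binEntropy_eq_negMulLog_add_negMulLog_one_sub]
  norm_num [negMulLog]
  constructor <;> linarith

lemma ent409_500 : (1186031 / 2500000 : ℝ) ≤ binEntropy (409 / 500 : ℝ) ∧ binEntropy (409 / 500 : ℝ) ≤ (4744129 / 10000000 : ℝ) := by
  obtain ⟨a1, a2⟩ := log409_500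
  obtain ⟨b1, b2⟩ := log91_500
  rw [binEntropy_eq_negMulLog_add_negMulLog_one_sub]
  norm_num [negMulLog]
  constructor <;> linarith

lemma ent891_1000 : (107631 / 312500 : ℝ) ≤ binEntropy (891 / 1000 : ℝ) ∧ binEntropy (891 / 1000 : ℝ) ≤ (3444197 / 10000000 : ℝ) := by
  obtain ⟨a1, a2⟩ := log891_1000
  obtain ⟨b1, b2⟩ := log109_1000
  rw [binEntropy_eq_negMulLog_add_negMulLog_one_sub]
  norm_num [negMulLog]
  constructor <;> linarith

lemma ent91_100 : (94543 / 312500 : ℝ) ≤ binEntropy (91 / 100 : ℝ) ∧ binEntropy (91 / 100 : ℝ) ≤ (3025381 / 10000000 : ℝ) := by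
  obtain ⟨a1, a2⟩ := log91_100
  obtain ⟨b1, b2⟩ := log9_100
  rw [binEntropy_eq_negMulLog_add_negMulLog_one_sub]
  norm_num [negMulLog]
  constructor <;> linarith

lemma ent917_1000 : (2860357 / 10000000 : ℝ) ≤ binEntropy (917 / 1000 : ℝ) ∧ binEntropy (917 / 1000 : ℝ) ≤ (1430181 / 5000000 : ℝ) := by
  obtain ⟨a1, a2⟩ := log917_1000
  obtain ⟨b1, b2⟩ := log83_1000
  rw [binEntropy_eq_negMulLog_add_negMulLog_one_sub]
  norm_num [negMulLog]
  constructor <;> linarith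

lemma ent923_1000 : (1356901 / 5000000 : ℝ) ≤ binEntropy (923 / 1000 : ℝ) ∧ binEntropy (923 / 1000 : ℝ) ≤ (2713807 / 10000000 : ℝ) := by
  obtain ⟨a1, a2⟩ := log923_1000
  obtain ⟨b1, b2⟩ := log77_1000
  rw [binEntropy_eq_negMulLog_add_negMulLog_one_sub]
  norm_num [negMulLog]
  constructor <;> linarith

lemma ent487_500 : (1205499 / 10000000 : ℝ) ≤ binEntropy (487 / 500 : ℝ) ∧ binEntropy (487 / 500 : ℝ) ≤ (9418 / 78125 : ℝ) := by
  obtain ⟨a1, a2⟩ := log487_500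
  obtain ⟨b1, b2⟩ := log13_500
  rw [binEntropy_eq_negMulLog_add_negMulLog_one_sub]
  norm_num [negMulLog]
  constructor <;> linarith

lemma ent983_1000 : (26913 / 312500 : ℝ) ≤ binEntropy (983 / 1000 : ℝ) ∧ binEntropy (983 / 1000 : ℝ) ≤ (861221 / 10000000 : ℝ) := by
  obtain ⟨a1, a2⟩ := log983_1000
  obtain ⟨b1, b2⟩ := log17_1000
  rw [binEntropy_eq_negMulLog_add_negMulLog_one_sub]
  norm_num [negMulLog]
  constructor <;> linarith

lemma ent197_200 : (778823 / 10000000 : ℝ) ≤ binEntropy (197 / 200 : ℝ) ∧ binEntropy (197 / 200 : ℝ) ≤ (194707 / 2500000 : ℝ) := by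
  obtain ⟨a1, a2⟩ := log197_200
  obtain ⟨b1, b2⟩ := log3_200
  rw [binEntropy_eq_negMulLog_add_negMulLog_one_sub]
  norm_num [negMulLog]
  constructor <;> linarith

lemma ent993_1000 : (417081 / 10000000 : ℝ) ≤ binEntropy (993 / 1000 : ℝ) ∧ binEntropy (993 / 1000 : ℝ) ≤ (208543 / 5000000 : ℝ) := by
  obtain ⟨a1, a2⟩ := log993_1000
  obtain ⟨b1, b2⟩ := log7_1000
  rw [binEntropy_eq_negMulLog_add_negMulLog_one_sub]
  norm_num [negMulLog]
  constructor <;> linarith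

lemma ent199_200 : (78697 / 2500000 : ℝ) ≤ binEntropy (199 / 200 : ℝ) ∧ binEntropy (199 / 200 : ℝ) ≤ (314793 / 10000000 : ℝ) := by
  obtain ⟨a1, a2⟩ := log199_200
  obtain ⟨b1, b2⟩ := log1_200
  rw [binEntropy_eq_negMulLog_add_negMulLog_one_sub]
  norm_num [negMulLog]
  constructor <;> linarith

end Vale.Agent.P322.Band
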