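import Mathlib
import Vale.Agent.P322.Induct
import Vale.Agent.P322.Reduce

/-!
P322: the bound in the middle range, normalised by the entropy of the noise.
-/

open Real Set

namespace Vale.Agent.P322

/-- The ratio `4ε(1-ε) / h(ε)`. -/
noncomputable def xRatio (ε : ℝ) : ℝ := 4 * ε * (1 - ε) / binEntropy ε

/-- The normalised bound, linear in `x`. -/
noncomputable def mshape (κ x μ : ℝ) : ℝ :=
  (1 - κ * x * log 2) * (4 * μ * (1 - μ)) + κ * x * binEntropy μ

lemma mshape_eq_shape (κ x μ : ℝ) : mshape κ x μ = shape (κ * x * log 2) μ := by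
  have : log 2 ≠ 0 := by positivity
  unfold mshape shape
  field_simp

lemma capBound_eq_mshape {κ ε μ : ℝ} (h0 : 0 < ε) (h1 : ε < 1) :
    capBound κ ε μ = binEntropy ε * mshape κ (xRatio ε) μ := by
  have := (binEntropy_pos h0 h1).ne'
  unfold capBound mshape xRatio
  field_simp

lemma mshape_mix {κ xa xb x μ : ℝ} (w : ℝ) (hw : x = (1 - w) * xa + w * xb) :
    mshape κ x μ = (1 - w) * mshape κ xa μ + w * mshape κ xb μ := by
  subst hw
  unfold mshape
  ring

/-- An affine function of `x` that is nonnegative at both ends of an interval is nonnegative. -/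
lemma affine_nonneg {f : ℝ → ℝ} {xa xb x : ℝ}
    (hf : ∀ w : ℝ, f ((1 - w) * xa + w * xb) = (1 - w) * f xa + w * f xb)
    (hx : x ∈ Icc xa xb) (ha : 0 ≤ f xa) (hb : 0 ≤ f xb) : 0 ≤ f x := by
  rcases (hx.1.trans hx.2).eq_or_lt with h | h
  · rwa [show x = xa by linarith [hx.1, hx.2]]
  set w := (x - xa) / (xb - xa) with hw
  have w0 : 0 ≤ w := div_nonneg (by linarith [hx.1]) (by linarith)
  have w1 : w ≤ 1 := by rw [hw, div_le_one (by linarith)]; linarith [hx.2]
  have e : (1 - w) * xa + w * xb = x := by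
    rw [hw]; field_simp [(sub_pos.2 h).ne']; ring
  rw [← e, hf w]
  exact add_nonneg (mul_nonneg (by linarith) ha) (mul_nonneg w0 hb)

lemma hasDerivAt_xRatio {ε : ℝ} (h0 : 0 < ε) (h1 : ε < 1) :
    HasDerivAt xRatio ((4 * (1 - 2 * ε) * binEntropy ε -
      4 * ε * (1 - ε) * (log (1 - ε) - log ε)) / binEntropy ε ^ 2) ε := by
  have a := ((hasDerivAt_id' ε).const_mul 4).mul ((hasDerivAt_id' ε).const_sub 1)
  refine (a.div (hasDerivAt_binEntropy h0.ne' h1.ne) (binEntropy_pos h0 h1).ne').congr_deriv ?_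
  simp only [Pi.mul_apply]
  ring

/-- `xRatio` is monotone on `(0, 7 / 50]`. -/
lemma xRatio_mono {ε ε' : ℝ} (h0 : 0 < ε) (h : ε ≤ ε') (h1 : ε' ≤ 7 / 50) :
    xRatio ε ≤ xRatio ε' := by
  have hd : ∀ s ∈ Icc ε ε', HasDerivAt xRatio ((4 * (1 - 2 * s) * binEntropy s -
      4 * s * (1 - s) * (log (1 - s) - log s)) / binEntropy s ^ 2) s := fun s hs =>
    hasDerivAt_xRatio (h0.trans_le hs.1) (by linarith [hs.2])
  refine monotoneOn_of_hasDerivWithinAt_nonneg (convex_Icc ε ε')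
    (fun s hs => (hd s hs).continuousAt.continuousWithinAt)
    (fun s hs => (hd s (interior_subset hs)).hasDerivWithinAt) (fun s hs => ?_)
    ⟨le_rfl, h⟩ ⟨h, le_rfl⟩ h
  have hs := interior_subset hs
  have s0 : 0 < s := h0.trans_le hs.1
  have s1 : s ≤ 7 / 50 := hs.2.trans h1
  refine div_nonneg ?_ (sq_nonneg _)
  have a := log_le_sub_one_of_pos (by linarith : 0 < 1 - s)
  have b := mul_le_mul_of_nonneg_left
    (log_le_sub_one_of_pos (div_pos (inv_pos.2 s0) (exp_pos 1))) s0.le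
  rw [log_div (inv_ne_zero s0.ne') (exp_pos 1).ne', log_exp, log_inv,
    show s * (s⁻¹ / exp 1 - 1) = 1 / exp 1 - s by field_simp] at b
  have he : 1 / exp 1 ≤ 1 / 2 := one_div_le_one_div_of_le two_pos (by linarith [add_one_le_exp 1])
  have hsq : (1 / 2 : ℝ) ≤ (1 - s) ^ 2 := by nlinarith
  have := mul_le_mul_of_nonneg_left hsq s0.le
  have c := mul_le_mul_of_nonneg_left a (sq_nonneg (1 - s))
  have e : 4 * (1 - 2 * s) * binEntropy s - 4 * s * (1 - s) * (log (1 - s) - log s) =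
      4 * (s * (s * log s) - (1 - s) ^ 2 * log (1 - s)) := by
    rw [binEntropy_eq_negMulLog_add_negMulLog_one_sub, negMulLog, negMulLog]; ring
  rw [e]
  nlinarith [mul_le_mul_of_nonneg_left b s0.le]

lemma xRatio_mem {ε ea eb xa xb : ℝ} (ha : 0 < ea) (h0 : ea ≤ ε) (h1 : ε ≤ eb)
    (hb : eb ≤ 7 / 50) (hA : xa * binEntropy ea ≤ 4 * ea * (1 - ea))
    (hB : 4 * eb * (1 - eb) ≤ xb * binEntropy eb) : xRatio ε ∈ Icc xa xb := by
  constructor
  · refine le_trans ?_ (xRatio_mono ha h0 (h1.trans hb))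
    rwa [xRatio, le_div_iff₀ (binEntropy_pos ha (by linarith))]
  · refine (xRatio_mono (ha.trans_le h0) h1 hb).trans ?_
    rwa [xRatio, div_le_iff₀ (binEntropy_pos (by linarith) (by linarith))]

end Vale.Agent.P322
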