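import Mathlib
import Vale.Agent.P322.Basic
import Vale.Agent.P322.TanCert

/-!
P322: a certificate on symmetric pairs bounds every pair, at every noise level.
-/

open Real Set

namespace Vale.Agent.P322

/-- The coefficients `certTh ε 0 r` take every value in `(0, 1)`. -/
lemma exists_certTh_eq {ε θ : ℝ} (h0 : 0 < ε) (h1 : ε < 1 / 2) (t0 : 0 < θ) (t1 : θ < 1) :
    ∃ r ∈ Ioo (0 : ℝ) 1, certTh ε 0 r = θ := by
  set l := (1 - 2 * ε) ^ 2 with hl
  have hl1 : l < 1 := by nlinarith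
  have hl0 : 0 ≤ l := sq_nonneg _
  set M := (log 2 + lrate l 1) / θ + 1 with hM
  have hlr : 0 ≤ lrate l 1 := by
    have := log_nonpos (by nlinarith : (0 : ℝ) ≤ 1 - l * 1 ^ 2) (by nlinarith)
    exact div_nonneg (neg_nonneg.2 this) zero_le_two
  have hL : (0 : ℝ) < log 2 := log_pos one_lt_two
  have hM0 : 0 < M := by positivity
  have he1 : exp (-(2 * M)) < 1 := exp_lt_one_iff.2 (by linarith)
  set R := sqrt (1 - exp (-(2 * M))) with hR
  have hRsq : R ^ 2 = 1 - exp (-(2 * M)) := sq_sqrt (by linarith)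
  have hR0 : 0 < R := sqrt_pos.2 (by linarith)
  have hR1 : R < 1 := by
    have := exp_pos (-(2 * M))
    nlinarith
  have hlR : lrate 1 R = M := by
    rw [lrate, one_mul, hRsq, sub_sub_cancel, log_exp]
    ring
  have hsq : ∀ {c x : ℝ}, 0 ≤ c → c ≤ 1 → x ∈ Icc 0 R → c * x ^ 2 < 1 := fun {c x} c0 c1 hx => by
    nlinarith [pow_le_pow_left₀ hx.1 hx.2 2, mul_le_mul_of_nonneg_right c1 (sq_nonneg x)]
  have hnn : ∀ {x : ℝ}, x ∈ Icc 0 R → 0 ≤ lrate 1 x := fun {x} hx => by
    have := hsq zero_le_one le_rfl hx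
    have := log_nonpos (by linarith : (0 : ℝ) ≤ 1 - 1 * x ^ 2) (by nlinarith)
    unfold lrate
    linarith
  have hcont : ContinuousOn (fun r => certTh ε 0 r) (Icc 0 R) := by
    simp only [certTh, certNu, add_zero, div_one, log_one, sub_zero]
    refine continuousOn_const.sub (ContinuousOn.div ?_ ?_ fun x hx => ?_)
    · exact fun x hx => ((hasDerivAt_lrate (hsq zero_le_one le_rfl hx)).sub
        (hasDerivAt_lrate (hsq hl0 hl1.le hx))).continuousAt.continuousWithinAt
    · exact fun x hx => ((hasDerivAt_lrate (hsq zero_le_one le_rfl hx)).const_add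
        (log 2)).continuousAt.continuousWithinAt
    · linarith [hnn hx]
  have hend : certTh ε 0 R < θ := by
    have hle : lrate l R ≤ lrate l 1 := by
      have hR2 : l * R ^ 2 ≤ l * 1 ^ 2 :=
        mul_le_mul_of_nonneg_left (pow_le_pow_left₀ hR0.le hR1.le 2) hl0
      have := log_le_log (by nlinarith : 0 < 1 - l * 1 ^ 2) (by linarith : 1 - l * 1 ^ 2 ≤ 1 - l * R ^ 2)
      exact div_le_div_of_nonneg_right (neg_le_neg this) zero_le_two
    have e : θ * M = log 2 + lrate l 1 + θ := by rw [hM]; field_simp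
    simp only [certTh, certNu, add_zero, div_one, log_one, sub_zero, hlR, ← hl]
    rw [sub_lt_comm, lt_div_iff₀ (by linarith)]
    nlinarith
  have h00 : certTh ε 0 0 = 1 := by simp [certTh, certNu, lrate]
  obtain ⟨r, hr, e⟩ := intermediate_value_Icc' hR0.le hcont
    (show θ ∈ Icc (certTh ε 0 R) (certTh ε 0 0) from ⟨hend.le, by rw [h00]; exact t1.le⟩)
  simp only at e
  refine ⟨r, ⟨hr.1.lt_of_ne fun h => ?_, hr.2.trans_lt hR1⟩, e⟩
  rw [← h, h00] at e
  linarith

/-- A certificate on symmetric pairs bounds the mixed entropy of every pair. -/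
theorem pair_cert_all {ε θ k u v : ℝ} (he : 0 < ε) (he1 : ε < 1 / 2) (hθ0 : 0 < θ) (hθ1 : θ < 1)
    (hc : Cert ε θ k) (hu : u ∈ Icc (0 : ℝ) 1) (hv : v ∈ Icc (0 : ℝ) 1) :
    θ * avgEnt u v + k * |u - v| ≤ mixEnt ε u v := by
  obtain ⟨r, ⟨r0, r1⟩, hr⟩ := exists_certTh_eq he he1 hθ0 hθ1
  have hsym := sym_cert he he1 r0 r1 hu hv
  have heq := tan_cert_eq (ε := ε) (a := (1 - r) / 2) (b := (1 + r) / 2) he he1 (by linarith)
    (by linarith) (by linarith)
  rw [show 1 - (1 - r) / 2 - (1 + r) / 2 = 0 by ring, show (1 + r) / 2 - (1 - r) / 2 = r by ring,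
    certGam_zero, hr] at heq
  have havg : avgEnt ((1 - r) / 2) ((1 + r) / 2) = binEntropy ((1 - r) / 2) := by
    rw [avgEnt, show (1 + r) / 2 = 1 - (1 - r) / 2 by ring, binEntropy_one_sub]
    ring
  have hmix : mixEnt ε ((1 - r) / 2) ((1 + r) / 2) =
      binEntropy (ε + (1 - 2 * ε) * ((1 - r) / 2)) := by
    rw [mixEnt, show ε * ((1 - r) / 2) + (1 - ε) * ((1 + r) / 2) =
        1 - (ε + (1 - 2 * ε) * ((1 - r) / 2)) by ring, binEntropy_one_sub,
      show (1 - ε) * ((1 - r) / 2) + ε * ((1 + r) / 2) = ε + (1 - 2 * ε) * ((1 - r) / 2) by ring]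
    ring
  rw [havg, hmix] at heq
  have hk := hc ((1 - r) / 2) ⟨by linarith, by linarith⟩
  have hle : k ≤ certK ε 0 r := by
    refine le_of_mul_le_mul_right ?_ r0
    linarith
  rw [hr] at hsym
  nlinarith [mul_le_mul_of_nonneg_right hle (abs_nonneg (u - v))]

end Vale.Agent.P322
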