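import Mathlib
import Vale.Agent.P322.Mid.Basic
import Vale.Agent.P322.Mid.Pair
import Vale.Agent.P322.Ends
import Vale.Agent.P322.Transfer

/-!
P322: steps from a symmetric certificate for means in a central range.
-/

open Real Set

namespace Vale.Agent.P322

/-- The normalised induction inequality at distance `d` and centre `m`. -/
noncomputable def midAt (κ x θ k m d : ℝ) : ℝ :=
  θ * ((mshape κ x (m - d / 2) + mshape κ x (m + d / 2)) / 2) + k * d - mshape κ x m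

lemma midAt_affine (κ θ k m d xa xb w : ℝ) :
    midAt κ ((1 - w) * xa + w * xb) θ k m d =
      (1 - w) * midAt κ xa θ k m d + w * midAt κ xb θ k m d := by
  unfold midAt mshape
  ring

lemma midAt_half (κ x θ k d : ℝ) :
    midAt κ x θ k (1 / 2) d = endMid (κ * x * log 2) θ k d := by
  rw [midAt, endMid, mshape_eq_shape, mshape_eq_shape, mshape_eq_shape, shape_half,
    show 1 / 2 - d / 2 = 1 - (1 + d) / 2 by ring, shape_one_sub,
    show 1 / 2 + d / 2 = (1 + d) / 2 by ring]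
  ring

lemma midAt_top (κ x θ k d : ℝ) :
    midAt κ x θ k (1 - d / 2) d = endEdge (κ * x * log 2) θ k d := by
  rw [midAt, endEdge, mshape_eq_shape, mshape_eq_shape, mshape_eq_shape, shape_one_sub,
    show 1 - d / 2 - d / 2 = 1 - d by ring, shape_one_sub,
    show 1 - d / 2 + d / 2 = 1 - 0 by ring, shape_one_sub, shape_zero]
  ring

lemma midAt_concave {κ x θ k m : ℝ} (hc : 0 ≤ κ * x * log 2) (hc1 : κ * x * log 2 ≤ 1)
    (hθ : 0 ≤ θ) {x₀ x₁ d : ℝ} (hx : 0 ≤ x₀) (hl : x₁ / 2 ≤ m) (hu : m + x₁ / 2 ≤ 1)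
    (hd : d ∈ Icc x₀ x₁) (h0 : 0 ≤ midAt κ x θ k m x₀) (h1 : 0 ≤ midAt κ x θ k m x₁) :
    0 ≤ midAt κ x θ k m d := by
  have hfun : midAt κ x θ k m = fun d => θ * ((shape (κ * x * log 2) (m - d / 2) +
      shape (κ * x * log 2) (m + d / 2)) / 2) + k * d - shape (κ * x * log 2) m := by
    funext d; simp only [midAt, mshape_eq_shape]
  rw [hfun] at h0 h1 ⊢
  refine ge_of_ends (f := fun d => θ * ((shape (κ * x * log 2) (m - d / 2) +
      shape (κ * x * log 2) (m + d / 2)) / 2) + k * d - shape (κ * x * log 2) m) (concaveOn_of_hasDerivWithinAt2_nonpos (convex_Icc x₀ x₁)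
    (f' := fun d => θ * ((shapeDeriv (κ * x * log 2) (m - d / 2) * (-(1 / 2)) +
      shapeDeriv (κ * x * log 2) (m + d / 2) * (1 / 2)) / 2) + k)
    (f'' := fun d => θ * ((shapeDeriv2 (κ * x * log 2) (m - d / 2) * (-(1 / 2)) * (-(1 / 2)) +
      shapeDeriv2 (κ * x * log 2) (m + d / 2) * (1 / 2) * (1 / 2)) / 2)) ?_ ?_ ?_ ?_) hd h0 h1
  · have := continuous_shape (κ * x * log 2)
    fun_prop
  · intro s hs
    rw [interior_Icc] at hs
    have p : ∀ μ, 0 < μ → μ < 1 → HasDerivAt (shape (κ * x * log 2))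
        (shapeDeriv (κ * x * log 2) μ) μ := fun μ => hasDerivAt_shape
    have A := (p (m - s / 2) (by linarith [hs.1, hs.2]) (by linarith [hs.1, hs.2])).comp s
      (((hasDerivAt_id' s).div_const 2).const_sub m)
    have B := (p (m + s / 2) (by linarith [hs.1, hs.2]) (by linarith [hs.1, hs.2])).comp s
      (((hasDerivAt_id' s).div_const 2).const_add m)
    have := ((((A.add B).div_const 2).const_mul θ).add
      ((hasDerivAt_id' s).const_mul k)).sub_const (shape (κ * x * log 2) m)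
    refine (this.congr_deriv ?_).hasDerivWithinAt
    ring
  · intro s hs
    rw [interior_Icc] at hs
    have p : ∀ μ, 0 < μ → μ < 1 → HasDerivAt (shapeDeriv (κ * x * log 2))
        (shapeDeriv2 (κ * x * log 2) μ) μ := fun μ => hasDerivAt_shapeDeriv
    have A := ((p (m - s / 2) (by linarith [hs.1, hs.2]) (by linarith [hs.1, hs.2])).comp s
      (((hasDerivAt_id' s).div_const 2).const_sub m)).mul_const (-(1 / 2))
    have B := ((p (m + s / 2) (by linarith [hs.1, hs.2]) (by linarith [hs.1, hs.2])).comp s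
      (((hasDerivAt_id' s).div_const 2).const_add m)).mul_const (1 / 2)
    have := (((A.add B).div_const 2).const_mul θ).add_const k
    refine (this.congr_deriv ?_).hasDerivWithinAt
    ring
  · intro s hs
    rw [interior_Icc] at hs
    have neg : ∀ μ, 0 < μ → μ < 1 → shapeDeriv2 (κ * x * log 2) μ ≤ 0 := fun μ u0 u1 => by
      have := mul_nonneg (div_nonneg hc (log_nonneg one_le_two))
        (one_div_nonneg.2 (mul_pos u0 (sub_pos.2 u1)).le)
      unfold shapeDeriv2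
      linarith
    have := neg (m - s / 2) (by linarith [hs.1, hs.2]) (by linarith [hs.1, hs.2])
    have := neg (m + s / 2) (by linarith [hs.1, hs.2]) (by linarith [hs.1, hs.2])
    exact mul_nonpos_of_nonneg_of_nonpos hθ (by linarith)

/-- The induction inequality for pairs at distance `d` with centre in a symmetric interval follows
from the central pair and the pair at the end of the interval. -/
theorem reduce_mid {c θ k a b : ℝ} (hc : 0 ≤ c) (hc1 : c ≤ 1) {m₁ : ℝ} (hθ : 0 ≤ θ) (hθ1 : θ ≤ 1)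
    (ha : a ∈ Icc (0 : ℝ) 1) (hb : b ∈ Icc (0 : ℝ) 1)
    (hm₁ : m₁ + |a - b| / 2 ≤ 1) (hlo : 1 - m₁ ≤ (a + b) / 2) (hhi : (a + b) / 2 ≤ m₁)
    (h0 : 0 ≤ endMid c θ k |a - b|)
    (h1 : shape c m₁ ≤ θ * ((shape c (m₁ - |a - b| / 2) + shape c (m₁ + |a - b| / 2)) / 2) +
      k * |a - b|) :
    shape c ((a + b) / 2) ≤ θ * ((shape c a + shape c b) / 2) + k * |a - b| := by
  wlog hab : b ≤ a generalizing a b
  · have := this hb ha (by rwa [abs_sub_comm]) (by rwa [add_comm]) (by rwa [add_comm])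
      (by rwa [abs_sub_comm]) (by rwa [abs_sub_comm]) (le_of_not_ge hab)
    rw [abs_sub_comm, add_comm a b, add_comm (shape c a)]
    exact this
  wlog hm : 1 / 2 ≤ (a + b) / 2 generalizing a b
  · have := @this (1 - b) (1 - a) ⟨by linarith [hb.2], by linarith [hb.1]⟩
      ⟨by linarith [ha.2], by linarith [ha.1]⟩ (by rwa [show 1 - b - (1 - a) = a - b by ring])
      (by linarith) (by linarith)
      (by rwa [show 1 - b - (1 - a) = a - b by ring])
      (by rwa [show 1 - b - (1 - a) = a - b by ring]) (by linarith) (by linarith)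
    rw [show 1 - b - (1 - a) = a - b by ring,
      show (1 - b + (1 - a)) / 2 = 1 - (a + b) / 2 by ring, shape_one_sub, shape_one_sub,
      shape_one_sub] at this
    linarith
  obtain ⟨hb0, -⟩ := hb
  obtain ⟨-, ha1⟩ := ha
  have habs : |a - b| = a - b := abs_of_nonneg (by linarith)
  rw [habs] at h0 h1 hm₁ ⊢
  set e := (a - b) / 2 with he
  set T := m₁ - 1 / 2 with hT
  let ψ : ℝ → ℝ := fun t =>
    θ * ((shape c (1 / 2 + t - e) + shape c (1 / 2 + t + e)) / 2) + k * (a - b) -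
      shape c (1 / 2 + t)
  let ψ' : ℝ → ℝ := fun t =>
    θ * (shapeDeriv c (1 / 2 + t - e) + shapeDeriv c (1 / 2 + t + e)) / 2 -
      shapeDeriv c (1 / 2 + t)
  have hψ0 : ψ 0 = endMid c θ k (a - b) := by
    simp only [ψ, endMid, add_zero]
    rw [show 1 / 2 - e = 1 - (1 + (a - b)) / 2 by rw [he]; ring, shape_one_sub,
      show 1 / 2 + e = (1 + (a - b)) / 2 by rw [he]; ring, shape_half]
    ring
  have hψT : 0 ≤ ψ T := by
    simp only [ψ, hT, he]
    rw [show 1 / 2 + (m₁ - 1 / 2) = m₁ by ring]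
    linarith
  have hcont : Continuous ψ := by
    have := continuous_shape c
    fun_prop
  have hd : ∀ t, 0 ≤ t → t < T → HasDerivAt ψ (ψ' t) t := fun t t0 tT => by
    have A := hasDerivAt_shape (c := c) (μ := 1 / 2 + t - e) (by linarith) (by linarith)
    have B := hasDerivAt_shape (c := c) (μ := 1 / 2 + t + e) (by linarith) (by linarith)
    have C := hasDerivAt_shape (c := c) (μ := 1 / 2 + t) (by linarith) (by linarith)
    have := (((((A.comp t (((hasDerivAt_id t).const_add (1 / 2)).sub_const e)).add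
      (B.comp t (((hasDerivAt_id t).const_add (1 / 2)).add_const e))).div_const 2).const_mul
        θ).add_const (k * (a - b))).sub (C.comp t ((hasDerivAt_id t).const_add (1 / 2)))
    refine this.congr_deriv ?_
    simp only [ψ', mul_one]
    ring
  have hd2 : ∀ t, 0 ≤ t → t < T → HasDerivAt ψ'
      (θ * (shapeDeriv2 c (1 / 2 + t - e) + shapeDeriv2 c (1 / 2 + t + e)) / 2 -
        shapeDeriv2 c (1 / 2 + t)) t := fun t t0 tT => by
    have A := hasDerivAt_shapeDeriv (c := c) (μ := 1 / 2 + t - e) (by linarith) (by linarith)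
    have B := hasDerivAt_shapeDeriv (c := c) (μ := 1 / 2 + t + e) (by linarith) (by linarith)
    have C := hasDerivAt_shapeDeriv (c := c) (μ := 1 / 2 + t) (by linarith) (by linarith)
    have := ((((A.comp t (((hasDerivAt_id t).const_add (1 / 2)).sub_const e)).add
      (B.comp t (((hasDerivAt_id t).const_add (1 / 2)).add_const e))).const_mul θ).div_const
        2).sub (C.comp t ((hasDerivAt_id t).const_add (1 / 2)))
    refine this.congr_deriv ?_
    simp only [mul_one]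
  suffices h : ∀ t ∈ Icc (0 : ℝ) T, 0 ≤ ψ t by
    have := h ((a + b) / 2 - 1 / 2) ⟨by linarith, by linarith⟩
    simp only [ψ, he] at this
    ring_nf at this ⊢
    linarith
  intro t ⟨t0, tT⟩
  by_cases hpos : ∀ x ∈ Ioo 0 t, 0 ≤ ψ' x
  · have := monotoneOn_of_hasDerivWithinAt_nonneg (convex_Icc 0 t) hcont.continuousOn
      (fun x hx => by
        rw [interior_Icc] at hx
        exact (hd x hx.1.le (hx.2.trans_le tT)).hasDerivWithinAt)
      (fun x hx => hpos x (by simpa using hx)) ⟨le_rfl, t0⟩ ⟨t0, le_rfl⟩ t0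
    linarith
  · push Not at hpos
    obtain ⟨x, ⟨x0, xt⟩, hx⟩ := hpos
    have hz : ψ' 0 = 0 := by
      simp only [ψ', shapeDeriv, add_zero]
      rw [show 1 - (1 / 2 - e) = 1 / 2 + e by ring, show 1 - (1 / 2 + e) = 1 / 2 - e by ring,
        show 1 - 1 / (2 : ℝ) = 1 / 2 by norm_num]
      ring
    obtain ⟨ξ, hξ, hξd⟩ := exists_hasDerivAt_eq_slope ψ'
      (fun s => θ * (shapeDeriv2 c (1 / 2 + s - e) + shapeDeriv2 c (1 / 2 + s + e)) / 2 -
        shapeDeriv2 c (1 / 2 + s)) x0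
      (fun s hs => (hd2 s hs.1 (by linarith [hs.2])).continuousAt.continuousWithinAt)
      (fun s hs => hd2 s hs.1.le (by linarith [hs.2]))
    have hneg : θ * (shapeDeriv2 c (1 / 2 + ξ - e) + shapeDeriv2 c (1 / 2 + ξ + e)) / 2 -
        shapeDeriv2 c (1 / 2 + ξ) < 0 := by
      rw [hξd, hz, sub_zero, sub_zero]
      exact div_neg_of_neg_of_pos hx x0
    have hdec : ∀ y ∈ Ioo x T, ψ' y < 0 := fun y hy => by
      have := antitoneOn_of_hasDerivWithinAt_nonpos (f := ψ') (convex_Icc x y)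
        (fun s hs => (hd2 s (by linarith [hs.1]) (by linarith [hs.2, hy.2])).continuousAt
          |>.continuousWithinAt)
        (fun s hs => by
          rw [interior_Icc] at hs
          exact (hd2 s (by linarith [hs.1]) (by linarith [hs.2, hy.2])).hasDerivWithinAt)
        (fun s hs => by
          rw [interior_Icc] at hs
          exact (deriv2_sign hc hc1 hθ hθ1 (by linarith) hξ.1.le (by linarith [hs.1, hξ.2])
            (by linarith [hs.2, hy.2]) hneg).le)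
        ⟨le_rfl, hy.1.le⟩ ⟨hy.1.le, le_rfl⟩ hy.1.le
      linarith
    have := antitoneOn_of_hasDerivWithinAt_nonpos (convex_Icc x T) hcont.continuousOn
      (fun s hs => by
        rw [interior_Icc] at hs
        exact (hd s (by linarith [hs.1]) hs.2).hasDerivWithinAt)
      (fun s hs => (hdec s (by simpa using hs)).le) ⟨xt.le, tT⟩ ⟨xt.le.trans tT, le_rfl⟩ tT
    linarith


/-- A transferred symmetric certificate gives a step once the normalised inequality holds. -/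
theorem stepAt_of_mshape {κ ε a b eb θ k θ₀ k₀ : ℝ} (h0 : 0 < ε) (h1 : ε ≤ eb) (heb : eb < 1 / 2)
    (hθ₀ : 0 < θ₀) (hθ : θ₀ ≤ θ) (hθ1 : θ < 1) (hk₀ : 0 ≤ k₀) (hk : k₀ * binEntropy eb ≤ k)
    (hc : Cert eb θ k)
    (hmain : mshape κ (xRatio ε) ((a + b) / 2) ≤
      θ₀ * ((mshape κ (xRatio ε) a + mshape κ (xRatio ε) b) / 2) + k₀ * |a - b|) :
    StepAt ε (capBound κ ε) a b := by
  set x := xRatio ε with hxdef
  have hε1 : ε < 1 := by linarith
  have hH := binEntropy_pos h0 hε1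
  have hHb : 0 < binEntropy eb := binEntropy_pos (by linarith) (by linarith)
  intro n u v hu hv hua hvb hD
  have hpt : ∀ y, θ₀ * avgEnt (u y) (v y) + k₀ * binEntropy ε * |u y - v y| ≤
      mixEnt ε (u y) (v y) := fun y => by
    have hp := pair_cert_all h0 (h1.trans_lt heb) (hθ₀.trans_le hθ) hθ1
      (cert_transfer h0.le h1 (by linarith) heb hθ1.le hc) (hu y) (hv y)
    have p1 : 0 ≤ avgEnt (u y) (v y) := by
      have := binEntropy_nonneg (hu y).1 (hu y).2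
      have := binEntropy_nonneg (hv y).1 (hv y).2
      unfold avgEnt; positivity
    have := mul_le_mul_of_nonneg_right hθ p1
    have := mul_le_mul_of_nonneg_right (mul_le_mul_of_nonneg_right ((le_div_iff₀ hHb).2 hk) hH.le)
      (abs_nonneg (u y - v y))
    linarith
  have hN : (0 : ℝ) < 1 / 2 ^ n := by positivity
  have hs := mul_le_mul_of_nonneg_left
    (Finset.sum_le_sum fun y (_ : y ∈ Finset.univ) => hpt y) hN.le
  simp only [Finset.sum_add_distrib, ← Finset.mul_sum] at hs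
  have habs : |a - b| ≤ (1 / 2 ^ n : ℝ) * ∑ y, |u y - v y| := by
    rw [← hua, ← hvb, ← mul_sub, ← Finset.sum_sub_distrib, abs_mul, abs_of_pos hN]
    exact mul_le_mul_of_nonneg_left (Finset.abs_sum_le_sum_abs _ _) hN.le
  have p := mul_le_mul_of_nonneg_left hD hθ₀.le
  have q := mul_le_mul_of_nonneg_left habs (mul_nonneg hk₀ hH.le)
  have r := mul_le_mul_of_nonneg_left hmain hH.le
  rw [capBound_eq_mshape h0 hε1]
  rw [capBound_eq_mshape h0 hε1, capBound_eq_mshape h0 hε1] at p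
  linarith


/-- A transferred symmetric certificate gives the step for central means. -/
theorem stepAt_center {κ ε a b eb xa xb θ k θ₀ k₀ m₁ x₀ x₁ : ℝ} (hκ : 0 ≤ κ) (h0 : 0 < ε)
    (h1 : ε ≤ eb) (heb : eb < 1 / 2) (hx : xRatio ε ∈ Icc xa xb) (hxa : 0 ≤ xa)
    (hxb : κ * xb * log 2 ≤ 1) (hθ₀ : 0 < θ₀) (hθ : θ₀ ≤ θ) (hθ1 : θ < 1) (hk₀ : 0 ≤ k₀)
    (hk : k₀ * binEntropy eb ≤ k) (hc : Cert eb θ k) (hx₀ : 0 ≤ x₀) (hx₁ : x₁ < 1)
    (hm₁ : m₁ + x₁ / 2 ≤ 1) (hd : |a - b| ∈ Icc x₀ x₁) (ha : a ∈ Icc (0 : ℝ) 1)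
    (hb : b ∈ Icc (0 : ℝ) 1) (hlo : 1 - m₁ ≤ (a + b) / 2) (hhi : (a + b) / 2 ≤ m₁)
    (e00 : 0 ≤ midAt κ xa θ₀ k₀ (1 / 2) x₀) (e01 : 0 ≤ midAt κ xb θ₀ k₀ (1 / 2) x₀)
    (e02 : 0 ≤ midAt κ xa θ₀ k₀ (1 / 2) x₁) (e03 : 0 ≤ midAt κ xb θ₀ k₀ (1 / 2) x₁)
    (e10 : 0 ≤ midAt κ xa θ₀ k₀ m₁ x₀) (e11 : 0 ≤ midAt κ xb θ₀ k₀ m₁ x₀)
    (e12 : 0 ≤ midAt κ xa θ₀ k₀ m₁ x₁) (e13 : 0 ≤ midAt κ xb θ₀ k₀ m₁ x₁) :
    StepAt ε (capBound κ ε) a b := by
  set x := xRatio ε with hxdef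
  have hL : 0 ≤ log 2 := log_nonneg one_le_two
  have hc0 : 0 ≤ κ * x * log 2 := mul_nonneg (mul_nonneg hκ (hxa.trans hx.1)) hL
  have hc1 : κ * x * log 2 ≤ 1 :=
    (mul_le_mul_of_nonneg_right (mul_le_mul_of_nonneg_left hx.2 hκ) hL).trans hxb
  have hm : 1 / 2 ≤ m₁ := by linarith
  have aff : ∀ {m d}, 0 ≤ midAt κ xa θ₀ k₀ m d → 0 ≤ midAt κ xb θ₀ k₀ m d →
      0 ≤ midAt κ x θ₀ k₀ m d := fun p q => affine_nonneg (f := fun x => midAt κ x θ₀ k₀ _ _)
    (midAt_affine κ θ₀ k₀ _ _ xa xb) hx p q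
  have E0 := midAt_concave hc0 hc1 hθ₀.le hx₀ (by linarith) (by linarith) hd (aff e00 e01)
    (aff e02 e03)
  have E1 := midAt_concave hc0 hc1 hθ₀.le hx₀ (by linarith) hm₁ hd (aff e10 e11) (aff e12 e13)
  rw [midAt_half] at E0
  rw [midAt] at E1
  simp only [mshape_eq_shape] at E1
  have hmain := reduce_mid hc0 hc1 (m₁ := m₁) hθ₀.le (hθ.trans hθ1.le) ha hb
    (by linarith [hd.2]) hlo hhi E0 (by linarith)
  simp only [← mshape_eq_shape] at hmain
  exact stepAt_of_mshape h0 h1 heb hθ₀ hθ hθ1 hk₀ hk hc hmain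

/-- A transferred symmetric certificate gives the step for all means at large distances. -/
theorem stepAt_large {κ ε a b eb xa xb θ k θ₀ k₀ x₀ x₁ : ℝ} (hκ : 0 ≤ κ) (h0 : 0 < ε)
    (h1 : ε ≤ eb) (heb : eb < 1 / 2) (hx : xRatio ε ∈ Icc xa xb) (hxa : 0 ≤ xa)
    (hxb : κ * xb * log 2 ≤ 1) (hθ₀ : 0 < θ₀) (hθ : θ₀ ≤ θ) (hθ1 : θ < 1) (hk₀ : 0 ≤ k₀)
    (hk : k₀ * binEntropy eb ≤ k) (hc : Cert eb θ k) (hx₀ : 0 < x₀) (hx₁ : x₁ < 1)
    (hd : |a - b| ∈ Icc x₀ x₁) (ha : a ∈ Icc (0 : ℝ) 1) (hb : b ∈ Icc (0 : ℝ) 1)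
    (e00 : 0 ≤ midAt κ xa θ₀ k₀ (1 / 2) x₀) (e01 : 0 ≤ midAt κ xb θ₀ k₀ (1 / 2) x₀)
    (e02 : 0 ≤ midAt κ xa θ₀ k₀ (1 / 2) x₁) (e03 : 0 ≤ midAt κ xb θ₀ k₀ (1 / 2) x₁)
    (e10 : 0 ≤ midAt κ xa θ₀ k₀ (1 - x₀ / 2) x₀) (e11 : 0 ≤ midAt κ xb θ₀ k₀ (1 - x₀ / 2) x₀)
    (e12 : 0 ≤ midAt κ xa θ₀ k₀ (1 - x₁ / 2) x₁) (e13 : 0 ≤ midAt κ xb θ₀ k₀ (1 - x₁ / 2) x₁) :
    StepAt ε (capBound κ ε) a b := by
  set x := xRatio ε with hxdef
  have hL : 0 ≤ log 2 := log_nonneg one_le_two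
  have hc0 : 0 ≤ κ * x * log 2 := mul_nonneg (mul_nonneg hκ (hxa.trans hx.1)) hL
  have hc1 : κ * x * log 2 ≤ 1 :=
    (mul_le_mul_of_nonneg_right (mul_le_mul_of_nonneg_left hx.2 hκ) hL).trans hxb
  have aff : ∀ {m d}, 0 ≤ midAt κ xa θ₀ k₀ m d → 0 ≤ midAt κ xb θ₀ k₀ m d →
      0 ≤ midAt κ x θ₀ k₀ m d := fun p q => affine_nonneg (f := fun x => midAt κ x θ₀ k₀ _ _)
    (midAt_affine κ θ₀ k₀ _ _ xa xb) hx p q
  have E0 := midAt_concave hc0 hc1 hθ₀.le hx₀.le (by linarith) (by linarith) hd (aff e00 e01)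
    (aff e02 e03)
  have A := aff e10 e11
  have B := aff e12 e13
  rw [midAt_top] at A B
  rw [midAt_half] at E0
  have E1 := endEdge_ge_ends hc0 hθ₀.le (hθ.trans hθ1.le) hx₀ hx₁ hd A B
  have hmain := reduce_ends hc0 hc1 hθ₀.le (hθ.trans hθ1.le) ha hb E0 E1
  simp only [← mshape_eq_shape] at hmain
  exact stepAt_of_mshape h0 h1 heb hθ₀ hθ hθ1 hk₀ hk hc hmain

end Vale.Agent.P322
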