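import Mathlib
import Vale.Agent.P322.Mid.Center
import Vale.Agent.P322.Edge

/-!
P322: steps for pairs of means at distance close to `1`, from the tangent certificates at `g * u`
of a fixed crossover `eb`, where `u = 1 - |a - b|`.
-/

open Real Set

namespace Vale.Agent.P322

/-- The pair of constants. -/
lemma stepAt_dictator {κ ε a b : ℝ} (ha : a ∈ Icc (0 : ℝ) 1) (hb : b ∈ Icc (0 : ℝ) 1)
    (h : |a - b| = 1) : StepAt ε (capBound κ ε) a b := by
  wlog hab : a ≤ b generalizing a b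
  · exact stepAt_comm (this hb ha (by rwa [abs_sub_comm]) (le_of_not_ge hab))
  rw [abs_sub_comm, abs_of_nonneg (by linarith)] at h
  obtain rfl : a = 0 := by linarith [ha.1, hb.2]
  obtain rfl : b = 1 := by linarith
  intro n u v hu hv hua hvb _
  have hu0 : ∀ y, u y = 0 := fun y => by
    have hs : ∑ y, u y = 0 := by
      rcases mul_eq_zero.1 hua with h | h
      · simp at h
      · exact h
    exact (Finset.sum_eq_zero_iff_of_nonneg fun y _ => (hu y).1).1 hs y (Finset.mem_univ y)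
  have hv1 : ∀ y, v y = 1 := fun y => by
    have hs : ∑ y, (1 - v y) = 0 := by
      rw [Finset.sum_sub_distrib]
      simp
      field_simp at hvb
      linarith
    linarith [(Finset.sum_eq_zero_iff_of_nonneg fun y _ => sub_nonneg.2 (hv y).2).1 hs y
      (Finset.mem_univ y)]
  have hm : ∀ y, mixEnt ε (u y) (v y) = binEntropy ε := fun y => by
    rw [hu0, hv1, mixEnt]
    simp
  have h2 : capBound κ ε ((0 + 1) / 2) = binEntropy ε := by
    rw [capBound, show ((0 : ℝ) + 1) / 2 = 2⁻¹ by norm_num, binEntropy_two_inv]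
    ring
  rw [h2]
  simp [hm]

/-- Lower bounds on the two extreme values of the bound near distance `1`. -/
lemma mshape_edge {κ x u : ℝ} (h0 : 0 ≤ κ * x) (h1 : κ * x * log 2 ≤ 1) (hu : 0 < u)
    (hu1 : u < 1) :
    u * ((1 - κ * x * log 2) * (2 * (1 - u)) + κ * x / 2 * (-log u + (1 - u))) ≤
      mshape κ x (u / 2) ∧
    u * ((1 - κ * x * log 2) * (2 * (1 - u)) + κ * x / 2 * (-log u + (1 - u))) ≤
      mshape κ x u / 2 := by
  have hA := sub_nonneg.2 h1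
  constructor
  · have h := le_binEntropy_of_small (p := u / 2) (by linarith) (by linarith)
    rw [log_div hu.ne' (by norm_num)] at h
    have := mul_le_mul_of_nonneg_left h h0
    have := mul_nonneg (mul_nonneg h0 hu.le) (by linarith [log_two_gt_d9] : 0 ≤ log 2 + u / 2)
    have := mul_nonneg hA (sq_nonneg u)
    unfold mshape
    linarith
  · have h := le_binEntropy_of_small hu hu1
    have := mul_le_mul_of_nonneg_left h h0
    unfold mshape
    linarith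

/-- Facts about the tangent at `δ ≤ δ₀` of the crossover `eb`. -/
lemma edge_fam_tangent {eb δ δ₀ S ℓ : ℝ} (he : 0 < eb) (he1 : eb < 1 / 2) (δ0 : 0 < δ)
    (δle : δ ≤ δ₀) (hq : eb + (1 - 2 * eb) * δ₀ < 1 / 2)
    (hcv : (1 - 2 * eb) ^ 2 * (δ₀ * (1 - log δ₀)) ≤
      -(log (eb + (1 - 2 * eb) * δ₀) + log (1 - (eb + (1 - 2 * eb) * δ₀))) * (eb * (1 - eb)))
    (hS : S ≤ log (1 - (eb + (1 - 2 * eb) * δ₀)) - log (eb + (1 - 2 * eb) * δ₀))
    (hℓ : -(log eb + log (1 - eb)) ≤ ℓ) :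
    Cert eb (tanTheta eb δ) (tanSlope eb δ) ∧ tanTheta eb δ ∈ Ioo (0 : ℝ) 1 ∧
      0 ≤ tanSlope eb δ ∧ tanTheta eb δ * (-log δ - log (1 - δ)) ≤ ℓ ∧
      (1 - 2 * eb) * δ * S ≤ binEntropy (eb + (1 - 2 * eb) * δ) - binEntropy eb := by
  have hl : 0 < 1 - 2 * eb := by linarith
  have hlδ := mul_le_mul_of_nonneg_left δle hl.le
  have hl0 := mul_pos hl δ0
  have hgu : δ₀ < 1 / 2 := by
    by_contra h
    linarith [mul_le_mul_of_nonneg_left (not_lt.1 h) hl.le]
  set q := eb + (1 - 2 * eb) * δ with hqdef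
  set q₁ := eb + (1 - 2 * eb) * δ₀ with hq₁
  have hqle : q ≤ q₁ := by linarith
  have hq0 : eb < q := by linarith
  have hqq : eb * (1 - eb) ≤ q * (1 - q) := by
    linarith [mul_nonneg (by linarith : 0 ≤ q - eb) (by linarith : 0 ≤ 1 - eb - q)]
  have hqq1 : q * (1 - q) ≤ q₁ * (1 - q₁) := by
    linarith [mul_nonneg (by linarith : 0 ≤ q₁ - q) (by linarith : 0 ≤ 1 - q₁ - q)]
  have hδδ : δ * (1 - δ) < q * (1 - q) := by
    have := mix_prod eb δ
    rw [← hqdef] at this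
    rw [this]
    have h2 : 0 < 1 - 2 * δ := by linarith
    linarith [mul_pos (mul_pos he (by linarith : 0 < 1 - eb)) (mul_pos h2 h2)]
  have hδp : 0 < δ * (1 - δ) := mul_pos δ0 (by linarith)
  have hqp : 0 < q * (1 - q) := mul_pos (by linarith) (by linarith)
  have eW : log (δ * (1 - δ)) = log δ + log (1 - δ) := log_mul δ0.ne' (by linarith)
  have eq1 : log (q₁ * (1 - q₁)) = log q₁ + log (1 - q₁) :=
    log_mul (by linarith) (by linarith)
  have eqb : log (eb * (1 - eb)) = log eb + log (1 - eb) := log_mul he.ne' (by linarith)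
  have hLW := log_lt_log hδp hδδ
  have hLq1 := log_le_log hqp hqq1
  have hLqb := log_le_log (mul_pos he (by linarith)) hqq
  have hLq0 : log (q * (1 - q)) < 0 := log_neg hqp (by
    linarith [mul_lt_of_lt_one_left (by linarith : 0 < 1 - q) (by linarith : q < 1)])
  have hθ : tanTheta eb δ = log (q * (1 - q)) / log (δ * (1 - δ)) := by rw [tanTheta, ← hqdef]
  have hW0 : log (δ * (1 - δ)) < 0 := hLW.trans hLq0
  have hθ0 : 0 < tanTheta eb δ := hθ ▸ div_pos_of_neg_of_neg hLq0 hW0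
  have hθ1 : tanTheta eb δ < 1 := by rw [hθ, div_lt_one_of_neg hW0]; exact hLW
  have hθW : tanTheta eb δ * (-log δ - log (1 - δ)) = -log (q * (1 - q)) := by
    rw [hθ, div_mul_eq_mul_div, div_eq_iff hW0.ne, eW]
    ring
  have hconv : (1 - 2 * eb) ^ 2 * (δ * (1 - δ)) ≤ tanTheta eb δ * (q * (1 - q)) := by
    have a : δ * (-log δ - log (1 - δ)) ≤ δ₀ * (1 - log δ₀) := by
      have b := mul_le_mul_of_nonneg_left (log_le_sub_one_of_pos (div_pos (δ0.trans_le δle) δ0))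
        δ0.le
      rw [log_div (δ0.trans_le δle).ne' δ0.ne', mul_sub δ (δ₀ / δ) 1, mul_div_cancel₀ _ δ0.ne']
        at b
      have c : -log (1 - δ) ≤ 1 := by
        have := one_sub_inv_le_log_of_pos (by linarith : 0 < 1 - δ)
        have : (1 - δ)⁻¹ ≤ (1 / 2 : ℝ)⁻¹ := inv_anti₀ (by norm_num) (by linarith)
        norm_num at this
        linarith
      have d : 0 ≤ -log δ₀ := neg_nonneg.2 (log_nonpos (δ0.trans_le δle).le (by linarith))
      linarith [mul_le_mul_of_nonneg_left c δ0.le, mul_le_mul_of_nonneg_right δle d]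
    have hWpos : 0 < -log δ - log (1 - δ) := by linarith
    refine le_of_mul_le_mul_right ?_ hWpos
    rw [mul_right_comm (tanTheta eb δ), hθW, mul_assoc, mul_comm (δ * (1 - δ))]
    refine le_trans (mul_le_mul_of_nonneg_left (le_trans ?_ a) (sq_nonneg _)) (hcv.trans ?_)
    · rw [mul_comm]
      exact mul_le_mul_of_nonneg_right (mul_le_of_le_one_right δ0.le (by linarith)) hWpos.le
    · exact mul_le_mul (by linarith) hqq (mul_pos he (by linarith)).le (by linarith)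
  refine ⟨cert_tangent he he1 δ0 (by linarith) hconv, ⟨hθ0, hθ1⟩, ?_, ?_, ?_⟩
  · refine div_nonneg ?_ (by linarith)
    rw [← hqdef]
    have := binEntropy_nonneg δ0.le (by linarith : δ ≤ 1)
    have hmono : binEntropy δ ≤ binEntropy q :=
      binEntropy_strictMonoOn.monotoneOn ⟨δ0.le, by linarith⟩ ⟨by linarith, by linarith⟩
        (by linarith [mul_nonneg he.le (by linarith : 0 ≤ 1 - 2 * δ)])
    linarith [mul_le_mul_of_nonneg_right hθ1.le this]
  · rw [hθW]; linarith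
  · have hHq := binEntropy_le_cross he (by linarith : eb < 1) (by linarith : 0 < q)
      (by linarith : q < 1)
    have hSq : S ≤ log (1 - q) - log q := by
      have := log_le_log (by linarith : 0 < q) hqle
      have := log_le_log (by linarith : 0 < 1 - q₁) (by linarith : 1 - q₁ ≤ 1 - q)
      linarith
    have := mul_le_mul_of_nonneg_left hSq hl0.le
    rw [show eb - q = -((1 - 2 * eb) * δ) by rw [hqdef]; ring] at hHq
    linarith

/-- The bracket in the edge inequality. -/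
lemma edge_bracket {θ τ P R U U₀ T : ℝ} (hθ : 0 ≤ θ) (hτ : θ ≤ τ) (hP : 0 ≤ P) (hU : U₀ ≤ U)
    (hT0 : T ≤ 0) (hT : T ≤ τ * (P * U₀ + R)) : T ≤ θ * (P * U + R) := by
  refine le_trans ?_ (mul_le_mul_of_nonneg_left
    (by linarith [mul_le_mul_of_nonneg_left hU hP] : P * U₀ + R ≤ P * U + R) hθ)
  rcases le_total 0 (P * U₀ + R) with h | h
  · exact hT0.trans (mul_nonneg hθ h)
  · exact hT.trans (mul_le_mul_of_nonpos_right hτ h)

/-- The bracket at distance `1 - u₀`, affine in `x`. -/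
noncomputable def edgeBr (κ eb g u₀ U₀ x : ℝ) : ℝ :=
  (binEntropy eb * ((1 - 2 * (g * u₀)) * (κ * x / 2)) - g) * U₀ +
    (binEntropy eb * ((1 - 2 * (g * u₀)) * ((1 - κ * x * log 2) * (2 * (1 - u₀)) +
      κ * x / 2 * (1 - u₀))) - g * (1 - log g))

/-- The scalar inequality at distance `1 - u`. -/
lemma edge_scalar {θ H X u u₀ δ₀ g y ly U hd hq T l S : ℝ} (hθ : 0 ≤ θ) (hH : 0 < H)
    (hu : 0 < u) (hu' : u ≤ u₀) (hu₀ : u₀ ≤ 1 / 4) (hg : 0 < g) (hgδ : g * u ≤ δ₀)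
    (hδ₀ : δ₀ < 1 / 2) (hy0 : 0 ≤ y) (hy1 : ly ≤ 1) (hU : 0 ≤ U)
    (hX : u * ((1 - ly) * (2 * (1 - u)) + y / 2 * (U + (1 - u))) ≤ X)
    (hhd0 : 0 ≤ hd) (hhd : hd ≤ g * u * (U - log g + 1))
    (hbr : T ≤ θ * ((H * ((1 - 2 * δ₀) * (y / 2)) - g) * U +
      (H * ((1 - 2 * δ₀) * ((1 - ly) * (2 * (1 - u₀)) + y / 2 * (1 - u₀))) - g * (1 - log g))))
    (hl : 0 ≤ l) (hS : 0 ≤ S) (hgain : l * (g * u) * S ≤ hq - H)
    (hmain : (1 - 2 * g) * H ≤ (1 - u₀) * (l * g) * S + T) :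
    1 ≤ θ * X + (hq - θ * hd) / (1 - 2 * (g * u)) / H * (1 - u) := by
  have hx2 : 0 < 1 - 2 * (g * u) := by linarith
  have hm : (1 - ly) * (2 * (1 - u₀)) + y / 2 * (U + (1 - u₀)) ≤
      (1 - ly) * (2 * (1 - u)) + y / 2 * (U + (1 - u)) :=
    add_le_add (mul_le_mul_of_nonneg_left (by linarith) (sub_nonneg.2 hy1))
      (mul_le_mul_of_nonneg_left (by linarith) (by linarith))
  have hm0 : 0 ≤ (1 - ly) * (2 * (1 - u₀)) + y / 2 * (U + (1 - u₀)) :=
    add_nonneg (mul_nonneg (sub_nonneg.2 hy1) (by linarith))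
      (mul_nonneg (by linarith) (by linarith))
  have h1 := mul_le_mul_of_nonneg_left
    (mul_le_mul (by linarith : 1 - 2 * δ₀ ≤ 1 - 2 * (g * u))
      ((mul_le_mul_of_nonneg_left hm hu.le).trans hX) (mul_nonneg hu.le hm0) hx2.le) hH.le
  have h2 : (1 - u) * hd ≤ g * u * (U - log g + 1) :=
    (mul_le_of_le_one_left hhd0 (by linarith)).trans hhd
  have hbrk : u * ((H * ((1 - 2 * δ₀) * (y / 2)) - g) * U +
      (H * ((1 - 2 * δ₀) * ((1 - ly) * (2 * (1 - u₀)) + y / 2 * (1 - u₀))) - g * (1 - log g))) ≤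
      (1 - 2 * (g * u)) * (H * X) - (1 - u) * hd := by linarith
  have h3 := mul_le_mul_of_nonneg_left hbrk hθ
  have h4 := mul_le_mul_of_nonneg_left hbr hu.le
  have h5 : (1 - u₀) * (l * (g * u) * S) ≤ (1 - u) * (hq - H) :=
    (mul_le_mul_of_nonneg_right (by linarith : 1 - u₀ ≤ 1 - u) (by positivity)).trans
      (mul_le_mul_of_nonneg_left hgain (by linarith))
  have h6 := mul_le_mul_of_nonneg_left hmain hu.le
  have e : θ * X + (hq - θ * hd) / (1 - 2 * (g * u)) / H * (1 - u) =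
      (θ * ((1 - 2 * (g * u)) * (H * X) - (1 - u) * hd) + (1 - u) * hq) /
        (H * (1 - 2 * (g * u))) := by
    generalize 1 - 2 * (g * u) = D at hx2 ⊢
    field_simp
    ring
  rw [e, le_div_iff₀ (mul_pos hH hx2)]
  linarith

/-- A tangent certificate at `g * u` settles both extreme pairs at distance `1 - u`. -/
lemma edge_fam_cert {κ eb x xa xb g u₀ u S ℓ τ U₀ T : ℝ} (hκ : 0 ≤ κ) (he : 0 < eb) (he1 : eb < 1 / 2)
    (hxa : 0 ≤ xa) (hx : x ∈ Icc xa xb) (hxb : κ * xb * log 2 ≤ 1)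
    (hg : 0 < g) (hu₀ : u₀ ≤ 1 / 4) (hu : 0 < u) (hu' : u ≤ u₀)
    (hq : eb + (1 - 2 * eb) * (g * u₀) < 1 / 2)
    (hcv : (1 - 2 * eb) ^ 2 * (g * u₀ * (1 - log (g * u₀))) ≤
      -(log (eb + (1 - 2 * eb) * (g * u₀)) + log (1 - (eb + (1 - 2 * eb) * (g * u₀)))) *
        (eb * (1 - eb)))
    (hS : S ≤ log (1 - (eb + (1 - 2 * eb) * (g * u₀))) - log (eb + (1 - 2 * eb) * (g * u₀)))
    (hS0 : 0 ≤ S) (hℓ : -(log eb + log (1 - eb)) ≤ ℓ) (hτ : ℓ ≤ τ * -log (g * u₀))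
    (hU₀ : U₀ ≤ -log u₀) (hP : g ≤ binEntropy eb * ((1 - 2 * (g * u₀)) * (κ * xa / 2)))
    (hT0 : T ≤ 0) (hTa : T ≤ τ * edgeBr κ eb g u₀ U₀ xa) (hTb : T ≤ τ * edgeBr κ eb g u₀ U₀ xb)
    (hmain : (1 - 2 * g) * binEntropy eb ≤ (1 - u₀) * ((1 - 2 * eb) * g) * S + T) :
    ∃ θ k, Cert eb θ k ∧ θ ∈ Ioo (0 : ℝ) 1 ∧ 0 ≤ k ∧
      1 ≤ θ * mshape κ x (u / 2) + k / binEntropy eb * (1 - u) ∧
      1 ≤ θ * (mshape κ x u / 2) + k / binEntropy eb * (1 - u) := by
  have hH : 0 < binEntropy eb := binEntropy_pos he (by linarith)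
  have δle : g * u ≤ g * u₀ := mul_le_mul_of_nonneg_left hu' hg.le
  have hgu : g * u₀ < 1 / 2 := by
    by_contra h
    linarith [mul_le_mul_of_nonneg_left (not_lt.1 h) (by linarith : 0 ≤ 1 - 2 * eb)]
  obtain ⟨hc, hθ, hk, hθW, hgain⟩ := edge_fam_tangent he he1 (mul_pos hg hu) δle hq hcv hS hℓ
  refine ⟨_, _, hc, hθ, hk, ?_⟩
  have hy0 : 0 ≤ κ * x := mul_nonneg hκ (hxa.trans hx.1)
  have hy1 : κ * x * log 2 ≤ 1 :=
    (mul_le_mul_of_nonneg_right (mul_le_mul_of_nonneg_left hx.2 hκ)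
      (log_nonneg one_le_two)).trans hxb
  have hU0 : 0 ≤ -log u := neg_nonneg.2 (log_nonpos hu.le (by linarith))
  have hP' : 0 ≤ binEntropy eb * ((1 - 2 * (g * u₀)) * (κ * x / 2)) - g := by
    linarith [mul_le_mul_of_nonneg_left (mul_le_mul_of_nonneg_left hx.1 hκ)
      (mul_nonneg hH.le (by linarith : 0 ≤ 1 - 2 * (g * u₀)))]
  have hlogδ : log (g * u) = log g + log u := log_mul hg.ne' hu.ne'
  have hl1 : log (1 - g * u) ≤ 0 :=
    log_nonpos (by linarith) (by linarith [mul_pos hg hu])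
  have hτθ : tanTheta eb (g * u) ≤ τ := by
    have h1 := log_le_log (mul_pos hg hu) δle
    have h2 : 0 < -log (g * u₀) :=
      neg_pos.2 (log_neg (mul_pos hg (hu.trans_le hu')) (by linarith))
    refine le_of_mul_le_mul_right ?_ h2
    refine le_trans ?_ hτ
    exact (mul_le_mul_of_nonneg_left (by linarith) hθ.1.le).trans hθW
  have hT : T ≤ τ * edgeBr κ eb g u₀ U₀ x := by
    have := affine_nonneg (f := fun y => τ * edgeBr κ eb g u₀ U₀ y - T)
      (fun w => by simp only [edgeBr]; ring) hx (sub_nonneg.2 hTa) (sub_nonneg.2 hTb)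
    linarith
  have hbr := edge_bracket hθ.1.le hτθ hP'
    (hU₀.trans (neg_le_neg (log_le_log hu hu'))) hT0 hT
  have hd := binEntropy_le_of_small (mul_pos hg hu) (by linarith : g * u < 1)
  rw [hlogδ] at hd
  obtain ⟨k1, k2⟩ := mshape_edge hy0 hy1 hu (by linarith)
  have key : ∀ X, u * ((1 - κ * x * log 2) * (2 * (1 - u)) + κ * x / 2 * (-log u + (1 - u))) ≤ X →
      1 ≤ tanTheta eb (g * u) * X + tanSlope eb (g * u) / binEntropy eb * (1 - u) := fun X hX => by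
    rw [tanSlope]
    exact edge_scalar hθ.1.le hH hu hu' hu₀ hg δle hgu hy0 hy1 hU0 hX
      (binEntropy_nonneg (mul_pos hg hu).le (by linarith)) (by linarith) hbr (by linarith) hS0
      hgain hmain
  exact ⟨key _ k1, key _ k2⟩

/-- Steps for all pairs of means at distance at least `1 - u₀`. -/
theorem stepAt_edge {κ ε a b eb xa xb g u₀ S ℓ τ U₀ T : ℝ} (hκ : 0 ≤ κ) (h0 : 0 < ε) (h1 : ε ≤ eb)
    (he1 : eb < 1 / 2) (hx : xRatio ε ∈ Icc xa xb) (hxa : 0 ≤ xa) (hxb : κ * xb * log 2 ≤ 1)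
    (hg : 0 < g) (hu₀ : u₀ ≤ 1 / 4)
    (hq : eb + (1 - 2 * eb) * (g * u₀) < 1 / 2)
    (hcv : (1 - 2 * eb) ^ 2 * (g * u₀ * (1 - log (g * u₀))) ≤
      -(log (eb + (1 - 2 * eb) * (g * u₀)) + log (1 - (eb + (1 - 2 * eb) * (g * u₀)))) *
        (eb * (1 - eb)))
    (hS : S ≤ log (1 - (eb + (1 - 2 * eb) * (g * u₀))) - log (eb + (1 - 2 * eb) * (g * u₀)))
    (hS0 : 0 ≤ S) (hℓ : -(log eb + log (1 - eb)) ≤ ℓ) (hτ : ℓ ≤ τ * -log (g * u₀))
    (hU₀ : U₀ ≤ -log u₀) (hP : g ≤ binEntropy eb * ((1 - 2 * (g * u₀)) * (κ * xa / 2)))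
    (hT0 : T ≤ 0) (hTa : T ≤ τ * edgeBr κ eb g u₀ U₀ xa) (hTb : T ≤ τ * edgeBr κ eb g u₀ U₀ xb)
    (hmain : (1 - 2 * g) * binEntropy eb ≤ (1 - u₀) * ((1 - 2 * eb) * g) * S + T)
    (hd : 1 - u₀ ≤ |a - b|) (ha : a ∈ Icc (0 : ℝ) 1) (hb : b ∈ Icc (0 : ℝ) 1) :
    StepAt ε (capBound κ ε) a b := by
  have hd1 : |a - b| ≤ 1 := abs_le.2 ⟨by linarith [ha.1, hb.2], by linarith [ha.2, hb.1]⟩
  rcases hd1.eq_or_lt with hd1 | hd1
  · exact stepAt_dictator ha hb hd1
  have heb : 0 < eb := h0.trans_le h1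
  set x := xRatio ε
  set u := 1 - |a - b| with hu
  obtain ⟨θ, k, hc, hθ, hk, e1, e2⟩ := edge_fam_cert hκ heb he1 hxa hx hxb hg hu₀
    (u := u) (by linarith) (by linarith) hq hcv hS hS0 hℓ hτ hU₀ hP hT0 hTa hTb hmain
  have hy0 : 0 ≤ κ * x * log 2 :=
    mul_nonneg (mul_nonneg hκ (hxa.trans hx.1)) (log_nonneg one_le_two)
  have hy1 : κ * x * log 2 ≤ 1 :=
    (mul_le_mul_of_nonneg_right (mul_le_mul_of_nonneg_left hx.2 hκ)
      (log_nonneg one_le_two)).trans hxb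
  have hH : 0 < binEntropy eb := binEntropy_pos heb (by linarith)
  have hdu : |a - b| = 1 - u := by rw [hu]; ring
  refine stepAt_of_mshape h0 h1 he1 hθ.1 le_rfl hθ.2 (div_nonneg hk hH.le)
    (div_mul_cancel₀ k hH.ne').le hc ?_
  simp only [mshape_eq_shape] at e1 e2 ⊢
  refine reduce_ends hy0 hy1 hθ.1.le hθ.2.le ha hb ?_ ?_
  · rw [endMid, hdu, show (1 + (1 - u)) / 2 = 1 - u / 2 by ring, shape_one_sub]
    linarith
  · have hle : shape (κ * x * log 2) (|a - b| / 2) ≤ 1 := by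
      have h1' : binEntropy (|a - b| / 2) / log 2 ≤ 1 :=
        (div_le_one (log_pos one_lt_two)).2 binEntropy_le_log_two
      have h2' : 4 * (|a - b| / 2) * (1 - |a - b| / 2) ≤ 1 := by
        nlinarith [sq_nonneg (|a - b| - 1)]
      have := mul_le_mul_of_nonneg_left h1' hy0
      have := mul_le_mul_of_nonneg_left h2' (sub_nonneg.2 hy1)
      unfold shape
      linarith
    rw [hdu] at hle
    rw [endEdge, hdu, shape_one_sub]
    linarith

end Vale.Agent.P322
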