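import Mathlib
import Vale.Agent.P322.Mid.Basic
import Vale.Agent.P322.GapEnt
import Vale.Agent.P322.TanCert

/-!
P322: steps for pairs of means near the boundary, from the gap gain and a quartic correction.
-/

open Real Set

namespace Vale.Agent.P322

lemma phi_ge_quartic {r : ℝ} (h0 : 0 ≤ r) (h1 : r ≤ 1) : r ^ 2 / 2 + r ^ 4 / 12 ≤ phi r := by
  have hath : ∀ x : ℝ, 0 ≤ x → x < 1 → x + x ^ 3 / 3 ≤ ath x := fun x x0 x1 => by
    have hd : ∀ s ∈ Icc 0 x, HasDerivAt (fun s => ath s - (s + s ^ 3 / 3))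
        (1 / (1 - s ^ 2) - (1 + s ^ 2)) s :=
      fun s hs => ((hasDerivAt_ath ⟨by linarith [hs.1], by linarith [hs.2]⟩).sub
        ((hasDerivAt_id' s).add ((hasDerivAt_pow 3 s).div_const 3))).congr_deriv (by ring)
    have := monotoneOn_of_hasDerivWithinAt_nonneg (convex_Icc 0 x)
      (fun s hs => (hd s hs).continuousAt.continuousWithinAt)
      (fun s hs => (hd s (interior_subset hs)).hasDerivWithinAt) (fun s hs => by
        have hs := interior_subset hs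
        have hp : 0 < 1 - s ^ 2 := by nlinarith [hs.1, hs.2]
        rw [sub_nonneg, le_div_iff₀ hp]
        nlinarith [sq_nonneg (s ^ 2)]) ⟨le_rfl, x0⟩ ⟨x0, le_rfl⟩ x0
    simp at this
    linarith
  have := monotoneOn_of_hasDerivWithinAt_nonneg (f := fun s => phi s - (s ^ 2 / 2 + s ^ 4 / 12))
    (f' := fun s => ath s - (s + s ^ 3 / 3)) (convex_Icc 0 1) (by fun_prop) (fun s hs => by
      rw [interior_Icc] at hs
      exact (((hasDerivAt_phi ⟨by linarith [hs.1], hs.2⟩).sub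
        (((hasDerivAt_pow 2 s).div_const 2).add ((hasDerivAt_pow 4 s).div_const 12))).congr_deriv
          (by ring)).hasDerivWithinAt)
    (fun s hs => by
      rw [interior_Icc] at hs
      linarith [hath s hs.1.le hs.2]) ⟨le_rfl, zero_le_one⟩ ⟨h0, h1⟩ h0
  simp at this
  linarith

/-- The excess of one channel use over its quadratic part, from below. -/
lemma phi_excess {l r : ℝ} (l0 : 0 ≤ l) (l1 : l ≤ 1) (h0 : 0 ≤ r) (h1 : r ≤ 1) :
    l ^ 2 * (1 - l ^ 2) / 12 * r ^ 4 ≤ l ^ 2 * phi r - phi (l * r) := by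
  set c := l ^ 2 * (1 - l ^ 2) / 12 with hc
  have hl2 : l ^ 2 ≤ 1 := pow_le_one₀ l0 l1
  have hb : ∀ x : ℝ, 0 ≤ x → x < 1 → l * x < 1 := fun x x0 x1 =>
    lt_of_le_of_lt (mul_le_of_le_one_left x0 l1) x1
  have hath : ∀ x : ℝ, 0 ≤ x → x < 1 → 4 * c * x ^ 3 ≤ l ^ 2 * ath x - l * ath (l * x) := by
    intro x x0 x1
    have hd : ∀ s ∈ Icc 0 x, HasDerivAt
        (fun s => l ^ 2 * ath s - l * ath (l * s) - 4 * c * s ^ 3)
        (l ^ 2 * (1 / (1 - s ^ 2)) - l * (1 / (1 - (l * s) ^ 2) * l) - 4 * c * (3 * s ^ 2)) s :=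
      fun s hs => by
        have hs1 : s < 1 := hs.2.trans_lt x1
        exact ((((hasDerivAt_ath ⟨by linarith [hs.1], hs1⟩).const_mul (l ^ 2)).sub
          (((hasDerivAt_ath ⟨by nlinarith [hs.1], hb s hs.1 hs1⟩).comp s
            (by simpa using (hasDerivAt_id s).const_mul l)).const_mul l)).sub
          ((hasDerivAt_pow 3 s).const_mul (4 * c))).congr_deriv (by push_cast; ring)
    have := monotoneOn_of_hasDerivWithinAt_nonneg (convex_Icc 0 x)
      (fun s hs => (hd s hs).continuousAt.continuousWithinAt)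
      (fun s hs => (hd s (interior_subset hs)).hasDerivWithinAt) (fun s hs => by
        have hs := interior_subset hs
        have p : 0 < 1 - s ^ 2 := by nlinarith [hs.1, hs.2]
        have q : 0 < 1 - (l * s) ^ 2 := by nlinarith [sq_nonneg s]
        rw [show l ^ 2 * (1 / (1 - s ^ 2)) - l * (1 / (1 - (l * s) ^ 2) * l) - 4 * c * (3 * s ^ 2) =
          l ^ 2 * (1 - l ^ 2) * s ^ 2 * (1 - (1 - s ^ 2) * (1 - (l * s) ^ 2)) /
            ((1 - s ^ 2) * (1 - (l * s) ^ 2)) by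
          have q' : 1 - l ^ 2 * s ^ 2 ≠ 0 := by rw [← mul_pow]; exact q.ne'
          rw [hc]; field_simp; ring]
        refine div_nonneg (mul_nonneg (mul_nonneg (mul_nonneg (sq_nonneg l) (by linarith))
          (sq_nonneg s)) ?_) (mul_pos p q).le
        nlinarith [sq_nonneg s, sq_nonneg (l * s), mul_nonneg p.le (sq_nonneg (l * s))])
      ⟨le_rfl, x0⟩ ⟨x0, le_rfl⟩ x0
    simp at this
    linarith
  have := monotoneOn_of_hasDerivWithinAt_nonneg
    (f := fun s => l ^ 2 * phi s - phi (l * s) - c * s ^ 4)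
    (f' := fun s => l ^ 2 * ath s - ath (l * s) * l - c * (4 * s ^ 3)) (convex_Icc 0 1)
    (by fun_prop) (fun s hs => by
      rw [interior_Icc] at hs
      exact ((((hasDerivAt_phi ⟨by linarith [hs.1], hs.2⟩).const_mul (l ^ 2)).sub
        ((hasDerivAt_phi ⟨by nlinarith [hs.1], hb s hs.1.le hs.2⟩).comp s
          (by simpa using (hasDerivAt_id s).const_mul l))).sub
        ((hasDerivAt_pow 4 s).const_mul c)).congr_deriv (by push_cast; ring) |>.hasDerivWithinAt)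
    (fun s hs => by
      rw [interior_Icc] at hs
      linarith [hath s hs.1.le hs.2]) ⟨le_rfl, zero_le_one⟩ ⟨h0, h1⟩ h0
  simp at this
  linarith

/-- The quartic part of the concavity gap. -/
noncomputable def quart (m d : ℝ) : ℝ := (d / 2) ^ 4 * (1 / m ^ 3 + 1 / (1 - m) ^ 3)

lemma quartic_tangent {x y z : ℝ} (hy : 0 ≤ y) (hxy : y = 0 → x = 0) :
    4 * z ^ 3 * x - 3 * z ^ 4 * y ≤ x ^ 4 / y ^ 3 := by
  rcases hy.eq_or_lt with h | hy
  · simp [← h, hxy h.symm]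
  rw [le_div_iff₀ (pow_pos hy 3)]
  nlinarith [mul_nonneg (sq_nonneg (x - z * y))
    (add_nonneg (sq_nonneg (x + z * y)) (mul_nonneg (by norm_num : (0 : ℝ) ≤ 2)
      (sq_nonneg (z * y))))]

lemma quart_eq {u v : ℝ} : quart ((u + v) / 2) (u - v) =
    ((u - v) / 2) ^ 4 / ((u + v) / 2) ^ 3 + ((u - v) / 2) ^ 4 / (1 - (u + v) / 2) ^ 3 := by
  unfold quart; ring

/-- Pointwise lower bound on the gain of one channel use. -/
lemma gain_quart {ε u v : ℝ} (he : 0 ≤ ε) (he1 : ε ≤ 1 / 2) (hu : u ∈ Icc (0 : ℝ) 1)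
    (hv : v ∈ Icc (0 : ℝ) 1) :
    avgEnt u v + 4 * ε * (1 - ε) * gapEnt u v +
      (1 - 2 * ε) ^ 2 * (4 * ε * (1 - ε)) / 12 * quart ((u + v) / 2) (u - v) ≤ mixEnt ε u v := by
  obtain ⟨r, s, hr, hs, hd, hrs, h3, h4⟩ := exists_split hu hv
  set m := (u + v) / 2 with hm
  have a := mul_le_mul_of_nonneg_left
    (phi_excess (l := 1 - 2 * ε) (by linarith) (by linarith) hr.1 hr.2)
    (by linarith [hu.1, hv.1] : 0 ≤ m)
  have b := mul_le_mul_of_nonneg_left
    (phi_excess (l := 1 - 2 * ε) (by linarith) (by linarith) hs.1 hs.2)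
    (by linarith [hu.2, hv.2] : 0 ≤ 1 - m)
  have e4 : (u - v) ^ 4 = (2 * (m * r)) ^ 4 := by
    rw [← hd, ← Even.pow_abs (by decide : Even 4) (u - v)]
  have f : ∀ y z : ℝ, y * z ^ 4 = (y * z) ^ 4 / y ^ 3 := fun y z => by
    rcases eq_or_ne y 0 with h | h
    · simp [h]
    · field_simp
  have hq : quart m (u - v) = m * r ^ 4 + (1 - m) * s ^ 4 := by
    rw [f m r, f (1 - m) s, ← hrs]
    unfold quart
    rw [div_pow, e4]
    ring
  rw [hq, gapEnt, h4, h3, show 4 * ε * (1 - ε) = 1 - (1 - 2 * ε) ^ 2 by ring]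
  linarith

/-- The averaged gain dominates the gain at the pair of means. -/
lemma gain_mean {ε a b : ℝ} (he : 0 ≤ ε) (he1 : ε ≤ 1 / 2) {n : ℕ}
    {u v : (Fin n → Bool) → ℝ} (hu : ∀ y, u y ∈ Icc (0 : ℝ) 1) (hv : ∀ y, v y ∈ Icc (0 : ℝ) 1)
    (hua : 1 / 2 ^ n * ∑ y, u y = a) (hvb : 1 / 2 ^ n * ∑ y, v y = b)
    (hm : 0 < (a + b) / 2) (hm1 : (a + b) / 2 < 1) :
    1 / 2 ^ n * ∑ y, avgEnt (u y) (v y) + 4 * ε * (1 - ε) * gapEnt a b +
      (1 - 2 * ε) ^ 2 * (4 * ε * (1 - ε)) / 12 * quart ((a + b) / 2) (a - b) ≤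
      1 / 2 ^ n * ∑ y, mixEnt ε (u y) (v y) := by
  set m := (a + b) / 2 with hmdef
  set z1 := (a - b) / 2 / m with hz1
  set z2 := (a - b) / 2 / (1 - m) with hz2
  have hC : 0 ≤ 4 * ε * (1 - ε) := by nlinarith
  have hpt : ∀ y, avgEnt (u y) (v y) + 4 * ε * (1 - ε) * gapEnt (u y) (v y) +
      (1 - 2 * ε) ^ 2 * (4 * ε * (1 - ε)) / 12 *
        ((2 * z1 ^ 3 + 2 * z2 ^ 3) * (u y - v y) +
          (-(3 * z1 ^ 4) + 3 * z2 ^ 4) * ((u y + v y) / 2) - 3 * z2 ^ 4) ≤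
      mixEnt ε (u y) (v y) := fun y => by
    refine le_trans ?_ (gain_quart he he1 (hu y) (hv y))
    have A := quartic_tangent (x := (u y - v y) / 2) (y := (u y + v y) / 2) (z := z1)
      (by linarith [(hu y).1, (hv y).1]) fun h => by linarith [(hu y).1, (hv y).1]
    have B := quartic_tangent (x := (u y - v y) / 2) (y := 1 - (u y + v y) / 2) (z := z2)
      (by linarith [(hu y).2, (hv y).2]) fun h => by linarith [(hu y).2, (hv y).2]
    rw [quart_eq]
    have := mul_le_mul_of_nonneg_left (add_le_add A B)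
      (by positivity : 0 ≤ (1 - 2 * ε) ^ 2 * (4 * ε * (1 - ε)) / 12)
    linarith
  have hN : (0 : ℝ) < 1 / 2 ^ n := by positivity
  have hcard : (Fintype.card (Fin n → Bool) : ℝ) = 2 ^ n := by simp
  have hmean : ∀ g : (Fin n → Bool) → ℝ,
      (∑ y, g y) / Fintype.card (Fin n → Bool) = 1 / 2 ^ n * ∑ y, g y := fun g => by
    rw [hcard]; ring
  have hgap := gapEnt_jensen u v hu hv
  rw [hmean, hmean, hmean, hua, hvb] at hgap
  have hs := mul_le_mul_of_nonneg_left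
    (Finset.sum_le_sum fun y (_ : y ∈ Finset.univ) => hpt y) hN.le
  simp only [Finset.sum_add_distrib, Finset.sum_sub_distrib, Finset.sum_const, Finset.card_univ,
    ← Finset.mul_sum, ← Finset.sum_div, nsmul_eq_mul] at hs
  rw [hcard] at hs
  have hk : (1 / 2 ^ n : ℝ) * 2 ^ n = 1 := by field_simp
  have hg := mul_le_mul_of_nonneg_left hgap hC
  have hq : quart m (a - b) = (2 * z1 ^ 3 + 2 * z2 ^ 3) * (a - b) +
      (-(3 * z1 ^ 4) + 3 * z2 ^ 4) * m - 3 * z2 ^ 4 := by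
    have p1 : m ≠ 0 := hm.ne'
    have p2 : 1 - m ≠ 0 := by linarith
    rw [hz1, hz2]
    unfold quart
    field_simp
    ring
  rw [hq, hmdef, ← hua, ← hvb] at *
  linear_combination hs + hg + (1 - 2 * ε) ^ 2 * (4 * ε * (1 - ε)) / 12 * (3 * z2 ^ 4) * hk

lemma quart_sum_eq {m : ℝ} (h0 : 0 < m) (h1 : m < 1) :
    1 / m ^ 3 + 1 / (1 - m) ^ 3 = (1 - 3 * (m * (1 - m))) / (m * (1 - m)) ^ 3 := by
  have : 1 - m ≠ 0 := by linarith
  field_simp
  ring

/-- Near the boundary the gain of one channel use alone suffices. -/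
theorem stepAt_gap {κ ε a b eb xa x₀ P : ℝ} (hκ : κ ≤ 1) (h0 : 0 < ε) (h1 : ε ≤ eb)
    (heb : eb ≤ 1 / 2) (hxa : 0 ≤ xa) (hx : xa ≤ xRatio ε) (hx0 : 0 ≤ x₀) (hd : x₀ ≤ |a - b|)
    (ha : a ∈ Icc (0 : ℝ) 1) (hb : b ∈ Icc (0 : ℝ) 1)
    (hP : (a + b) / 2 * (1 - (a + b) / 2) ≤ P) (hP1 : P ≤ 1 / 4)
    (hcond : 1 ≤ xa * ((1 - κ) * (1 / (8 * P) + x₀ ^ 2 / 192 * ((1 - 3 * P) / P ^ 3)) +
      (1 - 2 * eb) ^ 2 * x₀ ^ 2 / 192 * ((1 - 3 * P) / P ^ 3) + κ * log 2)) :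
    StepAt ε (capBound κ ε) a b := by
  intro n u v hu hv hua hvb hD
  set m := (a + b) / 2 with hmdef
  have hε1 : ε < 1 := by linarith
  have hH := binEntropy_pos h0 hε1
  rcases eq_or_ne a b with rfl | hne
  · have g := Finset.sum_le_sum fun y (_ : y ∈ Finset.univ) =>
      avgEnt_le_mixEnt h0.le (by linarith) (hu y) (hv y)
    have := mul_le_mul_of_nonneg_left g (by positivity : (0 : ℝ) ≤ 1 / 2 ^ n)
    rw [hmdef, add_self_div_two] at *
    linarith
  have hm0 : 0 < m := by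
    rcases lt_or_gt_of_ne hne with h | h <;> linarith [ha.1, hb.1]
  have hm1 : m < 1 := by
    rcases lt_or_gt_of_ne hne with h | h <;> linarith [ha.2, hb.2]
  refine le_trans ?_ (gain_mean h0.le (by linarith) hu hv hua hvb hm0 hm1)
  obtain ⟨r, s, hr, hs, hdd, hrs, h3, -⟩ := exists_split ha hb
  rw [← hmdef] at hdd hrs h3
  set d := |a - b| with hddef
  set p := m * (1 - m) with hpdef
  have p0 : 0 < p := mul_pos hm0 (by linarith)
  have p1 : 0 < P := p0.trans_le hP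
  have hq : quart m (a - b) = d ^ 4 / 16 * ((1 - 3 * p) / p ^ 3) := by
    rw [quart, quart_sum_eq hm0 hm1, div_pow, ← Even.pow_abs (by decide : Even 4) (a - b)]
    ring
  have hgap : d ^ 2 / (8 * p) + d ^ 4 / 192 * ((1 - 3 * p) / p ^ 3) ≤ gapEnt a b := by
    have A := mul_le_mul_of_nonneg_left (phi_ge_quartic hr.1 hr.2) hm0.le
    have B := mul_le_mul_of_nonneg_left (phi_ge_quartic hs.1 hs.2) (sub_nonneg.2 hm1.le)
    rw [gapEnt, ← hmdef, h3, hpdef, ← quart_sum_eq hm0 hm1]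
    have er : r = d / 2 / m := by rw [hdd]; field_simp
    have es : s = d / 2 / (1 - m) := by
      have : 1 - m ≠ 0 := by linarith
      rw [hdd, hrs]; field_simp
    rw [er] at A
    rw [es] at B
    rw [er, es]
    have : 1 - m ≠ 0 := by linarith
    have e : d ^ 2 / (8 * (m * (1 - m))) + d ^ 4 / 192 * (1 / m ^ 3 + 1 / (1 - m) ^ 3) =
        m * ((d / 2 / m) ^ 2 / 2 + (d / 2 / m) ^ 4 / 12) +
        (1 - m) * ((d / 2 / (1 - m)) ^ 2 / 2 + (d / 2 / (1 - m)) ^ 4 / 12) := by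
      field_simp; ring
    linarith
  have hQ : (1 - 3 * P) / P ^ 3 ≤ (1 - 3 * p) / p ^ 3 :=
    div_le_div₀ (by linarith) (by linarith) (pow_pos p0 3) (pow_le_pow_left₀ p0.le hP 3)
  have hQ0 : 0 ≤ (1 - 3 * P) / P ^ 3 := div_nonneg (by linarith) (by positivity)
  have hd2 : x₀ ^ 2 ≤ d ^ 2 := pow_le_pow_left₀ hx0 hd 2
  have hq4 : d ^ 2 * (x₀ ^ 2 * ((1 - 3 * P) / P ^ 3)) ≤ d ^ 4 * ((1 - 3 * p) / p ^ 3) := by
    have := mul_le_mul_of_nonneg_left (mul_le_mul hd2 hQ hQ0 (sq_nonneg d)) (sq_nonneg d)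
    linarith
  have hg2 : d ^ 2 * (1 / (8 * P)) ≤ d ^ 2 / (8 * p) := by
    rw [div_eq_mul_one_div (d ^ 2) (8 * p)]
    exact mul_le_mul_of_nonneg_left (one_div_le_one_div_of_le (by positivity) (by linarith))
      (sq_nonneg d)
  have hC : 4 * ε * (1 - ε) = xRatio ε * binEntropy ε := by
    rw [xRatio, div_mul_cancel₀ _ hH.ne']
  have ht : (1 - 2 * eb) ^ 2 ≤ (1 - 2 * ε) ^ 2 :=
    pow_le_pow_left₀ (by linarith) (by linarith) 2
  set t := (1 - 2 * ε) ^ 2
  set X := xRatio ε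
  set H := binEntropy ε
  set K := (1 - κ) * (1 / (8 * P) + x₀ ^ 2 / 192 * ((1 - 3 * P) / P ^ 3)) +
    (1 - 2 * eb) ^ 2 * x₀ ^ 2 / 192 * ((1 - 3 * P) / P ^ 3) + κ * log 2 with hK
  have hK0 : 0 ≤ K := by
    by_contra hneg
    nlinarith [mul_nonpos_of_nonneg_of_nonpos hxa (not_le.1 hneg).le]
  have hX0 : 0 ≤ X := hxa.trans hx
  have k1 : H * d ^ 2 ≤ X * H * (K * d ^ 2) := by
    have := mul_le_mul_of_nonneg_right (hcond.trans (mul_le_mul_of_nonneg_right hx hK0))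
      (mul_nonneg hH.le (sq_nonneg d))
    linarith
  have k2 := mul_le_mul_of_nonneg_left (add_le_add hg2 (div_le_div_of_nonneg_right hq4
    (by norm_num : (0 : ℝ) ≤ 192)))
    (mul_nonneg (mul_nonneg hX0 hH.le) (sub_nonneg.2 hκ))
  have k3 := mul_le_mul_of_nonneg_left hgap (mul_nonneg (mul_nonneg hX0 hH.le) (sub_nonneg.2 hκ))
  have k4 := mul_le_mul ht (div_le_div_of_nonneg_right hq4 (by norm_num : (0 : ℝ) ≤ 192))
    (by positivity) (le_trans (sq_nonneg _) ht)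
  have k5 := mul_le_mul_of_nonneg_left k4 (mul_nonneg hX0 hH.le)
  rw [hq, show capBound κ ε m = (capBound κ ε a + capBound κ ε b) / 2 +
    (H - κ * (4 * ε * (1 - ε)) * log 2) * (a - b) ^ 2 + κ * (4 * ε * (1 - ε)) * gapEnt a b by
      rw [hmdef]; unfold capBound gapEnt avgEnt; ring, ← sq_abs (a - b), ← hddef, hC]
  rw [hK] at k1
  linarith

end Vale.Agent.P322
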