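import Mathlib
import Vale.Agent.P322.Mid.Center
import Vale.Agent.P322.Tangent

/-!
P322: central steps at small distances, and certificates from numerical bounds.
-/

open Real Set

namespace Vale.Agent.P322

/-- A tangent certificate from numerical bounds. -/
lemma exists_cert {eb d q θ₀ θ₁ k₀ : ℝ} (he : 0 < eb) (he1 : eb < 1 / 2) (hd : 0 < d)
    (hd1 : d < 1 / 2) (hq : q = eb + (1 - 2 * eb) * d) (hA : θ₀ * -(log d + log (1 - d)) ≤ -(log q + log (1 - q)))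
    (hB : -(log q + log (1 - q)) ≤ θ₁ * -(log d + log (1 - d))) (hθ₁ : θ₁ < 1)
    (hC : θ₁ * binEntropy d + k₀ * (1 - 2 * d) * binEntropy eb ≤ binEntropy q)
    (hcv : (1 - 2 * eb) ^ 2 * (d * (1 - d)) ≤ θ₀ * (q * (1 - q))) :
    ∃ θ k, Cert eb θ k ∧ θ₀ ≤ θ ∧ θ < 1 ∧ k₀ * binEntropy eb ≤ k := by
  have hq0 : 0 < q := by rw [hq]; nlinarith
  have hq1 : q < 1 := by rw [hq]; nlinarith
  have hden : 0 < -(log d + log (1 - d)) := by
    linarith [log_neg hd (by linarith), log_neg (by linarith : 0 < 1 - d) (by linarith)]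
  have e : tanTheta eb d = -(log q + log (1 - q)) / -(log d + log (1 - d)) := by
    rw [neg_div_neg_eq, tanTheta, ← hq, log_mul hq0.ne' (by linarith),
      log_mul hd.ne' (by linarith)]
  have h0 : θ₀ ≤ tanTheta eb d := by rw [e, le_div_iff₀ hden]; exact hA
  have h1 : tanTheta eb d ≤ θ₁ := by rw [e, div_le_iff₀ hden]; exact hB
  refine ⟨_, _, cert_tangent he he1 hd hd1 ?_, h0, h1.trans_lt hθ₁, ?_⟩
  · rw [← hq]
    exact hcv.trans (mul_le_mul_of_nonneg_right h0 (by nlinarith))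
  · rw [tanSlope, ← hq, le_div_iff₀ (by linarith)]
    have := mul_le_mul_of_nonneg_right h1 (binEntropy_nonneg hd.le (by linarith : d ≤ 1))
    linarith

lemma stepAt_same {ε a : ℝ} (B : ℝ → ℝ) (h0 : 0 ≤ ε) (h1 : ε ≤ 1) : StepAt ε B a a := by
  intro n u v hu hv _ _ hD
  have := mul_le_mul_of_nonneg_left (Finset.sum_le_sum fun y (_ : y ∈ Finset.univ) =>
    avgEnt_le_mixEnt h0 h1 (hu y) (hv y)) (by positivity : (0 : ℝ) ≤ 1 / 2 ^ n)
  rw [add_self_div_two] at *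
  linarith

lemma phi_le_scale {r R : ℝ} (h0 : 0 ≤ r) (h : r ≤ R) (hR0 : 0 < R) (hR : R ≤ 1) :
    phi r ≤ r ^ 2 * (phi R / R ^ 2) := by
  have := phi_mul_le (div_nonneg h0 hR0.le) ((div_le_one hR0).2 h) hR0.le hR
  rw [div_mul_cancel₀ _ hR0.ne'] at this
  refine this.trans (le_of_eq ?_)
  field_simp

/-- Small distances, central means. -/
theorem stepAt_small {κ ε a b eb xa xb ν lam m₁ x₀ : ℝ} (hκ : 0 ≤ κ) (h0 : 0 < ε) (h1 : ε ≤ eb)
    (heb : eb < 1 / 2) (hx : xRatio ε ∈ Icc xa xb) (hxa : 0 ≤ xa) (hxb : κ * xb * log 2 ≤ 1)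
    (hν : 0 < ν) (hlam : 0 ≤ lam) (hx0 : 0 < x₀) (hm : 1 / 2 < m₁) (hm₁ : m₁ + x₀ / 2 ≤ 1)
    (hθ : (1 - 2 * eb) ^ 2 ≤ 1 - ν * x₀ ^ 2)
    (hquad : (lam * binEntropy eb) ^ 2 ≤ 2 * log 2 * ν * (1 - ν * x₀ ^ 2 - (1 - 2 * eb) ^ 2))
    (c0 : ∀ x ∈ ({xa, xb} : Set ℝ),
      (1 - κ * x * log 2) + κ * x * (phi x₀ / x₀ ^ 2) + ν ≤ lam)
    (c1 : ∀ x ∈ ({xa, xb} : Set ℝ), (1 - κ * x * log 2) +
      κ * x * (phi (x₀ / (2 * m₁)) / (x₀ / (2 * m₁)) ^ 2 / (4 * m₁) +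
        phi (x₀ / (2 * (1 - m₁))) / (x₀ / (2 * (1 - m₁))) ^ 2 / (4 * (1 - m₁))) +
      ν * mshape κ x m₁ ≤ lam)
    (hd : |a - b| ≤ x₀) (ha : a ∈ Icc (0 : ℝ) 1) (hb : b ∈ Icc (0 : ℝ) 1)
    (hlo : 1 - m₁ ≤ (a + b) / 2) (hhi : (a + b) / 2 ≤ m₁) :
    StepAt ε (capBound κ ε) a b := by
  rcases eq_or_ne a b with rfl | hne
  · exact stepAt_same _ h0.le (by linarith)
  set d := |a - b| with hddef
  have d0 : 0 < d := abs_pos.2 (sub_ne_zero.2 hne)
  set x := xRatio ε with hxdef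
  have hL : 0 ≤ log 2 := log_nonneg one_le_two
  have hx0' : 0 ≤ x := hxa.trans hx.1
  have hc0 : 0 ≤ κ * x * log 2 := mul_nonneg (mul_nonneg hκ hx0') hL
  have hc1 : κ * x * log 2 ≤ 1 :=
    (mul_le_mul_of_nonneg_right (mul_le_mul_of_nonneg_left hx.2 hκ) hL).trans hxb
  set θ := 1 - ν * d ^ 2 with hθdef
  have hd2 : d ^ 2 ≤ x₀ ^ 2 := pow_le_pow_left₀ d0.le hd 2
  have hθt : (1 - 2 * eb) ^ 2 ≤ θ := by
    have := mul_le_mul_of_nonneg_left hd2 hν.le; linarith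
  have hθpos : 0 < θ := lt_of_lt_of_le (by nlinarith) hθt
  have hθ1 : θ < 1 := by
    have := mul_pos hν (pow_pos d0 2); linarith
  have hcert : Cert eb θ (lam * d * binEntropy eb) := by
    refine cert_quad (by linarith) heb.le hθt hθ1.le ?_
    have := mul_le_mul_of_nonneg_right (hquad.trans (mul_le_mul_of_nonneg_left
      (by nlinarith [mul_le_mul_of_nonneg_left hd2 hν.le] :
        1 - ν * x₀ ^ 2 - (1 - 2 * eb) ^ 2 ≤ 1 - ν * d ^ 2 - (1 - 2 * eb) ^ 2)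
      (by positivity))) (sq_nonneg d)
    rw [hθdef]
    linarith
  refine stepAt_of_mshape h0 h1 heb hθpos le_rfl hθ1 (mul_nonneg hlam d0.le) le_rfl hcert ?_
  have key : ∀ m P, 0 ≤ P → gapEnt (m - d / 2) (m + d / 2) ≤ P * d ^ 2 →
      (1 - κ * x * log 2) + κ * x * P + ν * mshape κ x m ≤ lam →
      0 ≤ gapEnt (m - d / 2) (m + d / 2) →
      0 ≤ midAt κ x θ (lam * d) m d := fun m P _ hP h hg => by
    have e : mshape κ x m = (mshape κ x (m - d / 2) + mshape κ x (m + d / 2)) / 2 +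
        (1 - κ * x * log 2) * d ^ 2 + κ * x * gapEnt (m - d / 2) (m + d / 2) := by
      unfold mshape gapEnt avgEnt
      rw [show (m - d / 2 + (m + d / 2)) / 2 = m by ring]
      ring
    have p := mul_le_mul_of_nonneg_right h (sq_nonneg d)
    have q := mul_le_mul_of_nonneg_left hP (mul_nonneg hκ hx0')
    have hle : (mshape κ x (m - d / 2) + mshape κ x (m + d / 2)) / 2 ≤ mshape κ x m := by
      have := mul_nonneg (mul_nonneg hκ hx0') hg
      have := mul_nonneg (sub_nonneg.2 hc1) (sq_nonneg d)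
      linarith
    have r := mul_le_mul_of_nonneg_left hle (mul_nonneg hν.le (sq_nonneg d))
    rw [midAt, hθdef]
    linarith
  have gap_le : ∀ m, 1 / 2 ≤ m → m + x₀ / 2 ≤ 1 → m < 1 →
      gapEnt (m - d / 2) (m + d / 2) ≤ (phi (x₀ / (2 * m)) / (x₀ / (2 * m)) ^ 2 / (4 * m) +
        phi (x₀ / (2 * (1 - m))) / (x₀ / (2 * (1 - m))) ^ 2 / (4 * (1 - m))) * d ^ 2 ∧
      0 ≤ gapEnt (m - d / 2) (m + d / 2) := fun m hm2 hmu hm3 => by
    have hr : 0 < 2 * m := by linarith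
    have hs : 0 < 2 * (1 - m) := by linarith
    have hm4 : 1 - m ≠ 0 := by linarith
    have hm5 : m ≠ 0 := by linarith
    have hav := avgEnt_polar (m := m) (r := d / (2 * m)) (s := d / (2 * (1 - m)))
      (u := m + d / 2) (v := m - d / 2) (by field_simp) (by field_simp) (by field_simp)
    have A := mul_le_mul_of_nonneg_left (phi_le_scale (div_nonneg d0.le hr.le)
      (div_le_div_of_nonneg_right hd hr.le) (div_pos hx0 hr)
      ((div_le_one hr).2 (by linarith))) (by linarith : 0 ≤ m)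
    have B := mul_le_mul_of_nonneg_left (phi_le_scale (div_nonneg d0.le hs.le)
      (div_le_div_of_nonneg_right hd hs.le) (div_pos hx0 hs)
      ((div_le_one hs).2 (by linarith))) (by linarith : 0 ≤ 1 - m)
    have n1 := mul_nonneg (by linarith : 0 ≤ m) (phi_nonneg (r := d / (2 * m)))
    have n2 := mul_nonneg (by linarith : 0 ≤ 1 - m) (phi_nonneg (r := d / (2 * (1 - m))))
    rw [gapEnt, show (m - d / 2 + (m + d / 2)) / 2 = m by ring, avgEnt_comm, hav]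
    refine ⟨?_, by linarith⟩
    generalize phi (x₀ / (2 * m)) / (x₀ / (2 * m)) ^ 2 = P1 at A ⊢
    generalize phi (x₀ / (2 * (1 - m))) / (x₀ / (2 * (1 - m))) ^ 2 = P2 at B ⊢
    have e1 : m * ((d / (2 * m)) ^ 2 * P1) = P1 / (4 * m) * d ^ 2 := by field_simp; ring
    have e2 : (1 - m) * ((d / (2 * (1 - m))) ^ 2 * P2) = P2 / (4 * (1 - m)) * d ^ 2 := by
      field_simp; ring
    linarith
  have h2 : ∀ P m : ℝ, (∀ y ∈ ({xa, xb} : Set ℝ),
      (1 - κ * y * log 2) + κ * y * P + ν * mshape κ y m ≤ lam) →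
      (1 - κ * x * log 2) + κ * x * P + ν * mshape κ x m ≤ lam := fun P m hh => by
    have := affine_nonneg (f := fun y => lam - ((1 - κ * y * log 2) + κ * y * P + ν * mshape κ y m))
      (fun w => by simp only [mshape]; ring) hx (sub_nonneg.2 (hh xa (by simp)))
      (sub_nonneg.2 (hh xb (by simp)))
    linarith
  have hh : mshape κ x (1 / 2) = 1 := by rw [mshape_eq_shape, shape_half]
  obtain ⟨g1, g1'⟩ := gap_le m₁ hm.le hm₁ (by linarith)
  obtain ⟨g0, g0'⟩ := gap_le (1 / 2) le_rfl (by linarith) (by norm_num)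
  have E1 := key m₁ _ (add_nonneg (div_nonneg (div_nonneg phi_nonneg (sq_nonneg _)) (by linarith)) (div_nonneg (div_nonneg phi_nonneg (sq_nonneg _)) (by linarith))) g1 (h2 _ _ c1) g1'
  have E0 := key (1 / 2) (phi x₀ / x₀ ^ 2) (div_nonneg phi_nonneg (sq_nonneg _))
    (g0.trans (le_of_eq (by norm_num))) (by
      refine h2 _ _ fun y hy => ?_
      rw [mshape_eq_shape, shape_half]
      linarith [c0 y hy]) g0'
  rw [midAt_half] at E0
  rw [midAt] at E1
  simp only [mshape_eq_shape] at E1 ⊢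
  exact reduce_mid hc0 hc1 hθpos.le hθ1.le ha hb (by linarith) hlo hhi E0 (by linarith)

end Vale.Agent.P322
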