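import Mathlib
import Vale.Agent.P322.Mid.Gap
import Vale.Agent.P322.Mid.Small

/-!
P322: one row of the cover of the middle range.
-/

open Real Set

namespace Vale.Agent.P322

/-- The data of a block of noise levels. -/
structure InBlock (κ ε ea eb xa xb : ℝ) : Prop where
  κ0 : 0 ≤ κ
  κ1 : κ ≤ 1
  pos : 0 < ε
  le : ε ≤ eb
  lt : eb < 1 / 2
  mem : xRatio ε ∈ Icc xa xb
  xa0 : 0 ≤ xa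
  xb1 : κ * xb * log 2 ≤ 1
  ea_le : ea ≤ ε

/-- The eight endpoint checks of a row with centres up to `m₁`. -/
structure RowChecks (κ xa xb θ₀ k₀ m₁ x₀ x₁ : ℝ) : Prop where
  a00 : 0 ≤ midAt κ xa θ₀ k₀ (1 / 2) x₀
  b00 : 0 ≤ midAt κ xb θ₀ k₀ (1 / 2) x₀
  a01 : 0 ≤ midAt κ xa θ₀ k₀ (1 / 2) x₁
  b01 : 0 ≤ midAt κ xb θ₀ k₀ (1 / 2) x₁
  a10 : 0 ≤ midAt κ xa θ₀ k₀ m₁ x₀
  b10 : 0 ≤ midAt κ xb θ₀ k₀ m₁ x₀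
  a11 : 0 ≤ midAt κ xa θ₀ k₀ m₁ x₁
  b11 : 0 ≤ midAt κ xb θ₀ k₀ m₁ x₁

/-- The eight endpoint checks of a row with all centres. -/
structure TopChecks (κ xa xb θ₀ k₀ x₀ x₁ : ℝ) : Prop where
  a00 : 0 ≤ midAt κ xa θ₀ k₀ (1 / 2) x₀
  b00 : 0 ≤ midAt κ xb θ₀ k₀ (1 / 2) x₀
  a01 : 0 ≤ midAt κ xa θ₀ k₀ (1 / 2) x₁
  b01 : 0 ≤ midAt κ xb θ₀ k₀ (1 / 2) x₁
  a10 : 0 ≤ midAt κ xa θ₀ k₀ (1 - x₀ / 2) x₀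
  b10 : 0 ≤ midAt κ xb θ₀ k₀ (1 - x₀ / 2) x₀
  a11 : 0 ≤ midAt κ xa θ₀ k₀ (1 - x₁ / 2) x₁
  b11 : 0 ≤ midAt κ xb θ₀ k₀ (1 - x₁ / 2) x₁

variable {κ ε a b ea eb xa xb θ₀ k₀ m₁ x₀ x₁ : ℝ}

lemma centre_or_edge (hm : 1 / 2 ≤ m₁) (c : ℝ) :
    (1 - m₁ ≤ c ∧ c ≤ m₁) ∨ c * (1 - c) ≤ m₁ * (1 - m₁) := by
  rcases lt_or_ge c (1 - m₁) with h | h
  · right; nlinarith
  rcases le_or_gt c m₁ with h' | h'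
  · exact Or.inl ⟨h, h'⟩
  · right; nlinarith

/-- A row with a split at the centre `m₁`. -/
theorem stepAt_row (B : InBlock κ ε ea eb xa xb)
    (hcert : ∃ θ k, Cert eb θ k ∧ θ₀ ≤ θ ∧ θ < 1 ∧ k₀ * binEntropy eb ≤ k)
    (R : RowChecks κ xa xb θ₀ k₀ m₁ x₀ x₁) (hθ₀ : 0 < θ₀) (hk₀ : 0 ≤ k₀) (hx₀ : 0 ≤ x₀)
    (hx₁ : x₁ < 1) (hm : 1 / 2 ≤ m₁) (hm₁ : m₁ + x₁ / 2 ≤ 1)
    (hgap : 1 ≤ xa * ((1 - κ) * (1 / (8 * (m₁ * (1 - m₁))) +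
      x₀ ^ 2 / 192 * ((1 - 3 * (m₁ * (1 - m₁))) / (m₁ * (1 - m₁)) ^ 3)) +
      (1 - 2 * eb) ^ 2 * x₀ ^ 2 / 192 * ((1 - 3 * (m₁ * (1 - m₁))) / (m₁ * (1 - m₁)) ^ 3) +
      κ * log 2))
    (hd : |a - b| ∈ Icc x₀ x₁) (ha : a ∈ Icc (0 : ℝ) 1) (hb : b ∈ Icc (0 : ℝ) 1) :
    StepAt ε (capBound κ ε) a b := by
  obtain ⟨θ, k, hc, h1, h2, h3⟩ := hcert
  rcases centre_or_edge hm ((a + b) / 2) with ⟨l, u⟩ | e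
  · exact stepAt_center B.κ0 B.pos B.le B.lt B.mem B.xa0 B.xb1 hθ₀ h1 h2 hk₀ h3 hc hx₀ hx₁ hm₁
      hd ha hb l u R.a00 R.b00 R.a01 R.b01 R.a10 R.b10 R.a11 R.b11
  · exact stepAt_gap B.κ1 B.pos B.le B.lt.le B.xa0 B.mem.1 hx₀ hd.1 ha hb e
      (by nlinarith [sq_nonneg (2 * m₁ - 1)]) hgap

/-- A row without a split. -/
theorem stepAt_top_row (B : InBlock κ ε ea eb xa xb)
    (hcert : ∃ θ k, Cert eb θ k ∧ θ₀ ≤ θ ∧ θ < 1 ∧ k₀ * binEntropy eb ≤ k)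
    (R : TopChecks κ xa xb θ₀ k₀ x₀ x₁) (hθ₀ : 0 < θ₀) (hk₀ : 0 ≤ k₀) (hx₀ : 0 < x₀)
    (hx₁ : x₁ < 1) (hd : |a - b| ∈ Icc x₀ x₁) (ha : a ∈ Icc (0 : ℝ) 1) (hb : b ∈ Icc (0 : ℝ) 1) :
    StepAt ε (capBound κ ε) a b := by
  obtain ⟨θ, k, hc, h1, h2, h3⟩ := hcert
  exact stepAt_large B.κ0 B.pos B.le B.lt B.mem B.xa0 B.xb1 hθ₀ h1 h2 hk₀ h3 hc hx₀ hx₁ hd ha hb
    R.a00 R.b00 R.a01 R.b01 R.a10 R.b10 R.a11 R.b11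

/-- The row of small distances. -/
theorem stepAt_first_row {ν lam : ℝ} (B : InBlock κ ε ea eb xa xb) (hν : 0 < ν) (hlam : 0 ≤ lam)
    (hx0 : 0 < x₀) (hm : 1 / 2 < m₁) (hm₁ : m₁ + x₀ / 2 ≤ 1)
    (hθ : (1 - 2 * eb) ^ 2 ≤ 1 - ν * x₀ ^ 2)
    (hquad : (lam * binEntropy eb) ^ 2 ≤ 2 * log 2 * ν * (1 - ν * x₀ ^ 2 - (1 - 2 * eb) ^ 2))
    (c0a : (1 - κ * xa * log 2) + κ * xa * (phi x₀ / x₀ ^ 2) + ν ≤ lam)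
    (c0b : (1 - κ * xb * log 2) + κ * xb * (phi x₀ / x₀ ^ 2) + ν ≤ lam)
    (c1a : (1 - κ * xa * log 2) + κ * xa *
      (phi (x₀ / (2 * m₁)) / (x₀ / (2 * m₁)) ^ 2 / (4 * m₁) +
        phi (x₀ / (2 * (1 - m₁))) / (x₀ / (2 * (1 - m₁))) ^ 2 / (4 * (1 - m₁))) +
      ν * mshape κ xa m₁ ≤ lam)
    (c1b : (1 - κ * xb * log 2) + κ * xb *
      (phi (x₀ / (2 * m₁)) / (x₀ / (2 * m₁)) ^ 2 / (4 * m₁) +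
        phi (x₀ / (2 * (1 - m₁))) / (x₀ / (2 * (1 - m₁))) ^ 2 / (4 * (1 - m₁))) +
      ν * mshape κ xb m₁ ≤ lam)
    (hgap : 1 ≤ xa * ((1 - κ) * (1 / (8 * (m₁ * (1 - m₁)))) + κ * log 2))
    (hd : |a - b| ≤ x₀) (ha : a ∈ Icc (0 : ℝ) 1) (hb : b ∈ Icc (0 : ℝ) 1) :
    StepAt ε (capBound κ ε) a b := by
  rcases centre_or_edge hm.le ((a + b) / 2) with ⟨l, u⟩ | e
  · refine stepAt_small B.κ0 B.pos B.le B.lt B.mem B.xa0 B.xb1 hν hlam hx0 hm hm₁ hθ hquad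
      ?_ ?_ hd ha hb l u
    · rintro x (rfl | rfl) <;> assumption
    · rintro x (rfl | rfl) <;> assumption
  · exact stepAt_gap (x₀ := 0) B.κ1 B.pos B.le B.lt.le B.xa0 B.mem.1 le_rfl (abs_nonneg _) ha hb e
      (by nlinarith [sq_nonneg (2 * m₁ - 1)]) (by simpa using hgap)

end Vale.Agent.P322
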