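import Mathlib
import Vale.Agent.P322.Mid.Rows
import Vale.Agent.P322.Mid.EdgeFam
import Vale.Agent.P322.Mid.BandNumerics

/-!
P322: the bands beside the tangent regions, for crossovers in `[21 / 200, 7 / 50]`.
-/

open Real Set

namespace Vale.Agent.P322.Band

lemma midAt_half_nonneg {x θ k d lo e₀ : ℝ} (h : lo ≤ binEntropy e₀)
    (hc : e₀ = (1 - d) / 2 ∧ 0 ≤ x ∧ 0 ≤ θ ∧ 0 ≤ d ∧ d ≤ 1 ∧
      1 ≤ θ * ((1 - x * 0.6931471808) * (1 - d ^ 2) + x * lo) + k * d) :
    0 ≤ midAt 1 x θ k (1 / 2) d := by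
  obtain ⟨rfl, hx, hθ, hd0, hd1, hc⟩ := hc
  have e : binEntropy (1 / 2 + d / 2) = binEntropy ((1 - d) / 2) := by
    rw [← binEntropy_one_sub]; ring_nf
  have e' : binEntropy (1 / 2 - d / 2) = binEntropy ((1 - d) / 2) := by ring_nf
  have e2 : binEntropy (1 / 2 : ℝ) = log 2 := by rw [one_div]; exact binEntropy_two_inv
  simp only [midAt, mshape, e, e', e2]
  have a := mul_le_mul_of_nonneg_left h (mul_nonneg hθ hx)
  have b := mul_le_mul_of_nonneg_left log_two_lt_d9.le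
    (mul_nonneg (mul_nonneg hθ hx) (by nlinarith : 0 ≤ 1 - d ^ 2))
  linarith

lemma midAt_top_nonneg {x θ k d lo hi e₁ e₂ : ℝ} (h : lo ≤ binEntropy e₁)
    (h' : binEntropy e₂ ≤ hi)
    (hc : e₁ = d ∧ e₂ = d / 2 ∧ 0 ≤ x ∧ 0 ≤ θ ∧ θ ≤ 1 ∧ 0 ≤ d ∧ d ≤ 1 ∧
      (1 - x * 0.6931471803) * (d * (2 - d)) + x * hi ≤
        θ / 2 * ((1 - x * 0.6931471803) * (4 * d * (1 - d)) + x * lo) + k * d) :
    0 ≤ midAt 1 x θ k (1 - d / 2) d := by
  obtain ⟨he₁, he₂, hx, hθ, hθ1, hd0, hd1, hc⟩ := hc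
  rw [he₁] at h
  rw [he₂] at h'
  have e : binEntropy (1 - d / 2 - d / 2) = binEntropy d := by
    rw [← binEntropy_one_sub]; ring_nf
  have e2 : binEntropy (1 - d / 2 + d / 2) = 0 := by simp
  simp only [midAt, mshape, e, e2, binEntropy_one_sub]
  have a := mul_le_mul_of_nonneg_left h (mul_nonneg hθ hx)
  have b := mul_le_mul_of_nonneg_left h' hx
  have c := mul_le_mul_of_nonneg_left log_two_gt_d9.le (mul_nonneg hx
    (by nlinarith [mul_nonneg hd0 (by linarith : 0 ≤ 1 - d)] :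
      0 ≤ d * (2 - d) - θ * (2 * d * (1 - d))))
  linarith

lemma mul_edgeBr_ge {κ eb g u₀ U₀ x τ hlo lg T : ℝ} (h : hlo ≤ binEntropy eb) (hl : lg ≤ log g)
    (hc : 0 ≤ τ ∧ 0 ≤ κ * x ∧ 0 ≤ g ∧ 0 ≤ U₀ ∧ u₀ ≤ 1 ∧ g * u₀ ≤ 1 / 2 ∧
      κ * x * 0.6931471808 ≤ 1 ∧ 0 ≤ hlo ∧
      T ≤ τ * ((hlo * ((1 - 2 * (g * u₀)) * (κ * x / 2)) - g) * U₀ +
        (hlo * ((1 - 2 * (g * u₀)) * ((1 - κ * x * 0.6931471808) * (2 * (1 - u₀)) +
          κ * x / 2 * (1 - u₀))) - g * (1 - lg)))) :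
    T ≤ τ * edgeBr κ eb g u₀ U₀ x := by
  obtain ⟨hτ, hy, hg, hU, hu, hgu, hy1, hlo0, hc⟩ := hc
  have hm : 0 ≤ 1 - 2 * (g * u₀) := by linarith
  refine hc.trans (mul_le_mul_of_nonneg_left ?_ hτ)
  simp only [edgeBr]
  have hlog : 1 - κ * x * 0.6931471808 ≤ 1 - κ * x * log 2 := by
    linarith [mul_le_mul_of_nonneg_left log_two_lt_d9.le hy]
  have hu' : 0 ≤ 1 - u₀ := sub_nonneg.2 hu
  have hH : 0 ≤ binEntropy eb := hlo0.trans h
  gcongr

lemma certC1_0 : ∃ θ k, Cert (23 / 200 : ℝ) θ k ∧ (933 / 1250 : ℝ) ≤ θ ∧ θ < 1 ∧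
    (538 / 625 : ℝ) * binEntropy (23 / 200 : ℝ) ≤ k := by
  refine exists_cert (d := (21 / 250 : ℝ)) (q := (1123 / 6250 : ℝ)) (θ₁ := (746543 / 1000000 : ℝ)) (by norm_num) (by norm_num)
    (by norm_num) (by norm_num) (by norm_num) ?_ ?_ (by norm_num) ?_ (by norm_num)
  all_goals norm_num
  all_goals linarith [log21_250.1, log21_250.2, log229_250.1, log229_250.2, log1123_6250.1, log1123_6250.2,
    log5127_6250.1, log5127_6250.2, ent21_250.2, ent1123_6250.1, ent23_200.2]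

lemma checksC1_0 :
    TopChecks 1 (559 / 500 : ℝ) (1141 / 1000 : ℝ) (933 / 1250 : ℝ) (538 / 625 : ℝ) (83 / 200 : ℝ) (691 / 1000 : ℝ) := by
  constructor
  · exact midAt_half_nonneg ent117_400.1 (by norm_num)
  · exact midAt_half_nonneg ent117_400.1 (by norm_num)
  · exact midAt_half_nonneg ent309_2000.1 (by norm_num)
  · exact midAt_half_nonneg ent309_2000.1 (by norm_num)
  · exact midAt_top_nonneg ent83_200.1 ent83_400.2 (by norm_num)
  · exact midAt_top_nonneg ent83_200.1 ent83_400.2 (by norm_num)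
  · exact midAt_top_nonneg ent691_1000.1 ent691_2000.2 (by norm_num)
  · exact midAt_top_nonneg ent691_1000.1 ent691_2000.2 (by norm_num)

lemma certC1_1 : ∃ θ k, Cert (23 / 200 : ℝ) θ k ∧ (2987 / 5000 : ℝ) ≤ θ ∧ θ < 1 ∧
    (598 / 625 : ℝ) * binEntropy (23 / 200 : ℝ) ≤ k := by
  refine exists_cert (d := (29 / 1000 : ℝ)) (q := (13733 / 100000 : ℝ)) (θ₁ := (23901 / 40000 : ℝ)) (by norm_num) (by norm_num)
    (by norm_num) (by norm_num) (by norm_num) ?_ ?_ (by norm_num) ?_ (by norm_num)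
  all_goals norm_num
  all_goals linarith [log29_1000.1, log29_1000.2, log971_1000.1, log971_1000.2, log13733_100000.1, log13733_100000.2,
    log86267_100000.1, log86267_100000.2, ent29_1000.2, ent13733_100000.1, ent23_200.2]

lemma checksC1_1 :
    TopChecks 1 (559 / 500 : ℝ) (1141 / 1000 : ℝ) (2987 / 5000 : ℝ) (598 / 625 : ℝ) (691 / 1000 : ℝ) (91 / 100 : ℝ) := by
  constructor
  · exact midAt_half_nonneg ent309_2000.1 (by norm_num)
  · exact midAt_half_nonneg ent309_2000.1 (by norm_num)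
  · exact midAt_half_nonneg ent9_200.1 (by norm_num)
  · exact midAt_half_nonneg ent9_200.1 (by norm_num)
  · exact midAt_top_nonneg ent691_1000.1 ent691_2000.2 (by norm_num)
  · exact midAt_top_nonneg ent691_1000.1 ent691_2000.2 (by norm_num)
  · exact midAt_top_nonneg ent91_100.1 ent91_200.2 (by norm_num)
  · exact midAt_top_nonneg ent91_100.1 ent91_200.2 (by norm_num)

lemma certC1_2 : ∃ θ k, Cert (23 / 200 : ℝ) θ k ∧ (2197 / 5000 : ℝ) ≤ θ ∧ θ < 1 ∧
    (1241 / 1250 : ℝ) * binEntropy (23 / 200 : ℝ) ≤ k := by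
  refine exists_cert (d := (3 / 500 : ℝ)) (q := (5981 / 50000 : ℝ)) (θ₁ := (87889 / 200000 : ℝ)) (by norm_num) (by norm_num)
    (by norm_num) (by norm_num) (by norm_num) ?_ ?_ (by norm_num) ?_ (by norm_num)
  all_goals norm_num
  all_goals linarith [log3_500.1, log3_500.2, log497_500.1, log497_500.2, log5981_50000.1, log5981_50000.2,
    log44019_50000.1, log44019_50000.2, ent3_500.2, ent5981_50000.1, ent23_200.2]

lemma checksC1_2 :
    TopChecks 1 (559 / 500 : ℝ) (1141 / 1000 : ℝ) (2197 / 5000 : ℝ) (1241 / 1250 : ℝ) (91 / 100 : ℝ) (197 / 200 : ℝ) := by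
  constructor
  · exact midAt_half_nonneg ent9_200.1 (by norm_num)
  · exact midAt_half_nonneg ent9_200.1 (by norm_num)
  · exact midAt_half_nonneg ent3_400.1 (by norm_num)
  · exact midAt_half_nonneg ent3_400.1 (by norm_num)
  · exact midAt_top_nonneg ent91_100.1 ent91_200.2 (by norm_num)
  · exact midAt_top_nonneg ent91_100.1 ent91_200.2 (by norm_num)
  · exact midAt_top_nonneg ent197_200.1 ent197_400.2 (by norm_num)
  · exact midAt_top_nonneg ent197_200.1 ent197_400.2 (by norm_num)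

theorem bandC1 {ε a b : ℝ} (h0 : (21 / 200 : ℝ) ≤ ε) (h1 : ε ≤ (23 / 200 : ℝ)) (ha : a ∈ Icc (0 : ℝ) 1)
    (hb : b ∈ Icc (0 : ℝ) 1) (hd : (83 / 200 : ℝ) ≤ |a - b|) :
    StepAt ε (capBound 1 ε) a b := by
  have hx : xRatio ε ∈ Icc (559 / 500 : ℝ) (1141 / 1000 : ℝ) := by
    refine xRatio_mem (ea := (21 / 200 : ℝ)) (eb := (23 / 200 : ℝ)) (by norm_num) h0 h1 (by norm_num) ?_ ?_
    · linarith [ent21_200.2]
    · linarith [ent23_200.1]
  have hxb : (1 : ℝ) * (1141 / 1000 : ℝ) * log 2 ≤ 1 := by linarith [log_two_lt_d9]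
  have B : InBlock 1 ε (21 / 200 : ℝ) (23 / 200 : ℝ) (559 / 500 : ℝ) (1141 / 1000 : ℝ) :=
    ⟨zero_le_one, le_rfl, by linarith, h1, by norm_num, hx, by norm_num, hxb, h0⟩
  rcases le_or_gt |a - b| (691 / 1000 : ℝ) with u0 | u0
  · exact stepAt_top_row B certC1_0 checksC1_0 (by norm_num) (by norm_num) (by norm_num)
      (by norm_num) ⟨hd, u0⟩ ha hb
  rcases le_or_gt |a - b| (91 / 100 : ℝ) with u1 | u1
  · exact stepAt_top_row B certC1_1 checksC1_1 (by norm_num) (by norm_num) (by norm_num)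
      (by norm_num) ⟨u0.le, u1⟩ ha hb
  rcases le_or_gt |a - b| (197 / 200 : ℝ) with u2 | u2
  · exact stepAt_top_row B certC1_2 checksC1_2 (by norm_num) (by norm_num) (by norm_num)
      (by norm_num) ⟨u1.le, u2⟩ ha hb
  refine stepAt_edge (g := (171 / 1000 : ℝ)) (u₀ := (3 / 200 : ℝ)) (S := (126337 / 62500 : ℝ)) (ℓ := (35703 / 15625 : ℝ))
    (τ := (383017 / 1000000 : ℝ)) (U₀ := (524963 / 125000 : ℝ)) (T := (-1853 / 1000000 : ℝ)) zero_le_one (by linarith) h1 (by norm_num) hx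
    (by norm_num) hxb (by norm_num) (by norm_num) (by norm_num) ?_ ?_ (by norm_num) ?_ ?_ ?_ ?_
    (by norm_num)
    (mul_edgeBr_ge ent23_200.1 log171_1000.1 (by norm_num))
    (mul_edgeBr_ge ent23_200.1 log171_1000.1 (by norm_num))
    ?_ (by linarith) ha hb
  all_goals norm_num
  all_goals linarith [log171_1000.1, log3_200.2, log513_200000.1, log513_200000.2, log2339501_20000000.1, log2339501_20000000.2,
    log17660499_20000000.1, log17660499_20000000.2, log23_200.1, log177_200.1, ent23_200.1, ent23_200.2,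
    log_two_lt_d9, log_two_gt_d9]

lemma certC2_0 : ∃ θ k, Cert (1 / 8 : ℝ) θ k ∧ (719 / 1000 : ℝ) ≤ θ ∧ θ < 1 ∧
    (2199 / 2500 : ℝ) * binEntropy (1 / 8 : ℝ) ≤ k := by
  refine exists_cert (d := (77 / 1000 : ℝ)) (q := (731 / 4000 : ℝ)) (θ₁ := (22473 / 31250 : ℝ)) (by norm_num) (by norm_num)
    (by norm_num) (by norm_num) (by norm_num) ?_ ?_ (by norm_num) ?_ (by norm_num)
  all_goals norm_num
  all_goals linarith [log77_1000.1, log77_1000.2, log923_1000.1, log923_1000.2, log731_4000.1, log731_4000.2,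
    log3269_4000.1, log3269_4000.2, ent77_1000.2, ent731_4000.1, ent1_8.2]

lemma checksC2_0 :
    TopChecks 1 (57 / 50 : ℝ) (581 / 500 : ℝ) (719 / 1000 : ℝ) (2199 / 2500 : ℝ) (101 / 200 : ℝ) (88 / 125 : ℝ) := by
  constructor
  · exact midAt_half_nonneg ent99_400.1 (by norm_num)
  · exact midAt_half_nonneg ent99_400.1 (by norm_num)
  · exact midAt_half_nonneg ent37_250.1 (by norm_num)
  · exact midAt_half_nonneg ent37_250.1 (by norm_num)
  · exact midAt_top_nonneg ent101_200.1 ent101_400.2 (by norm_num)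
  · exact midAt_top_nonneg ent101_200.1 ent101_400.2 (by norm_num)
  · exact midAt_top_nonneg ent88_125.1 ent44_125.2 (by norm_num)
  · exact midAt_top_nonneg ent88_125.1 ent44_125.2 (by norm_num)

lemma certC2_1 : ∃ θ k, Cert (1 / 8 : ℝ) θ k ∧ (301 / 500 : ℝ) ≤ θ ∧ θ < 1 ∧
    (4759 / 5000 : ℝ) * binEntropy (1 / 8 : ℝ) ≤ k := by
  refine exists_cert (d := (17 / 500 : ℝ)) (q := (301 / 2000 : ℝ)) (θ₁ := (602141 / 1000000 : ℝ)) (by norm_num) (by norm_num)
    (by norm_num) (by norm_num) (by norm_num) ?_ ?_ (by norm_num) ?_ (by norm_num)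
  all_goals norm_num
  all_goals linarith [log17_500.1, log17_500.2, log483_500.1, log483_500.2, log301_2000.1, log301_2000.2,
    log1699_2000.1, log1699_2000.2, ent17_500.2, ent301_2000.1, ent1_8.2]

lemma checksC2_1 :
    TopChecks 1 (57 / 50 : ℝ) (581 / 500 : ℝ) (301 / 500 : ℝ) (4759 / 5000 : ℝ) (88 / 125 : ℝ) (891 / 1000 : ℝ) := by
  constructor
  · exact midAt_half_nonneg ent37_250.1 (by norm_num)
  · exact midAt_half_nonneg ent37_250.1 (by norm_num)
  · exact midAt_half_nonneg ent109_2000.1 (by norm_num)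
  · exact midAt_half_nonneg ent109_2000.1 (by norm_num)
  · exact midAt_top_nonneg ent88_125.1 ent44_125.2 (by norm_num)
  · exact midAt_top_nonneg ent88_125.1 ent44_125.2 (by norm_num)
  · exact midAt_top_nonneg ent891_1000.1 ent891_2000.2 (by norm_num)
  · exact midAt_top_nonneg ent891_1000.1 ent891_2000.2 (by norm_num)

lemma certC2_2 : ∃ θ k, Cert (1 / 8 : ℝ) θ k ∧ (2343 / 5000 : ℝ) ≤ θ ∧ θ < 1 ∧
    (247 / 250 : ℝ) * binEntropy (1 / 8 : ℝ) ≤ k := by
  refine exists_cert (d := (1 / 100 : ℝ)) (q := (53 / 400 : ℝ)) (θ₁ := (7324 / 15625 : ℝ)) (by norm_num) (by norm_num)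
    (by norm_num) (by norm_num) (by norm_num) ?_ ?_ (by norm_num) ?_ (by norm_num)
  all_goals norm_num
  all_goals linarith [log1_100.1, log1_100.2, log99_100.1, log99_100.2, log53_400.1, log53_400.2,
    log347_400.1, log347_400.2, ent1_100.2, ent53_400.1, ent1_8.2]

lemma checksC2_2 :
    TopChecks 1 (57 / 50 : ℝ) (581 / 500 : ℝ) (2343 / 5000 : ℝ) (247 / 250 : ℝ) (891 / 1000 : ℝ) (487 / 500 : ℝ) := by
  constructor
  · exact midAt_half_nonneg ent109_2000.1 (by norm_num)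
  · exact midAt_half_nonneg ent109_2000.1 (by norm_num)
  · exact midAt_half_nonneg ent13_1000.1 (by norm_num)
  · exact midAt_half_nonneg ent13_1000.1 (by norm_num)
  · exact midAt_top_nonneg ent891_1000.1 ent891_2000.2 (by norm_num)
  · exact midAt_top_nonneg ent891_1000.1 ent891_2000.2 (by norm_num)
  · exact midAt_top_nonneg ent487_500.1 ent487_1000.2 (by norm_num)
  · exact midAt_top_nonneg ent487_500.1 ent487_1000.2 (by norm_num)

lemma certC2_3 : ∃ θ k, Cert (1 / 8 : ℝ) θ k ∧ (1771 / 5000 : ℝ) ≤ θ ∧ θ < 1 ∧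
    (499 / 500 : ℝ) * binEntropy (1 / 8 : ℝ) ≤ k := by
  refine exists_cert (d := (1 / 500 : ℝ)) (q := (253 / 2000 : ℝ)) (θ₁ := (11073 / 31250 : ℝ)) (by norm_num) (by norm_num)
    (by norm_num) (by norm_num) (by norm_num) ?_ ?_ (by norm_num) ?_ (by norm_num)
  all_goals norm_num
  all_goals linarith [log1_500.1, log1_500.2, log499_500.1, log499_500.2, log253_2000.1, log253_2000.2,
    log1747_2000.1, log1747_2000.2, ent1_500.2, ent253_2000.1, ent1_8.2]

lemma checksC2_3 :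
    TopChecks 1 (57 / 50 : ℝ) (581 / 500 : ℝ) (1771 / 5000 : ℝ) (499 / 500 : ℝ) (487 / 500 : ℝ) (199 / 200 : ℝ) := by
  constructor
  · exact midAt_half_nonneg ent13_1000.1 (by norm_num)
  · exact midAt_half_nonneg ent13_1000.1 (by norm_num)
  · exact midAt_half_nonneg ent1_400.1 (by norm_num)
  · exact midAt_half_nonneg ent1_400.1 (by norm_num)
  · exact midAt_top_nonneg ent487_500.1 ent487_1000.2 (by norm_num)
  · exact midAt_top_nonneg ent487_500.1 ent487_1000.2 (by norm_num)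
  · exact midAt_top_nonneg ent199_200.1 ent199_400.2 (by norm_num)
  · exact midAt_top_nonneg ent199_200.1 ent199_400.2 (by norm_num)

theorem bandC2 {ε a b : ℝ} (h0 : (23 / 200 : ℝ) ≤ ε) (h1 : ε ≤ (1 / 8 : ℝ)) (ha : a ∈ Icc (0 : ℝ) 1)
    (hb : b ∈ Icc (0 : ℝ) 1) (hd : (101 / 200 : ℝ) ≤ |a - b|) :
    StepAt ε (capBound 1 ε) a b := by
  have hx : xRatio ε ∈ Icc (57 / 50 : ℝ) (581 / 500 : ℝ) := by
    refine xRatio_mem (ea := (23 / 200 : ℝ)) (eb := (1 / 8 : ℝ)) (by norm_num) h0 h1 (by norm_num) ?_ ?_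
    · linarith [ent23_200.2]
    · linarith [ent1_8.1]
  have hxb : (1 : ℝ) * (581 / 500 : ℝ) * log 2 ≤ 1 := by linarith [log_two_lt_d9]
  have B : InBlock 1 ε (23 / 200 : ℝ) (1 / 8 : ℝ) (57 / 50 : ℝ) (581 / 500 : ℝ) :=
    ⟨zero_le_one, le_rfl, by linarith, h1, by norm_num, hx, by norm_num, hxb, h0⟩
  rcases le_or_gt |a - b| (88 / 125 : ℝ) with u0 | u0
  · exact stepAt_top_row B certC2_0 checksC2_0 (by norm_num) (by norm_num) (by norm_num)
      (by norm_num) ⟨hd, u0⟩ ha hb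
  rcases le_or_gt |a - b| (891 / 1000 : ℝ) with u1 | u1
  · exact stepAt_top_row B certC2_1 checksC2_1 (by norm_num) (by norm_num) (by norm_num)
      (by norm_num) ⟨u0.le, u1⟩ ha hb
  rcases le_or_gt |a - b| (487 / 500 : ℝ) with u2 | u2
  · exact stepAt_top_row B certC2_2 checksC2_2 (by norm_num) (by norm_num) (by norm_num)
      (by norm_num) ⟨u1.le, u2⟩ ha hb
  rcases le_or_gt |a - b| (199 / 200 : ℝ) with u3 | u3
  · exact stepAt_top_row B certC2_3 checksC2_3 (by norm_num) (by norm_num) (by norm_num)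
      (by norm_num) ⟨u2.le, u3⟩ ha hb
  refine stepAt_edge (g := (19 / 100 : ℝ)) (u₀ := (1 / 200 : ℝ)) (S := (1939411 / 1000000 : ℝ)) (ℓ := (1106487 / 500000 : ℝ))
    (τ := (318001 / 1000000 : ℝ)) (U₀ := (5298317 / 1000000 : ℝ)) (T := (-991 / 500000 : ℝ)) zero_le_one (by linarith) h1 (by norm_num) hx
    (by norm_num) hxb (by norm_num) (by norm_num) (by norm_num) ?_ ?_ (by norm_num) ?_ ?_ ?_ ?_
    (by norm_num)
    (mul_edgeBr_ge ent1_8.1 log19_100.1 (by norm_num))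
    (mul_edgeBr_ge ent1_8.1 log19_100.1 (by norm_num))
    ?_ (by linarith) ha hb
  all_goals norm_num
  all_goals linarith [log19_100.1, log1_200.2, log19_20000.1, log19_20000.2, log10057_80000.1, log10057_80000.2,
    log69943_80000.1, log69943_80000.2, log1_8.1, log7_8.1, ent1_8.1, ent1_8.2,
    log_two_lt_d9, log_two_gt_d9]

lemma certC3_0 : ∃ θ k, Cert (33 / 250 : ℝ) θ k ∧ (3291 / 5000 : ℝ) ≤ θ ∧ θ < 1 ∧
    (4601 / 5000 : ℝ) * binEntropy (33 / 250 : ℝ) ≤ k := by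
  refine exists_cert (d := (11 / 200 : ℝ)) (q := (539 / 3125 : ℝ)) (θ₁ := (164593 / 250000 : ℝ)) (by norm_num) (by norm_num)
    (by norm_num) (by norm_num) (by norm_num) ?_ ?_ (by norm_num) ?_ (by norm_num)
  all_goals norm_num
  all_goals linarith [log11_200.1, log11_200.2, log189_200.1, log189_200.2, log539_3125.1, log539_3125.2,
    log2586_3125.1, log2586_3125.2, ent11_200.2, ent539_3125.1, ent33_250.2]

lemma checksC3_0 :
    TopChecks 1 (1161 / 1000 : ℝ) (47 / 40 : ℝ) (3291 / 5000 : ℝ) (4601 / 5000 : ℝ) (129 / 200 : ℝ) (159 / 200 : ℝ) := by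
  constructor
  · exact midAt_half_nonneg ent71_400.1 (by norm_num)
  · exact midAt_half_nonneg ent71_400.1 (by norm_num)
  · exact midAt_half_nonneg ent41_400.1 (by norm_num)
  · exact midAt_half_nonneg ent41_400.1 (by norm_num)
  · exact midAt_top_nonneg ent129_200.1 ent129_400.2 (by norm_num)
  · exact midAt_top_nonneg ent129_200.1 ent129_400.2 (by norm_num)
  · exact midAt_top_nonneg ent159_200.1 ent159_400.2 (by norm_num)
  · exact midAt_top_nonneg ent159_200.1 ent159_400.2 (by norm_num)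

lemma certC3_1 : ∃ θ k, Cert (33 / 250 : ℝ) θ k ∧ (2769 / 5000 : ℝ) ≤ θ ∧ θ < 1 ∧
    (4837 / 5000 : ℝ) * binEntropy (33 / 250 : ℝ) ≤ k := by
  refine exists_cert (d := (1 / 40 : ℝ)) (q := (94 / 625 : ℝ)) (θ₁ := (553943 / 1000000 : ℝ)) (by norm_num) (by norm_num)
    (by norm_num) (by norm_num) (by norm_num) ?_ ?_ (by norm_num) ?_ (by norm_num)
  all_goals norm_num
  all_goals linarith [log1_40.1, log1_40.2, log39_40.1, log39_40.2, log94_625.1, log94_625.2,
    log531_625.1, log531_625.2, ent1_40.2, ent94_625.1, ent33_250.2]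

lemma checksC3_1 :
    TopChecks 1 (1161 / 1000 : ℝ) (47 / 40 : ℝ) (2769 / 5000 : ℝ) (4837 / 5000 : ℝ) (159 / 200 : ℝ) (923 / 1000 : ℝ) := by
  constructor
  · exact midAt_half_nonneg ent41_400.1 (by norm_num)
  · exact midAt_half_nonneg ent41_400.1 (by norm_num)
  · exact midAt_half_nonneg ent77_2000.1 (by norm_num)
  · exact midAt_half_nonneg ent77_2000.1 (by norm_num)
  · exact midAt_top_nonneg ent159_200.1 ent159_400.2 (by norm_num)
  · exact midAt_top_nonneg ent159_200.1 ent159_400.2 (by norm_num)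
  · exact midAt_top_nonneg ent923_1000.1 ent923_2000.2 (by norm_num)
  · exact midAt_top_nonneg ent923_1000.1 ent923_2000.2 (by norm_num)

lemma certC3_2 : ∃ θ k, Cert (33 / 250 : ℝ) θ k ∧ (2147 / 5000 : ℝ) ≤ θ ∧ θ < 1 ∧
    (2481 / 2500 : ℝ) * binEntropy (33 / 250 : ℝ) ≤ k := by
  refine exists_cert (d := (7 / 1000 : ℝ)) (q := (2143 / 15625 : ℝ)) (θ₁ := (53689 / 125000 : ℝ)) (by norm_num) (by norm_num)
    (by norm_num) (by norm_num) (by norm_num) ?_ ?_ (by norm_num) ?_ (by norm_num)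
  all_goals norm_num
  all_goals linarith [log7_1000.1, log7_1000.2, log993_1000.1, log993_1000.2, log2143_15625.1, log2143_15625.2,
    log13482_15625.1, log13482_15625.2, ent7_1000.2, ent2143_15625.1, ent33_250.2]

lemma checksC3_2 :
    TopChecks 1 (1161 / 1000 : ℝ) (47 / 40 : ℝ) (2147 / 5000 : ℝ) (2481 / 2500 : ℝ) (923 / 1000 : ℝ) (983 / 1000 : ℝ) := by
  constructor
  · exact midAt_half_nonneg ent77_2000.1 (by norm_num)
  · exact midAt_half_nonneg ent77_2000.1 (by norm_num)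
  · exact midAt_half_nonneg ent17_2000.1 (by norm_num)
  · exact midAt_half_nonneg ent17_2000.1 (by norm_num)
  · exact midAt_top_nonneg ent923_1000.1 ent923_2000.2 (by norm_num)
  · exact midAt_top_nonneg ent923_1000.1 ent923_2000.2 (by norm_num)
  · exact midAt_top_nonneg ent983_1000.1 ent983_2000.2 (by norm_num)
  · exact midAt_top_nonneg ent983_1000.1 ent983_2000.2 (by norm_num)

theorem bandC3 {ε a b : ℝ} (h0 : (1 / 8 : ℝ) ≤ ε) (h1 : ε ≤ (33 / 250 : ℝ)) (ha : a ∈ Icc (0 : ℝ) 1)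
    (hb : b ∈ Icc (0 : ℝ) 1) (hd : (129 / 200 : ℝ) ≤ |a - b|) :
    StepAt ε (capBound 1 ε) a b := by
  have hx : xRatio ε ∈ Icc (1161 / 1000 : ℝ) (47 / 40 : ℝ) := by
    refine xRatio_mem (ea := (1 / 8 : ℝ)) (eb := (33 / 250 : ℝ)) (by norm_num) h0 h1 (by norm_num) ?_ ?_
    · linarith [ent1_8.2]
    · linarith [ent33_250.1]
  have hxb : (1 : ℝ) * (47 / 40 : ℝ) * log 2 ≤ 1 := by linarith [log_two_lt_d9]
  have B : InBlock 1 ε (1 / 8 : ℝ) (33 / 250 : ℝ) (1161 / 1000 : ℝ) (47 / 40 : ℝ) :=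
    ⟨zero_le_one, le_rfl, by linarith, h1, by norm_num, hx, by norm_num, hxb, h0⟩
  rcases le_or_gt |a - b| (159 / 200 : ℝ) with u0 | u0
  · exact stepAt_top_row B certC3_0 checksC3_0 (by norm_num) (by norm_num) (by norm_num)
      (by norm_num) ⟨hd, u0⟩ ha hb
  rcases le_or_gt |a - b| (923 / 1000 : ℝ) with u1 | u1
  · exact stepAt_top_row B certC3_1 checksC3_1 (by norm_num) (by norm_num) (by norm_num)
      (by norm_num) ⟨u0.le, u1⟩ ha hb
  rcases le_or_gt |a - b| (983 / 1000 : ℝ) with u2 | u2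
  · exact stepAt_top_row B certC3_2 checksC3_2 (by norm_num) (by norm_num) (by norm_num)
      (by norm_num) ⟨u1.le, u2⟩ ha hb
  refine stepAt_edge (g := (24 / 125 : ℝ)) (u₀ := (17 / 1000 : ℝ)) (S := (931291 / 500000 : ℝ)) (ℓ := (1083259 / 500000 : ℝ))
    (τ := (189223 / 500000 : ℝ)) (U₀ := (4074541 / 1000000 : ℝ)) (T := (-1643 / 1000000 : ℝ)) zero_le_one (by linarith) h1 (by norm_num) hx
    (by norm_num) hxb (by norm_num) (by norm_num) (by norm_num) ?_ ?_ (by norm_num) ?_ ?_ ?_ ?_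
    (by norm_num)
    (mul_edgeBr_ge ent33_250.1 log24_125.1 (by norm_num))
    (mul_edgeBr_ge ent33_250.1 log24_125.1 (by norm_num))
    ?_ (by linarith) ha hb
  all_goals norm_num
  all_goals linarith [log24_125.1, log17_1000.2, log51_15625.1, log51_15625.2, log525009_3906250.1, log525009_3906250.2,
    log3381241_3906250.1, log3381241_3906250.2, log33_250.1, log217_250.1, ent33_250.1, ent33_250.2,
    log_two_lt_d9, log_two_gt_d9]

lemma certC4_0 : ∃ θ k, Cert (7 / 50 : ℝ) θ k ∧ (781 / 1250 : ℝ) ≤ θ ∧ θ < 1 ∧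
    (117 / 125 : ℝ) * binEntropy (7 / 50 : ℝ) ≤ k := by
  refine exists_cert (d := (47 / 1000 : ℝ)) (q := (2173 / 12500 : ℝ)) (θ₁ := (624839 / 1000000 : ℝ)) (by norm_num) (by norm_num)
    (by norm_num) (by norm_num) (by norm_num) ?_ ?_ (by norm_num) ?_ (by norm_num)
  all_goals norm_num
  all_goals linarith [log47_1000.1, log47_1000.2, log953_1000.1, log953_1000.2, log2173_12500.1, log2173_12500.2,
    log10327_12500.1, log10327_12500.2, ent47_1000.2, ent2173_12500.1, ent7_50.2]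

lemma checksC4_0 :
    TopChecks 1 (587 / 500 : ℝ) (119 / 100 : ℝ) (781 / 1250 : ℝ) (117 / 125 : ℝ) (147 / 200 : ℝ) (409 / 500 : ℝ) := by
  constructor
  · exact midAt_half_nonneg ent53_400.1 (by norm_num)
  · exact midAt_half_nonneg ent53_400.1 (by norm_num)
  · exact midAt_half_nonneg ent91_1000.1 (by norm_num)
  · exact midAt_half_nonneg ent91_1000.1 (by norm_num)
  · exact midAt_top_nonneg ent147_200.1 ent147_400.2 (by norm_num)
  · exact midAt_top_nonneg ent147_200.1 ent147_400.2 (by norm_num)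
  · exact midAt_top_nonneg ent409_500.1 ent409_1000.2 (by norm_num)
  · exact midAt_top_nonneg ent409_500.1 ent409_1000.2 (by norm_num)

lemma certC4_1 : ∃ θ k, Cert (7 / 50 : ℝ) θ k ∧ (1369 / 2500 : ℝ) ≤ θ ∧ θ < 1 ∧
    (2419 / 2500 : ℝ) * binEntropy (7 / 50 : ℝ) ≤ k := by
  refine exists_cert (d := (13 / 500 : ℝ)) (q := (496 / 3125 : ℝ)) (θ₁ := (34233 / 62500 : ℝ)) (by norm_num) (by norm_num)
    (by norm_num) (by norm_num) (by norm_num) ?_ ?_ (by norm_num) ?_ (by norm_num)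
  all_goals norm_num
  all_goals linarith [log13_500.1, log13_500.2, log487_500.1, log487_500.2, log496_3125.1, log496_3125.2,
    log2629_3125.1, log2629_3125.2, ent13_500.2, ent496_3125.1, ent7_50.2]

lemma checksC4_1 :
    TopChecks 1 (587 / 500 : ℝ) (119 / 100 : ℝ) (1369 / 2500 : ℝ) (2419 / 2500 : ℝ) (409 / 500 : ℝ) (917 / 1000 : ℝ) := by
  constructor
  · exact midAt_half_nonneg ent91_1000.1 (by norm_num)
  · exact midAt_half_nonneg ent91_1000.1 (by norm_num)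
  · exact midAt_half_nonneg ent83_2000.1 (by norm_num)
  · exact midAt_half_nonneg ent83_2000.1 (by norm_num)
  · exact midAt_top_nonneg ent409_500.1 ent409_1000.2 (by norm_num)
  · exact midAt_top_nonneg ent409_500.1 ent409_1000.2 (by norm_num)
  · exact midAt_top_nonneg ent917_1000.1 ent917_2000.2 (by norm_num)
  · exact midAt_top_nonneg ent917_1000.1 ent917_2000.2 (by norm_num)

lemma certC4_2 : ∃ θ k, Cert (7 / 50 : ℝ) θ k ∧ (281 / 625 : ℝ) ≤ θ ∧ θ < 1 ∧
    (2473 / 2500 : ℝ) * binEntropy (7 / 50 : ℝ) ≤ k := by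
  refine exists_cert (d := (1 / 100 : ℝ)) (q := (92 / 625 : ℝ)) (θ₁ := (449643 / 1000000 : ℝ)) (by norm_num) (by norm_num)
    (by norm_num) (by norm_num) (by norm_num) ?_ ?_ (by norm_num) ?_ (by norm_num)
  all_goals norm_num
  all_goals linarith [log1_100.1, log1_100.2, log99_100.1, log99_100.2, log92_625.1, log92_625.2,
    log533_625.1, log533_625.2, ent1_100.2, ent92_625.1, ent7_50.2]

lemma checksC4_2 :
    TopChecks 1 (587 / 500 : ℝ) (119 / 100 : ℝ) (281 / 625 : ℝ) (2473 / 2500 : ℝ) (917 / 1000 : ℝ) (487 / 500 : ℝ) := by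
  constructor
  · exact midAt_half_nonneg ent83_2000.1 (by norm_num)
  · exact midAt_half_nonneg ent83_2000.1 (by norm_num)
  · exact midAt_half_nonneg ent13_1000.1 (by norm_num)
  · exact midAt_half_nonneg ent13_1000.1 (by norm_num)
  · exact midAt_top_nonneg ent917_1000.1 ent917_2000.2 (by norm_num)
  · exact midAt_top_nonneg ent917_1000.1 ent917_2000.2 (by norm_num)
  · exact midAt_top_nonneg ent487_500.1 ent487_1000.2 (by norm_num)
  · exact midAt_top_nonneg ent487_500.1 ent487_1000.2 (by norm_num)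

lemma certC4_3 : ∃ θ k, Cert (7 / 50 : ℝ) θ k ∧ (181 / 500 : ℝ) ≤ θ ∧ θ < 1 ∧
    (2493 / 2500 : ℝ) * binEntropy (7 / 50 : ℝ) ≤ k := by
  refine exists_cert (d := (3 / 1000 : ℝ)) (q := (1777 / 12500 : ℝ)) (θ₁ := (181013 / 500000 : ℝ)) (by norm_num) (by norm_num)
    (by norm_num) (by norm_num) (by norm_num) ?_ ?_ (by norm_num) ?_ (by norm_num)
  all_goals norm_num
  all_goals linarith [log3_1000.1, log3_1000.2, log997_1000.1, log997_1000.2, log1777_12500.1, log1777_12500.2,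
    log10723_12500.1, log10723_12500.2, ent3_1000.2, ent1777_12500.1, ent7_50.2]

lemma checksC4_3 :
    TopChecks 1 (587 / 500 : ℝ) (119 / 100 : ℝ) (181 / 500 : ℝ) (2493 / 2500 : ℝ) (487 / 500 : ℝ) (993 / 1000 : ℝ) := by
  constructor
  · exact midAt_half_nonneg ent13_1000.1 (by norm_num)
  · exact midAt_half_nonneg ent13_1000.1 (by norm_num)
  · exact midAt_half_nonneg ent7_2000.1 (by norm_num)
  · exact midAt_half_nonneg ent7_2000.1 (by norm_num)
  · exact midAt_top_nonneg ent487_500.1 ent487_1000.2 (by norm_num)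
  · exact midAt_top_nonneg ent487_500.1 ent487_1000.2 (by norm_num)
  · exact midAt_top_nonneg ent993_1000.1 ent993_2000.2 (by norm_num)
  · exact midAt_top_nonneg ent993_1000.1 ent993_2000.2 (by norm_num)

theorem bandC4 {ε a b : ℝ} (h0 : (33 / 250 : ℝ) ≤ ε) (h1 : ε ≤ (7 / 50 : ℝ)) (ha : a ∈ Icc (0 : ℝ) 1)
    (hb : b ∈ Icc (0 : ℝ) 1) (hd : (147 / 200 : ℝ) ≤ |a - b|) :
    StepAt ε (capBound 1 ε) a b := by
  have hx : xRatio ε ∈ Icc (587 / 500 : ℝ) (119 / 100 : ℝ) := by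
    refine xRatio_mem (ea := (33 / 250 : ℝ)) (eb := (7 / 50 : ℝ)) (by norm_num) h0 h1 (by norm_num) ?_ ?_
    · linarith [ent33_250.2]
    · linarith [ent7_50.1]
  have hxb : (1 : ℝ) * (119 / 100 : ℝ) * log 2 ≤ 1 := by linarith [log_two_lt_d9]
  have B : InBlock 1 ε (33 / 250 : ℝ) (7 / 50 : ℝ) (587 / 500 : ℝ) (119 / 100 : ℝ) :=
    ⟨zero_le_one, le_rfl, by linarith, h1, by norm_num, hx, by norm_num, hxb, h0⟩
  rcases le_or_gt |a - b| (409 / 500 : ℝ) with u0 | u0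
  · exact stepAt_top_row B certC4_0 checksC4_0 (by norm_num) (by norm_num) (by norm_num)
      (by norm_num) ⟨hd, u0⟩ ha hb
  rcases le_or_gt |a - b| (917 / 1000 : ℝ) with u1 | u1
  · exact stepAt_top_row B certC4_1 checksC4_1 (by norm_num) (by norm_num) (by norm_num)
      (by norm_num) ⟨u0.le, u1⟩ ha hb
  rcases le_or_gt |a - b| (487 / 500 : ℝ) with u2 | u2
  · exact stepAt_top_row B certC4_2 checksC4_2 (by norm_num) (by norm_num) (by norm_num)
      (by norm_num) ⟨u1.le, u2⟩ ha hb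
  rcases le_or_gt |a - b| (993 / 1000 : ℝ) with u3 | u3
  · exact stepAt_top_row B certC4_3 checksC4_3 (by norm_num) (by norm_num) (by norm_num)
      (by norm_num) ⟨u2.le, u3⟩ ha hb
  refine stepAt_edge (g := (26 / 125 : ℝ)) (u₀ := (7 / 1000 : ℝ)) (S := (1806609 / 1000000 : ℝ)) (ℓ := (264617 / 125000 : ℝ))
    (τ := (64817 / 200000 : ℝ)) (U₀ := (992369 / 200000 : ℝ)) (T := (-1911 / 1000000 : ℝ)) zero_le_one (by linarith) h1 (by norm_num) hx
    (by norm_num) hxb (by norm_num) (by norm_num) (by norm_num) ?_ ?_ (by norm_num) ?_ ?_ ?_ ?_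
    (by norm_num)
    (mul_edgeBr_ge ent7_50.1 log26_125.1 (by norm_num))
    (mul_edgeBr_ge ent7_50.1 log26_125.1 (by norm_num))
    ?_ (by linarith) ha hb
  all_goals norm_num
  all_goals linarith [log26_125.1, log7_1000.2, log91_62500.1, log91_62500.2, log55097_390625.1, log55097_390625.2,
    log335528_390625.1, log335528_390625.2, log7_50.1, log43_50.1, ent7_50.1, ent7_50.2,
    log_two_lt_d9, log_two_gt_d9]

end Vale.Agent.P322.Band
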