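import Mathlib
import Vale.Agent.P322.Numerics

/-!
P322: certified bounds of logarithms and entropies for noise levels in `[3/200, 1/20]`.
-/

open Real

namespace Vale.Agent.P322.BlockA

lemma log_3_200 : (-104992627 / 25000000 : ℝ) ≤ log (3 / 200 : ℝ) ∧ log (3 / 200 : ℝ) ≤ (-167988203 / 40000000 : ℝ) := by
  obtain ⟨h1, h2⟩ := log_bracket (a := (3 / 200 : ℝ)) (x := (23 / 73 : ℝ)) (-7) 9 (by norm_num) (by norm_num)
    (by norm_num)
  norm_num [Finset.sum_range_succ] at h1 h2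
  constructor <;> linarith [log_two_gt_d9, log_two_lt_d9]

lemma log_197_200 : (-15113639 / 1000000000 : ℝ) ≤ log (197 / 200 : ℝ) ∧ log (197 / 200 : ℝ) ≤ (-3778409 / 250000000 : ℝ) := by
  obtain ⟨h1, h2⟩ := log_bracket (a := (197 / 200 : ℝ)) (x := (97 / 297 : ℝ)) (-1) 9 (by norm_num) (by norm_num)
    (by norm_num)
  norm_num [Finset.sum_range_succ] at h1 h2
  constructor <;> linarith [log_two_gt_d9, log_two_lt_d9]

lemma ent_3_200 : (77882507 / 1000000000 : ℝ) ≤ binEntropy (3 / 200 : ℝ) ∧ binEntropy (3 / 200 : ℝ) ≤ (77882511 / 1000000000 : ℝ) := by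
  obtain ⟨a1, a2⟩ := log_3_200
  obtain ⟨b1, b2⟩ := log_197_200
  rw [binEntropy_eq_negMulLog_add_negMulLog_one_sub, show (1 : ℝ) - (3 / 200 : ℝ) = (197 / 200 : ℝ) by norm_num]
  unfold negMulLog
  constructor <;> linarith

lemma log_1_20 : (-119829291 / 40000000 : ℝ) ≤ log (1 / 20 : ℝ) ∧ log (1 / 20 : ℝ) ≤ (-187233267 / 62500000 : ℝ) := by
  obtain ⟨h1, h2⟩ := log_bracket (a := (1 / 20 : ℝ)) (x := (3 / 13 : ℝ)) (-5) 9 (by norm_num) (by norm_num)
    (by norm_num)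
  norm_num [Finset.sum_range_succ] at h1 h2
  constructor <;> linarith [log_two_gt_d9, log_two_lt_d9]

lemma log_19_20 : (-10258659 / 200000000 : ℝ) ≤ log (19 / 20 : ℝ) ∧ log (19 / 20 : ℝ) ≤ (-51293293 / 1000000000 : ℝ) := by
  obtain ⟨h1, h2⟩ := log_bracket (a := (19 / 20 : ℝ)) (x := (9 / 29 : ℝ)) (-1) 9 (by norm_num) (by norm_num)
    (by norm_num)
  norm_num [Finset.sum_range_succ] at h1 h2
  constructor <;> linarith [log_two_gt_d9, log_two_lt_d9]

lemma ent_1_20 : (198515241 / 1000000000 : ℝ) ≤ binEntropy (1 / 20 : ℝ) ∧ binEntropy (1 / 20 : ℝ) ≤ (49628811 / 250000000 : ℝ) := by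
  obtain ⟨a1, a2⟩ := log_1_20
  obtain ⟨b1, b2⟩ := log_19_20
  rw [binEntropy_eq_negMulLog_add_negMulLog_one_sub, show (1 : ℝ) - (1 / 20 : ℝ) = (19 / 20 : ℝ) by norm_num]
  unfold negMulLog
  constructor <;> linarith

lemma log_97_200 : (-723606389 / 1000000000 : ℝ) ≤ log (97 / 200 : ℝ) ∧ log (97 / 200 : ℝ) ≤ (-361803193 / 500000000 : ℝ) := by
  obtain ⟨h1, h2⟩ := log_bracket (a := (97 / 200 : ℝ)) (x := (47 / 147 : ℝ)) (-2) 9 (by norm_num) (by norm_num)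
    (by norm_num)
  norm_num [Finset.sum_range_succ] at h1 h2
  constructor <;> linarith [log_two_gt_d9, log_two_lt_d9]

lemma log_103_200 : (-663588379 / 1000000000 : ℝ) ≤ log (103 / 200 : ℝ) ∧ log (103 / 200 : ℝ) ≤ (-331794189 / 500000000 : ℝ) := by
  obtain ⟨h1, h2⟩ := log_bracket (a := (103 / 200 : ℝ)) (x := (3 / 203 : ℝ)) (-1) 9 (by norm_num) (by norm_num)
    (by norm_num)
  norm_num [Finset.sum_range_succ] at h1 h2
  constructor <;> linarith [log_two_gt_d9, log_two_lt_d9]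

lemma ent_97_200 : (692697111 / 1000000000 : ℝ) ≤ binEntropy (97 / 200 : ℝ) ∧ binEntropy (97 / 200 : ℝ) ≤ (346348557 / 500000000 : ℝ) := by
  obtain ⟨a1, a2⟩ := log_97_200
  obtain ⟨b1, b2⟩ := log_103_200
  rw [binEntropy_eq_negMulLog_add_negMulLog_one_sub, show (1 : ℝ) - (97 / 200 : ℝ) = (103 / 200 : ℝ) by norm_num]
  unfold negMulLog
  constructor <;> linarith

lemma log_383_778 : (-44293221 / 62500000 : ℝ) ≤ log (383 / 778 : ℝ) ∧ log (383 / 778 : ℝ) ≤ (-708691533 / 1000000000 : ℝ) := by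
  obtain ⟨h1, h2⟩ := log_bracket (a := (383 / 778 : ℝ)) (x := (377 / 1155 : ℝ)) (-2) 9 (by norm_num) (by norm_num)
    (by norm_num)
  norm_num [Finset.sum_range_succ] at h1 h2
  constructor <;> linarith [log_two_gt_d9, log_two_lt_d9]

lemma log_395_778 : (-16946019 / 25000000 : ℝ) ≤ log (395 / 778 : ℝ) ∧ log (395 / 778 : ℝ) ≤ (-677840759 / 1000000000 : ℝ) := by
  obtain ⟨h1, h2⟩ := log_bracket (a := (395 / 778 : ℝ)) (x := (3 / 392 : ℝ)) (-1) 9 (by norm_num) (by norm_num)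
    (by norm_num)
  norm_num [Finset.sum_range_succ] at h1 h2
  constructor <;> linarith [log_two_gt_d9, log_two_lt_d9]

lemma ent_383_778 : (346514111 / 500000000 : ℝ) ≤ binEntropy (383 / 778 : ℝ) ∧ binEntropy (383 / 778 : ℝ) ≤ (27721129 / 40000000 : ℝ) := by
  obtain ⟨a1, a2⟩ := log_383_778
  obtain ⟨b1, b2⟩ := log_395_778
  rw [binEntropy_eq_negMulLog_add_negMulLog_one_sub, show (1 : ℝ) - (383 / 778 : ℝ) = (395 / 778 : ℝ) by norm_num]
  unfold negMulLog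
  constructor <;> linarith

lemma log_5_22 : (-740802271 / 500000000 : ℝ) ≤ log (5 / 22 : ℝ) ∧ log (5 / 22 : ℝ) ≤ (-74080227 / 50000000 : ℝ) := by
  obtain ⟨h1, h2⟩ := log_bracket (a := (5 / 22 : ℝ)) (x := (9 / 31 : ℝ)) (-3) 9 (by norm_num) (by norm_num)
    (by norm_num)
  norm_num [Finset.sum_range_succ] at h1 h2
  constructor <;> linarith [log_two_gt_d9, log_two_lt_d9]

lemma log_17_22 : (-25782911 / 100000000 : ℝ) ≤ log (17 / 22 : ℝ) ∧ log (17 / 22 : ℝ) ≤ (-257829109 / 1000000000 : ℝ) := by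
  obtain ⟨h1, h2⟩ := log_bracket (a := (17 / 22 : ℝ)) (x := (3 / 14 : ℝ)) (-1) 9 (by norm_num) (by norm_num)
    (by norm_num)
  norm_num [Finset.sum_range_succ] at h1 h2
  constructor <;> linarith [log_two_gt_d9, log_two_lt_d9]

lemma ent_5_22 : (33497493 / 62500000 : ℝ) ≤ binEntropy (5 / 22 : ℝ) ∧ binEntropy (5 / 22 : ℝ) ≤ (53595989 / 100000000 : ℝ) := by
  obtain ⟨a1, a2⟩ := log_5_22
  obtain ⟨b1, b2⟩ := log_17_22
  rw [binEntropy_eq_negMulLog_add_negMulLog_one_sub, show (1 : ℝ) - (5 / 22 : ℝ) = (17 / 22 : ℝ) by norm_num]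
  unfold negMulLog
  constructor <;> linarith

lemma log_11_400 : (-898392319 / 250000000 : ℝ) ≤ log (11 / 400 : ℝ) ∧ log (11 / 400 : ℝ) ≤ (-449196159 / 125000000 : ℝ) := by
  obtain ⟨h1, h2⟩ := log_bracket (a := (11 / 400 : ℝ)) (x := (19 / 69 : ℝ)) (-6) 9 (by norm_num) (by norm_num)
    (by norm_num)
  norm_num [Finset.sum_range_succ] at h1 h2
  constructor <;> linarith [log_two_gt_d9, log_two_lt_d9]

lemma log_389_400 : (-6971301 / 250000000 : ℝ) ≤ log (389 / 400 : ℝ) ∧ log (389 / 400 : ℝ) ≤ (-13942601 / 500000000 : ℝ) := by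
  obtain ⟨h1, h2⟩ := log_bracket (a := (389 / 400 : ℝ)) (x := (189 / 589 : ℝ)) (-1) 9 (by norm_num) (by norm_num)
    (by norm_num)
  norm_num [Finset.sum_range_succ] at h1 h2
  constructor <;> linarith [log_two_gt_d9, log_two_lt_d9]

lemma ent_11_400 : (125941513 / 1000000000 : ℝ) ≤ binEntropy (11 / 400 : ℝ) ∧ binEntropy (11 / 400 : ℝ) ≤ (31485379 / 250000000 : ℝ) := by
  obtain ⟨a1, a2⟩ := log_11_400
  obtain ⟨b1, b2⟩ := log_389_400
  rw [binEntropy_eq_negMulLog_add_negMulLog_one_sub, show (1 : ℝ) - (11 / 400 : ℝ) = (389 / 400 : ℝ) by norm_num]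
  unfold negMulLog
  constructor <;> linarith

lemma ent_389_400 : (125941513 / 1000000000 : ℝ) ≤ binEntropy (389 / 400 : ℝ) ∧ binEntropy (389 / 400 : ℝ) ≤ (31485379 / 250000000 : ℝ) := by
  rw [show (389 / 400 : ℝ) = 1 - (11 / 400 : ℝ) by norm_num, binEntropy_one_sub]
  exact ent_11_400

lemma log_2113_5000 : (-34453167 / 40000000 : ℝ) ≤ log (2113 / 5000 : ℝ) ∧ log (2113 / 5000 : ℝ) ≤ (-861329173 / 1000000000 : ℝ) := by
  obtain ⟨h1, h2⟩ := log_bracket (a := (2113 / 5000 : ℝ)) (x := (863 / 3363 : ℝ)) (-2) 9 (by norm_num) (by norm_num)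
    (by norm_num)
  norm_num [Finset.sum_range_succ] at h1 h2
  constructor <;> linarith [log_two_gt_d9, log_two_lt_d9]

lemma log_2887_5000 : (-137305003 / 250000000 : ℝ) ≤ log (2887 / 5000 : ℝ) ∧ log (2887 / 5000 : ℝ) ≤ (-549220011 / 1000000000 : ℝ) := by
  obtain ⟨h1, h2⟩ := log_bracket (a := (2887 / 5000 : ℝ)) (x := (387 / 5387 : ℝ)) (-1) 9 (by norm_num) (by norm_num)
    (by norm_num)
  norm_num [Finset.sum_range_succ] at h1 h2
  constructor <;> linarith [log_two_gt_d9, log_two_lt_d9]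

lemma log_207_500 : (-440944653 / 500000000 : ℝ) ≤ log (207 / 500 : ℝ) ∧ log (207 / 500 : ℝ) ≤ (-110236163 / 125000000 : ℝ) := by
  obtain ⟨h1, h2⟩ := log_bracket (a := (207 / 500 : ℝ)) (x := (41 / 166 : ℝ)) (-2) 9 (by norm_num) (by norm_num)
    (by norm_num)
  norm_num [Finset.sum_range_succ] at h1 h2
  constructor <;> linarith [log_two_gt_d9, log_two_lt_d9]

lemma log_293_500 : (-53443549 / 100000000 : ℝ) ≤ log (293 / 500 : ℝ) ∧ log (293 / 500 : ℝ) ≤ (-534435489 / 1000000000 : ℝ) := by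
  obtain ⟨h1, h2⟩ := log_bracket (a := (293 / 500 : ℝ)) (x := (43 / 543 : ℝ)) (-1) 9 (by norm_num) (by norm_num)
    (by norm_num)
  norm_num [Finset.sum_range_succ] at h1 h2
  constructor <;> linarith [log_two_gt_d9, log_two_lt_d9]

lemma ent_207_500 : (84785171 / 125000000 : ℝ) ≤ binEntropy (207 / 500 : ℝ) ∧ binEntropy (207 / 500 : ℝ) ≤ (67828137 / 100000000 : ℝ) := by
  obtain ⟨a1, a2⟩ := log_207_500
  obtain ⟨b1, b2⟩ := log_293_500
  rw [binEntropy_eq_negMulLog_add_negMulLog_one_sub, show (1 : ℝ) - (207 / 500 : ℝ) = (293 / 500 : ℝ) by norm_num]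
  unfold negMulLog
  constructor <;> linarith

lemma ent_2113_5000 : (340558671 / 500000000 : ℝ) ≤ binEntropy (2113 / 5000 : ℝ) ∧ binEntropy (2113 / 5000 : ℝ) ≤ (136223469 / 200000000 : ℝ) := by
  obtain ⟨a1, a2⟩ := log_2113_5000
  obtain ⟨b1, b2⟩ := log_2887_5000
  rw [binEntropy_eq_negMulLog_add_negMulLog_one_sub, show (1 : ℝ) - (2113 / 5000 : ℝ) = (2887 / 5000 : ℝ) by norm_num]
  unfold negMulLog
  constructor <;> linarith

lemma ent_103_200 : (692697111 / 1000000000 : ℝ) ≤ binEntropy (103 / 200 : ℝ) ∧ binEntropy (103 / 200 : ℝ) ≤ (346348557 / 500000000 : ℝ) := by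
  rw [show (103 / 200 : ℝ) = 1 - (97 / 200 : ℝ) by norm_num, binEntropy_one_sub]
  exact ent_97_200

lemma ent_1_2 : (6931471803 / 10000000000 : ℝ) ≤ binEntropy (1 / 2 : ℝ) ∧ binEntropy (1 / 2 : ℝ) ≤ (108304247 / 156250000 : ℝ) := by
  rw [show (1 / 2 : ℝ) = 2⁻¹ by norm_num, binEntropy_two_inv]
  constructor <;> linarith [log_two_gt_d9, log_two_lt_d9]

lemma log_481_1000 : (-73188801 / 100000000 : ℝ) ≤ log (481 / 1000 : ℝ) ∧ log (481 / 1000 : ℝ) ≤ (-731888007 / 1000000000 : ℝ) := by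
  obtain ⟨h1, h2⟩ := log_bracket (a := (481 / 1000 : ℝ)) (x := (231 / 731 : ℝ)) (-2) 9 (by norm_num) (by norm_num)
    (by norm_num)
  norm_num [Finset.sum_range_succ] at h1 h2
  constructor <;> linarith [log_two_gt_d9, log_two_lt_d9]

lemma log_519_1000 : (-655851397 / 1000000000 : ℝ) ≤ log (519 / 1000 : ℝ) ∧ log (519 / 1000 : ℝ) ≤ (-131170279 / 200000000 : ℝ) := by
  obtain ⟨h1, h2⟩ := log_bracket (a := (519 / 1000 : ℝ)) (x := (19 / 1019 : ℝ)) (-1) 9 (by norm_num) (by norm_num)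
    (by norm_num)
  norm_num [Finset.sum_range_succ] at h1 h2
  constructor <;> linarith [log_two_gt_d9, log_two_lt_d9]

lemma ent_481_1000 : (138485001 / 200000000 : ℝ) ≤ binEntropy (481 / 1000 : ℝ) ∧ binEntropy (481 / 1000 : ℝ) ≤ (43276563 / 62500000 : ℝ) := by
  obtain ⟨a1, a2⟩ := log_481_1000
  obtain ⟨b1, b2⟩ := log_519_1000
  rw [binEntropy_eq_negMulLog_add_negMulLog_one_sub, show (1 : ℝ) - (481 / 1000 : ℝ) = (519 / 1000 : ℝ) by norm_num]
  unfold negMulLog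
  constructor <;> linarith

lemma ent_519_1000 : (138485001 / 200000000 : ℝ) ≤ binEntropy (519 / 1000 : ℝ) ∧ binEntropy (519 / 1000 : ℝ) ≤ (43276563 / 62500000 : ℝ) := by
  rw [show (519 / 1000 : ℝ) = 1 - (481 / 1000 : ℝ) by norm_num, binEntropy_one_sub]
  exact ent_481_1000

lemma log_97_2000 : (-3026191483 / 1000000000 : ℝ) ≤ log (97 / 2000 : ℝ) ∧ log (97 / 2000 : ℝ) ≤ (-3026191479 / 1000000000 : ℝ) := by
  obtain ⟨h1, h2⟩ := log_bracket (a := (97 / 2000 : ℝ)) (x := (69 / 319 : ℝ)) (-5) 9 (by norm_num) (by norm_num)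
    (by norm_num)
  norm_num [Finset.sum_range_succ] at h1 h2
  constructor <;> linarith [log_two_gt_d9, log_two_lt_d9]

lemma log_1903_2000 : (-49715593 / 1000000000 : ℝ) ≤ log (1903 / 2000 : ℝ) ∧ log (1903 / 2000 : ℝ) ≤ (-49715591 / 1000000000 : ℝ) := by
  obtain ⟨h1, h2⟩ := log_bracket (a := (1903 / 2000 : ℝ)) (x := (903 / 2903 : ℝ)) (-1) 9 (by norm_num) (by norm_num)
    (by norm_num)
  norm_num [Finset.sum_range_succ] at h1 h2
  constructor <;> linarith [log_two_gt_d9, log_two_lt_d9]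

lemma ent_97_2000 : (194074671 / 1000000000 : ℝ) ≤ binEntropy (97 / 2000 : ℝ) ∧ binEntropy (97 / 2000 : ℝ) ≤ (97037337 / 500000000 : ℝ) := by
  obtain ⟨a1, a2⟩ := log_97_2000
  obtain ⟨b1, b2⟩ := log_1903_2000
  rw [binEntropy_eq_negMulLog_add_negMulLog_one_sub, show (1 : ℝ) - (97 / 2000 : ℝ) = (1903 / 2000 : ℝ) by norm_num]
  unfold negMulLog
  constructor <;> linarith

lemma ent_1903_2000 : (194074671 / 1000000000 : ℝ) ≤ binEntropy (1903 / 2000 : ℝ) ∧ binEntropy (1903 / 2000 : ℝ) ≤ (97037337 / 500000000 : ℝ) := by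
  rw [show (1903 / 2000 : ℝ) = 1 - (97 / 2000 : ℝ) by norm_num, binEntropy_one_sub]
  exact ent_97_2000

lemma log_37_2000 : (-3989984549 / 1000000000 : ℝ) ≤ log (37 / 2000 : ℝ) ∧ log (37 / 2000 : ℝ) ≤ (-797996909 / 200000000 : ℝ) := by
  obtain ⟨h1, h2⟩ := log_bracket (a := (37 / 2000 : ℝ)) (x := (23 / 273 : ℝ)) (-6) 9 (by norm_num) (by norm_num)
    (by norm_num)
  norm_num [Finset.sum_range_succ] at h1 h2
  constructor <;> linarith [log_two_gt_d9, log_two_lt_d9]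

lemma log_1963_2000 : (-9336633 / 500000000 : ℝ) ≤ log (1963 / 2000 : ℝ) ∧ log (1963 / 2000 : ℝ) ≤ (-18673263 / 1000000000 : ℝ) := by
  obtain ⟨h1, h2⟩ := log_bracket (a := (1963 / 2000 : ℝ)) (x := (963 / 2963 : ℝ)) (-1) 9 (by norm_num) (by norm_num)
    (by norm_num)
  norm_num [Finset.sum_range_succ] at h1 h2
  constructor <;> linarith [log_two_gt_d9, log_two_lt_d9]

lemma ent_37_2000 : (92142521 / 1000000000 : ℝ) ≤ binEntropy (37 / 2000 : ℝ) ∧ binEntropy (37 / 2000 : ℝ) ≤ (3685701 / 40000000 : ℝ) := by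
  obtain ⟨a1, a2⟩ := log_37_2000
  obtain ⟨b1, b2⟩ := log_1963_2000
  rw [binEntropy_eq_negMulLog_add_negMulLog_one_sub, show (1 : ℝ) - (37 / 2000 : ℝ) = (1963 / 2000 : ℝ) by norm_num]
  unfold negMulLog
  constructor <;> linarith

lemma ent_1963_2000 : (92142521 / 1000000000 : ℝ) ≤ binEntropy (1963 / 2000 : ℝ) ∧ binEntropy (1963 / 2000 : ℝ) ≤ (3685701 / 40000000 : ℝ) := by
  rw [show (1963 / 2000 : ℝ) = 1 - (37 / 2000 : ℝ) by norm_num, binEntropy_one_sub]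
  exact ent_37_2000

lemma log_67_2000 : (-1698104921 / 500000000 : ℝ) ≤ log (67 / 2000 : ℝ) ∧ log (67 / 2000 : ℝ) ≤ (-1698104919 / 500000000 : ℝ) := by
  obtain ⟨h1, h2⟩ := log_bracket (a := (67 / 2000 : ℝ)) (x := (9 / 259 : ℝ)) (-5) 9 (by norm_num) (by norm_num)
    (by norm_num)
  norm_num [Finset.sum_range_succ] at h1 h2
  constructor <;> linarith [log_two_gt_d9, log_two_lt_d9]

lemma log_1933_2000 : (-34073981 / 1000000000 : ℝ) ≤ log (1933 / 2000 : ℝ) ∧ log (1933 / 2000 : ℝ) ≤ (-34073979 / 1000000000 : ℝ) := by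
  obtain ⟨h1, h2⟩ := log_bracket (a := (1933 / 2000 : ℝ)) (x := (933 / 2933 : ℝ)) (-1) 9 (by norm_num) (by norm_num)
    (by norm_num)
  norm_num [Finset.sum_range_succ] at h1 h2
  constructor <;> linarith [log_two_gt_d9, log_two_lt_d9]

lemma ent_67_2000 : (14670553 / 100000000 : ℝ) ≤ binEntropy (67 / 2000 : ℝ) ∧ binEntropy (67 / 2000 : ℝ) ≤ (146705533 / 1000000000 : ℝ) := by
  obtain ⟨a1, a2⟩ := log_67_2000
  obtain ⟨b1, b2⟩ := log_1933_2000
  rw [binEntropy_eq_negMulLog_add_negMulLog_one_sub, show (1 : ℝ) - (67 / 2000 : ℝ) = (1933 / 2000 : ℝ) by norm_num]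
  unfold negMulLog
  constructor <;> linarith

lemma ent_1933_2000 : (14670553 / 100000000 : ℝ) ≤ binEntropy (1933 / 2000 : ℝ) ∧ binEntropy (1933 / 2000 : ℝ) ≤ (146705533 / 1000000000 : ℝ) := by
  rw [show (1933 / 2000 : ℝ) = 1 - (67 / 2000 : ℝ) by norm_num, binEntropy_one_sub]
  exact ent_67_2000

lemma log_21_400 : (-2946942111 / 1000000000 : ℝ) ≤ log (21 / 400 : ℝ) ∧ log (21 / 400 : ℝ) ≤ (-736735527 / 250000000 : ℝ) := by
  obtain ⟨h1, h2⟩ := log_bracket (a := (21 / 400 : ℝ)) (x := (17 / 67 : ℝ)) (-5) 9 (by norm_num) (by norm_num)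
    (by norm_num)
  norm_num [Finset.sum_range_succ] at h1 h2
  constructor <;> linarith [log_two_gt_d9, log_two_lt_d9]

lemma log_379_400 : (-53928343 / 1000000000 : ℝ) ≤ log (379 / 400 : ℝ) ∧ log (379 / 400 : ℝ) ≤ (-53928341 / 1000000000 : ℝ) := by
  obtain ⟨h1, h2⟩ := log_bracket (a := (379 / 400 : ℝ)) (x := (179 / 579 : ℝ)) (-1) 9 (by norm_num) (by norm_num)
    (by norm_num)
  norm_num [Finset.sum_range_succ] at h1 h2
  constructor <;> linarith [log_two_gt_d9, log_two_lt_d9]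

lemma ent_21_400 : (205811563 / 1000000000 : ℝ) ≤ binEntropy (21 / 400 : ℝ) ∧ binEntropy (21 / 400 : ℝ) ≤ (102905783 / 500000000 : ℝ) := by
  obtain ⟨a1, a2⟩ := log_21_400
  obtain ⟨b1, b2⟩ := log_379_400
  rw [binEntropy_eq_negMulLog_add_negMulLog_one_sub, show (1 : ℝ) - (21 / 400 : ℝ) = (379 / 400 : ℝ) by norm_num]
  unfold negMulLog
  constructor <;> linarith

lemma ent_379_400 : (205811563 / 1000000000 : ℝ) ≤ binEntropy (379 / 400 : ℝ) ∧ binEntropy (379 / 400 : ℝ) ≤ (102905783 / 500000000 : ℝ) := by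
  rw [show (379 / 400 : ℝ) = 1 - (21 / 400 : ℝ) by norm_num, binEntropy_one_sub]
  exact ent_21_400

lemma log_29_2000 : (-529200829 / 125000000 : ℝ) ≤ log (29 / 2000 : ℝ) ∧ log (29 / 2000 : ℝ) ≤ (-4233606627 / 1000000000 : ℝ) := by
  obtain ⟨h1, h2⟩ := log_bracket (a := (29 / 2000 : ℝ)) (x := (107 / 357 : ℝ)) (-7) 9 (by norm_num) (by norm_num)
    (by norm_num)
  norm_num [Finset.sum_range_succ] at h1 h2
  constructor <;> linarith [log_two_gt_d9, log_two_lt_d9]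

lemma log_1971_2000 : (-14606153 / 1000000000 : ℝ) ≤ log (1971 / 2000 : ℝ) ∧ log (1971 / 2000 : ℝ) ≤ (-292123 / 20000000 : ℝ) := by
  obtain ⟨h1, h2⟩ := log_bracket (a := (1971 / 2000 : ℝ)) (x := (971 / 2971 : ℝ)) (-1) 9 (by norm_num) (by norm_num)
    (by norm_num)
  norm_num [Finset.sum_range_succ] at h1 h2
  constructor <;> linarith [log_two_gt_d9, log_two_lt_d9]

lemma ent_29_2000 : (9472707 / 125000000 : ℝ) ≤ binEntropy (29 / 2000 : ℝ) ∧ binEntropy (29 / 2000 : ℝ) ≤ (3789083 / 50000000 : ℝ) := by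
  obtain ⟨a1, a2⟩ := log_29_2000
  obtain ⟨b1, b2⟩ := log_1971_2000
  rw [binEntropy_eq_negMulLog_add_negMulLog_one_sub, show (1 : ℝ) - (29 / 2000 : ℝ) = (1971 / 2000 : ℝ) by norm_num]
  unfold negMulLog
  constructor <;> linarith

lemma ent_1971_2000 : (9472707 / 125000000 : ℝ) ≤ binEntropy (1971 / 2000 : ℝ) ∧ binEntropy (1971 / 2000 : ℝ) ≤ (3789083 / 50000000 : ℝ) := by
  rw [show (1971 / 2000 : ℝ) = 1 - (29 / 2000 : ℝ) by norm_num, binEntropy_one_sub]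
  exact ent_29_2000

lemma log_4019_10000 : (-911551979 / 1000000000 : ℝ) ≤ log (4019 / 10000 : ℝ) ∧ log (4019 / 10000 : ℝ) ≤ (-911551977 / 1000000000 : ℝ) := by
  obtain ⟨h1, h2⟩ := log_bracket (a := (4019 / 10000 : ℝ)) (x := (1519 / 6519 : ℝ)) (-2) 9 (by norm_num) (by norm_num)
    (by norm_num)
  norm_num [Finset.sum_range_succ] at h1 h2
  constructor <;> linarith [log_two_gt_d9, log_two_lt_d9]

lemma log_5981_10000 : (-128499329 / 250000000 : ℝ) ≤ log (5981 / 10000 : ℝ) ∧ log (5981 / 10000 : ℝ) ≤ (-256998657 / 500000000 : ℝ) := by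
  obtain ⟨h1, h2⟩ := log_bracket (a := (5981 / 10000 : ℝ)) (x := (981 / 10981 : ℝ)) (-1) 9 (by norm_num) (by norm_num)
    (by norm_num)
  norm_num [Finset.sum_range_succ] at h1 h2
  constructor <;> linarith [log_two_gt_d9, log_two_lt_d9]

lemma log_391_1000 : (-23476193 / 25000000 : ℝ) ≤ log (391 / 1000 : ℝ) ∧ log (391 / 1000 : ℝ) ≤ (-469523859 / 500000000 : ℝ) := by
  obtain ⟨h1, h2⟩ := log_bracket (a := (391 / 1000 : ℝ)) (x := (141 / 641 : ℝ)) (-2) 9 (by norm_num) (by norm_num)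
    (by norm_num)
  norm_num [Finset.sum_range_succ] at h1 h2
  constructor <;> linarith [log_two_gt_d9, log_two_lt_d9]

lemma log_609_1000 : (-123984253 / 250000000 : ℝ) ≤ log (609 / 1000 : ℝ) ∧ log (609 / 1000 : ℝ) ≤ (-495937011 / 1000000000 : ℝ) := by
  obtain ⟨h1, h2⟩ := log_bracket (a := (609 / 1000 : ℝ)) (x := (109 / 1109 : ℝ)) (-1) 9 (by norm_num) (by norm_num)
    (by norm_num)
  norm_num [Finset.sum_range_succ] at h1 h2
  constructor <;> linarith [log_two_gt_d9, log_two_lt_d9]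

lemma ent_391_1000 : (669193297 / 1000000000 : ℝ) ≤ binEntropy (391 / 1000 : ℝ) ∧ binEntropy (391 / 1000 : ℝ) ≤ (669193299 / 1000000000 : ℝ) := by
  obtain ⟨a1, a2⟩ := log_391_1000
  obtain ⟨b1, b2⟩ := log_609_1000
  rw [binEntropy_eq_negMulLog_add_negMulLog_one_sub, show (1 : ℝ) - (391 / 1000 : ℝ) = (609 / 1000 : ℝ) by norm_num]
  unfold negMulLog
  constructor <;> linarith

lemma ent_4019_10000 : (673774533 / 1000000000 : ℝ) ≤ binEntropy (4019 / 10000 : ℝ) ∧ binEntropy (4019 / 10000 : ℝ) ≤ (84221817 / 125000000 : ℝ) := by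
  obtain ⟨a1, a2⟩ := log_4019_10000
  obtain ⟨b1, b2⟩ := log_5981_10000
  rw [binEntropy_eq_negMulLog_add_negMulLog_one_sub, show (1 : ℝ) - (4019 / 10000 : ℝ) = (5981 / 10000 : ℝ) by norm_num]
  unfold negMulLog
  constructor <;> linarith

lemma log_19_40 : (-186110119 / 250000000 : ℝ) ≤ log (19 / 40 : ℝ) ∧ log (19 / 40 : ℝ) ≤ (-744440473 / 1000000000 : ℝ) := by
  obtain ⟨h1, h2⟩ := log_bracket (a := (19 / 40 : ℝ)) (x := (9 / 29 : ℝ)) (-2) 9 (by norm_num) (by norm_num)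
    (by norm_num)
  norm_num [Finset.sum_range_succ] at h1 h2
  constructor <;> linarith [log_two_gt_d9, log_two_lt_d9]

lemma log_21_40 : (-644357017 / 1000000000 : ℝ) ≤ log (21 / 40 : ℝ) ∧ log (21 / 40 : ℝ) ≤ (-80544627 / 125000000 : ℝ) := by
  obtain ⟨h1, h2⟩ := log_bracket (a := (21 / 40 : ℝ)) (x := (1 / 41 : ℝ)) (-1) 9 (by norm_num) (by norm_num)
    (by norm_num)
  norm_num [Finset.sum_range_succ] at h1 h2
  constructor <;> linarith [log_two_gt_d9, log_two_lt_d9]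

lemma ent_19_40 : (345948329 / 500000000 : ℝ) ≤ binEntropy (19 / 40 : ℝ) ∧ binEntropy (19 / 40 : ℝ) ≤ (691896661 / 1000000000 : ℝ) := by
  obtain ⟨a1, a2⟩ := log_19_40
  obtain ⟨b1, b2⟩ := log_21_40
  rw [binEntropy_eq_negMulLog_add_negMulLog_one_sub, show (1 : ℝ) - (19 / 40 : ℝ) = (21 / 40 : ℝ) by norm_num]
  unfold negMulLog
  constructor <;> linarith

lemma ent_21_40 : (345948329 / 500000000 : ℝ) ≤ binEntropy (21 / 40 : ℝ) ∧ binEntropy (21 / 40 : ℝ) ≤ (691896661 / 1000000000 : ℝ) := by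
  rw [show (21 / 40 : ℝ) = 1 - (19 / 40 : ℝ) by norm_num, binEntropy_one_sub]
  exact ent_19_40

lemma log_109_2000 : (-2909554579 / 1000000000 : ℝ) ≤ log (109 / 2000 : ℝ) ∧ log (109 / 2000 : ℝ) ≤ (-116382183 / 40000000 : ℝ) := by
  obtain ⟨h1, h2⟩ := log_bracket (a := (109 / 2000 : ℝ)) (x := (93 / 343 : ℝ)) (-5) 9 (by norm_num) (by norm_num)
    (by norm_num)
  norm_num [Finset.sum_range_succ] at h1 h2
  constructor <;> linarith [log_two_gt_d9, log_two_lt_d9]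

lemma log_1891_2000 : (-3502587 / 62500000 : ℝ) ≤ log (1891 / 2000 : ℝ) ∧ log (1891 / 2000 : ℝ) ≤ (-5604139 / 100000000 : ℝ) := by
  obtain ⟨h1, h2⟩ := log_bracket (a := (1891 / 2000 : ℝ)) (x := (891 / 2891 : ℝ)) (-1) 9 (by norm_num) (by norm_num)
    (by norm_num)
  norm_num [Finset.sum_range_succ] at h1 h2
  constructor <;> linarith [log_two_gt_d9, log_two_lt_d9]

lemma ent_109_2000 : (105778929 / 500000000 : ℝ) ≤ binEntropy (109 / 2000 : ℝ) ∧ binEntropy (109 / 2000 : ℝ) ≤ (211557861 / 1000000000 : ℝ) := by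
  obtain ⟨a1, a2⟩ := log_109_2000
  obtain ⟨b1, b2⟩ := log_1891_2000
  rw [binEntropy_eq_negMulLog_add_negMulLog_one_sub, show (1 : ℝ) - (109 / 2000 : ℝ) = (1891 / 2000 : ℝ) by norm_num]
  unfold negMulLog
  constructor <;> linarith

lemma ent_1891_2000 : (105778929 / 500000000 : ℝ) ≤ binEntropy (1891 / 2000 : ℝ) ∧ binEntropy (1891 / 2000 : ℝ) ≤ (211557861 / 1000000000 : ℝ) := by
  rw [show (1891 / 2000 : ℝ) = 1 - (109 / 2000 : ℝ) by norm_num, binEntropy_one_sub]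
  exact ent_109_2000

lemma log_33_2000 : (-41043949 / 10000000 : ℝ) ≤ log (33 / 2000 : ℝ) ∧ log (33 / 2000 : ℝ) ≤ (-256524681 / 62500000 : ℝ) := by
  obtain ⟨h1, h2⟩ := log_bracket (a := (33 / 2000 : ℝ)) (x := (7 / 257 : ℝ)) (-6) 9 (by norm_num) (by norm_num)
    (by norm_num)
  norm_num [Finset.sum_range_succ] at h1 h2
  constructor <;> linarith [log_two_gt_d9, log_two_lt_d9]

lemma log_1967_2000 : (-8318821 / 500000000 : ℝ) ≤ log (1967 / 2000 : ℝ) ∧ log (1967 / 2000 : ℝ) ≤ (-16637639 / 1000000000 : ℝ) := by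
  obtain ⟨h1, h2⟩ := log_bracket (a := (1967 / 2000 : ℝ)) (x := (967 / 2967 : ℝ)) (-1) 9 (by norm_num) (by norm_num)
    (by norm_num)
  norm_num [Finset.sum_range_succ] at h1 h2
  constructor <;> linarith [log_two_gt_d9, log_two_lt_d9]

lemma ent_33_2000 : (84085633 / 1000000000 : ℝ) ≤ binEntropy (33 / 2000 : ℝ) ∧ binEntropy (33 / 2000 : ℝ) ≤ (84085637 / 1000000000 : ℝ) := by
  obtain ⟨a1, a2⟩ := log_33_2000
  obtain ⟨b1, b2⟩ := log_1967_2000
  rw [binEntropy_eq_negMulLog_add_negMulLog_one_sub, show (1 : ℝ) - (33 / 2000 : ℝ) = (1967 / 2000 : ℝ) by norm_num]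
  unfold negMulLog
  constructor <;> linarith

lemma ent_1967_2000 : (84085633 / 1000000000 : ℝ) ≤ binEntropy (1967 / 2000 : ℝ) ∧ binEntropy (1967 / 2000 : ℝ) ≤ (84085637 / 1000000000 : ℝ) := by
  rw [show (1967 / 2000 : ℝ) = 1 - (33 / 2000 : ℝ) by norm_num, binEntropy_one_sub]
  exact ent_33_2000

lemma log_71_2000 : (-417277823 / 125000000 : ℝ) ≤ log (71 / 2000 : ℝ) ∧ log (71 / 2000 : ℝ) ≤ (-3338222581 / 1000000000 : ℝ) := by
  obtain ⟨h1, h2⟩ := log_bracket (a := (71 / 2000 : ℝ)) (x := (17 / 267 : ℝ)) (-5) 9 (by norm_num) (by norm_num)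
    (by norm_num)
  norm_num [Finset.sum_range_succ] at h1 h2
  constructor <;> linarith [log_two_gt_d9, log_two_lt_d9]

lemma log_1929_2000 : (-36145447 / 1000000000 : ℝ) ≤ log (1929 / 2000 : ℝ) ∧ log (1929 / 2000 : ℝ) ≤ (-7229089 / 200000000 : ℝ) := by
  obtain ⟨h1, h2⟩ := log_bracket (a := (1929 / 2000 : ℝ)) (x := (929 / 2929 : ℝ)) (-1) 9 (by norm_num) (by norm_num)
    (by norm_num)
  norm_num [Finset.sum_range_succ] at h1 h2
  constructor <;> linarith [log_two_gt_d9, log_two_lt_d9]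

lemma ent_71_2000 : (153369183 / 1000000000 : ℝ) ≤ binEntropy (71 / 2000 : ℝ) ∧ binEntropy (71 / 2000 : ℝ) ≤ (76684593 / 500000000 : ℝ) := by
  obtain ⟨a1, a2⟩ := log_71_2000
  obtain ⟨b1, b2⟩ := log_1929_2000
  rw [binEntropy_eq_negMulLog_add_negMulLog_one_sub, show (1 : ℝ) - (71 / 2000 : ℝ) = (1929 / 2000 : ℝ) by norm_num]
  unfold negMulLog
  constructor <;> linarith

lemma ent_1929_2000 : (153369183 / 1000000000 : ℝ) ≤ binEntropy (1929 / 2000 : ℝ) ∧ binEntropy (1929 / 2000 : ℝ) ≤ (76684593 / 500000000 : ℝ) := by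
  rw [show (1929 / 2000 : ℝ) = 1 - (71 / 2000 : ℝ) by norm_num, binEntropy_one_sub]
  exact ent_71_2000

lemma log_121_2000 : (-701277979 / 250000000 : ℝ) ≤ log (121 / 2000 : ℝ) ∧ log (121 / 2000 : ℝ) ≤ (-2805111911 / 1000000000 : ℝ) := by
  obtain ⟨h1, h2⟩ := log_bracket (a := (121 / 2000 : ℝ)) (x := (117 / 367 : ℝ)) (-5) 9 (by norm_num) (by norm_num)
    (by norm_num)
  norm_num [Finset.sum_range_succ] at h1 h2
  constructor <;> linarith [log_two_gt_d9, log_two_lt_d9]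

lemma log_1879_2000 : (-62407461 / 1000000000 : ℝ) ≤ log (1879 / 2000 : ℝ) ∧ log (1879 / 2000 : ℝ) ≤ (-62407459 / 1000000000 : ℝ) := by
  obtain ⟨h1, h2⟩ := log_bracket (a := (1879 / 2000 : ℝ)) (x := (879 / 2879 : ℝ)) (-1) 9 (by norm_num) (by norm_num)
    (by norm_num)
  norm_num [Finset.sum_range_succ] at h1 h2
  constructor <;> linarith [log_two_gt_d9, log_two_lt_d9]

lemma ent_121_2000 : (114170539 / 500000000 : ℝ) ≤ binEntropy (121 / 2000 : ℝ) ∧ binEntropy (121 / 2000 : ℝ) ≤ (228341081 / 1000000000 : ℝ) := by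
  obtain ⟨a1, a2⟩ := log_121_2000
  obtain ⟨b1, b2⟩ := log_1879_2000
  rw [binEntropy_eq_negMulLog_add_negMulLog_one_sub, show (1 : ℝ) - (121 / 2000 : ℝ) = (1879 / 2000 : ℝ) by norm_num]
  unfold negMulLog
  constructor <;> linarith

lemma ent_1879_2000 : (114170539 / 500000000 : ℝ) ≤ binEntropy (1879 / 2000 : ℝ) ∧ binEntropy (1879 / 2000 : ℝ) ≤ (228341081 / 1000000000 : ℝ) := by
  rw [show (1879 / 2000 : ℝ) = 1 - (121 / 2000 : ℝ) by norm_num, binEntropy_one_sub]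
  exact ent_121_2000

lemma log_21_2000 : (-569547503 / 125000000 : ℝ) ≤ log (21 / 2000 : ℝ) ∧ log (21 / 2000 : ℝ) ≤ (-4556380019 / 1000000000 : ℝ) := by
  obtain ⟨h1, h2⟩ := log_bracket (a := (21 / 2000 : ℝ)) (x := (43 / 293 : ℝ)) (-7) 9 (by norm_num) (by norm_num)
    (by norm_num)
  norm_num [Finset.sum_range_succ] at h1 h2
  constructor <;> linarith [log_two_gt_d9, log_two_lt_d9]

lemma log_1979_2000 : (-2111103 / 200000000 : ℝ) ≤ log (1979 / 2000 : ℝ) ∧ log (1979 / 2000 : ℝ) ≤ (-1319439 / 125000000 : ℝ) := by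
  obtain ⟨h1, h2⟩ := log_bracket (a := (1979 / 2000 : ℝ)) (x := (979 / 2979 : ℝ)) (-1) 9 (by norm_num) (by norm_num)
    (by norm_num)
  norm_num [Finset.sum_range_succ] at h1 h2
  constructor <;> linarith [log_two_gt_d9, log_two_lt_d9]

lemma ent_21_2000 : (58286669 / 1000000000 : ℝ) ≤ binEntropy (21 / 2000 : ℝ) ∧ binEntropy (21 / 2000 : ℝ) ≤ (58286673 / 1000000000 : ℝ) := by
  obtain ⟨a1, a2⟩ := log_21_2000
  obtain ⟨b1, b2⟩ := log_1979_2000
  rw [binEntropy_eq_negMulLog_add_negMulLog_one_sub, show (1 : ℝ) - (21 / 2000 : ℝ) = (1979 / 2000 : ℝ) by norm_num]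
  unfold negMulLog
  constructor <;> linarith

lemma ent_1979_2000 : (58286669 / 1000000000 : ℝ) ≤ binEntropy (1979 / 2000 : ℝ) ∧ binEntropy (1979 / 2000 : ℝ) ≤ (58286673 / 1000000000 : ℝ) := by
  rw [show (1979 / 2000 : ℝ) = 1 - (21 / 2000 : ℝ) by norm_num, binEntropy_one_sub]
  exact ent_21_2000

lemma log_1861_5000 : (-30885123 / 31250000 : ℝ) ≤ log (1861 / 5000 : ℝ) ∧ log (1861 / 5000 : ℝ) ≤ (-494161967 / 500000000 : ℝ) := by
  obtain ⟨h1, h2⟩ := log_bracket (a := (1861 / 5000 : ℝ)) (x := (611 / 3111 : ℝ)) (-2) 9 (by norm_num) (by norm_num)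
    (by norm_num)
  norm_num [Finset.sum_range_succ] at h1 h2
  constructor <;> linarith [log_two_gt_d9, log_two_lt_d9]

lemma log_3139_5000 : (-93106727 / 200000000 : ℝ) ≤ log (3139 / 5000 : ℝ) ∧ log (3139 / 5000 : ℝ) ≤ (-232766817 / 500000000 : ℝ) := by
  obtain ⟨h1, h2⟩ := log_bracket (a := (3139 / 5000 : ℝ)) (x := (639 / 5639 : ℝ)) (-1) 9 (by norm_num) (by norm_num)
    (by norm_num)
  norm_num [Finset.sum_range_succ] at h1 h2
  constructor <;> linarith [log_two_gt_d9, log_two_lt_d9]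

lemma log_179_500 : (-513611147 / 500000000 : ℝ) ≤ log (179 / 500 : ℝ) ∧ log (179 / 500 : ℝ) ≤ (-256805573 / 250000000 : ℝ) := by
  obtain ⟨h1, h2⟩ := log_bracket (a := (179 / 500 : ℝ)) (x := (27 / 152 : ℝ)) (-2) 9 (by norm_num) (by norm_num)
    (by norm_num)
  norm_num [Finset.sum_range_succ] at h1 h2
  constructor <;> linarith [log_two_gt_d9, log_two_lt_d9]

lemma log_321_500 : (-1731121 / 3906250 : ℝ) ≤ log (321 / 500 : ℝ) ∧ log (321 / 500 : ℝ) ≤ (-17726679 / 40000000 : ℝ) := by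
  obtain ⟨h1, h2⟩ := log_bracket (a := (321 / 500 : ℝ)) (x := (71 / 571 : ℝ)) (-1) 9 (by norm_num) (by norm_num)
    (by norm_num)
  norm_num [Finset.sum_range_succ] at h1 h2
  constructor <;> linarith [log_two_gt_d9, log_two_lt_d9]

lemma ent_179_500 : (326129389 / 500000000 : ℝ) ≤ binEntropy (179 / 500 : ℝ) ∧ binEntropy (179 / 500 : ℝ) ≤ (32612939 / 50000000 : ℝ) := by
  obtain ⟨a1, a2⟩ := log_179_500
  obtain ⟨b1, b2⟩ := log_321_500
  rw [binEntropy_eq_negMulLog_add_negMulLog_one_sub, show (1 : ℝ) - (179 / 500 : ℝ) = (321 / 500 : ℝ) by norm_num]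
  unfold negMulLog
  constructor <;> linarith

lemma ent_1861_5000 : (660116183 / 1000000000 : ℝ) ≤ binEntropy (1861 / 5000 : ℝ) ∧ binEntropy (1861 / 5000 : ℝ) ≤ (330058093 / 500000000 : ℝ) := by
  obtain ⟨a1, a2⟩ := log_1861_5000
  obtain ⟨b1, b2⟩ := log_3139_5000
  rw [binEntropy_eq_negMulLog_add_negMulLog_one_sub, show (1 : ℝ) - (1861 / 5000 : ℝ) = (3139 / 5000 : ℝ) by norm_num]
  unfold negMulLog
  constructor <;> linarith

lemma log_467_1000 : (-380713011 / 500000000 : ℝ) ≤ log (467 / 1000 : ℝ) ∧ log (467 / 1000 : ℝ) ≤ (-38071301 / 50000000 : ℝ) := by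
  obtain ⟨h1, h2⟩ := log_bracket (a := (467 / 1000 : ℝ)) (x := (217 / 717 : ℝ)) (-2) 9 (by norm_num) (by norm_num)
    (by norm_num)
  norm_num [Finset.sum_range_succ] at h1 h2
  constructor <;> linarith [log_two_gt_d9, log_two_lt_d9]

lemma log_533_1000 : (-9831779 / 15625000 : ℝ) ≤ log (533 / 1000 : ℝ) ∧ log (533 / 1000 : ℝ) ≤ (-314616927 / 500000000 : ℝ) := by
  obtain ⟨h1, h2⟩ := log_bracket (a := (533 / 1000 : ℝ)) (x := (33 / 1033 : ℝ)) (-1) 9 (by norm_num) (by norm_num)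
    (by norm_num)
  norm_num [Finset.sum_range_succ] at h1 h2
  constructor <;> linarith [log_two_gt_d9, log_two_lt_d9]

lemma ent_467_1000 : (138193519 / 200000000 : ℝ) ≤ binEntropy (467 / 1000 : ℝ) ∧ binEntropy (467 / 1000 : ℝ) ≤ (345483799 / 500000000 : ℝ) := by
  obtain ⟨a1, a2⟩ := log_467_1000
  obtain ⟨b1, b2⟩ := log_533_1000
  rw [binEntropy_eq_negMulLog_add_negMulLog_one_sub, show (1 : ℝ) - (467 / 1000 : ℝ) = (533 / 1000 : ℝ) by norm_num]
  unfold negMulLog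
  constructor <;> linarith

lemma ent_533_1000 : (138193519 / 200000000 : ℝ) ≤ binEntropy (533 / 1000 : ℝ) ∧ binEntropy (533 / 1000 : ℝ) ≤ (345483799 / 500000000 : ℝ) := by
  rw [show (533 / 1000 : ℝ) = 1 - (467 / 1000 : ℝ) by norm_num, binEntropy_one_sub]
  exact ent_467_1000

lemma log_8_125 : (-2748872197 / 1000000000 : ℝ) ≤ log (8 / 125 : ℝ) ∧ log (8 / 125 : ℝ) ≤ (-1374436097 / 500000000 : ℝ) := by
  obtain ⟨h1, h2⟩ := log_bracket (a := (8 / 125 : ℝ)) (x := (3 / 253 : ℝ)) (-4) 9 (by norm_num) (by norm_num)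
    (by norm_num)
  norm_num [Finset.sum_range_succ] at h1 h2
  constructor <;> linarith [log_two_gt_d9, log_two_lt_d9]

lemma log_117_125 : (-66139803 / 1000000000 : ℝ) ≤ log (117 / 125 : ℝ) ∧ log (117 / 125 : ℝ) ≤ (-66139801 / 1000000000 : ℝ) := by
  obtain ⟨h1, h2⟩ := log_bracket (a := (117 / 125 : ℝ)) (x := (109 / 359 : ℝ)) (-1) 9 (by norm_num) (by norm_num)
    (by norm_num)
  norm_num [Finset.sum_range_succ] at h1 h2
  constructor <;> linarith [log_two_gt_d9, log_two_lt_d9]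

lemma ent_8_125 : (118917337 / 500000000 : ℝ) ≤ binEntropy (8 / 125 : ℝ) ∧ binEntropy (8 / 125 : ℝ) ≤ (237834677 / 1000000000 : ℝ) := by
  obtain ⟨a1, a2⟩ := log_8_125
  obtain ⟨b1, b2⟩ := log_117_125
  rw [binEntropy_eq_negMulLog_add_negMulLog_one_sub, show (1 : ℝ) - (8 / 125 : ℝ) = (117 / 125 : ℝ) by norm_num]
  unfold negMulLog
  constructor <;> linarith

lemma ent_117_125 : (118917337 / 500000000 : ℝ) ≤ binEntropy (117 / 125 : ℝ) ∧ binEntropy (117 / 125 : ℝ) ≤ (237834677 / 1000000000 : ℝ) := by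
  rw [show (117 / 125 : ℝ) = 1 - (8 / 125 : ℝ) by norm_num, binEntropy_one_sub]
  exact ent_8_125

lemma log_7_500 : (-133396811 / 31250000 : ℝ) ≤ log (7 / 500 : ℝ) ∧ log (7 / 500 : ℝ) ≤ (-4268697947 / 1000000000 : ℝ) := by
  obtain ⟨h1, h2⟩ := log_bracket (a := (7 / 500 : ℝ)) (x := (99 / 349 : ℝ)) (-7) 9 (by norm_num) (by norm_num)
    (by norm_num)
  norm_num [Finset.sum_range_succ] at h1 h2
  constructor <;> linarith [log_two_gt_d9, log_two_lt_d9]

lemma log_493_500 : (-563957 / 40000000 : ℝ) ≤ log (493 / 500 : ℝ) ∧ log (493 / 500 : ℝ) ≤ (-7049461 / 500000000 : ℝ) := by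
  obtain ⟨h1, h2⟩ := log_bracket (a := (493 / 500 : ℝ)) (x := (243 / 743 : ℝ)) (-1) 9 (by norm_num) (by norm_num)
    (by norm_num)
  norm_num [Finset.sum_range_succ] at h1 h2
  constructor <;> linarith [log_two_gt_d9, log_two_lt_d9]

lemma ent_7_500 : (18415827 / 250000000 : ℝ) ≤ binEntropy (7 / 500 : ℝ) ∧ binEntropy (7 / 500 : ℝ) ≤ (4603957 / 62500000 : ℝ) := by
  obtain ⟨a1, a2⟩ := log_7_500
  obtain ⟨b1, b2⟩ := log_493_500
  rw [binEntropy_eq_negMulLog_add_negMulLog_one_sub, show (1 : ℝ) - (7 / 500 : ℝ) = (493 / 500 : ℝ) by norm_num]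
  unfold negMulLog
  constructor <;> linarith

lemma ent_493_500 : (18415827 / 250000000 : ℝ) ≤ binEntropy (493 / 500 : ℝ) ∧ binEntropy (493 / 500 : ℝ) ≤ (4603957 / 62500000 : ℝ) := by
  rw [show (493 / 500 : ℝ) = 1 - (7 / 500 : ℝ) by norm_num, binEntropy_one_sub]
  exact ent_7_500

lemma log_39_1000 : (-648838727 / 200000000 : ℝ) ≤ log (39 / 1000 : ℝ) ∧ log (39 / 1000 : ℝ) ≤ (-3244193631 / 1000000000 : ℝ) := by
  obtain ⟨h1, h2⟩ := log_bracket (a := (39 / 1000 : ℝ)) (x := (31 / 281 : ℝ)) (-5) 9 (by norm_num) (by norm_num)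
    (by norm_num)
  norm_num [Finset.sum_range_succ] at h1 h2
  constructor <;> linarith [log_two_gt_d9, log_two_lt_d9]

lemma log_961_1000 : (-39780871 / 1000000000 : ℝ) ≤ log (961 / 1000 : ℝ) ∧ log (961 / 1000 : ℝ) ≤ (-39780869 / 1000000000 : ℝ) := by
  obtain ⟨h1, h2⟩ := log_bracket (a := (961 / 1000 : ℝ)) (x := (461 / 1461 : ℝ)) (-1) 9 (by norm_num) (by norm_num)
    (by norm_num)
  norm_num [Finset.sum_range_succ] at h1 h2
  constructor <;> linarith [log_two_gt_d9, log_two_lt_d9]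

lemma ent_39_1000 : (82376483 / 500000000 : ℝ) ≤ binEntropy (39 / 1000 : ℝ) ∧ binEntropy (39 / 1000 : ℝ) ≤ (164752969 / 1000000000 : ℝ) := by
  obtain ⟨a1, a2⟩ := log_39_1000
  obtain ⟨b1, b2⟩ := log_961_1000
  rw [binEntropy_eq_negMulLog_add_negMulLog_one_sub, show (1 : ℝ) - (39 / 1000 : ℝ) = (961 / 1000 : ℝ) by norm_num]
  unfold negMulLog
  constructor <;> linarith

lemma ent_961_1000 : (82376483 / 500000000 : ℝ) ≤ binEntropy (961 / 1000 : ℝ) ∧ binEntropy (961 / 1000 : ℝ) ≤ (164752969 / 1000000000 : ℝ) := by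
  rw [show (961 / 1000 : ℝ) = 1 - (39 / 1000 : ℝ) by norm_num, binEntropy_one_sub]
  exact ent_39_1000

lemma log_9_125 : (-2631089161 / 1000000000 : ℝ) ≤ log (9 / 125 : ℝ) ∧ log (9 / 125 : ℝ) ≤ (-1315544579 / 500000000 : ℝ) := by
  obtain ⟨h1, h2⟩ := log_bracket (a := (9 / 125 : ℝ)) (x := (19 / 269 : ℝ)) (-4) 9 (by norm_num) (by norm_num)
    (by norm_num)
  norm_num [Finset.sum_range_succ] at h1 h2
  constructor <;> linarith [log_two_gt_d9, log_two_lt_d9]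

lemma log_116_125 : (-74723547 / 1000000000 : ℝ) ≤ log (116 / 125 : ℝ) ∧ log (116 / 125 : ℝ) ≤ (-14944709 / 200000000 : ℝ) := by
  obtain ⟨h1, h2⟩ := log_bracket (a := (116 / 125 : ℝ)) (x := (107 / 357 : ℝ)) (-1) 9 (by norm_num) (by norm_num)
    (by norm_num)
  norm_num [Finset.sum_range_succ] at h1 h2
  constructor <;> linarith [log_two_gt_d9, log_two_lt_d9]

lemma ent_9_125 : (258781869 / 1000000000 : ℝ) ≤ binEntropy (9 / 125 : ℝ) ∧ binEntropy (9 / 125 : ℝ) ≤ (16173867 / 62500000 : ℝ) := by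
  obtain ⟨a1, a2⟩ := log_9_125
  obtain ⟨b1, b2⟩ := log_116_125
  rw [binEntropy_eq_negMulLog_add_negMulLog_one_sub, show (1 : ℝ) - (9 / 125 : ℝ) = (116 / 125 : ℝ) by norm_num]
  unfold negMulLog
  constructor <;> linarith

lemma ent_116_125 : (258781869 / 1000000000 : ℝ) ≤ binEntropy (116 / 125 : ℝ) ∧ binEntropy (116 / 125 : ℝ) ≤ (16173867 / 62500000 : ℝ) := by
  rw [show (116 / 125 : ℝ) = 1 - (9 / 125 : ℝ) by norm_num, binEntropy_one_sub]
  exact ent_9_125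

lemma log_3_500 : (-1278998953 / 250000000 : ℝ) ≤ log (3 / 500 : ℝ) ∧ log (3 / 500 : ℝ) ≤ (-5115995807 / 1000000000 : ℝ) := by
  obtain ⟨h1, h2⟩ := log_bracket (a := (3 / 500 : ℝ)) (x := (67 / 317 : ℝ)) (-8) 9 (by norm_num) (by norm_num)
    (by norm_num)
  norm_num [Finset.sum_range_succ] at h1 h2
  constructor <;> linarith [log_two_gt_d9, log_two_lt_d9]

lemma log_497_500 : (-6018073 / 1000000000 : ℝ) ≤ log (497 / 500 : ℝ) ∧ log (497 / 500 : ℝ) ≤ (-601807 / 100000000 : ℝ) := by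
  obtain ⟨h1, h2⟩ := log_bracket (a := (497 / 500 : ℝ)) (x := (247 / 747 : ℝ)) (-1) 9 (by norm_num) (by norm_num)
    (by norm_num)
  norm_num [Finset.sum_range_succ] at h1 h2
  constructor <;> linarith [log_two_gt_d9, log_two_lt_d9]

lemma ent_3_500 : (2292371 / 62500000 : ℝ) ≤ binEntropy (3 / 500 : ℝ) ∧ binEntropy (3 / 500 : ℝ) ≤ (1833897 / 50000000 : ℝ) := by
  obtain ⟨a1, a2⟩ := log_3_500
  obtain ⟨b1, b2⟩ := log_497_500
  rw [binEntropy_eq_negMulLog_add_negMulLog_one_sub, show (1 : ℝ) - (3 / 500 : ℝ) = (497 / 500 : ℝ) by norm_num]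
  unfold negMulLog
  constructor <;> linarith

lemma ent_497_500 : (2292371 / 62500000 : ℝ) ≤ binEntropy (497 / 500 : ℝ) ∧ binEntropy (497 / 500 : ℝ) ≤ (1833897 / 50000000 : ℝ) := by
  rw [show (497 / 500 : ℝ) = 1 - (3 / 500 : ℝ) by norm_num, binEntropy_one_sub]
  exact ent_3_500

lemma log_209_625 : (-1095417399 / 1000000000 : ℝ) ≤ log (209 / 625 : ℝ) ∧ log (209 / 625 : ℝ) ≤ (-1095417397 / 1000000000 : ℝ) := by
  obtain ⟨h1, h2⟩ := log_bracket (a := (209 / 625 : ℝ)) (x := (211 / 1461 : ℝ)) (-2) 9 (by norm_num) (by norm_num)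
    (by norm_num)
  norm_num [Finset.sum_range_succ] at h1 h2
  constructor <;> linarith [log_two_gt_d9, log_two_lt_d9]

lemma log_416_625 : (-40706639 / 100000000 : ℝ) ≤ log (416 / 625 : ℝ) ∧ log (416 / 625 : ℝ) ≤ (-407066389 / 1000000000 : ℝ) := by
  obtain ⟨h1, h2⟩ := log_bracket (a := (416 / 625 : ℝ)) (x := (207 / 1457 : ℝ)) (-1) 9 (by norm_num) (by norm_num)
    (by norm_num)
  norm_num [Finset.sum_range_succ] at h1 h2
  constructor <;> linarith [log_two_gt_d9, log_two_lt_d9]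

lemma log_79_250 : (-576006533 / 500000000 : ℝ) ≤ log (79 / 250 : ℝ) ∧ log (79 / 250 : ℝ) ≤ (-144001633 / 125000000 : ℝ) := by
  obtain ⟨h1, h2⟩ := log_bracket (a := (79 / 250 : ℝ)) (x := (33 / 283 : ℝ)) (-2) 9 (by norm_num) (by norm_num)
    (by norm_num)
  norm_num [Finset.sum_range_succ] at h1 h2
  constructor <;> linarith [log_two_gt_d9, log_two_lt_d9]

lemma log_171_250 : (-189898681 / 500000000 : ℝ) ≤ log (171 / 250 : ℝ) ∧ log (171 / 250 : ℝ) ≤ (-379797361 / 1000000000 : ℝ) := by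
  obtain ⟨h1, h2⟩ := log_bracket (a := (171 / 250 : ℝ)) (x := (23 / 148 : ℝ)) (-1) 9 (by norm_num) (by norm_num)
    (by norm_num)
  norm_num [Finset.sum_range_succ] at h1 h2
  constructor <;> linarith [log_two_gt_d9, log_two_lt_d9]

lemma ent_79_250 : (623817523 / 1000000000 : ℝ) ≤ binEntropy (79 / 250 : ℝ) ∧ binEntropy (79 / 250 : ℝ) ≤ (24952701 / 40000000 : ℝ) := by
  obtain ⟨a1, a2⟩ := log_79_250
  obtain ⟨b1, b2⟩ := log_171_250
  rw [binEntropy_eq_negMulLog_add_negMulLog_one_sub, show (1 : ℝ) - (79 / 250 : ℝ) = (171 / 250 : ℝ) by norm_num]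
  unfold negMulLog
  constructor <;> linarith

lemma ent_209_625 : (318625483 / 500000000 : ℝ) ≤ binEntropy (209 / 625 : ℝ) ∧ binEntropy (209 / 625 : ℝ) ≤ (79656371 / 125000000 : ℝ) := by
  obtain ⟨a1, a2⟩ := log_209_625
  obtain ⟨b1, b2⟩ := log_416_625
  rw [binEntropy_eq_negMulLog_add_negMulLog_one_sub, show (1 : ℝ) - (209 / 625 : ℝ) = (416 / 625 : ℝ) by norm_num]
  unfold negMulLog
  constructor <;> linarith

lemma log_229_500 : (-48805381 / 62500000 : ℝ) ≤ log (229 / 500 : ℝ) ∧ log (229 / 500 : ℝ) ≤ (-390443047 / 500000000 : ℝ) := by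
  obtain ⟨h1, h2⟩ := log_bracket (a := (229 / 500 : ℝ)) (x := (52 / 177 : ℝ)) (-2) 9 (by norm_num) (by norm_num)
    (by norm_num)
  norm_num [Finset.sum_range_succ] at h1 h2
  constructor <;> linarith [log_two_gt_d9, log_two_lt_d9]

lemma log_271_500 : (-306244639 / 500000000 : ℝ) ≤ log (271 / 500 : ℝ) ∧ log (271 / 500 : ℝ) ≤ (-612489277 / 1000000000 : ℝ) := by
  obtain ⟨h1, h2⟩ := log_bracket (a := (271 / 500 : ℝ)) (x := (21 / 521 : ℝ)) (-1) 9 (by norm_num) (by norm_num)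
    (by norm_num)
  norm_num [Finset.sum_range_succ] at h1 h2
  constructor <;> linarith [log_two_gt_d9, log_two_lt_d9]

lemma ent_229_500 : (689615019 / 1000000000 : ℝ) ≤ binEntropy (229 / 500 : ℝ) ∧ binEntropy (229 / 500 : ℝ) ≤ (689615021 / 1000000000 : ℝ) := by
  obtain ⟨a1, a2⟩ := log_229_500
  obtain ⟨b1, b2⟩ := log_271_500
  rw [binEntropy_eq_negMulLog_add_negMulLog_one_sub, show (1 : ℝ) - (229 / 500 : ℝ) = (271 / 500 : ℝ) by norm_num]
  unfold negMulLog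
  constructor <;> linarith

lemma ent_271_500 : (689615019 / 1000000000 : ℝ) ≤ binEntropy (271 / 500 : ℝ) ∧ binEntropy (271 / 500 : ℝ) ≤ (689615021 / 1000000000 : ℝ) := by
  rw [show (271 / 500 : ℝ) = 1 - (229 / 500 : ℝ) by norm_num, binEntropy_one_sub]
  exact ent_229_500

lemma log_153_2000 : (-128523227 / 50000000 : ℝ) ≤ log (153 / 2000 : ℝ) ∧ log (153 / 2000 : ℝ) ≤ (-2570464537 / 1000000000 : ℝ) := by
  obtain ⟨h1, h2⟩ := log_bracket (a := (153 / 2000 : ℝ)) (x := (14 / 139 : ℝ)) (-4) 9 (by norm_num) (by norm_num)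
    (by norm_num)
  norm_num [Finset.sum_range_succ] at h1 h2
  constructor <;> linarith [log_two_gt_d9, log_two_lt_d9]

lemma log_1847_2000 : (-497403 / 6250000 : ℝ) ≤ log (1847 / 2000 : ℝ) ∧ log (1847 / 2000 : ℝ) ≤ (-39792239 / 500000000 : ℝ) := by
  obtain ⟨h1, h2⟩ := log_bracket (a := (1847 / 2000 : ℝ)) (x := (847 / 2847 : ℝ)) (-1) 9 (by norm_num) (by norm_num)
    (by norm_num)
  norm_num [Finset.sum_range_succ] at h1 h2
  constructor <;> linarith [log_two_gt_d9, log_two_lt_d9]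

lemma ent_153_2000 : (135068401 / 500000000 : ℝ) ≤ binEntropy (153 / 2000 : ℝ) ∧ binEntropy (153 / 2000 : ℝ) ≤ (54027361 / 200000000 : ℝ) := by
  obtain ⟨a1, a2⟩ := log_153_2000
  obtain ⟨b1, b2⟩ := log_1847_2000
  rw [binEntropy_eq_negMulLog_add_negMulLog_one_sub, show (1 : ℝ) - (153 / 2000 : ℝ) = (1847 / 2000 : ℝ) by norm_num]
  unfold negMulLog
  constructor <;> linarith

lemma ent_1847_2000 : (135068401 / 500000000 : ℝ) ≤ binEntropy (1847 / 2000 : ℝ) ∧ binEntropy (1847 / 2000 : ℝ) ≤ (54027361 / 200000000 : ℝ) := by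
  rw [show (1847 / 2000 : ℝ) = 1 - (153 / 2000 : ℝ) by norm_num, binEntropy_one_sub]
  exact ent_153_2000

lemma log_87_2000 : (-3134994343 / 1000000000 : ℝ) ≤ log (87 / 2000 : ℝ) ∧ log (87 / 2000 : ℝ) ≤ (-3134994339 / 1000000000 : ℝ) := by
  obtain ⟨h1, h2⟩ := log_bracket (a := (87 / 2000 : ℝ)) (x := (49 / 299 : ℝ)) (-5) 9 (by norm_num) (by norm_num)
    (by norm_num)
  norm_num [Finset.sum_range_succ] at h1 h2
  constructor <;> linarith [log_two_gt_d9, log_two_lt_d9]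

lemma log_1913_2000 : (-44474491 / 1000000000 : ℝ) ≤ log (1913 / 2000 : ℝ) ∧ log (1913 / 2000 : ℝ) ≤ (-44474489 / 1000000000 : ℝ) := by
  obtain ⟨h1, h2⟩ := log_bracket (a := (1913 / 2000 : ℝ)) (x := (913 / 2913 : ℝ)) (-1) 9 (by norm_num) (by norm_num)
    (by norm_num)
  norm_num [Finset.sum_range_succ] at h1 h2
  constructor <;> linarith [log_two_gt_d9, log_two_lt_d9]

lemma ent_87_2000 : (89456051 / 500000000 : ℝ) ≤ binEntropy (87 / 2000 : ℝ) ∧ binEntropy (87 / 2000 : ℝ) ≤ (35782421 / 200000000 : ℝ) := by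
  obtain ⟨a1, a2⟩ := log_87_2000
  obtain ⟨b1, b2⟩ := log_1913_2000
  rw [binEntropy_eq_negMulLog_add_negMulLog_one_sub, show (1 : ℝ) - (87 / 2000 : ℝ) = (1913 / 2000 : ℝ) by norm_num]
  unfold negMulLog
  constructor <;> linarith

lemma ent_1913_2000 : (89456051 / 500000000 : ℝ) ≤ binEntropy (1913 / 2000 : ℝ) ∧ binEntropy (1913 / 2000 : ℝ) ≤ (35782421 / 200000000 : ℝ) := by
  rw [show (1913 / 2000 : ℝ) = 1 - (87 / 2000 : ℝ) by norm_num, binEntropy_one_sub]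
  exact ent_87_2000

lemma log_171_2000 : (-307404863 / 125000000 : ℝ) ≤ log (171 / 2000 : ℝ) ∧ log (171 / 2000 : ℝ) ≤ (-2459238901 / 1000000000 : ℝ) := by
  obtain ⟨h1, h2⟩ := log_bracket (a := (171 / 2000 : ℝ)) (x := (23 / 148 : ℝ)) (-4) 9 (by norm_num) (by norm_num)
    (by norm_num)
  norm_num [Finset.sum_range_succ] at h1 h2
  constructor <;> linarith [log_two_gt_d9, log_two_lt_d9]

lemma log_1829_2000 : (-22344453 / 250000000 : ℝ) ≤ log (1829 / 2000 : ℝ) ∧ log (1829 / 2000 : ℝ) ≤ (-8937781 / 100000000 : ℝ) := by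
  obtain ⟨h1, h2⟩ := log_bracket (a := (1829 / 2000 : ℝ)) (x := (829 / 2829 : ℝ)) (-1) 9 (by norm_num) (by norm_num)
    (by norm_num)
  norm_num [Finset.sum_range_succ] at h1 h2
  constructor <;> linarith [log_two_gt_d9, log_two_lt_d9]

lemma ent_171_2000 : (292000933 / 1000000000 : ℝ) ≤ binEntropy (171 / 2000 : ℝ) ∧ binEntropy (171 / 2000 : ℝ) ≤ (36500117 / 125000000 : ℝ) := by
  obtain ⟨a1, a2⟩ := log_171_2000
  obtain ⟨b1, b2⟩ := log_1829_2000
  rw [binEntropy_eq_negMulLog_add_negMulLog_one_sub, show (1 : ℝ) - (171 / 2000 : ℝ) = (1829 / 2000 : ℝ) by norm_num]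
  unfold negMulLog
  constructor <;> linarith

lemma ent_1829_2000 : (292000933 / 1000000000 : ℝ) ≤ binEntropy (1829 / 2000 : ℝ) ∧ binEntropy (1829 / 2000 : ℝ) ≤ (36500117 / 125000000 : ℝ) := by
  rw [show (1829 / 2000 : ℝ) = 1 - (171 / 2000 : ℝ) by norm_num, binEntropy_one_sub]
  exact ent_171_2000

lemma log_3_2000 : (-3251145087 / 500000000 : ℝ) ≤ log (3 / 2000 : ℝ) ∧ log (3 / 2000 : ℝ) ≤ (-812786271 / 125000000 : ℝ) := by
  obtain ⟨h1, h2⟩ := log_bracket (a := (3 / 2000 : ℝ)) (x := (67 / 317 : ℝ)) (-10) 9 (by norm_num) (by norm_num)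
    (by norm_num)
  norm_num [Finset.sum_range_succ] at h1 h2
  constructor <;> linarith [log_two_gt_d9, log_two_lt_d9]

lemma log_1997_2000 : (-1501127 / 1000000000 : ℝ) ≤ log (1997 / 2000 : ℝ) ∧ log (1997 / 2000 : ℝ) ≤ (-375281 / 250000000 : ℝ) := by
  obtain ⟨h1, h2⟩ := log_bracket (a := (1997 / 2000 : ℝ)) (x := (997 / 2997 : ℝ)) (-1) 9 (by norm_num) (by norm_num)
    (by norm_num)
  norm_num [Finset.sum_range_succ] at h1 h2
  constructor <;> linarith [log_two_gt_d9, log_two_lt_d9]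

lemma ent_3_2000 : (11252307 / 1000000000 : ℝ) ≤ binEntropy (3 / 2000 : ℝ) ∧ binEntropy (3 / 2000 : ℝ) ≤ (11252311 / 1000000000 : ℝ) := by
  obtain ⟨a1, a2⟩ := log_3_2000
  obtain ⟨b1, b2⟩ := log_1997_2000
  rw [binEntropy_eq_negMulLog_add_negMulLog_one_sub, show (1 : ℝ) - (3 / 2000 : ℝ) = (1997 / 2000 : ℝ) by norm_num]
  unfold negMulLog
  constructor <;> linarith

lemma ent_1997_2000 : (11252307 / 1000000000 : ℝ) ≤ binEntropy (1997 / 2000 : ℝ) ∧ binEntropy (1997 / 2000 : ℝ) ≤ (11252311 / 1000000000 : ℝ) := by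
  rw [show (1997 / 2000 : ℝ) = 1 - (3 / 2000 : ℝ) by norm_num, binEntropy_one_sub]
  exact ent_3_2000

lemma log_1483_5000 : (-24307417 / 20000000 : ℝ) ≤ log (1483 / 5000 : ℝ) ∧ log (1483 / 5000 : ℝ) ≤ (-37980339 / 31250000 : ℝ) := by
  obtain ⟨h1, h2⟩ := log_bracket (a := (1483 / 5000 : ℝ)) (x := (233 / 2733 : ℝ)) (-2) 9 (by norm_num) (by norm_num)
    (by norm_num)
  norm_num [Finset.sum_range_succ] at h1 h2
  constructor <;> linarith [log_two_gt_d9, log_two_lt_d9]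

lemma log_3517_5000 : (-8795739 / 25000000 : ℝ) ≤ log (3517 / 5000 : ℝ) ∧ log (3517 / 5000 : ℝ) ≤ (-175914779 / 500000000 : ℝ) := by
  obtain ⟨h1, h2⟩ := log_bracket (a := (3517 / 5000 : ℝ)) (x := (1017 / 6017 : ℝ)) (-1) 9 (by norm_num) (by norm_num)
    (by norm_num)
  norm_num [Finset.sum_range_succ] at h1 h2
  constructor <;> linarith [log_two_gt_d9, log_two_lt_d9]

lemma log_137_500 : (-647313587 / 500000000 : ℝ) ≤ log (137 / 500 : ℝ) ∧ log (137 / 500 : ℝ) ≤ (-323656793 / 250000000 : ℝ) := by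
  obtain ⟨h1, h2⟩ := log_bracket (a := (137 / 500 : ℝ)) (x := (6 / 131 : ℝ)) (-2) 9 (by norm_num) (by norm_num)
    (by norm_num)
  norm_num [Finset.sum_range_succ] at h1 h2
  constructor <;> linarith [log_two_gt_d9, log_two_lt_d9]

lemma log_363_500 : (-64041053 / 200000000 : ℝ) ≤ log (363 / 500 : ℝ) ∧ log (363 / 500 : ℝ) ≤ (-320205263 / 1000000000 : ℝ) := by
  obtain ⟨h1, h2⟩ := log_bracket (a := (363 / 500 : ℝ)) (x := (113 / 613 : ℝ)) (-1) 9 (by norm_num) (by norm_num)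
    (by norm_num)
  norm_num [Finset.sum_range_succ] at h1 h2
  constructor <;> linarith [log_two_gt_d9, log_two_lt_d9]

lemma ent_137_500 : (293598433 / 500000000 : ℝ) ≤ binEntropy (137 / 500 : ℝ) ∧ binEntropy (137 / 500 : ℝ) ≤ (587196869 / 1000000000 : ℝ) := by
  obtain ⟨a1, a2⟩ := log_137_500
  obtain ⟨b1, b2⟩ := log_363_500
  rw [binEntropy_eq_negMulLog_add_negMulLog_one_sub, show (1 : ℝ) - (137 / 500 : ℝ) = (363 / 500 : ℝ) by norm_num]
  unfold negMulLog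
  constructor <;> linarith

lemma ent_1483_5000 : (9499311 / 15625000 : ℝ) ≤ binEntropy (1483 / 5000 : ℝ) ∧ binEntropy (1483 / 5000 : ℝ) ≤ (607955907 / 1000000000 : ℝ) := by
  obtain ⟨a1, a2⟩ := log_1483_5000
  obtain ⟨b1, b2⟩ := log_3517_5000
  rw [binEntropy_eq_negMulLog_add_negMulLog_one_sub, show (1 : ℝ) - (1483 / 5000 : ℝ) = (3517 / 5000 : ℝ) by norm_num]
  unfold negMulLog
  constructor <;> linarith

lemma log_167_400 : (-54591921 / 62500000 : ℝ) ≤ log (167 / 400 : ℝ) ∧ log (167 / 400 : ℝ) ≤ (-436735367 / 500000000 : ℝ) := by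
  obtain ⟨h1, h2⟩ := log_bracket (a := (167 / 400 : ℝ)) (x := (67 / 267 : ℝ)) (-2) 9 (by norm_num) (by norm_num)
    (by norm_num)
  norm_num [Finset.sum_range_succ] at h1 h2
  constructor <;> linarith [log_two_gt_d9, log_two_lt_d9]

lemma log_233_400 : (-270213047 / 500000000 : ℝ) ≤ log (233 / 400 : ℝ) ∧ log (233 / 400 : ℝ) ≤ (-540426093 / 1000000000 : ℝ) := by
  obtain ⟨h1, h2⟩ := log_bracket (a := (233 / 400 : ℝ)) (x := (33 / 433 : ℝ)) (-1) 9 (by norm_num) (by norm_num)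
    (by norm_num)
  norm_num [Finset.sum_range_succ] at h1 h2
  constructor <;> linarith [log_two_gt_d9, log_two_lt_d9]

lemma ent_167_400 : (67947223 / 100000000 : ℝ) ≤ binEntropy (167 / 400 : ℝ) ∧ binEntropy (167 / 400 : ℝ) ≤ (679472233 / 1000000000 : ℝ) := by
  obtain ⟨a1, a2⟩ := log_167_400
  obtain ⟨b1, b2⟩ := log_233_400
  rw [binEntropy_eq_negMulLog_add_negMulLog_one_sub, show (1 : ℝ) - (167 / 400 : ℝ) = (233 / 400 : ℝ) by norm_num]
  unfold negMulLog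
  constructor <;> linarith

lemma ent_233_400 : (67947223 / 100000000 : ℝ) ≤ binEntropy (233 / 400 : ℝ) ∧ binEntropy (233 / 400 : ℝ) ≤ (679472233 / 1000000000 : ℝ) := by
  rw [show (233 / 400 : ℝ) = 1 - (167 / 400 : ℝ) by norm_num, binEntropy_one_sub]
  exact ent_167_400

lemma log_21_250 : (-1238469241 / 500000000 : ℝ) ≤ log (21 / 250 : ℝ) ∧ log (21 / 250 : ℝ) ≤ (-2476938479 / 1000000000 : ℝ) := by
  obtain ⟨h1, h2⟩ := log_bracket (a := (21 / 250 : ℝ)) (x := (43 / 293 : ℝ)) (-4) 9 (by norm_num) (by norm_num)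
    (by norm_num)
  norm_num [Finset.sum_range_succ] at h1 h2
  constructor <;> linarith [log_two_gt_d9, log_two_lt_d9]

lemma log_229_250 : (-17547783 / 200000000 : ℝ) ≤ log (229 / 250 : ℝ) ∧ log (229 / 250 : ℝ) ≤ (-87738913 / 1000000000 : ℝ) := by
  obtain ⟨h1, h2⟩ := log_bracket (a := (229 / 250 : ℝ)) (x := (52 / 177 : ℝ)) (-1) 9 (by norm_num) (by norm_num)
    (by norm_num)
  norm_num [Finset.sum_range_succ] at h1 h2
  constructor <;> linarith [log_two_gt_d9, log_two_lt_d9]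

lemma ent_21_250 : (72107919 / 250000000 : ℝ) ≤ binEntropy (21 / 250 : ℝ) ∧ binEntropy (21 / 250 : ℝ) ≤ (288431679 / 1000000000 : ℝ) := by
  obtain ⟨a1, a2⟩ := log_21_250
  obtain ⟨b1, b2⟩ := log_229_250
  rw [binEntropy_eq_negMulLog_add_negMulLog_one_sub, show (1 : ℝ) - (21 / 250 : ℝ) = (229 / 250 : ℝ) by norm_num]
  unfold negMulLog
  constructor <;> linarith

lemma ent_229_250 : (72107919 / 250000000 : ℝ) ≤ binEntropy (229 / 250 : ℝ) ∧ binEntropy (229 / 250 : ℝ) ≤ (288431679 / 1000000000 : ℝ) := by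
  rw [show (229 / 250 : ℝ) = 1 - (21 / 250 : ℝ) by norm_num, binEntropy_one_sub]
  exact ent_21_250

lemma log_21_500 : (-1585042831 / 500000000 : ℝ) ≤ log (21 / 500 : ℝ) ∧ log (21 / 500 : ℝ) ≤ (-3170085659 / 1000000000 : ℝ) := by
  obtain ⟨h1, h2⟩ := log_bracket (a := (21 / 500 : ℝ)) (x := (43 / 293 : ℝ)) (-5) 9 (by norm_num) (by norm_num)
    (by norm_num)
  norm_num [Finset.sum_range_succ] at h1 h2
  constructor <;> linarith [log_two_gt_d9, log_two_lt_d9]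

lemma log_479_500 : (-21453751 / 500000000 : ℝ) ≤ log (479 / 500 : ℝ) ∧ log (479 / 500 : ℝ) ≤ (-17163 / 400000 : ℝ) := by
  obtain ⟨h1, h2⟩ := log_bracket (a := (479 / 500 : ℝ)) (x := (229 / 729 : ℝ)) (-1) 9 (by norm_num) (by norm_num)
    (by norm_num)
  norm_num [Finset.sum_range_succ] at h1 h2
  constructor <;> linarith [log_two_gt_d9, log_two_lt_d9]

lemma ent_21_500 : (87124491 / 500000000 : ℝ) ≤ binEntropy (21 / 500 : ℝ) ∧ binEntropy (21 / 500 : ℝ) ≤ (34849797 / 200000000 : ℝ) := by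
  obtain ⟨a1, a2⟩ := log_21_500
  obtain ⟨b1, b2⟩ := log_479_500
  rw [binEntropy_eq_negMulLog_add_negMulLog_one_sub, show (1 : ℝ) - (21 / 500 : ℝ) = (479 / 500 : ℝ) by norm_num]
  unfold negMulLog
  constructor <;> linarith

lemma ent_479_500 : (87124491 / 500000000 : ℝ) ≤ binEntropy (479 / 500 : ℝ) ∧ binEntropy (479 / 500 : ℝ) ≤ (34849797 / 200000000 : ℝ) := by
  rw [show (479 / 500 : ℝ) = 1 - (21 / 500 : ℝ) by norm_num, binEntropy_one_sub]
  exact ent_21_500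

lemma log_33_200 : (-900904903 / 500000000 : ℝ) ≤ log (33 / 200 : ℝ) ∧ log (33 / 200 : ℝ) ≤ (-450452451 / 250000000 : ℝ) := by
  obtain ⟨h1, h2⟩ := log_bracket (a := (33 / 200 : ℝ)) (x := (4 / 29 : ℝ)) (-3) 9 (by norm_num) (by norm_num)
    (by norm_num)
  norm_num [Finset.sum_range_succ] at h1 h2
  constructor <;> linarith [log_two_gt_d9, log_two_lt_d9]

lemma log_167_200 : (-36064711 / 200000000 : ℝ) ≤ log (167 / 200 : ℝ) ∧ log (167 / 200 : ℝ) ≤ (-180323553 / 1000000000 : ℝ) := by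
  obtain ⟨h1, h2⟩ := log_bracket (a := (167 / 200 : ℝ)) (x := (67 / 267 : ℝ)) (-1) 9 (by norm_num) (by norm_num)
    (by norm_num)
  norm_num [Finset.sum_range_succ] at h1 h2
  constructor <;> linarith [log_two_gt_d9, log_two_lt_d9]

lemma ent_33_200 : (27991799 / 62500000 : ℝ) ≤ binEntropy (33 / 200 : ℝ) ∧ binEntropy (33 / 200 : ℝ) ≤ (447868787 / 1000000000 : ℝ) := by
  obtain ⟨a1, a2⟩ := log_33_200
  obtain ⟨b1, b2⟩ := log_167_200
  rw [binEntropy_eq_negMulLog_add_negMulLog_one_sub, show (1 : ℝ) - (33 / 200 : ℝ) = (167 / 200 : ℝ) by norm_num]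
  unfold negMulLog
  constructor <;> linarith

lemma ent_167_200 : (27991799 / 62500000 : ℝ) ≤ binEntropy (167 / 200 : ℝ) ∧ binEntropy (167 / 200 : ℝ) ≤ (447868787 / 1000000000 : ℝ) := by
  rw [show (167 / 200 : ℝ) = 1 - (33 / 200 : ℝ) by norm_num, binEntropy_one_sub]
  exact ent_33_200

lemma log_33_400 : (-2494956987 / 1000000000 : ℝ) ≤ log (33 / 400 : ℝ) ∧ log (33 / 400 : ℝ) ≤ (-311869623 / 125000000 : ℝ) := by
  obtain ⟨h1, h2⟩ := log_bracket (a := (33 / 400 : ℝ)) (x := (4 / 29 : ℝ)) (-4) 9 (by norm_num) (by norm_num)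
    (by norm_num)
  norm_num [Finset.sum_range_succ] at h1 h2
  constructor <;> linarith [log_two_gt_d9, log_two_lt_d9]

lemma log_367_400 : (-861027 / 10000000 : ℝ) ≤ log (367 / 400 : ℝ) ∧ log (367 / 400 : ℝ) ≤ (-43051349 / 500000000 : ℝ) := by
  obtain ⟨h1, h2⟩ := log_bracket (a := (367 / 400 : ℝ)) (x := (167 / 567 : ℝ)) (-1) 9 (by norm_num) (by norm_num)
    (by norm_num)
  norm_num [Finset.sum_range_succ] at h1 h2
  constructor <;> linarith [log_two_gt_d9, log_two_lt_d9]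

lemma ent_33_400 : (35604147 / 125000000 : ℝ) ≤ binEntropy (33 / 400 : ℝ) ∧ binEntropy (33 / 400 : ℝ) ≤ (284833179 / 1000000000 : ℝ) := by
  obtain ⟨a1, a2⟩ := log_33_400
  obtain ⟨b1, b2⟩ := log_367_400
  rw [binEntropy_eq_negMulLog_add_negMulLog_one_sub, show (1 : ℝ) - (33 / 400 : ℝ) = (367 / 400 : ℝ) by norm_num]
  unfold negMulLog
  constructor <;> linarith

lemma ent_367_400 : (35604147 / 125000000 : ℝ) ≤ binEntropy (367 / 400 : ℝ) ∧ binEntropy (367 / 400 : ℝ) ≤ (284833179 / 1000000000 : ℝ) := by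
  rw [show (367 / 400 : ℝ) = 1 - (33 / 400 : ℝ) by norm_num, binEntropy_one_sub]
  exact ent_33_400

lemma log_871_5000 : (-109221951 / 62500000 : ℝ) ≤ log (871 / 5000 : ℝ) ∧ log (871 / 5000 : ℝ) ≤ (-1747551213 / 1000000000 : ℝ) := by
  obtain ⟨h1, h2⟩ := log_bracket (a := (871 / 5000 : ℝ)) (x := (123 / 748 : ℝ)) (-3) 9 (by norm_num) (by norm_num)
    (by norm_num)
  norm_num [Finset.sum_range_succ] at h1 h2
  constructor <;> linarith [log_two_gt_d9, log_two_lt_d9]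

lemma log_4129_5000 : (-95701333 / 500000000 : ℝ) ≤ log (4129 / 5000 : ℝ) ∧ log (4129 / 5000 : ℝ) ≤ (-38280533 / 200000000 : ℝ) := by
  obtain ⟨h1, h2⟩ := log_bracket (a := (4129 / 5000 : ℝ)) (x := (1629 / 6629 : ℝ)) (-1) 9 (by norm_num) (by norm_num)
    (by norm_num)
  norm_num [Finset.sum_range_succ] at h1 h2
  constructor <;> linarith [log_two_gt_d9, log_two_lt_d9]

lemma log_69_500 : (-396100319 / 200000000 : ℝ) ≤ log (69 / 500 : ℝ) ∧ log (69 / 500 : ℝ) ≤ (-1980501593 / 1000000000 : ℝ) := by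
  obtain ⟨h1, h2⟩ := log_bracket (a := (69 / 500 : ℝ)) (x := (13 / 263 : ℝ)) (-3) 9 (by norm_num) (by norm_num)
    (by norm_num)
  norm_num [Finset.sum_range_succ] at h1 h2
  constructor <;> linarith [log_two_gt_d9, log_two_lt_d9]

lemma log_431_500 : (-148500009 / 1000000000 : ℝ) ≤ log (431 / 500 : ℝ) ∧ log (431 / 500 : ℝ) ≤ (-18562501 / 125000000 : ℝ) := by
  obtain ⟨h1, h2⟩ := log_bracket (a := (431 / 500 : ℝ)) (x := (181 / 681 : ℝ)) (-1) 9 (by norm_num) (by norm_num)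
    (by norm_num)
  norm_num [Finset.sum_range_succ] at h1 h2
  constructor <;> linarith [log_two_gt_d9, log_two_lt_d9]

lemma ent_69_500 : (200658113 / 500000000 : ℝ) ≤ binEntropy (69 / 500 : ℝ) ∧ binEntropy (69 / 500 : ℝ) ≤ (100329057 / 250000000 : ℝ) := by
  obtain ⟨a1, a2⟩ := log_69_500
  obtain ⟨b1, b2⟩ := log_431_500
  rw [binEntropy_eq_negMulLog_add_negMulLog_one_sub, show (1 : ℝ) - (69 / 500 : ℝ) = (431 / 500 : ℝ) by norm_num]
  unfold negMulLog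
  constructor <;> linarith

lemma ent_871_5000 : (231241871 / 500000000 : ℝ) ≤ binEntropy (871 / 5000 : ℝ) ∧ binEntropy (871 / 5000 : ℝ) ≤ (14452617 / 31250000 : ℝ) := by
  obtain ⟨a1, a2⟩ := log_871_5000
  obtain ⟨b1, b2⟩ := log_4129_5000
  rw [binEntropy_eq_negMulLog_add_negMulLog_one_sub, show (1 : ℝ) - (871 / 5000 : ℝ) = (4129 / 5000 : ℝ) by norm_num]
  unfold negMulLog
  constructor <;> linarith

lemma log_463_2000 : (-1463175407 / 1000000000 : ℝ) ≤ log (463 / 2000 : ℝ) ∧ log (463 / 2000 : ℝ) ≤ (-365793851 / 250000000 : ℝ) := by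
  obtain ⟨h1, h2⟩ := log_bracket (a := (463 / 2000 : ℝ)) (x := (213 / 713 : ℝ)) (-3) 9 (by norm_num) (by norm_num)
    (by norm_num)
  norm_num [Finset.sum_range_succ] at h1 h2
  constructor <;> linarith [log_two_gt_d9, log_two_lt_d9]

lemma log_1537_2000 : (-263314717 / 1000000000 : ℝ) ≤ log (1537 / 2000 : ℝ) ∧ log (1537 / 2000 : ℝ) ≤ (-52662943 / 200000000 : ℝ) := by
  obtain ⟨h1, h2⟩ := log_bracket (a := (1537 / 2000 : ℝ)) (x := (537 / 2537 : ℝ)) (-1) 9 (by norm_num) (by norm_num)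
    (by norm_num)
  norm_num [Finset.sum_range_succ] at h1 h2
  constructor <;> linarith [log_two_gt_d9, log_two_lt_d9]

lemma ent_463_2000 : (16908827 / 31250000 : ℝ) ≤ binEntropy (463 / 2000 : ℝ) ∧ binEntropy (463 / 2000 : ℝ) ≤ (541082467 / 1000000000 : ℝ) := by
  obtain ⟨a1, a2⟩ := log_463_2000
  obtain ⟨b1, b2⟩ := log_1537_2000
  rw [binEntropy_eq_negMulLog_add_negMulLog_one_sub, show (1 : ℝ) - (463 / 2000 : ℝ) = (1537 / 2000 : ℝ) by norm_num]
  unfold negMulLog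
  constructor <;> linarith

lemma ent_1537_2000 : (16908827 / 31250000 : ℝ) ≤ binEntropy (1537 / 2000 : ℝ) ∧ binEntropy (1537 / 2000 : ℝ) ≤ (541082467 / 1000000000 : ℝ) := by
  rw [show (1537 / 2000 : ℝ) = 1 - (463 / 2000 : ℝ) by norm_num, binEntropy_one_sub]
  exact ent_463_2000

lemma log_463_1000 : (-385014113 / 500000000 : ℝ) ≤ log (463 / 1000 : ℝ) ∧ log (463 / 1000 : ℝ) ≤ (-12031691 / 15625000 : ℝ) := by
  obtain ⟨h1, h2⟩ := log_bracket (a := (463 / 1000 : ℝ)) (x := (213 / 713 : ℝ)) (-2) 9 (by norm_num) (by norm_num)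
    (by norm_num)
  norm_num [Finset.sum_range_succ] at h1 h2
  constructor <;> linarith [log_two_gt_d9, log_two_lt_d9]

lemma log_537_1000 : (-124351437 / 200000000 : ℝ) ≤ log (537 / 1000 : ℝ) ∧ log (537 / 1000 : ℝ) ≤ (-2428739 / 3906250 : ℝ) := by
  obtain ⟨h1, h2⟩ := log_bracket (a := (537 / 1000 : ℝ)) (x := (37 / 1037 : ℝ)) (-1) 9 (by norm_num) (by norm_num)
    (by norm_num)
  norm_num [Finset.sum_range_succ] at h1 h2
  constructor <;> linarith [log_two_gt_d9, log_two_lt_d9]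

lemma ent_463_1000 : (27616267 / 40000000 : ℝ) ≤ binEntropy (463 / 1000 : ℝ) ∧ binEntropy (463 / 1000 : ℝ) ≤ (690406677 / 1000000000 : ℝ) := by
  obtain ⟨a1, a2⟩ := log_463_1000
  obtain ⟨b1, b2⟩ := log_537_1000
  rw [binEntropy_eq_negMulLog_add_negMulLog_one_sub, show (1 : ℝ) - (463 / 1000 : ℝ) = (537 / 1000 : ℝ) by norm_num]
  unfold negMulLog
  constructor <;> linarith

lemma log_537_2000 : (-657452183 / 500000000 : ℝ) ≤ log (537 / 2000 : ℝ) ∧ log (537 / 2000 : ℝ) ≤ (-328726091 / 250000000 : ℝ) := by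
  obtain ⟨h1, h2⟩ := log_bracket (a := (537 / 2000 : ℝ)) (x := (37 / 1037 : ℝ)) (-2) 9 (by norm_num) (by norm_num)
    (by norm_num)
  norm_num [Finset.sum_range_succ] at h1 h2
  constructor <;> linarith [log_two_gt_d9, log_two_lt_d9]

lemma log_1463_2000 : (-312658059 / 1000000000 : ℝ) ≤ log (1463 / 2000 : ℝ) ∧ log (1463 / 2000 : ℝ) ≤ (-156329029 / 500000000 : ℝ) := by
  obtain ⟨h1, h2⟩ := log_bracket (a := (1463 / 2000 : ℝ)) (x := (463 / 2463 : ℝ)) (-1) 9 (by norm_num) (by norm_num)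
    (by norm_num)
  norm_num [Finset.sum_range_succ] at h1 h2
  constructor <;> linarith [log_two_gt_d9, log_two_lt_d9]

lemma ent_537_2000 : (581761191 / 1000000000 : ℝ) ≤ binEntropy (537 / 2000 : ℝ) ∧ binEntropy (537 / 2000 : ℝ) ≤ (581761193 / 1000000000 : ℝ) := by
  obtain ⟨a1, a2⟩ := log_537_2000
  obtain ⟨b1, b2⟩ := log_1463_2000
  rw [binEntropy_eq_negMulLog_add_negMulLog_one_sub, show (1 : ℝ) - (537 / 2000 : ℝ) = (1463 / 2000 : ℝ) by norm_num]
  unfold negMulLog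
  constructor <;> linarith

lemma ent_1463_2000 : (581761191 / 1000000000 : ℝ) ≤ binEntropy (1463 / 2000 : ℝ) ∧ binEntropy (1463 / 2000 : ℝ) ≤ (581761193 / 1000000000 : ℝ) := by
  rw [show (1463 / 2000 : ℝ) = 1 - (537 / 2000 : ℝ) by norm_num, binEntropy_one_sub]
  exact ent_537_2000

lemma log_617_10000 : (-55709427 / 20000000 : ℝ) ≤ log (617 / 10000 : ℝ) ∧ log (617 / 10000 : ℝ) ≤ (-557094269 / 200000000 : ℝ) := by
  obtain ⟨h1, h2⟩ := log_bracket (a := (617 / 10000 : ℝ)) (x := (609 / 1859 : ℝ)) (-5) 9 (by norm_num) (by norm_num)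
    (by norm_num)
  norm_num [Finset.sum_range_succ] at h1 h2
  constructor <;> linarith [log_two_gt_d9, log_two_lt_d9]

lemma log_9383_10000 : (-3980347 / 62500000 : ℝ) ≤ log (9383 / 10000 : ℝ) ∧ log (9383 / 10000 : ℝ) ≤ (-63685551 / 1000000000 : ℝ) := by
  obtain ⟨h1, h2⟩ := log_bracket (a := (9383 / 10000 : ℝ)) (x := (4383 / 14383 : ℝ)) (-1) 9 (by norm_num) (by norm_num)
    (by norm_num)
  norm_num [Finset.sum_range_succ] at h1 h2
  constructor <;> linarith [log_two_gt_d9, log_two_lt_d9]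

lemma log_13_1000 : (-1085701481 / 250000000 : ℝ) ≤ log (13 / 1000 : ℝ) ∧ log (13 / 1000 : ℝ) ≤ (-4342805919 / 1000000000 : ℝ) := by
  obtain ⟨h1, h2⟩ := log_bracket (a := (13 / 1000 : ℝ)) (x := (83 / 333 : ℝ)) (-7) 9 (by norm_num) (by norm_num)
    (by norm_num)
  norm_num [Finset.sum_range_succ] at h1 h2
  constructor <;> linarith [log_two_gt_d9, log_two_lt_d9]

lemma log_987_1000 : (-327131 / 25000000 : ℝ) ≤ log (987 / 1000 : ℝ) ∧ log (987 / 1000 : ℝ) ≤ (-13085237 / 1000000000 : ℝ) := by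
  obtain ⟨h1, h2⟩ := log_bracket (a := (987 / 1000 : ℝ)) (x := (487 / 1487 : ℝ)) (-1) 9 (by norm_num) (by norm_num)
    (by norm_num)
  norm_num [Finset.sum_range_succ] at h1 h2
  constructor <;> linarith [log_two_gt_d9, log_two_lt_d9]

lemma ent_13_1000 : (13874321 / 200000000 : ℝ) ≤ binEntropy (13 / 1000 : ℝ) ∧ binEntropy (13 / 1000 : ℝ) ≤ (69371609 / 1000000000 : ℝ) := by
  obtain ⟨a1, a2⟩ := log_13_1000
  obtain ⟨b1, b2⟩ := log_987_1000
  rw [binEntropy_eq_negMulLog_add_negMulLog_one_sub, show (1 : ℝ) - (13 / 1000 : ℝ) = (987 / 1000 : ℝ) by norm_num]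
  unfold negMulLog
  constructor <;> linarith

lemma ent_617_10000 : (115809867 / 500000000 : ℝ) ≤ binEntropy (617 / 10000 : ℝ) ∧ binEntropy (617 / 10000 : ℝ) ≤ (28952467 / 125000000 : ℝ) := by
  obtain ⟨a1, a2⟩ := log_617_10000
  obtain ⟨b1, b2⟩ := log_9383_10000
  rw [binEntropy_eq_negMulLog_add_negMulLog_one_sub, show (1 : ℝ) - (617 / 10000 : ℝ) = (9383 / 10000 : ℝ) by norm_num]
  unfold negMulLog
  constructor <;> linarith

lemma log_69_2000 : (-3366795957 / 1000000000 : ℝ) ≤ log (69 / 2000 : ℝ) ∧ log (69 / 2000 : ℝ) ≤ (-3366795953 / 1000000000 : ℝ) := by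
  obtain ⟨h1, h2⟩ := log_bracket (a := (69 / 2000 : ℝ)) (x := (13 / 263 : ℝ)) (-5) 9 (by norm_num) (by norm_num)
    (by norm_num)
  norm_num [Finset.sum_range_succ] at h1 h2
  constructor <;> linarith [log_two_gt_d9, log_two_lt_d9]

lemma log_1931_2000 : (-17554589 / 500000000 : ℝ) ≤ log (1931 / 2000 : ℝ) ∧ log (1931 / 2000 : ℝ) ≤ (-4388647 / 125000000 : ℝ) := by
  obtain ⟨h1, h2⟩ := log_bracket (a := (1931 / 2000 : ℝ)) (x := (931 / 2931 : ℝ)) (-1) 9 (by norm_num) (by norm_num)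
    (by norm_num)
  norm_num [Finset.sum_range_succ] at h1 h2
  constructor <;> linarith [log_two_gt_d9, log_two_lt_d9]

lemma ent_69_2000 : (150052369 / 1000000000 : ℝ) ≤ binEntropy (69 / 2000 : ℝ) ∧ binEntropy (69 / 2000 : ℝ) ≤ (37513093 / 250000000 : ℝ) := by
  obtain ⟨a1, a2⟩ := log_69_2000
  obtain ⟨b1, b2⟩ := log_1931_2000
  rw [binEntropy_eq_negMulLog_add_negMulLog_one_sub, show (1 : ℝ) - (69 / 2000 : ℝ) = (1931 / 2000 : ℝ) by norm_num]
  unfold negMulLog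
  constructor <;> linarith

lemma ent_1931_2000 : (150052369 / 1000000000 : ℝ) ≤ binEntropy (1931 / 2000 : ℝ) ∧ binEntropy (1931 / 2000 : ℝ) ≤ (37513093 / 250000000 : ℝ) := by
  rw [show (1931 / 2000 : ℝ) = 1 - (69 / 2000 : ℝ) by norm_num, binEntropy_one_sub]
  exact ent_69_2000

lemma log_69_1000 : (-334206097 / 125000000 : ℝ) ≤ log (69 / 1000 : ℝ) ∧ log (69 / 1000 : ℝ) ≤ (-2673648773 / 1000000000 : ℝ) := by
  obtain ⟨h1, h2⟩ := log_bracket (a := (69 / 1000 : ℝ)) (x := (13 / 263 : ℝ)) (-4) 9 (by norm_num) (by norm_num)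
    (by norm_num)
  norm_num [Finset.sum_range_succ] at h1 h2
  constructor <;> linarith [log_two_gt_d9, log_two_lt_d9]

lemma log_931_1000 : (-35748001 / 500000000 : ℝ) ≤ log (931 / 1000 : ℝ) ∧ log (931 / 1000 : ℝ) ≤ (-71496001 / 1000000000 : ℝ) := by
  obtain ⟨h1, h2⟩ := log_bracket (a := (931 / 1000 : ℝ)) (x := (431 / 1431 : ℝ)) (-1) 9 (by norm_num) (by norm_num)
    (by norm_num)
  norm_num [Finset.sum_range_succ] at h1 h2
  constructor <;> linarith [log_two_gt_d9, log_two_lt_d9]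

lemma ent_69_1000 : (125522271 / 500000000 : ℝ) ≤ binEntropy (69 / 1000 : ℝ) ∧ binEntropy (69 / 1000 : ℝ) ≤ (3922571 / 15625000 : ℝ) := by
  obtain ⟨a1, a2⟩ := log_69_1000
  obtain ⟨b1, b2⟩ := log_931_1000
  rw [binEntropy_eq_negMulLog_add_negMulLog_one_sub, show (1 : ℝ) - (69 / 1000 : ℝ) = (931 / 1000 : ℝ) by norm_num]
  unfold negMulLog
  constructor <;> linarith

lemma log_931_2000 : (-764643183 / 1000000000 : ℝ) ≤ log (931 / 2000 : ℝ) ∧ log (931 / 2000 : ℝ) ≤ (-764643181 / 1000000000 : ℝ) := by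
  obtain ⟨h1, h2⟩ := log_bracket (a := (931 / 2000 : ℝ)) (x := (431 / 1431 : ℝ)) (-2) 9 (by norm_num) (by norm_num)
    (by norm_num)
  norm_num [Finset.sum_range_succ] at h1 h2
  constructor <;> linarith [log_two_gt_d9, log_two_lt_d9]

lemma log_1069_2000 : (-626423549 / 1000000000 : ℝ) ≤ log (1069 / 2000 : ℝ) ∧ log (1069 / 2000 : ℝ) ≤ (-156605887 / 250000000 : ℝ) := by
  obtain ⟨h1, h2⟩ := log_bracket (a := (1069 / 2000 : ℝ)) (x := (69 / 2069 : ℝ)) (-1) 9 (by norm_num) (by norm_num)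
    (by norm_num)
  norm_num [Finset.sum_range_succ] at h1 h2
  constructor <;> linarith [log_two_gt_d9, log_two_lt_d9]

lemma ent_931_2000 : (690764787 / 1000000000 : ℝ) ≤ binEntropy (931 / 2000 : ℝ) ∧ binEntropy (931 / 2000 : ℝ) ≤ (690764789 / 1000000000 : ℝ) := by
  obtain ⟨a1, a2⟩ := log_931_2000
  obtain ⟨b1, b2⟩ := log_1069_2000
  rw [binEntropy_eq_negMulLog_add_negMulLog_one_sub, show (1 : ℝ) - (931 / 2000 : ℝ) = (1069 / 2000 : ℝ) by norm_num]
  unfold negMulLog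
  constructor <;> linarith

lemma ent_1069_2000 : (690764787 / 1000000000 : ℝ) ≤ binEntropy (1069 / 2000 : ℝ) ∧ binEntropy (1069 / 2000 : ℝ) ≤ (690764789 / 1000000000 : ℝ) := by
  rw [show (1069 / 2000 : ℝ) = 1 - (931 / 2000 : ℝ) by norm_num, binEntropy_one_sub]
  exact ent_931_2000

lemma log_259_5000 : (-2960365131 / 1000000000 : ℝ) ≤ log (259 / 5000 : ℝ) ∧ log (259 / 5000 : ℝ) ≤ (-370045641 / 125000000 : ℝ) := by
  obtain ⟨h1, h2⟩ := log_bracket (a := (259 / 5000 : ℝ)) (x := (411 / 1661 : ℝ)) (-5) 9 (by norm_num) (by norm_num)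
    (by norm_num)
  norm_num [Finset.sum_range_succ] at h1 h2
  constructor <;> linarith [log_two_gt_d9, log_two_lt_d9]

lemma log_4741_5000 : (-53189829 / 1000000000 : ℝ) ≤ log (4741 / 5000 : ℝ) ∧ log (4741 / 5000 : ℝ) ≤ (-53189827 / 1000000000 : ℝ) := by
  obtain ⟨h1, h2⟩ := log_bracket (a := (4741 / 5000 : ℝ)) (x := (2241 / 7241 : ℝ)) (-1) 9 (by norm_num) (by norm_num)
    (by norm_num)
  norm_num [Finset.sum_range_succ] at h1 h2
  constructor <;> linarith [log_two_gt_d9, log_two_lt_d9]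

lemma log_1_500 : (-6214608101 / 1000000000 : ℝ) ≤ log (1 / 500 : ℝ) ∧ log (1 / 500 : ℝ) ≤ (-194206503 / 31250000 : ℝ) := by
  obtain ⟨h1, h2⟩ := log_bracket (a := (1 / 500 : ℝ)) (x := (3 / 253 : ℝ)) (-9) 9 (by norm_num) (by norm_num)
    (by norm_num)
  norm_num [Finset.sum_range_succ] at h1 h2
  constructor <;> linarith [log_two_gt_d9, log_two_lt_d9]

lemma log_499_500 : (-500501 / 250000000 : ℝ) ≤ log (499 / 500 : ℝ) ∧ log (499 / 500 : ℝ) ≤ (-1001 / 500000 : ℝ) := by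
  obtain ⟨h1, h2⟩ := log_bracket (a := (499 / 500 : ℝ)) (x := (249 / 749 : ℝ)) (-1) 9 (by norm_num) (by norm_num)
    (by norm_num)
  norm_num [Finset.sum_range_succ] at h1 h2
  constructor <;> linarith [log_two_gt_d9, log_two_lt_d9]

lemma ent_1_500 : (3606803 / 250000000 : ℝ) ≤ binEntropy (1 / 500 : ℝ) ∧ binEntropy (1 / 500 : ℝ) ≤ (14427217 / 1000000000 : ℝ) := by
  obtain ⟨a1, a2⟩ := log_1_500
  obtain ⟨b1, b2⟩ := log_499_500
  rw [binEntropy_eq_negMulLog_add_negMulLog_one_sub, show (1 : ℝ) - (1 / 500 : ℝ) = (499 / 500 : ℝ) by norm_num]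
  unfold negMulLog
  constructor <;> linarith

lemma ent_259_5000 : (203781507 / 1000000000 : ℝ) ≤ binEntropy (259 / 5000 : ℝ) ∧ binEntropy (259 / 5000 : ℝ) ≤ (20378151 / 100000000 : ℝ) := by
  obtain ⟨a1, a2⟩ := log_259_5000
  obtain ⟨b1, b2⟩ := log_4741_5000
  rw [binEntropy_eq_negMulLog_add_negMulLog_one_sub, show (1 : ℝ) - (259 / 5000 : ℝ) = (4741 / 5000 : ℝ) by norm_num]
  unfold negMulLog
  constructor <;> linarith

lemma log_13_2000 : (-1007190621 / 200000000 : ℝ) ≤ log (13 / 2000 : ℝ) ∧ log (13 / 2000 : ℝ) ≤ (-5035953099 / 1000000000 : ℝ) := by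
  obtain ⟨h1, h2⟩ := log_bracket (a := (13 / 2000 : ℝ)) (x := (83 / 333 : ℝ)) (-8) 9 (by norm_num) (by norm_num)
    (by norm_num)
  norm_num [Finset.sum_range_succ] at h1 h2
  constructor <;> linarith [log_two_gt_d9, log_two_lt_d9]

lemma log_1987_2000 : (-3260609 / 500000000 : ℝ) ≤ log (1987 / 2000 : ℝ) ∧ log (1987 / 2000 : ℝ) ≤ (-1304243 / 200000000 : ℝ) := by
  obtain ⟨h1, h2⟩ := log_bracket (a := (1987 / 2000 : ℝ)) (x := (987 / 2987 : ℝ)) (-1) 9 (by norm_num) (by norm_num)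
    (by norm_num)
  norm_num [Finset.sum_range_succ] at h1 h2
  constructor <;> linarith [log_two_gt_d9, log_two_lt_d9]

lemma ent_13_2000 : (19606261 / 500000000 : ℝ) ≤ binEntropy (13 / 2000 : ℝ) ∧ binEntropy (13 / 2000 : ℝ) ≤ (19606263 / 500000000 : ℝ) := by
  obtain ⟨a1, a2⟩ := log_13_2000
  obtain ⟨b1, b2⟩ := log_1987_2000
  rw [binEntropy_eq_negMulLog_add_negMulLog_one_sub, show (1 : ℝ) - (13 / 2000 : ℝ) = (1987 / 2000 : ℝ) by norm_num]
  unfold negMulLog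
  constructor <;> linarith

lemma ent_1987_2000 : (19606261 / 500000000 : ℝ) ≤ binEntropy (1987 / 2000 : ℝ) ∧ binEntropy (1987 / 2000 : ℝ) ≤ (19606263 / 500000000 : ℝ) := by
  rw [show (1987 / 2000 : ℝ) = 1 - (13 / 2000 : ℝ) by norm_num, binEntropy_one_sub]
  exact ent_13_2000

lemma log_987_2000 : (-706232421 / 1000000000 : ℝ) ≤ log (987 / 2000 : ℝ) ∧ log (987 / 2000 : ℝ) ≤ (-353116209 / 500000000 : ℝ) := by
  obtain ⟨h1, h2⟩ := log_bracket (a := (987 / 2000 : ℝ)) (x := (487 / 1487 : ℝ)) (-2) 9 (by norm_num) (by norm_num)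
    (by norm_num)
  norm_num [Finset.sum_range_succ] at h1 h2
  constructor <;> linarith [log_two_gt_d9, log_two_lt_d9]

lemma log_1013_2000 : (-170057739 / 250000000 : ℝ) ≤ log (1013 / 2000 : ℝ) ∧ log (1013 / 2000 : ℝ) ≤ (-136046191 / 200000000 : ℝ) := by
  obtain ⟨h1, h2⟩ := log_bracket (a := (1013 / 2000 : ℝ)) (x := (13 / 2013 : ℝ)) (-1) 9 (by norm_num) (by norm_num)
    (by norm_num)
  norm_num [Finset.sum_range_succ] at h1 h2
  constructor <;> linarith [log_two_gt_d9, log_two_lt_d9]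

lemma ent_987_2000 : (173265669 / 250000000 : ℝ) ≤ binEntropy (987 / 2000 : ℝ) ∧ binEntropy (987 / 2000 : ℝ) ≤ (693062679 / 1000000000 : ℝ) := by
  obtain ⟨a1, a2⟩ := log_987_2000
  obtain ⟨b1, b2⟩ := log_1013_2000
  rw [binEntropy_eq_negMulLog_add_negMulLog_one_sub, show (1 : ℝ) - (987 / 2000 : ℝ) = (1013 / 2000 : ℝ) by norm_num]
  unfold negMulLog
  constructor <;> linarith

lemma ent_1013_2000 : (173265669 / 250000000 : ℝ) ≤ binEntropy (1013 / 2000 : ℝ) ∧ binEntropy (1013 / 2000 : ℝ) ≤ (693062679 / 1000000000 : ℝ) := by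
  rw [show (1013 / 2000 : ℝ) = 1 - (987 / 2000 : ℝ) by norm_num, binEntropy_one_sub]
  exact ent_987_2000

lemma log_3_100 : (-3506557899 / 1000000000 : ℝ) ≤ log (3 / 100 : ℝ) ∧ log (3 / 100 : ℝ) ≤ (-701311579 / 200000000 : ℝ) := by
  obtain ⟨h1, h2⟩ := log_bracket (a := (3 / 100 : ℝ)) (x := (23 / 73 : ℝ)) (-6) 9 (by norm_num) (by norm_num)
    (by norm_num)
  norm_num [Finset.sum_range_succ] at h1 h2
  constructor <;> linarith [log_two_gt_d9, log_two_lt_d9]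

lemma log_97_100 : (-3807401 / 125000000 : ℝ) ≤ log (97 / 100 : ℝ) ∧ log (97 / 100 : ℝ) ≤ (-15229603 / 500000000 : ℝ) := by
  obtain ⟨h1, h2⟩ := log_bracket (a := (97 / 100 : ℝ)) (x := (47 / 147 : ℝ)) (-1) 9 (by norm_num) (by norm_num)
    (by norm_num)
  norm_num [Finset.sum_range_succ] at h1 h2
  constructor <;> linarith [log_two_gt_d9, log_two_lt_d9]

lemma ent_3_100 : (67371083 / 500000000 : ℝ) ≤ binEntropy (3 / 100 : ℝ) ∧ binEntropy (3 / 100 : ℝ) ≤ (134742169 / 1000000000 : ℝ) := by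
  obtain ⟨a1, a2⟩ := log_3_100
  obtain ⟨b1, b2⟩ := log_97_100
  rw [binEntropy_eq_negMulLog_add_negMulLog_one_sub, show (1 : ℝ) - (3 / 100 : ℝ) = (97 / 100 : ℝ) by norm_num]
  unfold negMulLog
  constructor <;> linarith

lemma log_1_25 : (-3218875827 / 1000000000 : ℝ) ≤ log (1 / 25 : ℝ) ∧ log (1 / 25 : ℝ) ≤ (-3218875823 / 1000000000 : ℝ) := by
  obtain ⟨h1, h2⟩ := log_bracket (a := (1 / 25 : ℝ)) (x := (7 / 57 : ℝ)) (-5) 9 (by norm_num) (by norm_num)
    (by norm_num)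
  norm_num [Finset.sum_range_succ] at h1 h2
  constructor <;> linarith [log_two_gt_d9, log_two_lt_d9]

lemma log_13_25000 : (-30246727 / 4000000 : ℝ) ≤ log (13 / 25000 : ℝ) ∧ log (13 / 25000 : ℝ) ≤ (-7561681743 / 1000000000 : ℝ) := by
  obtain ⟨h1, h2⟩ := log_bracket (a := (13 / 25000 : ℝ)) (x := (203 / 6453 : ℝ)) (-11) 9 (by norm_num) (by norm_num)
    (by norm_num)
  norm_num [Finset.sum_range_succ] at h1 h2
  constructor <;> linarith [log_two_gt_d9, log_two_lt_d9]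

lemma log_38111_1250000 : (-1745197939 / 500000000 : ℝ) ≤ log (38111 / 1250000 : ℝ) ∧ log (38111 / 1250000 : ℝ) ≤ (-3490395873 / 1000000000 : ℝ) := by
  obtain ⟨h1, h2⟩ := log_bracket (a := (38111 / 1250000 : ℝ)) (x := (74319 / 230569 : ℝ)) (-6) 9 (by norm_num) (by norm_num)
    (by norm_num)
  norm_num [Finset.sum_range_succ] at h1 h2
  constructor <;> linarith [log_two_gt_d9, log_two_lt_d9]

lemma log_1211889_1250000 : (-30963253 / 1000000000 : ℝ) ≤ log (1211889 / 1250000 : ℝ) ∧ log (1211889 / 1250000 : ℝ) ≤ (-123853 / 4000000 : ℝ) := by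
  obtain ⟨h1, h2⟩ := log_bracket (a := (1211889 / 1250000 : ℝ)) (x := (586889 / 1836889 : ℝ)) (-1) 9 (by norm_num) (by norm_num)
    (by norm_num)
  norm_num [Finset.sum_range_succ] at h1 h2
  constructor <;> linarith [log_two_gt_d9, log_two_lt_d9]

lemma log_27_400 : (-2695627683 / 1000000000 : ℝ) ≤ log (27 / 400 : ℝ) ∧ log (27 / 400 : ℝ) ≤ (-16847673 / 6250000 : ℝ) := by
  obtain ⟨h1, h2⟩ := log_bracket (a := (27 / 400 : ℝ)) (x := (1 / 26 : ℝ)) (-4) 9 (by norm_num) (by norm_num)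
    (by norm_num)
  norm_num [Finset.sum_range_succ] at h1 h2
  constructor <;> linarith [log_two_gt_d9, log_two_lt_d9]

lemma log_351_400000 : (-3519216803 / 500000000 : ℝ) ≤ log (351 / 400000 : ℝ) ∧ log (351 / 400000 : ℝ) ≤ (-7038433599 / 1000000000 : ℝ) := by
  obtain ⟨h1, h2⟩ := log_bracket (a := (351 / 400000 : ℝ)) (x := (2491 / 8741 : ℝ)) (-11) 9 (by norm_num) (by norm_num)
    (by norm_num)
  norm_num [Finset.sum_range_succ] at h1 h2
  constructor <;> linarith [log_two_gt_d9, log_two_lt_d9]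

lemma log_203159_4000000 : (-1490030359 / 500000000 : ℝ) ≤ log (203159 / 4000000 : ℝ) ∧ log (203159 / 4000000 : ℝ) ≤ (-596012143 / 200000000 : ℝ) := by
  obtain ⟨h1, h2⟩ := log_bracket (a := (203159 / 4000000 : ℝ)) (x := (78159 / 328159 : ℝ)) (-5) 9 (by norm_num) (by norm_num)
    (by norm_num)
  norm_num [Finset.sum_range_succ] at h1 h2
  constructor <;> linarith [log_two_gt_d9, log_two_lt_d9]

lemma log_3796841_4000000 : (-52124957 / 1000000000 : ℝ) ≤ log (3796841 / 4000000 : ℝ) ∧ log (3796841 / 4000000 : ℝ) ≤ (-10424991 / 200000000 : ℝ) := by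
  obtain ⟨h1, h2⟩ := log_bracket (a := (3796841 / 4000000 : ℝ)) (x := (1796841 / 5796841 : ℝ)) (-1) 9 (by norm_num) (by norm_num)
    (by norm_num)
  norm_num [Finset.sum_range_succ] at h1 h2
  constructor <;> linarith [log_two_gt_d9, log_two_lt_d9]

end Vale.Agent.P322.BlockA
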