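import Mathlib
import Vale.Agent.P322.Mid.Rows
import Vale.Agent.P322.Mid.EdgeFam
import Vale.Agent.P322.Mid.NumA

/-!
P322: the step inequality for noise levels in `[3/200, 1/20]`.
-/

open Real Set

namespace Vale.Agent.P322.BlockA

lemma inBlock {ε : ℝ} (h0 : (3 / 200 : ℝ) ≤ ε) (h1 : ε ≤ (1 / 20 : ℝ)) :
    InBlock (21 / 25 : ℝ) ε (3 / 200 : ℝ) (1 / 20 : ℝ) (379 / 500 : ℝ) (479 / 500 : ℝ) where
  κ0 := by norm_num
  κ1 := by norm_num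
  pos := by linarith
  le := h1
  lt := by norm_num
  mem := xRatio_mem (by norm_num) h0 h1 (by norm_num) (by linarith [ent_3_200.2])
    (by linarith [ent_1_20.1])
  xa0 := by norm_num
  xb1 := by linarith [log_two_lt_d9]
  ea_le := h0

theorem row_small {ε a b : ℝ} (h0 : (3 / 200 : ℝ) ≤ ε) (h1 : ε ≤ (1 / 20 : ℝ))
    (hd : |a - b| ≤ (3 / 100 : ℝ)) (ha : a ∈ Icc (0 : ℝ) 1) (hb : b ∈ Icc (0 : ℝ) 1) :
    StepAt ε (capBound (21 / 25 : ℝ) ε) a b := by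
  have p0 : phi (3 / 100 : ℝ) = log 2 - binEntropy (97 / 200 : ℝ) := by
    rw [phi, show (1 - (3 / 100 : ℝ)) / 2 = (97 / 200 : ℝ) by norm_num]
  have p1 : phi ((3 / 100 : ℝ) / (2 * (389 / 400 : ℝ))) = log 2 - binEntropy (383 / 778 : ℝ) := by
    rw [phi, show (1 - (3 / 100 : ℝ) / (2 * (389 / 400 : ℝ))) / 2 = (383 / 778 : ℝ) by norm_num]
  have p2 : phi ((3 / 100 : ℝ) / (2 * (1 - (389 / 400 : ℝ)))) = log 2 - binEntropy (5 / 22 : ℝ) := by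
    rw [phi, show (1 - (3 / 100 : ℝ) / (2 * (1 - (389 / 400 : ℝ)))) / 2 = (5 / 22 : ℝ) by norm_num]
  refine stepAt_first_row (x₀ := (3 / 100 : ℝ)) (m₁ := (389 / 400 : ℝ)) (ν := (83 / 20 : ℝ)) (lam := (2607 / 500 : ℝ))
    (inBlock h0 h1) (by norm_num) (by norm_num) (by norm_num) (by norm_num) (by norm_num)
    (by norm_num) ?_ ?_ ?_ ?_ ?_ (by linarith [log_two_gt_d9]) hd ha hb
  · have h := pow_le_pow_left₀ (mul_nonneg (by norm_num : (0 : ℝ) ≤ (2607 / 500 : ℝ))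
      (binEntropy_nonneg (by norm_num) (by norm_num)))
      (mul_le_mul_of_nonneg_left ent_1_20.2 (by norm_num : (0 : ℝ) ≤ (2607 / 500 : ℝ))) 2
    linarith [log_two_gt_d9]
  · rw [p0]; norm_num; linarith [ent_97_200.1, ent_97_200.2, ent_383_778.1, ent_383_778.2, ent_5_22.1, ent_5_22.2, ent_389_400.1, ent_389_400.2, log_two_gt_d9, log_two_lt_d9]
  · rw [p0]; norm_num; linarith [ent_97_200.1, ent_97_200.2, ent_383_778.1, ent_383_778.2, ent_5_22.1, ent_5_22.2, ent_389_400.1, ent_389_400.2, log_two_gt_d9, log_two_lt_d9]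
  · rw [p1, p2]; unfold mshape; norm_num; linarith [ent_97_200.1, ent_97_200.2, ent_383_778.1, ent_383_778.2, ent_5_22.1, ent_5_22.2, ent_389_400.1, ent_389_400.2, log_two_gt_d9, log_two_lt_d9]
  · rw [p1, p2]; unfold mshape; norm_num; linarith [ent_97_200.1, ent_97_200.2, ent_383_778.1, ent_383_778.2, ent_5_22.1, ent_5_22.2, ent_389_400.1, ent_389_400.2, log_two_gt_d9, log_two_lt_d9]

lemma cert0 : ∃ θ k, Cert (1 / 20 : ℝ) θ k ∧ (9959 / 10000 : ℝ) ≤ θ ∧ θ < 1 ∧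
    (1639 / 10000 : ℝ) * binEntropy (1 / 20 : ℝ) ≤ k := by
  obtain ⟨a1, a2⟩ := log_2113_5000
  obtain ⟨b1, b2⟩ := log_2887_5000
  obtain ⟨c1, c2⟩ := log_207_500
  obtain ⟨d1, d2⟩ := log_293_500
  have hd1 : (1 : ℝ) - (207 / 500 : ℝ) = (293 / 500 : ℝ) := by norm_num
  have hq1 : (1 : ℝ) - (2113 / 5000 : ℝ) = (2887 / 5000 : ℝ) := by norm_num
  refine exists_cert (d := (207 / 500 : ℝ)) (q := (2113 / 5000 : ℝ)) (θ₁ := (99593 / 100000 : ℝ)) (by norm_num) (by norm_num)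
    (by norm_num) (by norm_num) (by norm_num) ?_ ?_ (by norm_num) ?_ (by norm_num)
  · rw [hd1, hq1]; linarith
  · rw [hd1, hq1]; linarith
  · linarith [ent_207_500.1, ent_207_500.2, ent_1_20.1, ent_1_20.2, ent_2113_5000.1, ent_2113_5000.2]

lemma check0_a00 :
    0 ≤ midAt (21 / 25 : ℝ) (379 / 500 : ℝ) (9959 / 10000 : ℝ) (1639 / 10000 : ℝ) (1 / 2 : ℝ) (3 / 100 : ℝ) := by
  unfold midAt mshape
  rw [show (1 / 2 : ℝ) - (3 / 100 : ℝ) / 2 = (97 / 200 : ℝ) by norm_num,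
    show (1 / 2 : ℝ) + (3 / 100 : ℝ) / 2 = (103 / 200 : ℝ) by norm_num]
  linarith [ent_97_200.1, ent_97_200.2, ent_103_200.1, ent_103_200.2, ent_1_2.1, ent_1_2.2, log_two_gt_d9, log_two_lt_d9]

lemma check0_b00 :
    0 ≤ midAt (21 / 25 : ℝ) (479 / 500 : ℝ) (9959 / 10000 : ℝ) (1639 / 10000 : ℝ) (1 / 2 : ℝ) (3 / 100 : ℝ) := by
  unfold midAt mshape
  rw [show (1 / 2 : ℝ) - (3 / 100 : ℝ) / 2 = (97 / 200 : ℝ) by norm_num,
    show (1 / 2 : ℝ) + (3 / 100 : ℝ) / 2 = (103 / 200 : ℝ) by norm_num]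
  linarith [ent_97_200.1, ent_97_200.2, ent_103_200.1, ent_103_200.2, ent_1_2.1, ent_1_2.2, log_two_gt_d9, log_two_lt_d9]

lemma check0_a01 :
    0 ≤ midAt (21 / 25 : ℝ) (379 / 500 : ℝ) (9959 / 10000 : ℝ) (1639 / 10000 : ℝ) (1 / 2 : ℝ) (19 / 500 : ℝ) := by
  unfold midAt mshape
  rw [show (1 / 2 : ℝ) - (19 / 500 : ℝ) / 2 = (481 / 1000 : ℝ) by norm_num,
    show (1 / 2 : ℝ) + (19 / 500 : ℝ) / 2 = (519 / 1000 : ℝ) by norm_num]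
  linarith [ent_481_1000.1, ent_481_1000.2, ent_519_1000.1, ent_519_1000.2, ent_1_2.1, ent_1_2.2, log_two_gt_d9, log_two_lt_d9]

lemma check0_b01 :
    0 ≤ midAt (21 / 25 : ℝ) (479 / 500 : ℝ) (9959 / 10000 : ℝ) (1639 / 10000 : ℝ) (1 / 2 : ℝ) (19 / 500 : ℝ) := by
  unfold midAt mshape
  rw [show (1 / 2 : ℝ) - (19 / 500 : ℝ) / 2 = (481 / 1000 : ℝ) by norm_num,
    show (1 / 2 : ℝ) + (19 / 500 : ℝ) / 2 = (519 / 1000 : ℝ) by norm_num]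
  linarith [ent_481_1000.1, ent_481_1000.2, ent_519_1000.1, ent_519_1000.2, ent_1_2.1, ent_1_2.2, log_two_gt_d9, log_two_lt_d9]

lemma check0_a10 :
    0 ≤ midAt (21 / 25 : ℝ) (379 / 500 : ℝ) (9959 / 10000 : ℝ) (1639 / 10000 : ℝ) (1933 / 2000 : ℝ) (3 / 100 : ℝ) := by
  unfold midAt mshape
  rw [show (1933 / 2000 : ℝ) - (3 / 100 : ℝ) / 2 = (1903 / 2000 : ℝ) by norm_num,
    show (1933 / 2000 : ℝ) + (3 / 100 : ℝ) / 2 = (1963 / 2000 : ℝ) by norm_num]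
  linarith [ent_1903_2000.1, ent_1903_2000.2, ent_1963_2000.1, ent_1963_2000.2, ent_1933_2000.1, ent_1933_2000.2, log_two_gt_d9, log_two_lt_d9]

lemma check0_b10 :
    0 ≤ midAt (21 / 25 : ℝ) (479 / 500 : ℝ) (9959 / 10000 : ℝ) (1639 / 10000 : ℝ) (1933 / 2000 : ℝ) (3 / 100 : ℝ) := by
  unfold midAt mshape
  rw [show (1933 / 2000 : ℝ) - (3 / 100 : ℝ) / 2 = (1903 / 2000 : ℝ) by norm_num,
    show (1933 / 2000 : ℝ) + (3 / 100 : ℝ) / 2 = (1963 / 2000 : ℝ) by norm_num]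
  linarith [ent_1903_2000.1, ent_1903_2000.2, ent_1963_2000.1, ent_1963_2000.2, ent_1933_2000.1, ent_1933_2000.2, log_two_gt_d9, log_two_lt_d9]

lemma check0_a11 :
    0 ≤ midAt (21 / 25 : ℝ) (379 / 500 : ℝ) (9959 / 10000 : ℝ) (1639 / 10000 : ℝ) (1933 / 2000 : ℝ) (19 / 500 : ℝ) := by
  unfold midAt mshape
  rw [show (1933 / 2000 : ℝ) - (19 / 500 : ℝ) / 2 = (379 / 400 : ℝ) by norm_num,
    show (1933 / 2000 : ℝ) + (19 / 500 : ℝ) / 2 = (1971 / 2000 : ℝ) by norm_num]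
  linarith [ent_379_400.1, ent_379_400.2, ent_1971_2000.1, ent_1971_2000.2, ent_1933_2000.1, ent_1933_2000.2, log_two_gt_d9, log_two_lt_d9]

lemma check0_b11 :
    0 ≤ midAt (21 / 25 : ℝ) (479 / 500 : ℝ) (9959 / 10000 : ℝ) (1639 / 10000 : ℝ) (1933 / 2000 : ℝ) (19 / 500 : ℝ) := by
  unfold midAt mshape
  rw [show (1933 / 2000 : ℝ) - (19 / 500 : ℝ) / 2 = (379 / 400 : ℝ) by norm_num,
    show (1933 / 2000 : ℝ) + (19 / 500 : ℝ) / 2 = (1971 / 2000 : ℝ) by norm_num]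
  linarith [ent_379_400.1, ent_379_400.2, ent_1971_2000.1, ent_1971_2000.2, ent_1933_2000.1, ent_1933_2000.2, log_two_gt_d9, log_two_lt_d9]

theorem row0 {ε a b : ℝ} (h0 : (3 / 200 : ℝ) ≤ ε) (h1 : ε ≤ (1 / 20 : ℝ))
    (hd : |a - b| ∈ Icc (3 / 100 : ℝ) (19 / 500 : ℝ)) (ha : a ∈ Icc (0 : ℝ) 1) (hb : b ∈ Icc (0 : ℝ) 1) :
    StepAt ε (capBound (21 / 25 : ℝ) ε) a b :=
  stepAt_row (m₁ := (1933 / 2000 : ℝ)) (inBlock h0 h1) cert0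
    ⟨check0_a00, check0_b00, check0_a01, check0_b01, check0_a10, check0_b10, check0_a11, check0_b11⟩
    (by norm_num) (by norm_num) (by norm_num) (by norm_num) (by norm_num) (by norm_num)
    (by linarith [log_two_gt_d9]) hd ha hb

lemma cert1 : ∃ θ k, Cert (1 / 20 : ℝ) θ k ∧ (4967 / 5000 : ℝ) ≤ θ ∧ θ < 1 ∧
    (1037 / 5000 : ℝ) * binEntropy (1 / 20 : ℝ) ≤ k := by
  obtain ⟨a1, a2⟩ := log_4019_10000
  obtain ⟨b1, b2⟩ := log_5981_10000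
  obtain ⟨c1, c2⟩ := log_391_1000
  obtain ⟨d1, d2⟩ := log_609_1000
  have hd1 : (1 : ℝ) - (391 / 1000 : ℝ) = (609 / 1000 : ℝ) := by norm_num
  have hq1 : (1 : ℝ) - (4019 / 10000 : ℝ) = (5981 / 10000 : ℝ) := by norm_num
  refine exists_cert (d := (391 / 1000 : ℝ)) (q := (4019 / 10000 : ℝ)) (θ₁ := (99343 / 100000 : ℝ)) (by norm_num) (by norm_num)
    (by norm_num) (by norm_num) (by norm_num) ?_ ?_ (by norm_num) ?_ (by norm_num)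
  · rw [hd1, hq1]; linarith
  · rw [hd1, hq1]; linarith
  · linarith [ent_391_1000.1, ent_391_1000.2, ent_1_20.1, ent_1_20.2, ent_4019_10000.1, ent_4019_10000.2]

lemma check1_a00 :
    0 ≤ midAt (21 / 25 : ℝ) (379 / 500 : ℝ) (4967 / 5000 : ℝ) (1037 / 5000 : ℝ) (1 / 2 : ℝ) (19 / 500 : ℝ) := by
  unfold midAt mshape
  rw [show (1 / 2 : ℝ) - (19 / 500 : ℝ) / 2 = (481 / 1000 : ℝ) by norm_num,
    show (1 / 2 : ℝ) + (19 / 500 : ℝ) / 2 = (519 / 1000 : ℝ) by norm_num]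
  linarith [ent_481_1000.1, ent_481_1000.2, ent_519_1000.1, ent_519_1000.2, ent_1_2.1, ent_1_2.2, log_two_gt_d9, log_two_lt_d9]

lemma check1_b00 :
    0 ≤ midAt (21 / 25 : ℝ) (479 / 500 : ℝ) (4967 / 5000 : ℝ) (1037 / 5000 : ℝ) (1 / 2 : ℝ) (19 / 500 : ℝ) := by
  unfold midAt mshape
  rw [show (1 / 2 : ℝ) - (19 / 500 : ℝ) / 2 = (481 / 1000 : ℝ) by norm_num,
    show (1 / 2 : ℝ) + (19 / 500 : ℝ) / 2 = (519 / 1000 : ℝ) by norm_num]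
  linarith [ent_481_1000.1, ent_481_1000.2, ent_519_1000.1, ent_519_1000.2, ent_1_2.1, ent_1_2.2, log_two_gt_d9, log_two_lt_d9]

lemma check1_a01 :
    0 ≤ midAt (21 / 25 : ℝ) (379 / 500 : ℝ) (4967 / 5000 : ℝ) (1037 / 5000 : ℝ) (1 / 2 : ℝ) (1 / 20 : ℝ) := by
  unfold midAt mshape
  rw [show (1 / 2 : ℝ) - (1 / 20 : ℝ) / 2 = (19 / 40 : ℝ) by norm_num,
    show (1 / 2 : ℝ) + (1 / 20 : ℝ) / 2 = (21 / 40 : ℝ) by norm_num]
  linarith [ent_19_40.1, ent_19_40.2, ent_21_40.1, ent_21_40.2, ent_1_2.1, ent_1_2.2, log_two_gt_d9, log_two_lt_d9]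

lemma check1_b01 :
    0 ≤ midAt (21 / 25 : ℝ) (479 / 500 : ℝ) (4967 / 5000 : ℝ) (1037 / 5000 : ℝ) (1 / 2 : ℝ) (1 / 20 : ℝ) := by
  unfold midAt mshape
  rw [show (1 / 2 : ℝ) - (1 / 20 : ℝ) / 2 = (19 / 40 : ℝ) by norm_num,
    show (1 / 2 : ℝ) + (1 / 20 : ℝ) / 2 = (21 / 40 : ℝ) by norm_num]
  linarith [ent_19_40.1, ent_19_40.2, ent_21_40.1, ent_21_40.2, ent_1_2.1, ent_1_2.2, log_two_gt_d9, log_two_lt_d9]

lemma check1_a10 :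
    0 ≤ midAt (21 / 25 : ℝ) (379 / 500 : ℝ) (4967 / 5000 : ℝ) (1037 / 5000 : ℝ) (1929 / 2000 : ℝ) (19 / 500 : ℝ) := by
  unfold midAt mshape
  rw [show (1929 / 2000 : ℝ) - (19 / 500 : ℝ) / 2 = (1891 / 2000 : ℝ) by norm_num,
    show (1929 / 2000 : ℝ) + (19 / 500 : ℝ) / 2 = (1967 / 2000 : ℝ) by norm_num]
  linarith [ent_1891_2000.1, ent_1891_2000.2, ent_1967_2000.1, ent_1967_2000.2, ent_1929_2000.1, ent_1929_2000.2, log_two_gt_d9, log_two_lt_d9]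

lemma check1_b10 :
    0 ≤ midAt (21 / 25 : ℝ) (479 / 500 : ℝ) (4967 / 5000 : ℝ) (1037 / 5000 : ℝ) (1929 / 2000 : ℝ) (19 / 500 : ℝ) := by
  unfold midAt mshape
  rw [show (1929 / 2000 : ℝ) - (19 / 500 : ℝ) / 2 = (1891 / 2000 : ℝ) by norm_num,
    show (1929 / 2000 : ℝ) + (19 / 500 : ℝ) / 2 = (1967 / 2000 : ℝ) by norm_num]
  linarith [ent_1891_2000.1, ent_1891_2000.2, ent_1967_2000.1, ent_1967_2000.2, ent_1929_2000.1, ent_1929_2000.2, log_two_gt_d9, log_two_lt_d9]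

lemma check1_a11 :
    0 ≤ midAt (21 / 25 : ℝ) (379 / 500 : ℝ) (4967 / 5000 : ℝ) (1037 / 5000 : ℝ) (1929 / 2000 : ℝ) (1 / 20 : ℝ) := by
  unfold midAt mshape
  rw [show (1929 / 2000 : ℝ) - (1 / 20 : ℝ) / 2 = (1879 / 2000 : ℝ) by norm_num,
    show (1929 / 2000 : ℝ) + (1 / 20 : ℝ) / 2 = (1979 / 2000 : ℝ) by norm_num]
  linarith [ent_1879_2000.1, ent_1879_2000.2, ent_1979_2000.1, ent_1979_2000.2, ent_1929_2000.1, ent_1929_2000.2, log_two_gt_d9, log_two_lt_d9]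

lemma check1_b11 :
    0 ≤ midAt (21 / 25 : ℝ) (479 / 500 : ℝ) (4967 / 5000 : ℝ) (1037 / 5000 : ℝ) (1929 / 2000 : ℝ) (1 / 20 : ℝ) := by
  unfold midAt mshape
  rw [show (1929 / 2000 : ℝ) - (1 / 20 : ℝ) / 2 = (1879 / 2000 : ℝ) by norm_num,
    show (1929 / 2000 : ℝ) + (1 / 20 : ℝ) / 2 = (1979 / 2000 : ℝ) by norm_num]
  linarith [ent_1879_2000.1, ent_1879_2000.2, ent_1979_2000.1, ent_1979_2000.2, ent_1929_2000.1, ent_1929_2000.2, log_two_gt_d9, log_two_lt_d9]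

theorem row1 {ε a b : ℝ} (h0 : (3 / 200 : ℝ) ≤ ε) (h1 : ε ≤ (1 / 20 : ℝ))
    (hd : |a - b| ∈ Icc (19 / 500 : ℝ) (1 / 20 : ℝ)) (ha : a ∈ Icc (0 : ℝ) 1) (hb : b ∈ Icc (0 : ℝ) 1) :
    StepAt ε (capBound (21 / 25 : ℝ) ε) a b :=
  stepAt_row (m₁ := (1929 / 2000 : ℝ)) (inBlock h0 h1) cert1
    ⟨check1_a00, check1_b00, check1_a01, check1_b01, check1_a10, check1_b10, check1_a11, check1_b11⟩
    (by norm_num) (by norm_num) (by norm_num) (by norm_num) (by norm_num) (by norm_num)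
    (by linarith [log_two_gt_d9]) hd ha hb

lemma cert2 : ∃ θ k, Cert (1 / 20 : ℝ) θ k ∧ (791 / 800 : ℝ) ≤ θ ∧ θ < 1 ∧
    (1347 / 5000 : ℝ) * binEntropy (1 / 20 : ℝ) ≤ k := by
  obtain ⟨a1, a2⟩ := log_1861_5000
  obtain ⟨b1, b2⟩ := log_3139_5000
  obtain ⟨c1, c2⟩ := log_179_500
  obtain ⟨d1, d2⟩ := log_321_500
  have hd1 : (1 : ℝ) - (179 / 500 : ℝ) = (321 / 500 : ℝ) := by norm_num
  have hq1 : (1 : ℝ) - (1861 / 5000 : ℝ) = (3139 / 5000 : ℝ) := by norm_num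
  refine exists_cert (d := (179 / 500 : ℝ)) (q := (1861 / 5000 : ℝ)) (θ₁ := (24719 / 25000 : ℝ)) (by norm_num) (by norm_num)
    (by norm_num) (by norm_num) (by norm_num) ?_ ?_ (by norm_num) ?_ (by norm_num)
  · rw [hd1, hq1]; linarith
  · rw [hd1, hq1]; linarith
  · linarith [ent_179_500.1, ent_179_500.2, ent_1_20.1, ent_1_20.2, ent_1861_5000.1, ent_1861_5000.2]

lemma check2_a00 :
    0 ≤ midAt (21 / 25 : ℝ) (379 / 500 : ℝ) (791 / 800 : ℝ) (1347 / 5000 : ℝ) (1 / 2 : ℝ) (1 / 20 : ℝ) := by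
  unfold midAt mshape
  rw [show (1 / 2 : ℝ) - (1 / 20 : ℝ) / 2 = (19 / 40 : ℝ) by norm_num,
    show (1 / 2 : ℝ) + (1 / 20 : ℝ) / 2 = (21 / 40 : ℝ) by norm_num]
  linarith [ent_19_40.1, ent_19_40.2, ent_21_40.1, ent_21_40.2, ent_1_2.1, ent_1_2.2, log_two_gt_d9, log_two_lt_d9]

lemma check2_b00 :
    0 ≤ midAt (21 / 25 : ℝ) (479 / 500 : ℝ) (791 / 800 : ℝ) (1347 / 5000 : ℝ) (1 / 2 : ℝ) (1 / 20 : ℝ) := by
  unfold midAt mshape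
  rw [show (1 / 2 : ℝ) - (1 / 20 : ℝ) / 2 = (19 / 40 : ℝ) by norm_num,
    show (1 / 2 : ℝ) + (1 / 20 : ℝ) / 2 = (21 / 40 : ℝ) by norm_num]
  linarith [ent_19_40.1, ent_19_40.2, ent_21_40.1, ent_21_40.2, ent_1_2.1, ent_1_2.2, log_two_gt_d9, log_two_lt_d9]

lemma check2_a01 :
    0 ≤ midAt (21 / 25 : ℝ) (379 / 500 : ℝ) (791 / 800 : ℝ) (1347 / 5000 : ℝ) (1 / 2 : ℝ) (33 / 500 : ℝ) := by
  unfold midAt mshape
  rw [show (1 / 2 : ℝ) - (33 / 500 : ℝ) / 2 = (467 / 1000 : ℝ) by norm_num,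
    show (1 / 2 : ℝ) + (33 / 500 : ℝ) / 2 = (533 / 1000 : ℝ) by norm_num]
  linarith [ent_467_1000.1, ent_467_1000.2, ent_533_1000.1, ent_533_1000.2, ent_1_2.1, ent_1_2.2, log_two_gt_d9, log_two_lt_d9]

lemma check2_b01 :
    0 ≤ midAt (21 / 25 : ℝ) (479 / 500 : ℝ) (791 / 800 : ℝ) (1347 / 5000 : ℝ) (1 / 2 : ℝ) (33 / 500 : ℝ) := by
  unfold midAt mshape
  rw [show (1 / 2 : ℝ) - (33 / 500 : ℝ) / 2 = (467 / 1000 : ℝ) by norm_num,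
    show (1 / 2 : ℝ) + (33 / 500 : ℝ) / 2 = (533 / 1000 : ℝ) by norm_num]
  linarith [ent_467_1000.1, ent_467_1000.2, ent_533_1000.1, ent_533_1000.2, ent_1_2.1, ent_1_2.2, log_two_gt_d9, log_two_lt_d9]

lemma check2_a10 :
    0 ≤ midAt (21 / 25 : ℝ) (379 / 500 : ℝ) (791 / 800 : ℝ) (1347 / 5000 : ℝ) (961 / 1000 : ℝ) (1 / 20 : ℝ) := by
  unfold midAt mshape
  rw [show (961 / 1000 : ℝ) - (1 / 20 : ℝ) / 2 = (117 / 125 : ℝ) by norm_num,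
    show (961 / 1000 : ℝ) + (1 / 20 : ℝ) / 2 = (493 / 500 : ℝ) by norm_num]
  linarith [ent_117_125.1, ent_117_125.2, ent_493_500.1, ent_493_500.2, ent_961_1000.1, ent_961_1000.2, log_two_gt_d9, log_two_lt_d9]

lemma check2_b10 :
    0 ≤ midAt (21 / 25 : ℝ) (479 / 500 : ℝ) (791 / 800 : ℝ) (1347 / 5000 : ℝ) (961 / 1000 : ℝ) (1 / 20 : ℝ) := by
  unfold midAt mshape
  rw [show (961 / 1000 : ℝ) - (1 / 20 : ℝ) / 2 = (117 / 125 : ℝ) by norm_num,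
    show (961 / 1000 : ℝ) + (1 / 20 : ℝ) / 2 = (493 / 500 : ℝ) by norm_num]
  linarith [ent_117_125.1, ent_117_125.2, ent_493_500.1, ent_493_500.2, ent_961_1000.1, ent_961_1000.2, log_two_gt_d9, log_two_lt_d9]

lemma check2_a11 :
    0 ≤ midAt (21 / 25 : ℝ) (379 / 500 : ℝ) (791 / 800 : ℝ) (1347 / 5000 : ℝ) (961 / 1000 : ℝ) (33 / 500 : ℝ) := by
  unfold midAt mshape
  rw [show (961 / 1000 : ℝ) - (33 / 500 : ℝ) / 2 = (116 / 125 : ℝ) by norm_num,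
    show (961 / 1000 : ℝ) + (33 / 500 : ℝ) / 2 = (497 / 500 : ℝ) by norm_num]
  linarith [ent_116_125.1, ent_116_125.2, ent_497_500.1, ent_497_500.2, ent_961_1000.1, ent_961_1000.2, log_two_gt_d9, log_two_lt_d9]

lemma check2_b11 :
    0 ≤ midAt (21 / 25 : ℝ) (479 / 500 : ℝ) (791 / 800 : ℝ) (1347 / 5000 : ℝ) (961 / 1000 : ℝ) (33 / 500 : ℝ) := by
  unfold midAt mshape
  rw [show (961 / 1000 : ℝ) - (33 / 500 : ℝ) / 2 = (116 / 125 : ℝ) by norm_num,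
    show (961 / 1000 : ℝ) + (33 / 500 : ℝ) / 2 = (497 / 500 : ℝ) by norm_num]
  linarith [ent_116_125.1, ent_116_125.2, ent_497_500.1, ent_497_500.2, ent_961_1000.1, ent_961_1000.2, log_two_gt_d9, log_two_lt_d9]

theorem row2 {ε a b : ℝ} (h0 : (3 / 200 : ℝ) ≤ ε) (h1 : ε ≤ (1 / 20 : ℝ))
    (hd : |a - b| ∈ Icc (1 / 20 : ℝ) (33 / 500 : ℝ)) (ha : a ∈ Icc (0 : ℝ) 1) (hb : b ∈ Icc (0 : ℝ) 1) :
    StepAt ε (capBound (21 / 25 : ℝ) ε) a b :=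
  stepAt_row (m₁ := (961 / 1000 : ℝ)) (inBlock h0 h1) cert2
    ⟨check2_a00, check2_b00, check2_a01, check2_b01, check2_a10, check2_b10, check2_a11, check2_b11⟩
    (by norm_num) (by norm_num) (by norm_num) (by norm_num) (by norm_num) (by norm_num)
    (by linarith [log_two_gt_d9]) hd ha hb

lemma cert3 : ∃ θ k, Cert (1 / 20 : ℝ) θ k ∧ (19617 / 20000 : ℝ) ≤ θ ∧ θ < 1 ∧
    (3473 / 10000 : ℝ) * binEntropy (1 / 20 : ℝ) ≤ k := by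
  obtain ⟨a1, a2⟩ := log_209_625
  obtain ⟨b1, b2⟩ := log_416_625
  obtain ⟨c1, c2⟩ := log_79_250
  obtain ⟨d1, d2⟩ := log_171_250
  have hd1 : (1 : ℝ) - (79 / 250 : ℝ) = (171 / 250 : ℝ) := by norm_num
  have hq1 : (1 : ℝ) - (209 / 625 : ℝ) = (416 / 625 : ℝ) := by norm_num
  refine exists_cert (d := (79 / 250 : ℝ)) (q := (209 / 625 : ℝ)) (θ₁ := (49043 / 50000 : ℝ)) (by norm_num) (by norm_num)
    (by norm_num) (by norm_num) (by norm_num) ?_ ?_ (by norm_num) ?_ (by norm_num)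
  · rw [hd1, hq1]; linarith
  · rw [hd1, hq1]; linarith
  · linarith [ent_79_250.1, ent_79_250.2, ent_1_20.1, ent_1_20.2, ent_209_625.1, ent_209_625.2]

lemma check3_a00 :
    0 ≤ midAt (21 / 25 : ℝ) (379 / 500 : ℝ) (19617 / 20000 : ℝ) (3473 / 10000 : ℝ) (1 / 2 : ℝ) (33 / 500 : ℝ) := by
  unfold midAt mshape
  rw [show (1 / 2 : ℝ) - (33 / 500 : ℝ) / 2 = (467 / 1000 : ℝ) by norm_num,
    show (1 / 2 : ℝ) + (33 / 500 : ℝ) / 2 = (533 / 1000 : ℝ) by norm_num]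
  linarith [ent_467_1000.1, ent_467_1000.2, ent_533_1000.1, ent_533_1000.2, ent_1_2.1, ent_1_2.2, log_two_gt_d9, log_two_lt_d9]

lemma check3_b00 :
    0 ≤ midAt (21 / 25 : ℝ) (479 / 500 : ℝ) (19617 / 20000 : ℝ) (3473 / 10000 : ℝ) (1 / 2 : ℝ) (33 / 500 : ℝ) := by
  unfold midAt mshape
  rw [show (1 / 2 : ℝ) - (33 / 500 : ℝ) / 2 = (467 / 1000 : ℝ) by norm_num,
    show (1 / 2 : ℝ) + (33 / 500 : ℝ) / 2 = (533 / 1000 : ℝ) by norm_num]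
  linarith [ent_467_1000.1, ent_467_1000.2, ent_533_1000.1, ent_533_1000.2, ent_1_2.1, ent_1_2.2, log_two_gt_d9, log_two_lt_d9]

lemma check3_a01 :
    0 ≤ midAt (21 / 25 : ℝ) (379 / 500 : ℝ) (19617 / 20000 : ℝ) (3473 / 10000 : ℝ) (1 / 2 : ℝ) (21 / 250 : ℝ) := by
  unfold midAt mshape
  rw [show (1 / 2 : ℝ) - (21 / 250 : ℝ) / 2 = (229 / 500 : ℝ) by norm_num,
    show (1 / 2 : ℝ) + (21 / 250 : ℝ) / 2 = (271 / 500 : ℝ) by norm_num]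
  linarith [ent_229_500.1, ent_229_500.2, ent_271_500.1, ent_271_500.2, ent_1_2.1, ent_1_2.2, log_two_gt_d9, log_two_lt_d9]

lemma check3_b01 :
    0 ≤ midAt (21 / 25 : ℝ) (479 / 500 : ℝ) (19617 / 20000 : ℝ) (3473 / 10000 : ℝ) (1 / 2 : ℝ) (21 / 250 : ℝ) := by
  unfold midAt mshape
  rw [show (1 / 2 : ℝ) - (21 / 250 : ℝ) / 2 = (229 / 500 : ℝ) by norm_num,
    show (1 / 2 : ℝ) + (21 / 250 : ℝ) / 2 = (271 / 500 : ℝ) by norm_num]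
  linarith [ent_229_500.1, ent_229_500.2, ent_271_500.1, ent_271_500.2, ent_1_2.1, ent_1_2.2, log_two_gt_d9, log_two_lt_d9]

lemma check3_a10 :
    0 ≤ midAt (21 / 25 : ℝ) (379 / 500 : ℝ) (19617 / 20000 : ℝ) (3473 / 10000 : ℝ) (1913 / 2000 : ℝ) (33 / 500 : ℝ) := by
  unfold midAt mshape
  rw [show (1913 / 2000 : ℝ) - (33 / 500 : ℝ) / 2 = (1847 / 2000 : ℝ) by norm_num,
    show (1913 / 2000 : ℝ) + (33 / 500 : ℝ) / 2 = (1979 / 2000 : ℝ) by norm_num]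
  linarith [ent_1847_2000.1, ent_1847_2000.2, ent_1979_2000.1, ent_1979_2000.2, ent_1913_2000.1, ent_1913_2000.2, log_two_gt_d9, log_two_lt_d9]

lemma check3_b10 :
    0 ≤ midAt (21 / 25 : ℝ) (479 / 500 : ℝ) (19617 / 20000 : ℝ) (3473 / 10000 : ℝ) (1913 / 2000 : ℝ) (33 / 500 : ℝ) := by
  unfold midAt mshape
  rw [show (1913 / 2000 : ℝ) - (33 / 500 : ℝ) / 2 = (1847 / 2000 : ℝ) by norm_num,
    show (1913 / 2000 : ℝ) + (33 / 500 : ℝ) / 2 = (1979 / 2000 : ℝ) by norm_num]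
  linarith [ent_1847_2000.1, ent_1847_2000.2, ent_1979_2000.1, ent_1979_2000.2, ent_1913_2000.1, ent_1913_2000.2, log_two_gt_d9, log_two_lt_d9]

lemma check3_a11 :
    0 ≤ midAt (21 / 25 : ℝ) (379 / 500 : ℝ) (19617 / 20000 : ℝ) (3473 / 10000 : ℝ) (1913 / 2000 : ℝ) (21 / 250 : ℝ) := by
  unfold midAt mshape
  rw [show (1913 / 2000 : ℝ) - (21 / 250 : ℝ) / 2 = (1829 / 2000 : ℝ) by norm_num,
    show (1913 / 2000 : ℝ) + (21 / 250 : ℝ) / 2 = (1997 / 2000 : ℝ) by norm_num]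
  linarith [ent_1829_2000.1, ent_1829_2000.2, ent_1997_2000.1, ent_1997_2000.2, ent_1913_2000.1, ent_1913_2000.2, log_two_gt_d9, log_two_lt_d9]

lemma check3_b11 :
    0 ≤ midAt (21 / 25 : ℝ) (479 / 500 : ℝ) (19617 / 20000 : ℝ) (3473 / 10000 : ℝ) (1913 / 2000 : ℝ) (21 / 250 : ℝ) := by
  unfold midAt mshape
  rw [show (1913 / 2000 : ℝ) - (21 / 250 : ℝ) / 2 = (1829 / 2000 : ℝ) by norm_num,
    show (1913 / 2000 : ℝ) + (21 / 250 : ℝ) / 2 = (1997 / 2000 : ℝ) by norm_num]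
  linarith [ent_1829_2000.1, ent_1829_2000.2, ent_1997_2000.1, ent_1997_2000.2, ent_1913_2000.1, ent_1913_2000.2, log_two_gt_d9, log_two_lt_d9]

theorem row3 {ε a b : ℝ} (h0 : (3 / 200 : ℝ) ≤ ε) (h1 : ε ≤ (1 / 20 : ℝ))
    (hd : |a - b| ∈ Icc (33 / 500 : ℝ) (21 / 250 : ℝ)) (ha : a ∈ Icc (0 : ℝ) 1) (hb : b ∈ Icc (0 : ℝ) 1) :
    StepAt ε (capBound (21 / 25 : ℝ) ε) a b :=
  stepAt_row (m₁ := (1913 / 2000 : ℝ)) (inBlock h0 h1) cert3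
    ⟨check3_a00, check3_b00, check3_a01, check3_b01, check3_a10, check3_b10, check3_a11, check3_b11⟩
    (by norm_num) (by norm_num) (by norm_num) (by norm_num) (by norm_num) (by norm_num)
    (by linarith [log_two_gt_d9]) hd ha hb

lemma cert4 : ∃ θ k, Cert (1 / 20 : ℝ) θ k ∧ (1941 / 2000 : ℝ) ≤ θ ∧ θ < 1 ∧
    (4243 / 10000 : ℝ) * binEntropy (1 / 20 : ℝ) ≤ k := by
  obtain ⟨a1, a2⟩ := log_1483_5000
  obtain ⟨b1, b2⟩ := log_3517_5000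
  obtain ⟨c1, c2⟩ := log_137_500
  obtain ⟨d1, d2⟩ := log_363_500
  have hd1 : (1 : ℝ) - (137 / 500 : ℝ) = (363 / 500 : ℝ) := by norm_num
  have hq1 : (1 : ℝ) - (1483 / 5000 : ℝ) = (3517 / 5000 : ℝ) := by norm_num
  refine exists_cert (d := (137 / 500 : ℝ)) (q := (1483 / 5000 : ℝ)) (θ₁ := (97051 / 100000 : ℝ)) (by norm_num) (by norm_num)
    (by norm_num) (by norm_num) (by norm_num) ?_ ?_ (by norm_num) ?_ (by norm_num)
  · rw [hd1, hq1]; linarith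
  · rw [hd1, hq1]; linarith
  · linarith [ent_137_500.1, ent_137_500.2, ent_1_20.1, ent_1_20.2, ent_1483_5000.1, ent_1483_5000.2]

lemma check4_a00 :
    0 ≤ midAt (21 / 25 : ℝ) (379 / 500 : ℝ) (1941 / 2000 : ℝ) (4243 / 10000 : ℝ) (1 / 2 : ℝ) (21 / 250 : ℝ) := by
  unfold midAt mshape
  rw [show (1 / 2 : ℝ) - (21 / 250 : ℝ) / 2 = (229 / 500 : ℝ) by norm_num,
    show (1 / 2 : ℝ) + (21 / 250 : ℝ) / 2 = (271 / 500 : ℝ) by norm_num]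
  linarith [ent_229_500.1, ent_229_500.2, ent_271_500.1, ent_271_500.2, ent_1_2.1, ent_1_2.2, log_two_gt_d9, log_two_lt_d9]

lemma check4_b00 :
    0 ≤ midAt (21 / 25 : ℝ) (479 / 500 : ℝ) (1941 / 2000 : ℝ) (4243 / 10000 : ℝ) (1 / 2 : ℝ) (21 / 250 : ℝ) := by
  unfold midAt mshape
  rw [show (1 / 2 : ℝ) - (21 / 250 : ℝ) / 2 = (229 / 500 : ℝ) by norm_num,
    show (1 / 2 : ℝ) + (21 / 250 : ℝ) / 2 = (271 / 500 : ℝ) by norm_num]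
  linarith [ent_229_500.1, ent_229_500.2, ent_271_500.1, ent_271_500.2, ent_1_2.1, ent_1_2.2, log_two_gt_d9, log_two_lt_d9]

lemma check4_a01 :
    0 ≤ midAt (21 / 25 : ℝ) (379 / 500 : ℝ) (1941 / 2000 : ℝ) (4243 / 10000 : ℝ) (1 / 2 : ℝ) (33 / 200 : ℝ) := by
  unfold midAt mshape
  rw [show (1 / 2 : ℝ) - (33 / 200 : ℝ) / 2 = (167 / 400 : ℝ) by norm_num,
    show (1 / 2 : ℝ) + (33 / 200 : ℝ) / 2 = (233 / 400 : ℝ) by norm_num]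
  linarith [ent_167_400.1, ent_167_400.2, ent_233_400.1, ent_233_400.2, ent_1_2.1, ent_1_2.2, log_two_gt_d9, log_two_lt_d9]

lemma check4_b01 :
    0 ≤ midAt (21 / 25 : ℝ) (479 / 500 : ℝ) (1941 / 2000 : ℝ) (4243 / 10000 : ℝ) (1 / 2 : ℝ) (33 / 200 : ℝ) := by
  unfold midAt mshape
  rw [show (1 / 2 : ℝ) - (33 / 200 : ℝ) / 2 = (167 / 400 : ℝ) by norm_num,
    show (1 / 2 : ℝ) + (33 / 200 : ℝ) / 2 = (233 / 400 : ℝ) by norm_num]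
  linarith [ent_167_400.1, ent_167_400.2, ent_233_400.1, ent_233_400.2, ent_1_2.1, ent_1_2.2, log_two_gt_d9, log_two_lt_d9]

lemma check4_a10 :
    0 ≤ midAt (21 / 25 : ℝ) (379 / 500 : ℝ) (1941 / 2000 : ℝ) (4243 / 10000 : ℝ) (1 - (21 / 250 : ℝ) / 2) (21 / 250 : ℝ) := by
  unfold midAt mshape
  rw [show (1 - (21 / 250 : ℝ) / 2) - (21 / 250 : ℝ) / 2 = (229 / 250 : ℝ) by norm_num,
    show (1 - (21 / 250 : ℝ) / 2) + (21 / 250 : ℝ) / 2 = (1 : ℝ) by norm_num,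
    show (1 - (21 / 250 : ℝ) / 2) = (479 / 500 : ℝ) by norm_num]
  simp only [binEntropy_one]
  linarith [ent_229_250.1, ent_229_250.2, ent_479_500.1, ent_479_500.2, log_two_gt_d9, log_two_lt_d9]

lemma check4_b10 :
    0 ≤ midAt (21 / 25 : ℝ) (479 / 500 : ℝ) (1941 / 2000 : ℝ) (4243 / 10000 : ℝ) (1 - (21 / 250 : ℝ) / 2) (21 / 250 : ℝ) := by
  unfold midAt mshape
  rw [show (1 - (21 / 250 : ℝ) / 2) - (21 / 250 : ℝ) / 2 = (229 / 250 : ℝ) by norm_num,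
    show (1 - (21 / 250 : ℝ) / 2) + (21 / 250 : ℝ) / 2 = (1 : ℝ) by norm_num,
    show (1 - (21 / 250 : ℝ) / 2) = (479 / 500 : ℝ) by norm_num]
  simp only [binEntropy_one]
  linarith [ent_229_250.1, ent_229_250.2, ent_479_500.1, ent_479_500.2, log_two_gt_d9, log_two_lt_d9]

lemma check4_a11 :
    0 ≤ midAt (21 / 25 : ℝ) (379 / 500 : ℝ) (1941 / 2000 : ℝ) (4243 / 10000 : ℝ) (1 - (33 / 200 : ℝ) / 2) (33 / 200 : ℝ) := by
  unfold midAt mshape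
  rw [show (1 - (33 / 200 : ℝ) / 2) - (33 / 200 : ℝ) / 2 = (167 / 200 : ℝ) by norm_num,
    show (1 - (33 / 200 : ℝ) / 2) + (33 / 200 : ℝ) / 2 = (1 : ℝ) by norm_num,
    show (1 - (33 / 200 : ℝ) / 2) = (367 / 400 : ℝ) by norm_num]
  simp only [binEntropy_one]
  linarith [ent_167_200.1, ent_167_200.2, ent_367_400.1, ent_367_400.2, log_two_gt_d9, log_two_lt_d9]

lemma check4_b11 :
    0 ≤ midAt (21 / 25 : ℝ) (479 / 500 : ℝ) (1941 / 2000 : ℝ) (4243 / 10000 : ℝ) (1 - (33 / 200 : ℝ) / 2) (33 / 200 : ℝ) := by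
  unfold midAt mshape
  rw [show (1 - (33 / 200 : ℝ) / 2) - (33 / 200 : ℝ) / 2 = (167 / 200 : ℝ) by norm_num,
    show (1 - (33 / 200 : ℝ) / 2) + (33 / 200 : ℝ) / 2 = (1 : ℝ) by norm_num,
    show (1 - (33 / 200 : ℝ) / 2) = (367 / 400 : ℝ) by norm_num]
  simp only [binEntropy_one]
  linarith [ent_167_200.1, ent_167_200.2, ent_367_400.1, ent_367_400.2, log_two_gt_d9, log_two_lt_d9]

theorem row4 {ε a b : ℝ} (h0 : (3 / 200 : ℝ) ≤ ε) (h1 : ε ≤ (1 / 20 : ℝ))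
    (hd : |a - b| ∈ Icc (21 / 250 : ℝ) (33 / 200 : ℝ)) (ha : a ∈ Icc (0 : ℝ) 1) (hb : b ∈ Icc (0 : ℝ) 1) :
    StepAt ε (capBound (21 / 25 : ℝ) ε) a b :=
  stepAt_top_row (inBlock h0 h1) cert4
    ⟨check4_a00, check4_b00, check4_a01, check4_b01, check4_a10, check4_b10, check4_a11, check4_b11⟩
    (by norm_num) (by norm_num) (by norm_num) (by norm_num) hd ha hb

lemma cert5 : ∃ θ k, Cert (1 / 20 : ℝ) θ k ∧ (9107 / 10000 : ℝ) ≤ θ ∧ θ < 1 ∧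
    (1687 / 2500 : ℝ) * binEntropy (1 / 20 : ℝ) ≤ k := by
  obtain ⟨a1, a2⟩ := log_871_5000
  obtain ⟨b1, b2⟩ := log_4129_5000
  obtain ⟨c1, c2⟩ := log_69_500
  obtain ⟨d1, d2⟩ := log_431_500
  have hd1 : (1 : ℝ) - (69 / 500 : ℝ) = (431 / 500 : ℝ) := by norm_num
  have hq1 : (1 : ℝ) - (871 / 5000 : ℝ) = (4129 / 5000 : ℝ) := by norm_num
  refine exists_cert (d := (69 / 500 : ℝ)) (q := (871 / 5000 : ℝ)) (θ₁ := (45537 / 50000 : ℝ)) (by norm_num) (by norm_num)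
    (by norm_num) (by norm_num) (by norm_num) ?_ ?_ (by norm_num) ?_ (by norm_num)
  · rw [hd1, hq1]; linarith
  · rw [hd1, hq1]; linarith
  · linarith [ent_69_500.1, ent_69_500.2, ent_1_20.1, ent_1_20.2, ent_871_5000.1, ent_871_5000.2]

lemma check5_a00 :
    0 ≤ midAt (21 / 25 : ℝ) (379 / 500 : ℝ) (9107 / 10000 : ℝ) (1687 / 2500 : ℝ) (1 / 2 : ℝ) (33 / 200 : ℝ) := by
  unfold midAt mshape
  rw [show (1 / 2 : ℝ) - (33 / 200 : ℝ) / 2 = (167 / 400 : ℝ) by norm_num,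
    show (1 / 2 : ℝ) + (33 / 200 : ℝ) / 2 = (233 / 400 : ℝ) by norm_num]
  linarith [ent_167_400.1, ent_167_400.2, ent_233_400.1, ent_233_400.2, ent_1_2.1, ent_1_2.2, log_two_gt_d9, log_two_lt_d9]

lemma check5_b00 :
    0 ≤ midAt (21 / 25 : ℝ) (479 / 500 : ℝ) (9107 / 10000 : ℝ) (1687 / 2500 : ℝ) (1 / 2 : ℝ) (33 / 200 : ℝ) := by
  unfold midAt mshape
  rw [show (1 / 2 : ℝ) - (33 / 200 : ℝ) / 2 = (167 / 400 : ℝ) by norm_num,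
    show (1 / 2 : ℝ) + (33 / 200 : ℝ) / 2 = (233 / 400 : ℝ) by norm_num]
  linarith [ent_167_400.1, ent_167_400.2, ent_233_400.1, ent_233_400.2, ent_1_2.1, ent_1_2.2, log_two_gt_d9, log_two_lt_d9]

lemma check5_a01 :
    0 ≤ midAt (21 / 25 : ℝ) (379 / 500 : ℝ) (9107 / 10000 : ℝ) (1687 / 2500 : ℝ) (1 / 2 : ℝ) (537 / 1000 : ℝ) := by
  unfold midAt mshape
  rw [show (1 / 2 : ℝ) - (537 / 1000 : ℝ) / 2 = (463 / 2000 : ℝ) by norm_num,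
    show (1 / 2 : ℝ) + (537 / 1000 : ℝ) / 2 = (1537 / 2000 : ℝ) by norm_num]
  linarith [ent_463_2000.1, ent_463_2000.2, ent_1537_2000.1, ent_1537_2000.2, ent_1_2.1, ent_1_2.2, log_two_gt_d9, log_two_lt_d9]

lemma check5_b01 :
    0 ≤ midAt (21 / 25 : ℝ) (479 / 500 : ℝ) (9107 / 10000 : ℝ) (1687 / 2500 : ℝ) (1 / 2 : ℝ) (537 / 1000 : ℝ) := by
  unfold midAt mshape
  rw [show (1 / 2 : ℝ) - (537 / 1000 : ℝ) / 2 = (463 / 2000 : ℝ) by norm_num,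
    show (1 / 2 : ℝ) + (537 / 1000 : ℝ) / 2 = (1537 / 2000 : ℝ) by norm_num]
  linarith [ent_463_2000.1, ent_463_2000.2, ent_1537_2000.1, ent_1537_2000.2, ent_1_2.1, ent_1_2.2, log_two_gt_d9, log_two_lt_d9]

lemma check5_a10 :
    0 ≤ midAt (21 / 25 : ℝ) (379 / 500 : ℝ) (9107 / 10000 : ℝ) (1687 / 2500 : ℝ) (1 - (33 / 200 : ℝ) / 2) (33 / 200 : ℝ) := by
  unfold midAt mshape
  rw [show (1 - (33 / 200 : ℝ) / 2) - (33 / 200 : ℝ) / 2 = (167 / 200 : ℝ) by norm_num,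
    show (1 - (33 / 200 : ℝ) / 2) + (33 / 200 : ℝ) / 2 = (1 : ℝ) by norm_num,
    show (1 - (33 / 200 : ℝ) / 2) = (367 / 400 : ℝ) by norm_num]
  simp only [binEntropy_one]
  linarith [ent_167_200.1, ent_167_200.2, ent_367_400.1, ent_367_400.2, log_two_gt_d9, log_two_lt_d9]

lemma check5_b10 :
    0 ≤ midAt (21 / 25 : ℝ) (479 / 500 : ℝ) (9107 / 10000 : ℝ) (1687 / 2500 : ℝ) (1 - (33 / 200 : ℝ) / 2) (33 / 200 : ℝ) := by
  unfold midAt mshape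
  rw [show (1 - (33 / 200 : ℝ) / 2) - (33 / 200 : ℝ) / 2 = (167 / 200 : ℝ) by norm_num,
    show (1 - (33 / 200 : ℝ) / 2) + (33 / 200 : ℝ) / 2 = (1 : ℝ) by norm_num,
    show (1 - (33 / 200 : ℝ) / 2) = (367 / 400 : ℝ) by norm_num]
  simp only [binEntropy_one]
  linarith [ent_167_200.1, ent_167_200.2, ent_367_400.1, ent_367_400.2, log_two_gt_d9, log_two_lt_d9]

lemma check5_a11 :
    0 ≤ midAt (21 / 25 : ℝ) (379 / 500 : ℝ) (9107 / 10000 : ℝ) (1687 / 2500 : ℝ) (1 - (537 / 1000 : ℝ) / 2) (537 / 1000 : ℝ) := by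
  unfold midAt mshape
  rw [show (1 - (537 / 1000 : ℝ) / 2) - (537 / 1000 : ℝ) / 2 = (463 / 1000 : ℝ) by norm_num,
    show (1 - (537 / 1000 : ℝ) / 2) + (537 / 1000 : ℝ) / 2 = (1 : ℝ) by norm_num,
    show (1 - (537 / 1000 : ℝ) / 2) = (1463 / 2000 : ℝ) by norm_num]
  simp only [binEntropy_one]
  linarith [ent_463_1000.1, ent_463_1000.2, ent_1463_2000.1, ent_1463_2000.2, log_two_gt_d9, log_two_lt_d9]

lemma check5_b11 :
    0 ≤ midAt (21 / 25 : ℝ) (479 / 500 : ℝ) (9107 / 10000 : ℝ) (1687 / 2500 : ℝ) (1 - (537 / 1000 : ℝ) / 2) (537 / 1000 : ℝ) := by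
  unfold midAt mshape
  rw [show (1 - (537 / 1000 : ℝ) / 2) - (537 / 1000 : ℝ) / 2 = (463 / 1000 : ℝ) by norm_num,
    show (1 - (537 / 1000 : ℝ) / 2) + (537 / 1000 : ℝ) / 2 = (1 : ℝ) by norm_num,
    show (1 - (537 / 1000 : ℝ) / 2) = (1463 / 2000 : ℝ) by norm_num]
  simp only [binEntropy_one]
  linarith [ent_463_1000.1, ent_463_1000.2, ent_1463_2000.1, ent_1463_2000.2, log_two_gt_d9, log_two_lt_d9]

theorem row5 {ε a b : ℝ} (h0 : (3 / 200 : ℝ) ≤ ε) (h1 : ε ≤ (1 / 20 : ℝ))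
    (hd : |a - b| ∈ Icc (33 / 200 : ℝ) (537 / 1000 : ℝ)) (ha : a ∈ Icc (0 : ℝ) 1) (hb : b ∈ Icc (0 : ℝ) 1) :
    StepAt ε (capBound (21 / 25 : ℝ) ε) a b :=
  stepAt_top_row (inBlock h0 h1) cert5
    ⟨check5_a00, check5_b00, check5_a01, check5_b01, check5_a10, check5_b10, check5_a11, check5_b11⟩
    (by norm_num) (by norm_num) (by norm_num) (by norm_num) hd ha hb

lemma cert6 : ∃ θ k, Cert (1 / 20 : ℝ) θ k ∧ (13081 / 20000 : ℝ) ≤ θ ∧ θ < 1 ∧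
    (602 / 625 : ℝ) * binEntropy (1 / 20 : ℝ) ≤ k := by
  obtain ⟨a1, a2⟩ := log_617_10000
  obtain ⟨b1, b2⟩ := log_9383_10000
  obtain ⟨c1, c2⟩ := log_13_1000
  obtain ⟨d1, d2⟩ := log_987_1000
  have hd1 : (1 : ℝ) - (13 / 1000 : ℝ) = (987 / 1000 : ℝ) := by norm_num
  have hq1 : (1 : ℝ) - (617 / 10000 : ℝ) = (9383 / 10000 : ℝ) := by norm_num
  refine exists_cert (d := (13 / 1000 : ℝ)) (q := (617 / 10000 : ℝ)) (θ₁ := (6541 / 10000 : ℝ)) (by norm_num) (by norm_num)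
    (by norm_num) (by norm_num) (by norm_num) ?_ ?_ (by norm_num) ?_ (by norm_num)
  · rw [hd1, hq1]; linarith
  · rw [hd1, hq1]; linarith
  · linarith [ent_13_1000.1, ent_13_1000.2, ent_1_20.1, ent_1_20.2, ent_617_10000.1, ent_617_10000.2]

lemma check6_a00 :
    0 ≤ midAt (21 / 25 : ℝ) (379 / 500 : ℝ) (13081 / 20000 : ℝ) (602 / 625 : ℝ) (1 / 2 : ℝ) (537 / 1000 : ℝ) := by
  unfold midAt mshape
  rw [show (1 / 2 : ℝ) - (537 / 1000 : ℝ) / 2 = (463 / 2000 : ℝ) by norm_num,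
    show (1 / 2 : ℝ) + (537 / 1000 : ℝ) / 2 = (1537 / 2000 : ℝ) by norm_num]
  linarith [ent_463_2000.1, ent_463_2000.2, ent_1537_2000.1, ent_1537_2000.2, ent_1_2.1, ent_1_2.2, log_two_gt_d9, log_two_lt_d9]

lemma check6_b00 :
    0 ≤ midAt (21 / 25 : ℝ) (479 / 500 : ℝ) (13081 / 20000 : ℝ) (602 / 625 : ℝ) (1 / 2 : ℝ) (537 / 1000 : ℝ) := by
  unfold midAt mshape
  rw [show (1 / 2 : ℝ) - (537 / 1000 : ℝ) / 2 = (463 / 2000 : ℝ) by norm_num,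
    show (1 / 2 : ℝ) + (537 / 1000 : ℝ) / 2 = (1537 / 2000 : ℝ) by norm_num]
  linarith [ent_463_2000.1, ent_463_2000.2, ent_1537_2000.1, ent_1537_2000.2, ent_1_2.1, ent_1_2.2, log_two_gt_d9, log_two_lt_d9]

lemma check6_a01 :
    0 ≤ midAt (21 / 25 : ℝ) (379 / 500 : ℝ) (13081 / 20000 : ℝ) (602 / 625 : ℝ) (1 / 2 : ℝ) (931 / 1000 : ℝ) := by
  unfold midAt mshape
  rw [show (1 / 2 : ℝ) - (931 / 1000 : ℝ) / 2 = (69 / 2000 : ℝ) by norm_num,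
    show (1 / 2 : ℝ) + (931 / 1000 : ℝ) / 2 = (1931 / 2000 : ℝ) by norm_num]
  linarith [ent_69_2000.1, ent_69_2000.2, ent_1931_2000.1, ent_1931_2000.2, ent_1_2.1, ent_1_2.2, log_two_gt_d9, log_two_lt_d9]

lemma check6_b01 :
    0 ≤ midAt (21 / 25 : ℝ) (479 / 500 : ℝ) (13081 / 20000 : ℝ) (602 / 625 : ℝ) (1 / 2 : ℝ) (931 / 1000 : ℝ) := by
  unfold midAt mshape
  rw [show (1 / 2 : ℝ) - (931 / 1000 : ℝ) / 2 = (69 / 2000 : ℝ) by norm_num,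
    show (1 / 2 : ℝ) + (931 / 1000 : ℝ) / 2 = (1931 / 2000 : ℝ) by norm_num]
  linarith [ent_69_2000.1, ent_69_2000.2, ent_1931_2000.1, ent_1931_2000.2, ent_1_2.1, ent_1_2.2, log_two_gt_d9, log_two_lt_d9]

lemma check6_a10 :
    0 ≤ midAt (21 / 25 : ℝ) (379 / 500 : ℝ) (13081 / 20000 : ℝ) (602 / 625 : ℝ) (1 - (537 / 1000 : ℝ) / 2) (537 / 1000 : ℝ) := by
  unfold midAt mshape
  rw [show (1 - (537 / 1000 : ℝ) / 2) - (537 / 1000 : ℝ) / 2 = (463 / 1000 : ℝ) by norm_num,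
    show (1 - (537 / 1000 : ℝ) / 2) + (537 / 1000 : ℝ) / 2 = (1 : ℝ) by norm_num,
    show (1 - (537 / 1000 : ℝ) / 2) = (1463 / 2000 : ℝ) by norm_num]
  simp only [binEntropy_one]
  linarith [ent_463_1000.1, ent_463_1000.2, ent_1463_2000.1, ent_1463_2000.2, log_two_gt_d9, log_two_lt_d9]

lemma check6_b10 :
    0 ≤ midAt (21 / 25 : ℝ) (479 / 500 : ℝ) (13081 / 20000 : ℝ) (602 / 625 : ℝ) (1 - (537 / 1000 : ℝ) / 2) (537 / 1000 : ℝ) := by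
  unfold midAt mshape
  rw [show (1 - (537 / 1000 : ℝ) / 2) - (537 / 1000 : ℝ) / 2 = (463 / 1000 : ℝ) by norm_num,
    show (1 - (537 / 1000 : ℝ) / 2) + (537 / 1000 : ℝ) / 2 = (1 : ℝ) by norm_num,
    show (1 - (537 / 1000 : ℝ) / 2) = (1463 / 2000 : ℝ) by norm_num]
  simp only [binEntropy_one]
  linarith [ent_463_1000.1, ent_463_1000.2, ent_1463_2000.1, ent_1463_2000.2, log_two_gt_d9, log_two_lt_d9]

lemma check6_a11 :
    0 ≤ midAt (21 / 25 : ℝ) (379 / 500 : ℝ) (13081 / 20000 : ℝ) (602 / 625 : ℝ) (1 - (931 / 1000 : ℝ) / 2) (931 / 1000 : ℝ) := by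
  unfold midAt mshape
  rw [show (1 - (931 / 1000 : ℝ) / 2) - (931 / 1000 : ℝ) / 2 = (69 / 1000 : ℝ) by norm_num,
    show (1 - (931 / 1000 : ℝ) / 2) + (931 / 1000 : ℝ) / 2 = (1 : ℝ) by norm_num,
    show (1 - (931 / 1000 : ℝ) / 2) = (1069 / 2000 : ℝ) by norm_num]
  simp only [binEntropy_one]
  linarith [ent_69_1000.1, ent_69_1000.2, ent_1069_2000.1, ent_1069_2000.2, log_two_gt_d9, log_two_lt_d9]

lemma check6_b11 :
    0 ≤ midAt (21 / 25 : ℝ) (479 / 500 : ℝ) (13081 / 20000 : ℝ) (602 / 625 : ℝ) (1 - (931 / 1000 : ℝ) / 2) (931 / 1000 : ℝ) := by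
  unfold midAt mshape
  rw [show (1 - (931 / 1000 : ℝ) / 2) - (931 / 1000 : ℝ) / 2 = (69 / 1000 : ℝ) by norm_num,
    show (1 - (931 / 1000 : ℝ) / 2) + (931 / 1000 : ℝ) / 2 = (1 : ℝ) by norm_num,
    show (1 - (931 / 1000 : ℝ) / 2) = (1069 / 2000 : ℝ) by norm_num]
  simp only [binEntropy_one]
  linarith [ent_69_1000.1, ent_69_1000.2, ent_1069_2000.1, ent_1069_2000.2, log_two_gt_d9, log_two_lt_d9]

theorem row6 {ε a b : ℝ} (h0 : (3 / 200 : ℝ) ≤ ε) (h1 : ε ≤ (1 / 20 : ℝ))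
    (hd : |a - b| ∈ Icc (537 / 1000 : ℝ) (931 / 1000 : ℝ)) (ha : a ∈ Icc (0 : ℝ) 1) (hb : b ∈ Icc (0 : ℝ) 1) :
    StepAt ε (capBound (21 / 25 : ℝ) ε) a b :=
  stepAt_top_row (inBlock h0 h1) cert6
    ⟨check6_a00, check6_b00, check6_a01, check6_b01, check6_a10, check6_b10, check6_a11, check6_b11⟩
    (by norm_num) (by norm_num) (by norm_num) (by norm_num) hd ha hb

lemma cert7 : ∃ θ k, Cert (1 / 20 : ℝ) θ k ∧ (1939 / 4000 : ℝ) ≤ θ ∧ θ < 1 ∧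
    (3981 / 4000 : ℝ) * binEntropy (1 / 20 : ℝ) ≤ k := by
  obtain ⟨a1, a2⟩ := log_259_5000
  obtain ⟨b1, b2⟩ := log_4741_5000
  obtain ⟨c1, c2⟩ := log_1_500
  obtain ⟨d1, d2⟩ := log_499_500
  have hd1 : (1 : ℝ) - (1 / 500 : ℝ) = (499 / 500 : ℝ) := by norm_num
  have hq1 : (1 : ℝ) - (259 / 5000 : ℝ) = (4741 / 5000 : ℝ) := by norm_num
  refine exists_cert (d := (1 / 500 : ℝ)) (q := (259 / 5000 : ℝ)) (θ₁ := (48477 / 100000 : ℝ)) (by norm_num) (by norm_num)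
    (by norm_num) (by norm_num) (by norm_num) ?_ ?_ (by norm_num) ?_ (by norm_num)
  · rw [hd1, hq1]; linarith
  · rw [hd1, hq1]; linarith
  · linarith [ent_1_500.1, ent_1_500.2, ent_1_20.1, ent_1_20.2, ent_259_5000.1, ent_259_5000.2]

lemma check7_a00 :
    0 ≤ midAt (21 / 25 : ℝ) (379 / 500 : ℝ) (1939 / 4000 : ℝ) (3981 / 4000 : ℝ) (1 / 2 : ℝ) (931 / 1000 : ℝ) := by
  unfold midAt mshape
  rw [show (1 / 2 : ℝ) - (931 / 1000 : ℝ) / 2 = (69 / 2000 : ℝ) by norm_num,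
    show (1 / 2 : ℝ) + (931 / 1000 : ℝ) / 2 = (1931 / 2000 : ℝ) by norm_num]
  linarith [ent_69_2000.1, ent_69_2000.2, ent_1931_2000.1, ent_1931_2000.2, ent_1_2.1, ent_1_2.2, log_two_gt_d9, log_two_lt_d9]

lemma check7_b00 :
    0 ≤ midAt (21 / 25 : ℝ) (479 / 500 : ℝ) (1939 / 4000 : ℝ) (3981 / 4000 : ℝ) (1 / 2 : ℝ) (931 / 1000 : ℝ) := by
  unfold midAt mshape
  rw [show (1 / 2 : ℝ) - (931 / 1000 : ℝ) / 2 = (69 / 2000 : ℝ) by norm_num,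
    show (1 / 2 : ℝ) + (931 / 1000 : ℝ) / 2 = (1931 / 2000 : ℝ) by norm_num]
  linarith [ent_69_2000.1, ent_69_2000.2, ent_1931_2000.1, ent_1931_2000.2, ent_1_2.1, ent_1_2.2, log_two_gt_d9, log_two_lt_d9]

lemma check7_a01 :
    0 ≤ midAt (21 / 25 : ℝ) (379 / 500 : ℝ) (1939 / 4000 : ℝ) (3981 / 4000 : ℝ) (1 / 2 : ℝ) (987 / 1000 : ℝ) := by
  unfold midAt mshape
  rw [show (1 / 2 : ℝ) - (987 / 1000 : ℝ) / 2 = (13 / 2000 : ℝ) by norm_num,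
    show (1 / 2 : ℝ) + (987 / 1000 : ℝ) / 2 = (1987 / 2000 : ℝ) by norm_num]
  linarith [ent_13_2000.1, ent_13_2000.2, ent_1987_2000.1, ent_1987_2000.2, ent_1_2.1, ent_1_2.2, log_two_gt_d9, log_two_lt_d9]

lemma check7_b01 :
    0 ≤ midAt (21 / 25 : ℝ) (479 / 500 : ℝ) (1939 / 4000 : ℝ) (3981 / 4000 : ℝ) (1 / 2 : ℝ) (987 / 1000 : ℝ) := by
  unfold midAt mshape
  rw [show (1 / 2 : ℝ) - (987 / 1000 : ℝ) / 2 = (13 / 2000 : ℝ) by norm_num,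
    show (1 / 2 : ℝ) + (987 / 1000 : ℝ) / 2 = (1987 / 2000 : ℝ) by norm_num]
  linarith [ent_13_2000.1, ent_13_2000.2, ent_1987_2000.1, ent_1987_2000.2, ent_1_2.1, ent_1_2.2, log_two_gt_d9, log_two_lt_d9]

lemma check7_a10 :
    0 ≤ midAt (21 / 25 : ℝ) (379 / 500 : ℝ) (1939 / 4000 : ℝ) (3981 / 4000 : ℝ) (1 - (931 / 1000 : ℝ) / 2) (931 / 1000 : ℝ) := by
  unfold midAt mshape
  rw [show (1 - (931 / 1000 : ℝ) / 2) - (931 / 1000 : ℝ) / 2 = (69 / 1000 : ℝ) by norm_num,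
    show (1 - (931 / 1000 : ℝ) / 2) + (931 / 1000 : ℝ) / 2 = (1 : ℝ) by norm_num,
    show (1 - (931 / 1000 : ℝ) / 2) = (1069 / 2000 : ℝ) by norm_num]
  simp only [binEntropy_one]
  linarith [ent_69_1000.1, ent_69_1000.2, ent_1069_2000.1, ent_1069_2000.2, log_two_gt_d9, log_two_lt_d9]

lemma check7_b10 :
    0 ≤ midAt (21 / 25 : ℝ) (479 / 500 : ℝ) (1939 / 4000 : ℝ) (3981 / 4000 : ℝ) (1 - (931 / 1000 : ℝ) / 2) (931 / 1000 : ℝ) := by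
  unfold midAt mshape
  rw [show (1 - (931 / 1000 : ℝ) / 2) - (931 / 1000 : ℝ) / 2 = (69 / 1000 : ℝ) by norm_num,
    show (1 - (931 / 1000 : ℝ) / 2) + (931 / 1000 : ℝ) / 2 = (1 : ℝ) by norm_num,
    show (1 - (931 / 1000 : ℝ) / 2) = (1069 / 2000 : ℝ) by norm_num]
  simp only [binEntropy_one]
  linarith [ent_69_1000.1, ent_69_1000.2, ent_1069_2000.1, ent_1069_2000.2, log_two_gt_d9, log_two_lt_d9]

lemma check7_a11 :
    0 ≤ midAt (21 / 25 : ℝ) (379 / 500 : ℝ) (1939 / 4000 : ℝ) (3981 / 4000 : ℝ) (1 - (987 / 1000 : ℝ) / 2) (987 / 1000 : ℝ) := by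
  unfold midAt mshape
  rw [show (1 - (987 / 1000 : ℝ) / 2) - (987 / 1000 : ℝ) / 2 = (13 / 1000 : ℝ) by norm_num,
    show (1 - (987 / 1000 : ℝ) / 2) + (987 / 1000 : ℝ) / 2 = (1 : ℝ) by norm_num,
    show (1 - (987 / 1000 : ℝ) / 2) = (1013 / 2000 : ℝ) by norm_num]
  simp only [binEntropy_one]
  linarith [ent_13_1000.1, ent_13_1000.2, ent_1013_2000.1, ent_1013_2000.2, log_two_gt_d9, log_two_lt_d9]

lemma check7_b11 :
    0 ≤ midAt (21 / 25 : ℝ) (479 / 500 : ℝ) (1939 / 4000 : ℝ) (3981 / 4000 : ℝ) (1 - (987 / 1000 : ℝ) / 2) (987 / 1000 : ℝ) := by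
  unfold midAt mshape
  rw [show (1 - (987 / 1000 : ℝ) / 2) - (987 / 1000 : ℝ) / 2 = (13 / 1000 : ℝ) by norm_num,
    show (1 - (987 / 1000 : ℝ) / 2) + (987 / 1000 : ℝ) / 2 = (1 : ℝ) by norm_num,
    show (1 - (987 / 1000 : ℝ) / 2) = (1013 / 2000 : ℝ) by norm_num]
  simp only [binEntropy_one]
  linarith [ent_13_1000.1, ent_13_1000.2, ent_1013_2000.1, ent_1013_2000.2, log_two_gt_d9, log_two_lt_d9]

theorem row7 {ε a b : ℝ} (h0 : (3 / 200 : ℝ) ≤ ε) (h1 : ε ≤ (1 / 20 : ℝ))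
    (hd : |a - b| ∈ Icc (931 / 1000 : ℝ) (987 / 1000 : ℝ)) (ha : a ∈ Icc (0 : ℝ) 1) (hb : b ∈ Icc (0 : ℝ) 1) :
    StepAt ε (capBound (21 / 25 : ℝ) ε) a b :=
  stepAt_top_row (inBlock h0 h1) cert7
    ⟨check7_a00, check7_b00, check7_a01, check7_b01, check7_a10, check7_b10, check7_a11, check7_b11⟩
    (by norm_num) (by norm_num) (by norm_num) (by norm_num) hd ha hb

theorem edge0 {ε a b : ℝ} (h0 : (3 / 200 : ℝ) ≤ ε) (h1 : ε ≤ (3 / 100 : ℝ))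
    (hd : (987 / 1000 : ℝ) ≤ |a - b|) (ha : a ∈ Icc (0 : ℝ) 1) (hb : b ∈ Icc (0 : ℝ) 1) :
    StepAt ε (capBound (21 / 25 : ℝ) ε) a b := by
  have hx := xRatio_mem (xa := (379 / 500 : ℝ)) (xb := (108 / 125 : ℝ)) (by norm_num) h0 h1 (by norm_num)
    (by linarith [ent_3_200.2]) (by linarith [ent_3_100.1])
  have hdd : (1 / 25 : ℝ) * (13 / 1000 : ℝ) = (13 / 25000 : ℝ) := by norm_num
  have hqq : (3 / 100 : ℝ) + (1 - 2 * (3 / 100 : ℝ)) * (13 / 25000 : ℝ) = (38111 / 1250000 : ℝ) := by norm_num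
  have hq1 : (1 : ℝ) - (38111 / 1250000 : ℝ) = (1211889 / 1250000 : ℝ) := by norm_num
  have he1 : (1 : ℝ) - (3 / 100 : ℝ) = (97 / 100 : ℝ) := by norm_num
  have hHL : binEntropy (3 / 100 : ℝ) * log 2 ≤ (18679231 / 200000000 : ℝ) :=
    (mul_le_mul ent_3_100.2 log_two_lt_d9.le (log_nonneg one_le_two) (by norm_num)).trans
      (by norm_num)
  refine stepAt_edge (g := (1 / 25 : ℝ)) (u₀ := (13 / 1000 : ℝ)) (S := (172971631 / 50000000 : ℝ)) (ℓ := (3537017107 / 1000000000 : ℝ)) (τ := (5847 / 12500 : ℝ))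
    (U₀ := (4342805919 / 1000000000 : ℝ)) (T := (0 : ℝ)) (by norm_num) (by linarith) h1 (by norm_num) hx (by norm_num)
    (by linarith [log_two_lt_d9]) (by norm_num) (by norm_num) (by norm_num) ?_ ?_ (by norm_num)
    ?_ ?_ ?_ ?_ (by norm_num) ?_ ?_ ?_ (by linarith) ha hb
  · rw [hdd, hqq, hq1]
    linarith [log_13_25000.1, log_38111_1250000.2, log_1211889_1250000.2]
  · rw [hdd, hqq, hq1]
    linarith [log_38111_1250000.2, log_1211889_1250000.1]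
  · rw [he1]; linarith [log_3_100.1, log_97_100.1]
  · rw [hdd]; linarith [log_13_25000.2]
  · linarith [log_13_1000.2]
  · linarith [ent_3_100.1]
  · unfold edgeBr; linarith [ent_3_100.1, hHL, log_1_25.1]
  · unfold edgeBr; linarith [ent_3_100.1, hHL, log_1_25.1]
  · linarith [ent_3_100.2]

theorem edge1 {ε a b : ℝ} (h0 : (3 / 100 : ℝ) ≤ ε) (h1 : ε ≤ (1 / 20 : ℝ))
    (hd : (987 / 1000 : ℝ) ≤ |a - b|) (ha : a ∈ Icc (0 : ℝ) 1) (hb : b ∈ Icc (0 : ℝ) 1) :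
    StepAt ε (capBound (21 / 25 : ℝ) ε) a b := by
  have hx := xRatio_mem (xa := (863 / 1000 : ℝ)) (xb := (479 / 500 : ℝ)) (by norm_num) h0 h1 (by norm_num)
    (by linarith [ent_3_100.2]) (by linarith [ent_1_20.1])
  have hdd : (27 / 400 : ℝ) * (13 / 1000 : ℝ) = (351 / 400000 : ℝ) := by norm_num
  have hqq : (1 / 20 : ℝ) + (1 - 2 * (1 / 20 : ℝ)) * (351 / 400000 : ℝ) = (203159 / 4000000 : ℝ) := by norm_num
  have hq1 : (1 : ℝ) - (203159 / 4000000 : ℝ) = (3796841 / 4000000 : ℝ) := by norm_num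
  have he1 : (1 : ℝ) - (1 / 20 : ℝ) = (19 / 20 : ℝ) := by norm_num
  have hHL : binEntropy (1 / 20 : ℝ) * log 2 ≤ (68800141 / 500000000 : ℝ) :=
    (mul_le_mul ent_1_20.2 log_two_lt_d9.le (log_nonneg one_le_two) (by norm_num)).trans
      (by norm_num)
  refine stepAt_edge (g := (27 / 400 : ℝ)) (u₀ := (13 / 1000 : ℝ)) (S := (1463967879 / 500000000 : ℝ)) (ℓ := (304702557 / 100000000 : ℝ)) (τ := (10823 / 25000 : ℝ))
    (U₀ := (4342805919 / 1000000000 : ℝ)) (T := (0 : ℝ)) (by norm_num) (by linarith) h1 (by norm_num) hx (by norm_num)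
    (by linarith [log_two_lt_d9]) (by norm_num) (by norm_num) (by norm_num) ?_ ?_ (by norm_num)
    ?_ ?_ ?_ ?_ (by norm_num) ?_ ?_ ?_ (by linarith) ha hb
  · rw [hdd, hqq, hq1]
    linarith [log_351_400000.1, log_203159_4000000.2, log_3796841_4000000.2]
  · rw [hdd, hqq, hq1]
    linarith [log_203159_4000000.2, log_3796841_4000000.1]
  · rw [he1]; linarith [log_1_20.1, log_19_20.1]
  · rw [hdd]; linarith [log_351_400000.2]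
  · linarith [log_13_1000.2]
  · linarith [ent_1_20.1]
  · unfold edgeBr; linarith [ent_1_20.1, hHL, log_27_400.1]
  · unfold edgeBr; linarith [ent_1_20.1, hHL, log_27_400.1]
  · linarith [ent_1_20.2]

/-- Steps for every pair of means at every noise level of the block. -/
theorem stepAt_all {ε a b : ℝ} (h0 : (3 / 200 : ℝ) ≤ ε) (h1 : ε ≤ (1 / 20 : ℝ))
    (ha : a ∈ Icc (0 : ℝ) 1) (hb : b ∈ Icc (0 : ℝ) 1) : StepAt ε (capBound (21 / 25 : ℝ) ε) a b := by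
  rcases le_total |a - b| (3 / 100 : ℝ) with h | g0
  · exact row_small h0 h1 h ha hb
  rcases le_total |a - b| (19 / 500 : ℝ) with h | g1
  · exact row0 h0 h1 ⟨g0, h⟩ ha hb
  rcases le_total |a - b| (1 / 20 : ℝ) with h | g2
  · exact row1 h0 h1 ⟨g1, h⟩ ha hb
  rcases le_total |a - b| (33 / 500 : ℝ) with h | g3
  · exact row2 h0 h1 ⟨g2, h⟩ ha hb
  rcases le_total |a - b| (21 / 250 : ℝ) with h | g4
  · exact row3 h0 h1 ⟨g3, h⟩ ha hb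
  rcases le_total |a - b| (33 / 200 : ℝ) with h | g5
  · exact row4 h0 h1 ⟨g4, h⟩ ha hb
  rcases le_total |a - b| (537 / 1000 : ℝ) with h | g6
  · exact row5 h0 h1 ⟨g5, h⟩ ha hb
  rcases le_total |a - b| (931 / 1000 : ℝ) with h | g7
  · exact row6 h0 h1 ⟨g6, h⟩ ha hb
  rcases le_total |a - b| (987 / 1000 : ℝ) with h | g8
  · exact row7 h0 h1 ⟨g7, h⟩ ha hb
  rcases le_total ε (3 / 100 : ℝ) with h | h
  · exact edge0 h0 h g8 ha hb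
  · exact edge1 h h1 g8 ha hb

end Vale.Agent.P322.BlockA
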