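import Mathlib
import Vale.Agent.P322.Numerics

/-!
P322: certified bounds of logarithms and entropies for noise levels in `[1/20, 2/25]`.
-/

open Real

namespace Vale.Agent.P322.BlockB

lemma log_1_20 : (-119829291 / 40000000 : ℝ) ≤ log (1 / 20 : ℝ) ∧ log (1 / 20 : ℝ) ≤ (-187233267 / 62500000 : ℝ) := by
  obtain ⟨h1, h2⟩ := log_bracket (a := (1 / 20 : ℝ)) (x := (3 / 13 : ℝ)) (-5) 9 (by norm_num) (by norm_num)
    (by norm_num)
  norm_num [Finset.sum_range_succ] at h1 h2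
  constructor <;> linarith [log_two_gt_d9, log_two_lt_d9]

lemma log_19_20 : (-10258659 / 200000000 : ℝ) ≤ log (19 / 20 : ℝ) ∧ log (19 / 20 : ℝ) ≤ (-51293293 / 1000000000 : ℝ) := by
  obtain ⟨h1, h2⟩ := log_bracket (a := (19 / 20 : ℝ)) (x := (9 / 29 : ℝ)) (-1) 9 (by norm_num) (by norm_num)
    (by norm_num)
  norm_num [Finset.sum_range_succ] at h1 h2
  constructor <;> linarith [log_two_gt_d9, log_two_lt_d9]

lemma ent_1_20 : (198515241 / 1000000000 : ℝ) ≤ binEntropy (1 / 20 : ℝ) ∧ binEntropy (1 / 20 : ℝ) ≤ (49628811 / 250000000 : ℝ) := by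
  obtain ⟨a1, a2⟩ := log_1_20
  obtain ⟨b1, b2⟩ := log_19_20
  rw [binEntropy_eq_negMulLog_add_negMulLog_one_sub, show (1 : ℝ) - (1 / 20 : ℝ) = (19 / 20 : ℝ) by norm_num]
  unfold negMulLog
  constructor <;> linarith

lemma log_2_25 : (-1262864323 / 500000000 : ℝ) ≤ log (2 / 25 : ℝ) ∧ log (2 / 25 : ℝ) ≤ (-2525728643 / 1000000000 : ℝ) := by
  obtain ⟨h1, h2⟩ := log_bracket (a := (2 / 25 : ℝ)) (x := (7 / 57 : ℝ)) (-4) 9 (by norm_num) (by norm_num)
    (by norm_num)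
  norm_num [Finset.sum_range_succ] at h1 h2
  constructor <;> linarith [log_two_gt_d9, log_two_lt_d9]

lemma log_23_25 : (-8338161 / 100000000 : ℝ) ≤ log (23 / 25 : ℝ) ∧ log (23 / 25 : ℝ) ≤ (-10422701 / 125000000 : ℝ) := by
  obtain ⟨h1, h2⟩ := log_bracket (a := (23 / 25 : ℝ)) (x := (21 / 71 : ℝ)) (-1) 9 (by norm_num) (by norm_num)
    (by norm_num)
  norm_num [Finset.sum_range_succ] at h1 h2
  constructor <;> linarith [log_two_gt_d9, log_two_lt_d9]

lemma ent_2_25 : (27876937 / 100000000 : ℝ) ≤ binEntropy (2 / 25 : ℝ) ∧ binEntropy (2 / 25 : ℝ) ≤ (278769373 / 1000000000 : ℝ) := by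
  obtain ⟨a1, a2⟩ := log_2_25
  obtain ⟨b1, b2⟩ := log_23_25
  rw [binEntropy_eq_negMulLog_add_negMulLog_one_sub, show (1 : ℝ) - (2 / 25 : ℝ) = (23 / 25 : ℝ) by norm_num]
  unfold negMulLog
  constructor <;> linarith

lemma log_47_100 : (-151004517 / 200000000 : ℝ) ≤ log (47 / 100 : ℝ) ∧ log (47 / 100 : ℝ) ≤ (-755022583 / 1000000000 : ℝ) := by
  obtain ⟨h1, h2⟩ := log_bracket (a := (47 / 100 : ℝ)) (x := (11 / 36 : ℝ)) (-2) 9 (by norm_num) (by norm_num)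
    (by norm_num)
  norm_num [Finset.sum_range_succ] at h1 h2
  constructor <;> linarith [log_two_gt_d9, log_two_lt_d9]

lemma log_53_100 : (-634878273 / 1000000000 : ℝ) ≤ log (53 / 100 : ℝ) ∧ log (53 / 100 : ℝ) ≤ (-9919973 / 15625000 : ℝ) := by
  obtain ⟨h1, h2⟩ := log_bracket (a := (53 / 100 : ℝ)) (x := (3 / 103 : ℝ)) (-1) 9 (by norm_num) (by norm_num)
    (by norm_num)
  norm_num [Finset.sum_range_succ] at h1 h2
  constructor <;> linarith [log_two_gt_d9, log_two_lt_d9]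

lemma ent_47_100 : (345673049 / 500000000 : ℝ) ≤ binEntropy (47 / 100 : ℝ) ∧ binEntropy (47 / 100 : ℝ) ≤ (6913461 / 10000000 : ℝ) := by
  obtain ⟨a1, a2⟩ := log_47_100
  obtain ⟨b1, b2⟩ := log_53_100
  rw [binEntropy_eq_negMulLog_add_negMulLog_one_sub, show (1 : ℝ) - (47 / 100 : ℝ) = (53 / 100 : ℝ) by norm_num]
  unfold negMulLog
  constructor <;> linarith

lemma log_185_382 : (-145012957 / 200000000 : ℝ) ≤ log (185 / 382 : ℝ) ∧ log (185 / 382 : ℝ) ≤ (-362532391 / 500000000 : ℝ) := by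
  obtain ⟨h1, h2⟩ := log_bracket (a := (185 / 382 : ℝ)) (x := (179 / 561 : ℝ)) (-2) 9 (by norm_num) (by norm_num)
    (by norm_num)
  norm_num [Finset.sum_range_succ] at h1 h2
  constructor <;> linarith [log_two_gt_d9, log_two_lt_d9]

lemma log_197_382 : (-662216881 / 1000000000 : ℝ) ≤ log (197 / 382 : ℝ) ∧ log (197 / 382 : ℝ) ≤ (-662216879 / 1000000000 : ℝ) := by
  obtain ⟨h1, h2⟩ := log_bracket (a := (197 / 382 : ℝ)) (x := (3 / 194 : ℝ)) (-1) 9 (by norm_num) (by norm_num)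
    (by norm_num)
  norm_num [Finset.sum_range_succ] at h1 h2
  constructor <;> linarith [log_two_gt_d9, log_two_lt_d9]

lemma ent_185_382 : (69265369 / 100000000 : ℝ) ≤ binEntropy (185 / 382 : ℝ) ∧ binEntropy (185 / 382 : ℝ) ≤ (346326847 / 500000000 : ℝ) := by
  obtain ⟨a1, a2⟩ := log_185_382
  obtain ⟨b1, b2⟩ := log_197_382
  rw [binEntropy_eq_negMulLog_add_negMulLog_one_sub, show (1 : ℝ) - (185 / 382 : ℝ) = (197 / 382 : ℝ) by norm_num]
  unfold negMulLog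
  constructor <;> linarith

lemma log_1_6 : (-179175947 / 100000000 : ℝ) ≤ log (1 / 6 : ℝ) ∧ log (1 / 6 : ℝ) ≤ (-447939867 / 250000000 : ℝ) := by
  obtain ⟨h1, h2⟩ := log_bracket (a := (1 / 6 : ℝ)) (x := (1 / 7 : ℝ)) (-3) 9 (by norm_num) (by norm_num)
    (by norm_num)
  norm_num [Finset.sum_range_succ] at h1 h2
  constructor <;> linarith [log_two_gt_d9, log_two_lt_d9]

lemma log_5_6 : (-91160779 / 500000000 : ℝ) ≤ log (5 / 6 : ℝ) ∧ log (5 / 6 : ℝ) ≤ (-45580389 / 250000000 : ℝ) := by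
  obtain ⟨h1, h2⟩ := log_bracket (a := (5 / 6 : ℝ)) (x := (1 / 4 : ℝ)) (-1) 9 (by norm_num) (by norm_num)
    (by norm_num)
  norm_num [Finset.sum_range_succ] at h1 h2
  constructor <;> linarith [log_two_gt_d9, log_two_lt_d9]

lemma ent_1_6 : (56320151 / 125000000 : ℝ) ≤ binEntropy (1 / 6 : ℝ) ∧ binEntropy (1 / 6 : ℝ) ≤ (45056121 / 100000000 : ℝ) := by
  obtain ⟨a1, a2⟩ := log_1_6
  obtain ⟨b1, b2⟩ := log_5_6
  rw [binEntropy_eq_negMulLog_add_negMulLog_one_sub, show (1 : ℝ) - (1 / 6 : ℝ) = (5 / 6 : ℝ) by norm_num]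
  unfold negMulLog
  constructor <;> linarith

lemma log_9_200 : (-3101092791 / 1000000000 : ℝ) ≤ log (9 / 200 : ℝ) ∧ log (9 / 200 : ℝ) ≤ (-3101092787 / 1000000000 : ℝ) := by
  obtain ⟨h1, h2⟩ := log_bracket (a := (9 / 200 : ℝ)) (x := (11 / 61 : ℝ)) (-5) 9 (by norm_num) (by norm_num)
    (by norm_num)
  norm_num [Finset.sum_range_succ] at h1 h2
  constructor <;> linarith [log_two_gt_d9, log_two_lt_d9]

lemma log_191_200 : (-46043939 / 1000000000 : ℝ) ≤ log (191 / 200 : ℝ) ∧ log (191 / 200 : ℝ) ≤ (-46043937 / 1000000000 : ℝ) := by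
  obtain ⟨h1, h2⟩ := log_bracket (a := (191 / 200 : ℝ)) (x := (91 / 291 : ℝ)) (-1) 9 (by norm_num) (by norm_num)
    (by norm_num)
  norm_num [Finset.sum_range_succ] at h1 h2
  constructor <;> linarith [log_two_gt_d9, log_two_lt_d9]

lemma ent_9_200 : (36704227 / 200000000 : ℝ) ≤ binEntropy (9 / 200 : ℝ) ∧ binEntropy (9 / 200 : ℝ) ≤ (91760569 / 500000000 : ℝ) := by
  obtain ⟨a1, a2⟩ := log_9_200
  obtain ⟨b1, b2⟩ := log_191_200
  rw [binEntropy_eq_negMulLog_add_negMulLog_one_sub, show (1 : ℝ) - (9 / 200 : ℝ) = (191 / 200 : ℝ) by norm_num]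
  unfold negMulLog
  constructor <;> linarith

lemma ent_191_200 : (36704227 / 200000000 : ℝ) ≤ binEntropy (191 / 200 : ℝ) ∧ binEntropy (191 / 200 : ℝ) ≤ (91760569 / 500000000 : ℝ) := by
  rw [show (191 / 200 : ℝ) = 1 - (9 / 200 : ℝ) by norm_num, binEntropy_one_sub]
  exact ent_9_200

lemma log_1258_3125 : (-454955563 / 500000000 : ℝ) ≤ log (1258 / 3125 : ℝ) ∧ log (1258 / 3125 : ℝ) ≤ (-227477781 / 250000000 : ℝ) := by
  obtain ⟨h1, h2⟩ := log_bracket (a := (1258 / 3125 : ℝ)) (x := (1907 / 8157 : ℝ)) (-2) 9 (by norm_num) (by norm_num)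
    (by norm_num)
  norm_num [Finset.sum_range_succ] at h1 h2
  constructor <;> linarith [log_two_gt_d9, log_two_lt_d9]

lemma log_1867_3125 : (-515101419 / 1000000000 : ℝ) ≤ log (1867 / 3125 : ℝ) ∧ log (1867 / 3125 : ℝ) ≤ (-257550709 / 500000000 : ℝ) := by
  obtain ⟨h1, h2⟩ := log_bracket (a := (1867 / 3125 : ℝ)) (x := (609 / 6859 : ℝ)) (-1) 9 (by norm_num) (by norm_num)
    (by norm_num)
  norm_num [Finset.sum_range_succ] at h1 h2
  constructor <;> linarith [log_two_gt_d9, log_two_lt_d9]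

lemma log_48_125 : (-957112727 / 1000000000 : ℝ) ≤ log (48 / 125 : ℝ) ∧ log (48 / 125 : ℝ) ≤ (-38284509 / 40000000 : ℝ) := by
  obtain ⟨h1, h2⟩ := log_bracket (a := (48 / 125 : ℝ)) (x := (67 / 317 : ℝ)) (-2) 9 (by norm_num) (by norm_num)
    (by norm_num)
  norm_num [Finset.sum_range_succ] at h1 h2
  constructor <;> linarith [log_two_gt_d9, log_two_lt_d9]

lemma log_77_125 : (-121127079 / 250000000 : ℝ) ≤ log (77 / 125 : ℝ) ∧ log (77 / 125 : ℝ) ≤ (-96901663 / 200000000 : ℝ) := by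
  obtain ⟨h1, h2⟩ := log_bracket (a := (77 / 125 : ℝ)) (x := (29 / 279 : ℝ)) (-1) 9 (by norm_num) (by norm_num)
    (by norm_num)
  norm_num [Finset.sum_range_succ] at h1 h2
  constructor <;> linarith [log_two_gt_d9, log_two_lt_d9]

lemma ent_48_125 : (83248551 / 125000000 : ℝ) ≤ binEntropy (48 / 125 : ℝ) ∧ binEntropy (48 / 125 : ℝ) ≤ (66598841 / 100000000 : ℝ) := by
  obtain ⟨a1, a2⟩ := log_48_125
  obtain ⟨b1, b2⟩ := log_77_125
  rw [binEntropy_eq_negMulLog_add_negMulLog_one_sub, show (1 : ℝ) - (48 / 125 : ℝ) = (77 / 125 : ℝ) by norm_num]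
  unfold negMulLog
  constructor <;> linarith

lemma ent_1258_3125 : (674036013 / 1000000000 : ℝ) ≤ binEntropy (1258 / 3125 : ℝ) ∧ binEntropy (1258 / 3125 : ℝ) ≤ (134807203 / 200000000 : ℝ) := by
  obtain ⟨a1, a2⟩ := log_1258_3125
  obtain ⟨b1, b2⟩ := log_1867_3125
  rw [binEntropy_eq_negMulLog_add_negMulLog_one_sub, show (1 : ℝ) - (1258 / 3125 : ℝ) = (1867 / 3125 : ℝ) by norm_num]
  unfold negMulLog
  constructor <;> linarith

lemma ent_53_100 : (345673049 / 500000000 : ℝ) ≤ binEntropy (53 / 100 : ℝ) ∧ binEntropy (53 / 100 : ℝ) ≤ (6913461 / 10000000 : ℝ) := by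
  rw [show (53 / 100 : ℝ) = 1 - (47 / 100 : ℝ) by norm_num, binEntropy_one_sub]
  exact ent_47_100

lemma ent_1_2 : (6931471803 / 10000000000 : ℝ) ≤ binEntropy (1 / 2 : ℝ) ∧ binEntropy (1 / 2 : ℝ) ≤ (108304247 / 156250000 : ℝ) := by
  rw [show (1 / 2 : ℝ) = 2⁻¹ by norm_num, binEntropy_two_inv]
  constructor <;> linarith [log_two_gt_d9, log_two_lt_d9]

lemma log_231_500 : (-772190389 / 1000000000 : ℝ) ≤ log (231 / 500 : ℝ) ∧ log (231 / 500 : ℝ) ≤ (-772190387 / 1000000000 : ℝ) := by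
  obtain ⟨h1, h2⟩ := log_bracket (a := (231 / 500 : ℝ)) (x := (53 / 178 : ℝ)) (-2) 9 (by norm_num) (by norm_num)
    (by norm_num)
  norm_num [Finset.sum_range_succ] at h1 h2
  constructor <;> linarith [log_two_gt_d9, log_two_lt_d9]

lemma log_269_500 : (-7748709 / 12500000 : ℝ) ≤ log (269 / 500 : ℝ) ∧ log (269 / 500 : ℝ) ≤ (-309948359 / 500000000 : ℝ) := by
  obtain ⟨h1, h2⟩ := log_bracket (a := (269 / 500 : ℝ)) (x := (19 / 519 : ℝ)) (-1) 9 (by norm_num) (by norm_num)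
    (by norm_num)
  norm_num [Finset.sum_range_succ] at h1 h2
  constructor <;> linarith [log_two_gt_d9, log_two_lt_d9]

lemma ent_231_500 : (690256393 / 1000000000 : ℝ) ≤ binEntropy (231 / 500 : ℝ) ∧ binEntropy (231 / 500 : ℝ) ≤ (172564099 / 250000000 : ℝ) := by
  obtain ⟨a1, a2⟩ := log_231_500
  obtain ⟨b1, b2⟩ := log_269_500
  rw [binEntropy_eq_negMulLog_add_negMulLog_one_sub, show (1 : ℝ) - (231 / 500 : ℝ) = (269 / 500 : ℝ) by norm_num]
  unfold negMulLog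
  constructor <;> linarith

lemma ent_269_500 : (690256393 / 1000000000 : ℝ) ≤ binEntropy (269 / 500 : ℝ) ∧ binEntropy (269 / 500 : ℝ) ≤ (172564099 / 250000000 : ℝ) := by
  rw [show (269 / 500 : ℝ) = 1 - (231 / 500 : ℝ) by norm_num, binEntropy_one_sub]
  exact ent_231_500

lemma log_173_2000 : (-2447610867 / 1000000000 : ℝ) ≤ log (173 / 2000 : ℝ) ∧ log (173 / 2000 : ℝ) ≤ (-152975679 / 62500000 : ℝ) := by
  obtain ⟨h1, h2⟩ := log_bracket (a := (173 / 2000 : ℝ)) (x := (24 / 149 : ℝ)) (-4) 9 (by norm_num) (by norm_num)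
    (by norm_num)
  norm_num [Finset.sum_range_succ] at h1 h2
  constructor <;> linarith [log_two_gt_d9, log_two_lt_d9]

lemma log_1827_2000 : (-2827247 / 31250000 : ℝ) ≤ log (1827 / 2000 : ℝ) ∧ log (1827 / 2000 : ℝ) ≤ (-45235951 / 500000000 : ℝ) := by
  obtain ⟨h1, h2⟩ := log_bracket (a := (1827 / 2000 : ℝ)) (x := (827 / 2827 : ℝ)) (-1) 9 (by norm_num) (by norm_num)
    (by norm_num)
  norm_num [Finset.sum_range_succ] at h1 h2
  constructor <;> linarith [log_two_gt_d9, log_two_lt_d9]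

lemma ent_173_2000 : (147182211 / 500000000 : ℝ) ≤ binEntropy (173 / 2000 : ℝ) ∧ binEntropy (173 / 2000 : ℝ) ≤ (11774577 / 40000000 : ℝ) := by
  obtain ⟨a1, a2⟩ := log_173_2000
  obtain ⟨b1, b2⟩ := log_1827_2000
  rw [binEntropy_eq_negMulLog_add_negMulLog_one_sub, show (1 : ℝ) - (173 / 2000 : ℝ) = (1827 / 2000 : ℝ) by norm_num]
  unfold negMulLog
  constructor <;> linarith

lemma ent_1827_2000 : (147182211 / 500000000 : ℝ) ≤ binEntropy (1827 / 2000 : ℝ) ∧ binEntropy (1827 / 2000 : ℝ) ≤ (11774577 / 40000000 : ℝ) := by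
  rw [show (1827 / 2000 : ℝ) = 1 - (173 / 2000 : ℝ) by norm_num, binEntropy_one_sub]
  exact ent_173_2000

lemma log_53_2000 : (-907652637 / 250000000 : ℝ) ≤ log (53 / 2000 : ℝ) ∧ log (53 / 2000 : ℝ) ≤ (-226913159 / 62500000 : ℝ) := by
  obtain ⟨h1, h2⟩ := log_bracket (a := (53 / 2000 : ℝ)) (x := (87 / 337 : ℝ)) (-6) 9 (by norm_num) (by norm_num)
    (by norm_num)
  norm_num [Finset.sum_range_succ] at h1 h2
  constructor <;> linarith [log_two_gt_d9, log_two_lt_d9]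

lemma log_1947_2000 : (-5371491 / 200000000 : ℝ) ≤ log (1947 / 2000 : ℝ) ∧ log (1947 / 2000 : ℝ) ≤ (-26857453 / 1000000000 : ℝ) := by
  obtain ⟨h1, h2⟩ := log_bracket (a := (1947 / 2000 : ℝ)) (x := (947 / 2947 : ℝ)) (-1) 9 (by norm_num) (by norm_num)
    (by norm_num)
  norm_num [Finset.sum_range_succ] at h1 h2
  constructor <;> linarith [log_two_gt_d9, log_two_lt_d9]

lemma ent_53_2000 : (122356909 / 1000000000 : ℝ) ≤ binEntropy (53 / 2000 : ℝ) ∧ binEntropy (53 / 2000 : ℝ) ≤ (7647307 / 62500000 : ℝ) := by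
  obtain ⟨a1, a2⟩ := log_53_2000
  obtain ⟨b1, b2⟩ := log_1947_2000
  rw [binEntropy_eq_negMulLog_add_negMulLog_one_sub, show (1 : ℝ) - (53 / 2000 : ℝ) = (1947 / 2000 : ℝ) by norm_num]
  unfold negMulLog
  constructor <;> linarith

lemma ent_1947_2000 : (122356909 / 1000000000 : ℝ) ≤ binEntropy (1947 / 2000 : ℝ) ∧ binEntropy (1947 / 2000 : ℝ) ≤ (7647307 / 62500000 : ℝ) := by
  rw [show (1947 / 2000 : ℝ) = 1 - (53 / 2000 : ℝ) by norm_num, binEntropy_one_sub]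
  exact ent_53_2000

lemma log_113_2000 : (-2873514643 / 1000000000 : ℝ) ≤ log (113 / 2000 : ℝ) ∧ log (113 / 2000 : ℝ) ≤ (-2873514639 / 1000000000 : ℝ) := by
  obtain ⟨h1, h2⟩ := log_bracket (a := (113 / 2000 : ℝ)) (x := (101 / 351 : ℝ)) (-5) 9 (by norm_num) (by norm_num)
    (by norm_num)
  norm_num [Finset.sum_range_succ] at h1 h2
  constructor <;> linarith [log_two_gt_d9, log_two_lt_d9]

lemma log_1887_2000 : (-11631783 / 200000000 : ℝ) ≤ log (1887 / 2000 : ℝ) ∧ log (1887 / 2000 : ℝ) ≤ (-58158913 / 1000000000 : ℝ) := by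
  obtain ⟨h1, h2⟩ := log_bracket (a := (1887 / 2000 : ℝ)) (x := (887 / 2887 : ℝ)) (-1) 9 (by norm_num) (by norm_num)
    (by norm_num)
  norm_num [Finset.sum_range_succ] at h1 h2
  constructor <;> linarith [log_two_gt_d9, log_two_lt_d9]

lemma ent_113_2000 : (217226511 / 1000000000 : ℝ) ≤ binEntropy (113 / 2000 : ℝ) ∧ binEntropy (113 / 2000 : ℝ) ≤ (108613257 / 500000000 : ℝ) := by
  obtain ⟨a1, a2⟩ := log_113_2000
  obtain ⟨b1, b2⟩ := log_1887_2000
  rw [binEntropy_eq_negMulLog_add_negMulLog_one_sub, show (1 : ℝ) - (113 / 2000 : ℝ) = (1887 / 2000 : ℝ) by norm_num]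
  unfold negMulLog
  constructor <;> linarith

lemma ent_1887_2000 : (217226511 / 1000000000 : ℝ) ≤ binEntropy (1887 / 2000 : ℝ) ∧ binEntropy (1887 / 2000 : ℝ) ≤ (108613257 / 500000000 : ℝ) := by
  rw [show (1887 / 2000 : ℝ) = 1 - (113 / 2000 : ℝ) by norm_num, binEntropy_one_sub]
  exact ent_113_2000

lemma log_189_2000 : (-1179577723 / 500000000 : ℝ) ≤ log (189 / 2000 : ℝ) ∧ log (189 / 2000 : ℝ) ≤ (-2359155443 / 1000000000 : ℝ) := by
  obtain ⟨h1, h2⟩ := log_bracket (a := (189 / 2000 : ℝ)) (x := (32 / 157 : ℝ)) (-4) 9 (by norm_num) (by norm_num)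
    (by norm_num)
  norm_num [Finset.sum_range_succ] at h1 h2
  constructor <;> linarith [log_two_gt_d9, log_two_lt_d9]

lemma log_1811_2000 : (-49634001 / 500000000 : ℝ) ≤ log (1811 / 2000 : ℝ) ∧ log (1811 / 2000 : ℝ) ≤ (-99268001 / 1000000000 : ℝ) := by
  obtain ⟨h1, h2⟩ := log_bracket (a := (1811 / 2000 : ℝ)) (x := (811 / 2811 : ℝ)) (-1) 9 (by norm_num) (by norm_num)
    (by norm_num)
  norm_num [Finset.sum_range_succ] at h1 h2
  constructor <;> linarith [log_two_gt_d9, log_two_lt_d9]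

lemma ent_189_2000 : (78206841 / 250000000 : ℝ) ≤ binEntropy (189 / 2000 : ℝ) ∧ binEntropy (189 / 2000 : ℝ) ≤ (156413683 / 500000000 : ℝ) := by
  obtain ⟨a1, a2⟩ := log_189_2000
  obtain ⟨b1, b2⟩ := log_1811_2000
  rw [binEntropy_eq_negMulLog_add_negMulLog_one_sub, show (1 : ℝ) - (189 / 2000 : ℝ) = (1811 / 2000 : ℝ) by norm_num]
  unfold negMulLog
  constructor <;> linarith

lemma ent_1811_2000 : (78206841 / 250000000 : ℝ) ≤ binEntropy (1811 / 2000 : ℝ) ∧ binEntropy (1811 / 2000 : ℝ) ≤ (156413683 / 500000000 : ℝ) := by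
  rw [show (1811 / 2000 : ℝ) = 1 - (189 / 2000 : ℝ) by norm_num, binEntropy_one_sub]
  exact ent_189_2000

lemma log_37_2000 : (-3989984549 / 1000000000 : ℝ) ≤ log (37 / 2000 : ℝ) ∧ log (37 / 2000 : ℝ) ≤ (-797996909 / 200000000 : ℝ) := by
  obtain ⟨h1, h2⟩ := log_bracket (a := (37 / 2000 : ℝ)) (x := (23 / 273 : ℝ)) (-6) 9 (by norm_num) (by norm_num)
    (by norm_num)
  norm_num [Finset.sum_range_succ] at h1 h2
  constructor <;> linarith [log_two_gt_d9, log_two_lt_d9]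

lemma log_1963_2000 : (-9336633 / 500000000 : ℝ) ≤ log (1963 / 2000 : ℝ) ∧ log (1963 / 2000 : ℝ) ≤ (-18673263 / 1000000000 : ℝ) := by
  obtain ⟨h1, h2⟩ := log_bracket (a := (1963 / 2000 : ℝ)) (x := (963 / 2963 : ℝ)) (-1) 9 (by norm_num) (by norm_num)
    (by norm_num)
  norm_num [Finset.sum_range_succ] at h1 h2
  constructor <;> linarith [log_two_gt_d9, log_two_lt_d9]

lemma ent_37_2000 : (92142521 / 1000000000 : ℝ) ≤ binEntropy (37 / 2000 : ℝ) ∧ binEntropy (37 / 2000 : ℝ) ≤ (3685701 / 40000000 : ℝ) := by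
  obtain ⟨a1, a2⟩ := log_37_2000
  obtain ⟨b1, b2⟩ := log_1963_2000
  rw [binEntropy_eq_negMulLog_add_negMulLog_one_sub, show (1 : ℝ) - (37 / 2000 : ℝ) = (1963 / 2000 : ℝ) by norm_num]
  unfold negMulLog
  constructor <;> linarith

lemma ent_1963_2000 : (92142521 / 1000000000 : ℝ) ≤ binEntropy (1963 / 2000 : ℝ) ∧ binEntropy (1963 / 2000 : ℝ) ≤ (3685701 / 40000000 : ℝ) := by
  rw [show (1963 / 2000 : ℝ) = 1 - (37 / 2000 : ℝ) by norm_num, binEntropy_one_sub]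
  exact ent_37_2000

lemma log_1891_5000 : (-243083031 / 250000000 : ℝ) ≤ log (1891 / 5000 : ℝ) ∧ log (1891 / 5000 : ℝ) ≤ (-486166061 / 500000000 : ℝ) := by
  obtain ⟨h1, h2⟩ := log_bracket (a := (1891 / 5000 : ℝ)) (x := (641 / 3141 : ℝ)) (-2) 9 (by norm_num) (by norm_num)
    (by norm_num)
  norm_num [Finset.sum_range_succ] at h1 h2
  constructor <;> linarith [log_two_gt_d9, log_two_lt_d9]

lemma log_3109_5000 : (-237568391 / 500000000 : ℝ) ≤ log (3109 / 5000 : ℝ) ∧ log (3109 / 5000 : ℝ) ≤ (-475136781 / 1000000000 : ℝ) := by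
  obtain ⟨h1, h2⟩ := log_bracket (a := (3109 / 5000 : ℝ)) (x := (609 / 5609 : ℝ)) (-1) 9 (by norm_num) (by norm_num)
    (by norm_num)
  norm_num [Finset.sum_range_succ] at h1 h2
  constructor <;> linarith [log_two_gt_d9, log_two_lt_d9]

lemma log_71_200 : (-103563749 / 100000000 : ℝ) ≤ log (71 / 200 : ℝ) ∧ log (71 / 200 : ℝ) ≤ (-64727343 / 62500000 : ℝ) := by
  obtain ⟨h1, h2⟩ := log_bracket (a := (71 / 200 : ℝ)) (x := (21 / 121 : ℝ)) (-2) 9 (by norm_num) (by norm_num)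
    (by norm_num)
  norm_num [Finset.sum_range_succ] at h1 h2
  constructor <;> linarith [log_two_gt_d9, log_two_lt_d9]

lemma log_129_200 : (-438504963 / 1000000000 : ℝ) ≤ log (129 / 200 : ℝ) ∧ log (129 / 200 : ℝ) ≤ (-438504961 / 1000000000 : ℝ) := by
  obtain ⟨h1, h2⟩ := log_bracket (a := (129 / 200 : ℝ)) (x := (29 / 229 : ℝ)) (-1) 9 (by norm_num) (by norm_num)
    (by norm_num)
  norm_num [Finset.sum_range_succ] at h1 h2
  constructor <;> linarith [log_two_gt_d9, log_two_lt_d9]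

lemma ent_71_200 : (20327719 / 31250000 : ℝ) ≤ binEntropy (71 / 200 : ℝ) ∧ binEntropy (71 / 200 : ℝ) ≤ (650487011 / 1000000000 : ℝ) := by
  obtain ⟨a1, a2⟩ := log_71_200
  obtain ⟨b1, b2⟩ := log_129_200
  rw [binEntropy_eq_negMulLog_add_negMulLog_one_sub, show (1 : ℝ) - (71 / 200 : ℝ) = (129 / 200 : ℝ) by norm_num]
  unfold negMulLog
  constructor <;> linarith

lemma ent_1891_5000 : (331588029 / 500000000 : ℝ) ≤ binEntropy (1891 / 5000 : ℝ) ∧ binEntropy (1891 / 5000 : ℝ) ≤ (663176061 / 1000000000 : ℝ) := by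
  obtain ⟨a1, a2⟩ := log_1891_5000
  obtain ⟨b1, b2⟩ := log_3109_5000
  rw [binEntropy_eq_negMulLog_add_negMulLog_one_sub, show (1 : ℝ) - (1891 / 5000 : ℝ) = (3109 / 5000 : ℝ) by norm_num]
  unfold negMulLog
  constructor <;> linarith

lemma log_903_2000 : (-795179907 / 1000000000 : ℝ) ≤ log (903 / 2000 : ℝ) ∧ log (903 / 2000 : ℝ) ≤ (-159035981 / 200000000 : ℝ) := by
  obtain ⟨h1, h2⟩ := log_bracket (a := (903 / 2000 : ℝ)) (x := (403 / 1403 : ℝ)) (-2) 9 (by norm_num) (by norm_num)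
    (by norm_num)
  norm_num [Finset.sum_range_succ] at h1 h2
  constructor <;> linarith [log_two_gt_d9, log_two_lt_d9]

lemma log_1097_2000 : (-75071 / 125000 : ℝ) ≤ log (1097 / 2000 : ℝ) ∧ log (1097 / 2000 : ℝ) ≤ (-600567999 / 1000000000 : ℝ) := by
  obtain ⟨h1, h2⟩ := log_bracket (a := (1097 / 2000 : ℝ)) (x := (97 / 2097 : ℝ)) (-1) 9 (by norm_num) (by norm_num)
    (by norm_num)
  norm_num [Finset.sum_range_succ] at h1 h2
  constructor <;> linarith [log_two_gt_d9, log_two_lt_d9]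

lemma ent_903_2000 : (344217637 / 500000000 : ℝ) ≤ binEntropy (903 / 2000 : ℝ) ∧ binEntropy (903 / 2000 : ℝ) ≤ (688435277 / 1000000000 : ℝ) := by
  obtain ⟨a1, a2⟩ := log_903_2000
  obtain ⟨b1, b2⟩ := log_1097_2000
  rw [binEntropy_eq_negMulLog_add_negMulLog_one_sub, show (1 : ℝ) - (903 / 2000 : ℝ) = (1097 / 2000 : ℝ) by norm_num]
  unfold negMulLog
  constructor <;> linarith

lemma ent_1097_2000 : (344217637 / 500000000 : ℝ) ≤ binEntropy (1097 / 2000 : ℝ) ∧ binEntropy (1097 / 2000 : ℝ) ≤ (688435277 / 1000000000 : ℝ) := by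
  rw [show (1097 / 2000 : ℝ) = 1 - (903 / 2000 : ℝ) by norm_num, binEntropy_one_sub]
  exact ent_903_2000

lemma log_99_1000 : (-231263543 / 100000000 : ℝ) ≤ log (99 / 1000 : ℝ) ∧ log (99 / 1000 : ℝ) ≤ (-2312635427 / 1000000000 : ℝ) := by
  obtain ⟨h1, h2⟩ := log_bracket (a := (99 / 1000 : ℝ)) (x := (73 / 323 : ℝ)) (-4) 9 (by norm_num) (by norm_num)
    (by norm_num)
  norm_num [Finset.sum_range_succ] at h1 h2
  constructor <;> linarith [log_two_gt_d9, log_two_lt_d9]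

lemma log_901_1000 : (-52125011 / 500000000 : ℝ) ≤ log (901 / 1000 : ℝ) ∧ log (901 / 1000 : ℝ) ≤ (-104250021 / 1000000000 : ℝ) := by
  obtain ⟨h1, h2⟩ := log_bracket (a := (901 / 1000 : ℝ)) (x := (401 / 1401 : ℝ)) (-1) 9 (by norm_num) (by norm_num)
    (by norm_num)
  norm_num [Finset.sum_range_succ] at h1 h2
  constructor <;> linarith [log_two_gt_d9, log_two_lt_d9]

lemma ent_99_1000 : (20180011 / 62500000 : ℝ) ≤ binEntropy (99 / 1000 : ℝ) ∧ binEntropy (99 / 1000 : ℝ) ≤ (161440089 / 500000000 : ℝ) := by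
  obtain ⟨a1, a2⟩ := log_99_1000
  obtain ⟨b1, b2⟩ := log_901_1000
  rw [binEntropy_eq_negMulLog_add_negMulLog_one_sub, show (1 : ℝ) - (99 / 1000 : ℝ) = (901 / 1000 : ℝ) by norm_num]
  unfold negMulLog
  constructor <;> linarith

lemma ent_901_1000 : (20180011 / 62500000 : ℝ) ≤ binEntropy (901 / 1000 : ℝ) ∧ binEntropy (901 / 1000 : ℝ) ≤ (161440089 / 500000000 : ℝ) := by
  rw [show (901 / 1000 : ℝ) = 1 - (99 / 1000 : ℝ) by norm_num, binEntropy_one_sub]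
  exact ent_99_1000

lemma log_23_1000 : (-754452213 / 200000000 : ℝ) ≤ log (23 / 1000 : ℝ) ∧ log (23 / 1000 : ℝ) ≤ (-3772261061 / 1000000000 : ℝ) := by
  obtain ⟨h1, h2⟩ := log_bracket (a := (23 / 1000 : ℝ)) (x := (59 / 309 : ℝ)) (-6) 9 (by norm_num) (by norm_num)
    (by norm_num)
  norm_num [Finset.sum_range_succ] at h1 h2
  constructor <;> linarith [log_two_gt_d9, log_two_lt_d9]

lemma log_977_1000 : (-5817157 / 250000000 : ℝ) ≤ log (977 / 1000 : ℝ) ∧ log (977 / 1000 : ℝ) ≤ (-186149 / 8000000 : ℝ) := by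
  obtain ⟨h1, h2⟩ := log_bracket (a := (977 / 1000 : ℝ)) (x := (477 / 1477 : ℝ)) (-1) 9 (by norm_num) (by norm_num)
    (by norm_num)
  norm_num [Finset.sum_range_succ] at h1 h2
  constructor <;> linarith [log_two_gt_d9, log_two_lt_d9]

lemma ent_23_1000 : (109495451 / 1000000000 : ℝ) ≤ binEntropy (23 / 1000 : ℝ) ∧ binEntropy (23 / 1000 : ℝ) ≤ (21899091 / 200000000 : ℝ) := by
  obtain ⟨a1, a2⟩ := log_23_1000
  obtain ⟨b1, b2⟩ := log_977_1000
  rw [binEntropy_eq_negMulLog_add_negMulLog_one_sub, show (1 : ℝ) - (23 / 1000 : ℝ) = (977 / 1000 : ℝ) by norm_num]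
  unfold negMulLog
  constructor <;> linarith

lemma ent_977_1000 : (109495451 / 1000000000 : ℝ) ≤ binEntropy (977 / 1000 : ℝ) ∧ binEntropy (977 / 1000 : ℝ) ≤ (21899091 / 200000000 : ℝ) := by
  rw [show (977 / 1000 : ℝ) = 1 - (23 / 1000 : ℝ) by norm_num, binEntropy_one_sub]
  exact ent_23_1000

lemma log_61_1000 : (-2796881417 / 1000000000 : ℝ) ≤ log (61 / 1000 : ℝ) ∧ log (61 / 1000 : ℝ) ≤ (-699220353 / 250000000 : ℝ) := by
  obtain ⟨h1, h2⟩ := log_bracket (a := (61 / 1000 : ℝ)) (x := (119 / 369 : ℝ)) (-5) 9 (by norm_num) (by norm_num)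
    (by norm_num)
  norm_num [Finset.sum_range_succ] at h1 h2
  constructor <;> linarith [log_two_gt_d9, log_two_lt_d9]

lemma log_939_1000 : (-62939801 / 1000000000 : ℝ) ≤ log (939 / 1000 : ℝ) ∧ log (939 / 1000 : ℝ) ≤ (-62939799 / 1000000000 : ℝ) := by
  obtain ⟨h1, h2⟩ := log_bracket (a := (939 / 1000 : ℝ)) (x := (439 / 1439 : ℝ)) (-1) 9 (by norm_num) (by norm_num)
    (by norm_num)
  norm_num [Finset.sum_range_succ] at h1 h2
  constructor <;> linarith [log_two_gt_d9, log_two_lt_d9]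

lemma ent_61_1000 : (229710237 / 1000000000 : ℝ) ≤ binEntropy (61 / 1000 : ℝ) ∧ binEntropy (61 / 1000 : ℝ) ≤ (1435689 / 6250000 : ℝ) := by
  obtain ⟨a1, a2⟩ := log_61_1000
  obtain ⟨b1, b2⟩ := log_939_1000
  rw [binEntropy_eq_negMulLog_add_negMulLog_one_sub, show (1 : ℝ) - (61 / 1000 : ℝ) = (939 / 1000 : ℝ) by norm_num]
  unfold negMulLog
  constructor <;> linarith

lemma ent_939_1000 : (229710237 / 1000000000 : ℝ) ≤ binEntropy (939 / 1000 : ℝ) ∧ binEntropy (939 / 1000 : ℝ) ≤ (1435689 / 6250000 : ℝ) := by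
  rw [show (939 / 1000 : ℝ) = 1 - (61 / 1000 : ℝ) by norm_num, binEntropy_one_sub]
  exact ent_61_1000

lemma log_219_2000 : (-2211830731 / 1000000000 : ℝ) ≤ log (219 / 2000 : ℝ) ∧ log (219 / 2000 : ℝ) ≤ (-276478841 / 125000000 : ℝ) := by
  obtain ⟨h1, h2⟩ := log_bracket (a := (219 / 2000 : ℝ)) (x := (47 / 172 : ℝ)) (-4) 9 (by norm_num) (by norm_num)
    (by norm_num)
  norm_num [Finset.sum_range_succ] at h1 h2
  constructor <;> linarith [log_two_gt_d9, log_two_lt_d9]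

lemma log_1781_2000 : (-115972177 / 1000000000 : ℝ) ≤ log (1781 / 2000 : ℝ) ∧ log (1781 / 2000 : ℝ) ≤ (-4638887 / 40000000 : ℝ) := by
  obtain ⟨h1, h2⟩ := log_bracket (a := (1781 / 2000 : ℝ)) (x := (781 / 2781 : ℝ)) (-1) 9 (by norm_num) (by norm_num)
    (by norm_num)
  norm_num [Finset.sum_range_succ] at h1 h2
  constructor <;> linarith [log_two_gt_d9, log_two_lt_d9]

lemma ent_219_2000 : (172734343 / 500000000 : ℝ) ≤ binEntropy (219 / 2000 : ℝ) ∧ binEntropy (219 / 2000 : ℝ) ≤ (345468689 / 1000000000 : ℝ) := by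
  obtain ⟨a1, a2⟩ := log_219_2000
  obtain ⟨b1, b2⟩ := log_1781_2000
  rw [binEntropy_eq_negMulLog_add_negMulLog_one_sub, show (1 : ℝ) - (219 / 2000 : ℝ) = (1781 / 2000 : ℝ) by norm_num]
  unfold negMulLog
  constructor <;> linarith

lemma ent_1781_2000 : (172734343 / 500000000 : ℝ) ≤ binEntropy (1781 / 2000 : ℝ) ∧ binEntropy (1781 / 2000 : ℝ) ≤ (345468689 / 1000000000 : ℝ) := by
  rw [show (1781 / 2000 : ℝ) = 1 - (219 / 2000 : ℝ) by norm_num, binEntropy_one_sub]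
  exact ent_219_2000

lemma log_1_80 : (-4382026637 / 1000000000 : ℝ) ≤ log (1 / 80 : ℝ) ∧ log (1 / 80 : ℝ) ≤ (-547753329 / 125000000 : ℝ) := by
  obtain ⟨h1, h2⟩ := log_bracket (a := (1 / 80 : ℝ)) (x := (3 / 13 : ℝ)) (-7) 9 (by norm_num) (by norm_num)
    (by norm_num)
  norm_num [Finset.sum_range_succ] at h1 h2
  constructor <;> linarith [log_two_gt_d9, log_two_lt_d9]

lemma log_79_80 : (-12578783 / 1000000000 : ℝ) ≤ log (79 / 80 : ℝ) ∧ log (79 / 80 : ℝ) ≤ (-628939 / 50000000 : ℝ) := by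
  obtain ⟨h1, h2⟩ := log_bracket (a := (79 / 80 : ℝ)) (x := (39 / 119 : ℝ)) (-1) 9 (by norm_num) (by norm_num)
    (by norm_num)
  norm_num [Finset.sum_range_succ] at h1 h2
  constructor <;> linarith [log_two_gt_d9, log_two_lt_d9]

lemma ent_1_80 : (33598439 / 500000000 : ℝ) ≤ binEntropy (1 / 80 : ℝ) ∧ binEntropy (1 / 80 : ℝ) ≤ (33598441 / 500000000 : ℝ) := by
  obtain ⟨a1, a2⟩ := log_1_80
  obtain ⟨b1, b2⟩ := log_79_80
  rw [binEntropy_eq_negMulLog_add_negMulLog_one_sub, show (1 : ℝ) - (1 / 80 : ℝ) = (79 / 80 : ℝ) by norm_num]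
  unfold negMulLog
  constructor <;> linarith

lemma ent_79_80 : (33598439 / 500000000 : ℝ) ≤ binEntropy (79 / 80 : ℝ) ∧ binEntropy (79 / 80 : ℝ) ≤ (33598441 / 500000000 : ℝ) := by
  rw [show (79 / 80 : ℝ) = 1 - (1 / 80 : ℝ) by norm_num, binEntropy_one_sub]
  exact ent_1_80

lemma log_4339_12500 : (-529042369 / 500000000 : ℝ) ≤ log (4339 / 12500 : ℝ) ∧ log (4339 / 12500 : ℝ) ≤ (-8266287 / 7812500 : ℝ) := by
  obtain ⟨h1, h2⟩ := log_bracket (a := (4339 / 12500 : ℝ)) (x := (607 / 3732 : ℝ)) (-2) 9 (by norm_num) (by norm_num)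
    (by norm_num)
  norm_num [Finset.sum_range_succ] at h1 h2
  constructor <;> linarith [log_two_gt_d9, log_two_lt_d9]

lemma log_8161_12500 : (-85272387 / 200000000 : ℝ) ≤ log (8161 / 12500 : ℝ) ∧ log (8161 / 12500 : ℝ) ≤ (-426361933 / 1000000000 : ℝ) := by
  obtain ⟨h1, h2⟩ := log_bracket (a := (8161 / 12500 : ℝ)) (x := (1911 / 14411 : ℝ)) (-1) 9 (by norm_num) (by norm_num)
    (by norm_num)
  norm_num [Finset.sum_range_succ] at h1 h2
  constructor <;> linarith [log_two_gt_d9, log_two_lt_d9]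

lemma log_159_500 : (-1145703897 / 1000000000 : ℝ) ≤ log (159 / 500 : ℝ) ∧ log (159 / 500 : ℝ) ≤ (-229140779 / 200000000 : ℝ) := by
  obtain ⟨h1, h2⟩ := log_bracket (a := (159 / 500 : ℝ)) (x := (17 / 142 : ℝ)) (-2) 9 (by norm_num) (by norm_num)
    (by norm_num)
  norm_num [Finset.sum_range_succ] at h1 h2
  constructor <;> linarith [log_two_gt_d9, log_two_lt_d9]

lemma log_341_500 : (-191362811 / 500000000 : ℝ) ≤ log (341 / 500 : ℝ) ∧ log (341 / 500 : ℝ) ≤ (-19136281 / 50000000 : ℝ) := by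
  obtain ⟨h1, h2⟩ := log_bracket (a := (341 / 500 : ℝ)) (x := (91 / 591 : ℝ)) (-1) 9 (by norm_num) (by norm_num)
    (by norm_num)
  norm_num [Finset.sum_range_succ] at h1 h2
  constructor <;> linarith [log_two_gt_d9, log_two_lt_d9]

lemma ent_159_500 : (625352711 / 1000000000 : ℝ) ≤ binEntropy (159 / 500 : ℝ) ∧ binEntropy (159 / 500 : ℝ) ≤ (312676357 / 500000000 : ℝ) := by
  obtain ⟨a1, a2⟩ := log_159_500
  obtain ⟨b1, b2⟩ := log_341_500
  rw [binEntropy_eq_negMulLog_add_negMulLog_one_sub, show (1 : ℝ) - (159 / 500 : ℝ) = (341 / 500 : ℝ) by norm_num]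
  unfold negMulLog
  constructor <;> linarith

lemma ent_4339_12500 : (40352847 / 62500000 : ℝ) ≤ binEntropy (4339 / 12500 : ℝ) ∧ binEntropy (4339 / 12500 : ℝ) ≤ (129129111 / 200000000 : ℝ) := by
  obtain ⟨a1, a2⟩ := log_4339_12500
  obtain ⟨b1, b2⟩ := log_8161_12500
  rw [binEntropy_eq_negMulLog_add_negMulLog_one_sub, show (1 : ℝ) - (4339 / 12500 : ℝ) = (8161 / 12500 : ℝ) by norm_num]
  unfold negMulLog
  constructor <;> linarith

lemma log_879_2000 : (-822117563 / 1000000000 : ℝ) ≤ log (879 / 2000 : ℝ) ∧ log (879 / 2000 : ℝ) ≤ (-822117561 / 1000000000 : ℝ) := by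
  obtain ⟨h1, h2⟩ := log_bracket (a := (879 / 2000 : ℝ)) (x := (379 / 1379 : ℝ)) (-2) 9 (by norm_num) (by norm_num)
    (by norm_num)
  norm_num [Finset.sum_range_succ] at h1 h2
  constructor <;> linarith [log_two_gt_d9, log_two_lt_d9]

lemma log_1121_2000 : (-578926037 / 1000000000 : ℝ) ≤ log (1121 / 2000 : ℝ) ∧ log (1121 / 2000 : ℝ) ≤ (-144731509 / 250000000 : ℝ) := by
  obtain ⟨h1, h2⟩ := log_bracket (a := (1121 / 2000 : ℝ)) (x := (121 / 2121 : ℝ)) (-1) 9 (by norm_num) (by norm_num)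
    (by norm_num)
  norm_num [Finset.sum_range_succ] at h1 h2
  constructor <;> linarith [log_two_gt_d9, log_two_lt_d9]

lemma ent_879_2000 : (685808711 / 1000000000 : ℝ) ≤ binEntropy (879 / 2000 : ℝ) ∧ binEntropy (879 / 2000 : ℝ) ≤ (685808713 / 1000000000 : ℝ) := by
  obtain ⟨a1, a2⟩ := log_879_2000
  obtain ⟨b1, b2⟩ := log_1121_2000
  rw [binEntropy_eq_negMulLog_add_negMulLog_one_sub, show (1 : ℝ) - (879 / 2000 : ℝ) = (1121 / 2000 : ℝ) by norm_num]
  unfold negMulLog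
  constructor <;> linarith

lemma ent_1121_2000 : (685808711 / 1000000000 : ℝ) ≤ binEntropy (1121 / 2000 : ℝ) ∧ binEntropy (1121 / 2000 : ℝ) ≤ (685808713 / 1000000000 : ℝ) := by
  rw [show (1121 / 2000 : ℝ) = 1 - (879 / 2000 : ℝ) by norm_num, binEntropy_one_sub]
  exact ent_879_2000

lemma log_23_200 : (-135176447 / 62500000 : ℝ) ≤ log (23 / 200 : ℝ) ∧ log (23 / 200 : ℝ) ≤ (-2162823149 / 1000000000 : ℝ) := by
  obtain ⟨h1, h2⟩ := log_bracket (a := (23 / 200 : ℝ)) (x := (21 / 71 : ℝ)) (-4) 9 (by norm_num) (by norm_num)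
    (by norm_num)
  norm_num [Finset.sum_range_succ] at h1 h2
  constructor <;> linarith [log_two_gt_d9, log_two_lt_d9]

lemma log_177_200 : (-24433527 / 200000000 : ℝ) ≤ log (177 / 200 : ℝ) ∧ log (177 / 200 : ℝ) ≤ (-122167633 / 1000000000 : ℝ) := by
  obtain ⟨h1, h2⟩ := log_bracket (a := (177 / 200 : ℝ)) (x := (77 / 277 : ℝ)) (-1) 9 (by norm_num) (by norm_num)
    (by norm_num)
  norm_num [Finset.sum_range_succ] at h1 h2
  constructor <;> linarith [log_two_gt_d9, log_two_lt_d9]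

lemma ent_23_200 : (356843017 / 1000000000 : ℝ) ≤ binEntropy (23 / 200 : ℝ) ∧ binEntropy (23 / 200 : ℝ) ≤ (17842151 / 50000000 : ℝ) := by
  obtain ⟨a1, a2⟩ := log_23_200
  obtain ⟨b1, b2⟩ := log_177_200
  rw [binEntropy_eq_negMulLog_add_negMulLog_one_sub, show (1 : ℝ) - (23 / 200 : ℝ) = (177 / 200 : ℝ) by norm_num]
  unfold negMulLog
  constructor <;> linarith

lemma ent_177_200 : (356843017 / 1000000000 : ℝ) ≤ binEntropy (177 / 200 : ℝ) ∧ binEntropy (177 / 200 : ℝ) ≤ (17842151 / 50000000 : ℝ) := by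
  rw [show (177 / 200 : ℝ) = 1 - (23 / 200 : ℝ) by norm_num, binEntropy_one_sub]
  exact ent_23_200

lemma log_9_500 : (-4017383523 / 1000000000 : ℝ) ≤ log (9 / 500 : ℝ) ∧ log (9 / 500 : ℝ) ≤ (-4017383519 / 1000000000 : ℝ) := by
  obtain ⟨h1, h2⟩ := log_bracket (a := (9 / 500 : ℝ)) (x := (19 / 269 : ℝ)) (-6) 9 (by norm_num) (by norm_num)
    (by norm_num)
  norm_num [Finset.sum_range_succ] at h1 h2
  constructor <;> linarith [log_two_gt_d9, log_two_lt_d9]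

lemma log_491_500 : (-18163971 / 1000000000 : ℝ) ≤ log (491 / 500 : ℝ) ∧ log (491 / 500 : ℝ) ≤ (-18163969 / 1000000000 : ℝ) := by
  obtain ⟨h1, h2⟩ := log_bracket (a := (491 / 500 : ℝ)) (x := (241 / 741 : ℝ)) (-1) 9 (by norm_num) (by norm_num)
    (by norm_num)
  norm_num [Finset.sum_range_succ] at h1 h2
  constructor <;> linarith [log_two_gt_d9, log_two_lt_d9]

lemma ent_9_500 : (563437 / 6250000 : ℝ) ≤ binEntropy (9 / 500 : ℝ) ∧ binEntropy (9 / 500 : ℝ) ≤ (90149923 / 1000000000 : ℝ) := by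
  obtain ⟨a1, a2⟩ := log_9_500
  obtain ⟨b1, b2⟩ := log_491_500
  rw [binEntropy_eq_negMulLog_add_negMulLog_one_sub, show (1 : ℝ) - (9 / 500 : ℝ) = (491 / 500 : ℝ) by norm_num]
  unfold negMulLog
  constructor <;> linarith

lemma ent_491_500 : (563437 / 6250000 : ℝ) ≤ binEntropy (491 / 500 : ℝ) ∧ binEntropy (491 / 500 : ℝ) ≤ (90149923 / 1000000000 : ℝ) := by
  rw [show (491 / 500 : ℝ) = 1 - (9 / 500 : ℝ) by norm_num, binEntropy_one_sub]
  exact ent_9_500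

lemma log_133_2000 : (-2710553333 / 1000000000 : ℝ) ≤ log (133 / 2000 : ℝ) ∧ log (133 / 2000 : ℝ) ≤ (-271055333 / 100000000 : ℝ) := by
  obtain ⟨h1, h2⟩ := log_bracket (a := (133 / 2000 : ℝ)) (x := (4 / 129 : ℝ)) (-4) 9 (by norm_num) (by norm_num)
    (by norm_num)
  norm_num [Finset.sum_range_succ] at h1 h2
  constructor <;> linarith [log_two_gt_d9, log_two_lt_d9]

lemma log_1867_2000 : (-68814317 / 1000000000 : ℝ) ≤ log (1867 / 2000 : ℝ) ∧ log (1867 / 2000 : ℝ) ≤ (-13762863 / 200000000 : ℝ) := by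
  obtain ⟨h1, h2⟩ := log_bracket (a := (1867 / 2000 : ℝ)) (x := (867 / 2867 : ℝ)) (-1) 9 (by norm_num) (by norm_num)
    (by norm_num)
  norm_num [Finset.sum_range_succ] at h1 h2
  constructor <;> linarith [log_two_gt_d9, log_two_lt_d9]

lemma ent_133_2000 : (244489959 / 1000000000 : ℝ) ≤ binEntropy (133 / 2000 : ℝ) ∧ binEntropy (133 / 2000 : ℝ) ≤ (122244981 / 500000000 : ℝ) := by
  obtain ⟨a1, a2⟩ := log_133_2000
  obtain ⟨b1, b2⟩ := log_1867_2000
  rw [binEntropy_eq_negMulLog_add_negMulLog_one_sub, show (1 : ℝ) - (133 / 2000 : ℝ) = (1867 / 2000 : ℝ) by norm_num]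
  unfold negMulLog
  constructor <;> linarith

lemma ent_1867_2000 : (244489959 / 1000000000 : ℝ) ≤ binEntropy (1867 / 2000 : ℝ) ∧ binEntropy (1867 / 2000 : ℝ) ≤ (122244981 / 500000000 : ℝ) := by
  rw [show (1867 / 2000 : ℝ) = 1 - (133 / 2000 : ℝ) by norm_num, binEntropy_one_sub]
  exact ent_133_2000

lemma log_127_1000 : (-1031784097 / 500000000 : ℝ) ≤ log (127 / 1000 : ℝ) ∧ log (127 / 1000 : ℝ) ≤ (-2063568191 / 1000000000 : ℝ) := by
  obtain ⟨h1, h2⟩ := log_bracket (a := (127 / 1000 : ℝ)) (x := (1 / 126 : ℝ)) (-3) 9 (by norm_num) (by norm_num)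
    (by norm_num)
  norm_num [Finset.sum_range_succ] at h1 h2
  constructor <;> linarith [log_two_gt_d9, log_two_lt_d9]

lemma log_873_1000 : (-33954931 / 250000000 : ℝ) ≤ log (873 / 1000 : ℝ) ∧ log (873 / 1000 : ℝ) ≤ (-67909861 / 500000000 : ℝ) := by
  obtain ⟨h1, h2⟩ := log_bracket (a := (873 / 1000 : ℝ)) (x := (373 / 1373 : ℝ)) (-1) 9 (by norm_num) (by norm_num)
    (by norm_num)
  norm_num [Finset.sum_range_succ] at h1 h2
  constructor <;> linarith [log_two_gt_d9, log_two_lt_d9]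

lemma ent_127_1000 : (380643777 / 1000000000 : ℝ) ≤ binEntropy (127 / 1000 : ℝ) ∧ binEntropy (127 / 1000 : ℝ) ≤ (19032189 / 50000000 : ℝ) := by
  obtain ⟨a1, a2⟩ := log_127_1000
  obtain ⟨b1, b2⟩ := log_873_1000
  rw [binEntropy_eq_negMulLog_add_negMulLog_one_sub, show (1 : ℝ) - (127 / 1000 : ℝ) = (873 / 1000 : ℝ) by norm_num]
  unfold negMulLog
  constructor <;> linarith

lemma ent_873_1000 : (380643777 / 1000000000 : ℝ) ≤ binEntropy (873 / 1000 : ℝ) ∧ binEntropy (873 / 1000 : ℝ) ≤ (19032189 / 50000000 : ℝ) := by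
  rw [show (873 / 1000 : ℝ) = 1 - (127 / 1000 : ℝ) by norm_num, binEntropy_one_sub]
  exact ent_127_1000

lemma log_3_500 : (-1278998953 / 250000000 : ℝ) ≤ log (3 / 500 : ℝ) ∧ log (3 / 500 : ℝ) ≤ (-5115995807 / 1000000000 : ℝ) := by
  obtain ⟨h1, h2⟩ := log_bracket (a := (3 / 500 : ℝ)) (x := (67 / 317 : ℝ)) (-8) 9 (by norm_num) (by norm_num)
    (by norm_num)
  norm_num [Finset.sum_range_succ] at h1 h2
  constructor <;> linarith [log_two_gt_d9, log_two_lt_d9]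

lemma log_497_500 : (-6018073 / 1000000000 : ℝ) ≤ log (497 / 500 : ℝ) ∧ log (497 / 500 : ℝ) ≤ (-601807 / 100000000 : ℝ) := by
  obtain ⟨h1, h2⟩ := log_bracket (a := (497 / 500 : ℝ)) (x := (247 / 747 : ℝ)) (-1) 9 (by norm_num) (by norm_num)
    (by norm_num)
  norm_num [Finset.sum_range_succ] at h1 h2
  constructor <;> linarith [log_two_gt_d9, log_two_lt_d9]

lemma ent_3_500 : (2292371 / 62500000 : ℝ) ≤ binEntropy (3 / 500 : ℝ) ∧ binEntropy (3 / 500 : ℝ) ≤ (1833897 / 50000000 : ℝ) := by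
  obtain ⟨a1, a2⟩ := log_3_500
  obtain ⟨b1, b2⟩ := log_497_500
  rw [binEntropy_eq_negMulLog_add_negMulLog_one_sub, show (1 : ℝ) - (3 / 500 : ℝ) = (497 / 500 : ℝ) by norm_num]
  unfold negMulLog
  constructor <;> linarith

lemma ent_497_500 : (2292371 / 62500000 : ℝ) ≤ binEntropy (497 / 500 : ℝ) ∧ binEntropy (497 / 500 : ℝ) ≤ (1833897 / 50000000 : ℝ) := by
  rw [show (497 / 500 : ℝ) = 1 - (3 / 500 : ℝ) by norm_num, binEntropy_one_sub]
  exact ent_3_500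

lemma log_7859_25000 : (-578608227 / 500000000 : ℝ) ≤ log (7859 / 25000 : ℝ) ∧ log (7859 / 25000 : ℝ) ≤ (-289304113 / 250000000 : ℝ) := by
  obtain ⟨h1, h2⟩ := log_bracket (a := (7859 / 25000 : ℝ)) (x := (1609 / 14109 : ℝ)) (-2) 9 (by norm_num) (by norm_num)
    (by norm_num)
  norm_num [Finset.sum_range_succ] at h1 h2
  constructor <;> linarith [log_two_gt_d9, log_two_lt_d9]

lemma log_17141_25000 : (-377402571 / 1000000000 : ℝ) ≤ log (17141 / 25000 : ℝ) ∧ log (17141 / 25000 : ℝ) ≤ (-37740257 / 100000000 : ℝ) := by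
  obtain ⟨h1, h2⟩ := log_bracket (a := (17141 / 25000 : ℝ)) (x := (4641 / 29641 : ℝ)) (-1) 9 (by norm_num) (by norm_num)
    (by norm_num)
  norm_num [Finset.sum_range_succ] at h1 h2
  constructor <;> linarith [log_two_gt_d9, log_two_lt_d9]

lemma log_279_1000 : (-638271749 / 500000000 : ℝ) ≤ log (279 / 1000 : ℝ) ∧ log (279 / 1000 : ℝ) ≤ (-159567937 / 125000000 : ℝ) := by
  obtain ⟨h1, h2⟩ := log_bracket (a := (279 / 1000 : ℝ)) (x := (29 / 529 : ℝ)) (-2) 9 (by norm_num) (by norm_num)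
    (by norm_num)
  norm_num [Finset.sum_range_succ] at h1 h2
  constructor <;> linarith [log_two_gt_d9, log_two_lt_d9]

lemma log_721_1000 : (-163558071 / 500000000 : ℝ) ≤ log (721 / 1000 : ℝ) ∧ log (721 / 1000 : ℝ) ≤ (-327116141 / 1000000000 : ℝ) := by
  obtain ⟨h1, h2⟩ := log_bracket (a := (721 / 1000 : ℝ)) (x := (221 / 1221 : ℝ)) (-1) 9 (by norm_num) (by norm_num)
    (by norm_num)
  norm_num [Finset.sum_range_succ] at h1 h2
  constructor <;> linarith [log_two_gt_d9, log_two_lt_d9]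

lemma ent_279_1000 : (592006373 / 1000000000 : ℝ) ≤ binEntropy (279 / 1000 : ℝ) ∧ binEntropy (279 / 1000 : ℝ) ≤ (4736051 / 8000000 : ℝ) := by
  obtain ⟨a1, a2⟩ := log_279_1000
  obtain ⟨b1, b2⟩ := log_721_1000
  rw [binEntropy_eq_negMulLog_add_negMulLog_one_sub, show (1 : ℝ) - (279 / 1000 : ℝ) = (721 / 1000 : ℝ) by norm_num]
  unfold negMulLog
  constructor <;> linarith

lemma ent_7859_25000 : (622544861 / 1000000000 : ℝ) ≤ binEntropy (7859 / 25000 : ℝ) ∧ binEntropy (7859 / 25000 : ℝ) ≤ (19454527 / 31250000 : ℝ) := by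
  obtain ⟨a1, a2⟩ := log_7859_25000
  obtain ⟨b1, b2⟩ := log_17141_25000
  rw [binEntropy_eq_negMulLog_add_negMulLog_one_sub, show (1 : ℝ) - (7859 / 25000 : ℝ) = (17141 / 25000 : ℝ) by norm_num]
  unfold negMulLog
  constructor <;> linarith

lemma log_107_250 : (-212158021 / 250000000 : ℝ) ≤ log (107 / 250 : ℝ) ∧ log (107 / 250 : ℝ) ≤ (-424316041 / 500000000 : ℝ) := by
  obtain ⟨h1, h2⟩ := log_bracket (a := (107 / 250 : ℝ)) (x := (89 / 339 : ℝ)) (-2) 9 (by norm_num) (by norm_num)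
    (by norm_num)
  norm_num [Finset.sum_range_succ] at h1 h2
  constructor <;> linarith [log_two_gt_d9, log_two_lt_d9]

lemma log_143_250 : (-17456759 / 31250000 : ℝ) ≤ log (143 / 250 : ℝ) ∧ log (143 / 250 : ℝ) ≤ (-558616287 / 1000000000 : ℝ) := by
  obtain ⟨h1, h2⟩ := log_bracket (a := (143 / 250 : ℝ)) (x := (9 / 134 : ℝ)) (-1) 9 (by norm_num) (by norm_num)
    (by norm_num)
  norm_num [Finset.sum_range_succ] at h1 h2
  constructor <;> linarith [log_two_gt_d9, log_two_lt_d9]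

lemma ent_107_250 : (682743047 / 1000000000 : ℝ) ≤ binEntropy (107 / 250 : ℝ) ∧ binEntropy (107 / 250 : ℝ) ≤ (682743049 / 1000000000 : ℝ) := by
  obtain ⟨a1, a2⟩ := log_107_250
  obtain ⟨b1, b2⟩ := log_143_250
  rw [binEntropy_eq_negMulLog_add_negMulLog_one_sub, show (1 : ℝ) - (107 / 250 : ℝ) = (143 / 250 : ℝ) by norm_num]
  unfold negMulLog
  constructor <;> linarith

lemma ent_143_250 : (682743047 / 1000000000 : ℝ) ≤ binEntropy (143 / 250 : ℝ) ∧ binEntropy (143 / 250 : ℝ) ≤ (682743049 / 1000000000 : ℝ) := by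
  rw [show (143 / 250 : ℝ) = 1 - (107 / 250 : ℝ) by norm_num, binEntropy_one_sub]
  exact ent_107_250

lemma log_267_2000 : (-1006826901 / 500000000 : ℝ) ≤ log (267 / 2000 : ℝ) ∧ log (267 / 2000 : ℝ) ≤ (-10068269 / 5000000 : ℝ) := by
  obtain ⟨h1, h2⟩ := log_bracket (a := (267 / 2000 : ℝ)) (x := (17 / 517 : ℝ)) (-3) 9 (by norm_num) (by norm_num)
    (by norm_num)
  norm_num [Finset.sum_range_succ] at h1 h2
  constructor <;> linarith [log_two_gt_d9, log_two_lt_d9]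

lemma log_1733_2000 : (-143293171 / 1000000000 : ℝ) ≤ log (1733 / 2000 : ℝ) ∧ log (1733 / 2000 : ℝ) ≤ (-143293169 / 1000000000 : ℝ) := by
  obtain ⟨h1, h2⟩ := log_bracket (a := (1733 / 2000 : ℝ)) (x := (733 / 2733 : ℝ)) (-1) 9 (by norm_num) (by norm_num)
    (by norm_num)
  norm_num [Finset.sum_range_succ] at h1 h2
  constructor <;> linarith [log_two_gt_d9, log_two_lt_d9]

lemma ent_267_2000 : (392986313 / 1000000000 : ℝ) ≤ binEntropy (267 / 2000 : ℝ) ∧ binEntropy (267 / 2000 : ℝ) ≤ (98246579 / 250000000 : ℝ) := by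
  obtain ⟨a1, a2⟩ := log_267_2000
  obtain ⟨b1, b2⟩ := log_1733_2000
  rw [binEntropy_eq_negMulLog_add_negMulLog_one_sub, show (1 : ℝ) - (267 / 2000 : ℝ) = (1733 / 2000 : ℝ) by norm_num]
  unfold negMulLog
  constructor <;> linarith

lemma ent_1733_2000 : (392986313 / 1000000000 : ℝ) ≤ binEntropy (1733 / 2000 : ℝ) ∧ binEntropy (1733 / 2000 : ℝ) ≤ (98246579 / 250000000 : ℝ) := by
  rw [show (1733 / 2000 : ℝ) = 1 - (267 / 2000 : ℝ) by norm_num, binEntropy_one_sub]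
  exact ent_267_2000

lemma log_73_1000 : (-2617295839 / 1000000000 : ℝ) ≤ log (73 / 1000 : ℝ) ∧ log (73 / 1000 : ℝ) ≤ (-654323959 / 250000000 : ℝ) := by
  obtain ⟨h1, h2⟩ := log_bracket (a := (73 / 1000 : ℝ)) (x := (21 / 271 : ℝ)) (-4) 9 (by norm_num) (by norm_num)
    (by norm_num)
  norm_num [Finset.sum_range_succ] at h1 h2
  constructor <;> linarith [log_two_gt_d9, log_two_lt_d9]

lemma log_927_1000 : (-37900857 / 500000000 : ℝ) ≤ log (927 / 1000 : ℝ) ∧ log (927 / 1000 : ℝ) ≤ (-4737607 / 62500000 : ℝ) := by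
  obtain ⟨h1, h2⟩ := log_bracket (a := (927 / 1000 : ℝ)) (x := (427 / 1427 : ℝ)) (-1) 9 (by norm_num) (by norm_num)
    (by norm_num)
  norm_num [Finset.sum_range_succ] at h1 h2
  constructor <;> linarith [log_two_gt_d9, log_two_lt_d9]

lemma ent_73_1000 : (261330783 / 1000000000 : ℝ) ≤ binEntropy (73 / 1000 : ℝ) ∧ binEntropy (73 / 1000 : ℝ) ≤ (130665393 / 500000000 : ℝ) := by
  obtain ⟨a1, a2⟩ := log_73_1000
  obtain ⟨b1, b2⟩ := log_927_1000
  rw [binEntropy_eq_negMulLog_add_negMulLog_one_sub, show (1 : ℝ) - (73 / 1000 : ℝ) = (927 / 1000 : ℝ) by norm_num]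
  unfold negMulLog
  constructor <;> linarith

lemma ent_927_1000 : (261330783 / 1000000000 : ℝ) ≤ binEntropy (927 / 1000 : ℝ) ∧ binEntropy (927 / 1000 : ℝ) ≤ (130665393 / 500000000 : ℝ) := by
  rw [show (927 / 1000 : ℝ) = 1 - (73 / 1000 : ℝ) by norm_num, binEntropy_one_sub]
  exact ent_73_1000

lemma log_29_200 : (-965510769 / 500000000 : ℝ) ≤ log (29 / 200 : ℝ) ∧ log (29 / 200 : ℝ) ≤ (-386204307 / 200000000 : ℝ) := by
  obtain ⟨h1, h2⟩ := log_bracket (a := (29 / 200 : ℝ)) (x := (2 / 27 : ℝ)) (-3) 9 (by norm_num) (by norm_num)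
    (by norm_num)
  norm_num [Finset.sum_range_succ] at h1 h2
  constructor <;> linarith [log_two_gt_d9, log_two_lt_d9]

lemma log_171_200 : (-156653811 / 1000000000 : ℝ) ≤ log (171 / 200 : ℝ) ∧ log (171 / 200 : ℝ) ≤ (-156653809 / 1000000000 : ℝ) := by
  obtain ⟨h1, h2⟩ := log_bracket (a := (171 / 200 : ℝ)) (x := (71 / 271 : ℝ)) (-1) 9 (by norm_num) (by norm_num)
    (by norm_num)
  norm_num [Finset.sum_range_succ] at h1 h2
  constructor <;> linarith [log_two_gt_d9, log_two_lt_d9]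

lemma ent_29_200 : (413937129 / 1000000000 : ℝ) ≤ binEntropy (29 / 200 : ℝ) ∧ binEntropy (29 / 200 : ℝ) ≤ (103484283 / 250000000 : ℝ) := by
  obtain ⟨a1, a2⟩ := log_29_200
  obtain ⟨b1, b2⟩ := log_171_200
  rw [binEntropy_eq_negMulLog_add_negMulLog_one_sub, show (1 : ℝ) - (29 / 200 : ℝ) = (171 / 200 : ℝ) by norm_num]
  unfold negMulLog
  constructor <;> linarith

lemma ent_171_200 : (413937129 / 1000000000 : ℝ) ≤ binEntropy (171 / 200 : ℝ) ∧ binEntropy (171 / 200 : ℝ) ≤ (103484283 / 250000000 : ℝ) := by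
  rw [show (171 / 200 : ℝ) = 1 - (29 / 200 : ℝ) by norm_num, binEntropy_one_sub]
  exact ent_29_200

lemma log_1_1000 : (-3453877641 / 500000000 : ℝ) ≤ log (1 / 1000 : ℝ) ∧ log (1 / 1000 : ℝ) ≤ (-1726938819 / 250000000 : ℝ) := by
  obtain ⟨h1, h2⟩ := log_bracket (a := (1 / 1000 : ℝ)) (x := (3 / 253 : ℝ)) (-10) 9 (by norm_num) (by norm_num)
    (by norm_num)
  norm_num [Finset.sum_range_succ] at h1 h2
  constructor <;> linarith [log_two_gt_d9, log_two_lt_d9]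

lemma log_999_1000 : (-1000501 / 1000000000 : ℝ) ≤ log (999 / 1000 : ℝ) ∧ log (999 / 1000 : ℝ) ≤ (-500249 / 500000000 : ℝ) := by
  obtain ⟨h1, h2⟩ := log_bracket (a := (999 / 1000 : ℝ)) (x := (499 / 1499 : ℝ)) (-1) 9 (by norm_num) (by norm_num)
    (by norm_num)
  norm_num [Finset.sum_range_succ] at h1 h2
  constructor <;> linarith [log_two_gt_d9, log_two_lt_d9]

lemma ent_1_1000 : (1976813 / 250000000 : ℝ) ≤ binEntropy (1 / 1000 : ℝ) ∧ binEntropy (1 / 1000 : ℝ) ≤ (988407 / 125000000 : ℝ) := by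
  obtain ⟨a1, a2⟩ := log_1_1000
  obtain ⟨b1, b2⟩ := log_999_1000
  rw [binEntropy_eq_negMulLog_add_negMulLog_one_sub, show (1 : ℝ) - (1 / 1000 : ℝ) = (999 / 1000 : ℝ) by norm_num]
  unfold negMulLog
  constructor <;> linarith

lemma ent_999_1000 : (1976813 / 250000000 : ℝ) ≤ binEntropy (999 / 1000 : ℝ) ∧ binEntropy (999 / 1000 : ℝ) ≤ (988407 / 125000000 : ℝ) := by
  rw [show (999 / 1000 : ℝ) = 1 - (1 / 1000 : ℝ) by norm_num, binEntropy_one_sub]
  exact ent_1_1000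

lemma log_1429_5000 : (-626231507 / 500000000 : ℝ) ≤ log (1429 / 5000 : ℝ) ∧ log (1429 / 5000 : ℝ) ≤ (-313115753 / 250000000 : ℝ) := by
  obtain ⟨h1, h2⟩ := log_bracket (a := (1429 / 5000 : ℝ)) (x := (179 / 2679 : ℝ)) (-2) 9 (by norm_num) (by norm_num)
    (by norm_num)
  norm_num [Finset.sum_range_succ] at h1 h2
  constructor <;> linarith [log_two_gt_d9, log_two_lt_d9]

lemma log_3571_5000 : (-67318449 / 200000000 : ℝ) ≤ log (3571 / 5000 : ℝ) ∧ log (3571 / 5000 : ℝ) ≤ (-336592243 / 1000000000 : ℝ) := by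
  obtain ⟨h1, h2⟩ := log_bracket (a := (3571 / 5000 : ℝ)) (x := (1071 / 6071 : ℝ)) (-1) 9 (by norm_num) (by norm_num)
    (by norm_num)
  norm_num [Finset.sum_range_succ] at h1 h2
  constructor <;> linarith [log_two_gt_d9, log_two_lt_d9]

lemma log_49_200 : (-140649707 / 100000000 : ℝ) ≤ log (49 / 200 : ℝ) ∧ log (49 / 200 : ℝ) ≤ (-703248533 / 500000000 : ℝ) := by
  obtain ⟨h1, h2⟩ := log_bracket (a := (49 / 200 : ℝ)) (x := (12 / 37 : ℝ)) (-3) 9 (by norm_num) (by norm_num)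
    (by norm_num)
  norm_num [Finset.sum_range_succ] at h1 h2
  constructor <;> linarith [log_two_gt_d9, log_two_lt_d9]

lemma log_151_200 : (-28103753 / 100000000 : ℝ) ≤ log (151 / 200 : ℝ) ∧ log (151 / 200 : ℝ) ≤ (-281037529 / 1000000000 : ℝ) := by
  obtain ⟨h1, h2⟩ := log_bracket (a := (151 / 200 : ℝ)) (x := (51 / 251 : ℝ)) (-1) 9 (by norm_num) (by norm_num)
    (by norm_num)
  norm_num [Finset.sum_range_succ] at h1 h2
  constructor <;> linarith [log_two_gt_d9, log_two_lt_d9]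

lemma ent_49_200 : (111355023 / 200000000 : ℝ) ≤ binEntropy (49 / 200 : ℝ) ∧ binEntropy (49 / 200 : ℝ) ≤ (278387559 / 500000000 : ℝ) := by
  obtain ⟨a1, a2⟩ := log_49_200
  obtain ⟨b1, b2⟩ := log_151_200
  rw [binEntropy_eq_negMulLog_add_negMulLog_one_sub, show (1 : ℝ) - (49 / 200 : ℝ) = (151 / 200 : ℝ) by norm_num]
  unfold negMulLog
  constructor <;> linarith

lemma ent_1429_5000 : (149587027 / 250000000 : ℝ) ≤ binEntropy (1429 / 5000 : ℝ) ∧ binEntropy (1429 / 5000 : ℝ) ≤ (598348111 / 1000000000 : ℝ) := by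
  obtain ⟨a1, a2⟩ := log_1429_5000
  obtain ⟨b1, b2⟩ := log_3571_5000
  rw [binEntropy_eq_negMulLog_add_negMulLog_one_sub, show (1 : ℝ) - (1429 / 5000 : ℝ) = (3571 / 5000 : ℝ) by norm_num]
  unfold negMulLog
  constructor <;> linarith

lemma log_769_2000 : (-955811491 / 1000000000 : ℝ) ≤ log (769 / 2000 : ℝ) ∧ log (769 / 2000 : ℝ) ≤ (-955811489 / 1000000000 : ℝ) := by
  obtain ⟨h1, h2⟩ := log_bracket (a := (769 / 2000 : ℝ)) (x := (269 / 1269 : ℝ)) (-2) 9 (by norm_num) (by norm_num)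
    (by norm_num)
  norm_num [Finset.sum_range_succ] at h1 h2
  constructor <;> linarith [log_two_gt_d9, log_two_lt_d9]

lemma log_1231_2000 : (-242660167 / 500000000 : ℝ) ≤ log (1231 / 2000 : ℝ) ∧ log (1231 / 2000 : ℝ) ≤ (-485320333 / 1000000000 : ℝ) := by
  obtain ⟨h1, h2⟩ := log_bracket (a := (1231 / 2000 : ℝ)) (x := (231 / 2231 : ℝ)) (-1) 9 (by norm_num) (by norm_num)
    (by norm_num)
  norm_num [Finset.sum_range_succ] at h1 h2
  constructor <;> linarith [log_two_gt_d9, log_two_lt_d9]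

lemma ent_769_2000 : (333112091 / 500000000 : ℝ) ≤ binEntropy (769 / 2000 : ℝ) ∧ binEntropy (769 / 2000 : ℝ) ≤ (83278023 / 125000000 : ℝ) := by
  obtain ⟨a1, a2⟩ := log_769_2000
  obtain ⟨b1, b2⟩ := log_1231_2000
  rw [binEntropy_eq_negMulLog_add_negMulLog_one_sub, show (1 : ℝ) - (769 / 2000 : ℝ) = (1231 / 2000 : ℝ) by norm_num]
  unfold negMulLog
  constructor <;> linarith

lemma ent_1231_2000 : (333112091 / 500000000 : ℝ) ≤ binEntropy (1231 / 2000 : ℝ) ∧ binEntropy (1231 / 2000 : ℝ) ≤ (83278023 / 125000000 : ℝ) := by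
  rw [show (1231 / 2000 : ℝ) = 1 - (769 / 2000 : ℝ) by norm_num, binEntropy_one_sub]
  exact ent_769_2000

lemma log_18_125 : (-1937941981 / 1000000000 : ℝ) ≤ log (18 / 125 : ℝ) ∧ log (18 / 125 : ℝ) ≤ (-968970989 / 500000000 : ℝ) := by
  obtain ⟨h1, h2⟩ := log_bracket (a := (18 / 125 : ℝ)) (x := (19 / 269 : ℝ)) (-3) 9 (by norm_num) (by norm_num)
    (by norm_num)
  norm_num [Finset.sum_range_succ] at h1 h2
  constructor <;> linarith [log_two_gt_d9, log_two_lt_d9]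

lemma log_107_125 : (-19435613 / 125000000 : ℝ) ≤ log (107 / 125 : ℝ) ∧ log (107 / 125 : ℝ) ≤ (-77742451 / 500000000 : ℝ) := by
  obtain ⟨h1, h2⟩ := log_bracket (a := (107 / 125 : ℝ)) (x := (89 / 339 : ℝ)) (-1) 9 (by norm_num) (by norm_num)
    (by norm_num)
  norm_num [Finset.sum_range_succ] at h1 h2
  constructor <;> linarith [log_two_gt_d9, log_two_lt_d9]

lemma ent_18_125 : (321999 / 781250 : ℝ) ≤ binEntropy (18 / 125 : ℝ) ∧ binEntropy (18 / 125 : ℝ) ≤ (103039681 / 250000000 : ℝ) := by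
  obtain ⟨a1, a2⟩ := log_18_125
  obtain ⟨b1, b2⟩ := log_107_125
  rw [binEntropy_eq_negMulLog_add_negMulLog_one_sub, show (1 : ℝ) - (18 / 125 : ℝ) = (107 / 125 : ℝ) by norm_num]
  unfold negMulLog
  constructor <;> linarith

lemma ent_107_125 : (321999 / 781250 : ℝ) ≤ binEntropy (107 / 125 : ℝ) ∧ binEntropy (107 / 125 : ℝ) ≤ (103039681 / 250000000 : ℝ) := by
  rw [show (107 / 125 : ℝ) = 1 - (18 / 125 : ℝ) by norm_num, binEntropy_one_sub]
  exact ent_18_125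

lemma log_9_125 : (-2631089161 / 1000000000 : ℝ) ≤ log (9 / 125 : ℝ) ∧ log (9 / 125 : ℝ) ≤ (-1315544579 / 500000000 : ℝ) := by
  obtain ⟨h1, h2⟩ := log_bracket (a := (9 / 125 : ℝ)) (x := (19 / 269 : ℝ)) (-4) 9 (by norm_num) (by norm_num)
    (by norm_num)
  norm_num [Finset.sum_range_succ] at h1 h2
  constructor <;> linarith [log_two_gt_d9, log_two_lt_d9]

lemma log_116_125 : (-74723547 / 1000000000 : ℝ) ≤ log (116 / 125 : ℝ) ∧ log (116 / 125 : ℝ) ≤ (-14944709 / 200000000 : ℝ) := by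
  obtain ⟨h1, h2⟩ := log_bracket (a := (116 / 125 : ℝ)) (x := (107 / 357 : ℝ)) (-1) 9 (by norm_num) (by norm_num)
    (by norm_num)
  norm_num [Finset.sum_range_succ] at h1 h2
  constructor <;> linarith [log_two_gt_d9, log_two_lt_d9]

lemma ent_9_125 : (258781869 / 1000000000 : ℝ) ≤ binEntropy (9 / 125 : ℝ) ∧ binEntropy (9 / 125 : ℝ) ≤ (16173867 / 62500000 : ℝ) := by
  obtain ⟨a1, a2⟩ := log_9_125
  obtain ⟨b1, b2⟩ := log_116_125
  rw [binEntropy_eq_negMulLog_add_negMulLog_one_sub, show (1 : ℝ) - (9 / 125 : ℝ) = (116 / 125 : ℝ) by norm_num]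
  unfold negMulLog
  constructor <;> linarith

lemma ent_116_125 : (258781869 / 1000000000 : ℝ) ≤ binEntropy (116 / 125 : ℝ) ∧ binEntropy (116 / 125 : ℝ) ≤ (16173867 / 62500000 : ℝ) := by
  rw [show (116 / 125 : ℝ) = 1 - (9 / 125 : ℝ) by norm_num, binEntropy_one_sub]
  exact ent_9_125

lemma log_231_1000 : (-146533757 / 100000000 : ℝ) ≤ log (231 / 1000 : ℝ) ∧ log (231 / 1000 : ℝ) ≤ (-1465337567 / 1000000000 : ℝ) := by
  obtain ⟨h1, h2⟩ := log_bracket (a := (231 / 1000 : ℝ)) (x := (53 / 178 : ℝ)) (-3) 9 (by norm_num) (by norm_num)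
    (by norm_num)
  norm_num [Finset.sum_range_succ] at h1 h2
  constructor <;> linarith [log_two_gt_d9, log_two_lt_d9]

lemma log_769_1000 : (-26266431 / 100000000 : ℝ) ≤ log (769 / 1000 : ℝ) ∧ log (769 / 1000 : ℝ) ≤ (-262664309 / 1000000000 : ℝ) := by
  obtain ⟨h1, h2⟩ := log_bracket (a := (769 / 1000 : ℝ)) (x := (269 / 1269 : ℝ)) (-1) 9 (by norm_num) (by norm_num)
    (by norm_num)
  norm_num [Finset.sum_range_succ] at h1 h2
  constructor <;> linarith [log_two_gt_d9, log_two_lt_d9]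

lemma ent_231_1000 : (540481831 / 1000000000 : ℝ) ≤ binEntropy (231 / 1000 : ℝ) ∧ binEntropy (231 / 1000 : ℝ) ≤ (270240917 / 500000000 : ℝ) := by
  obtain ⟨a1, a2⟩ := log_231_1000
  obtain ⟨b1, b2⟩ := log_769_1000
  rw [binEntropy_eq_negMulLog_add_negMulLog_one_sub, show (1 : ℝ) - (231 / 1000 : ℝ) = (769 / 1000 : ℝ) by norm_num]
  unfold negMulLog
  constructor <;> linarith

lemma ent_769_1000 : (540481831 / 1000000000 : ℝ) ≤ binEntropy (769 / 1000 : ℝ) ∧ binEntropy (769 / 1000 : ℝ) ≤ (270240917 / 500000000 : ℝ) := by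
  rw [show (769 / 1000 : ℝ) = 1 - (231 / 1000 : ℝ) by norm_num, binEntropy_one_sub]
  exact ent_231_1000

lemma log_231_2000 : (-8633939 / 4000000 : ℝ) ≤ log (231 / 2000 : ℝ) ∧ log (231 / 2000 : ℝ) ≤ (-2158484747 / 1000000000 : ℝ) := by
  obtain ⟨h1, h2⟩ := log_bracket (a := (231 / 2000 : ℝ)) (x := (53 / 178 : ℝ)) (-4) 9 (by norm_num) (by norm_num)
    (by norm_num)
  norm_num [Finset.sum_range_succ] at h1 h2
  constructor <;> linarith [log_two_gt_d9, log_two_lt_d9]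

lemma log_1769_2000 : (-61366383 / 500000000 : ℝ) ≤ log (1769 / 2000 : ℝ) ∧ log (1769 / 2000 : ℝ) ≤ (-24546553 / 200000000 : ℝ) := by
  obtain ⟨h1, h2⟩ := log_bracket (a := (1769 / 2000 : ℝ)) (x := (769 / 2769 : ℝ)) (-1) 9 (by norm_num) (by norm_num)
    (by norm_num)
  norm_num [Finset.sum_range_succ] at h1 h2
  constructor <;> linarith [log_two_gt_d9, log_two_lt_d9]

lemma ent_231_2000 : (178931059 / 500000000 : ℝ) ≤ binEntropy (231 / 2000 : ℝ) ∧ binEntropy (231 / 2000 : ℝ) ≤ (357862121 / 1000000000 : ℝ) := by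
  obtain ⟨a1, a2⟩ := log_231_2000
  obtain ⟨b1, b2⟩ := log_1769_2000
  rw [binEntropy_eq_negMulLog_add_negMulLog_one_sub, show (1 : ℝ) - (231 / 2000 : ℝ) = (1769 / 2000 : ℝ) by norm_num]
  unfold negMulLog
  constructor <;> linarith

lemma ent_1769_2000 : (178931059 / 500000000 : ℝ) ≤ binEntropy (1769 / 2000 : ℝ) ∧ binEntropy (1769 / 2000 : ℝ) ≤ (357862121 / 1000000000 : ℝ) := by
  rw [show (1769 / 2000 : ℝ) = 1 - (231 / 2000 : ℝ) by norm_num, binEntropy_one_sub]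
  exact ent_231_2000

lemma log_5087_25000 : (-39804689 / 25000000 : ℝ) ≤ log (5087 / 25000 : ℝ) ∧ log (5087 / 25000 : ℝ) ≤ (-796093779 / 500000000 : ℝ) := by
  obtain ⟨h1, h2⟩ := log_bracket (a := (5087 / 25000 : ℝ)) (x := (981 / 4106 : ℝ)) (-3) 9 (by norm_num) (by norm_num)
    (by norm_num)
  norm_num [Finset.sum_range_succ] at h1 h2
  constructor <;> linarith [log_two_gt_d9, log_two_lt_d9]

lemma log_19913_25000 : (-227503041 / 1000000000 : ℝ) ≤ log (19913 / 25000 : ℝ) ∧ log (19913 / 25000 : ℝ) ≤ (-227503039 / 1000000000 : ℝ) := by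
  obtain ⟨h1, h2⟩ := log_bracket (a := (19913 / 25000 : ℝ)) (x := (7413 / 32413 : ℝ)) (-1) 9 (by norm_num) (by norm_num)
    (by norm_num)
  norm_num [Finset.sum_range_succ] at h1 h2
  constructor <;> linarith [log_two_gt_d9, log_two_lt_d9]

lemma log_147_1000 : (-1917322693 / 1000000000 : ℝ) ≤ log (147 / 1000 : ℝ) ∧ log (147 / 1000 : ℝ) ≤ (-1917322691 / 1000000000 : ℝ) := by
  obtain ⟨h1, h2⟩ := log_bracket (a := (147 / 1000 : ℝ)) (x := (11 / 136 : ℝ)) (-3) 9 (by norm_num) (by norm_num)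
    (by norm_num)
  norm_num [Finset.sum_range_succ] at h1 h2
  constructor <;> linarith [log_two_gt_d9, log_two_lt_d9]

lemma log_853_1000 : (-39748933 / 250000000 : ℝ) ≤ log (853 / 1000 : ℝ) ∧ log (853 / 1000 : ℝ) ≤ (-158995731 / 1000000000 : ℝ) := by
  obtain ⟨h1, h2⟩ := log_bracket (a := (853 / 1000 : ℝ)) (x := (353 / 1353 : ℝ)) (-1) 9 (by norm_num) (by norm_num)
    (by norm_num)
  norm_num [Finset.sum_range_succ] at h1 h2
  constructor <;> linarith [log_two_gt_d9, log_two_lt_d9]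

lemma ent_147_1000 : (208734897 / 500000000 : ℝ) ≤ binEntropy (147 / 1000 : ℝ) ∧ binEntropy (147 / 1000 : ℝ) ≤ (104367449 / 250000000 : ℝ) := by
  obtain ⟨a1, a2⟩ := log_147_1000
  obtain ⟨b1, b2⟩ := log_853_1000
  rw [binEntropy_eq_negMulLog_add_negMulLog_one_sub, show (1 : ℝ) - (147 / 1000 : ℝ) = (853 / 1000 : ℝ) by norm_num]
  unfold negMulLog
  constructor <;> linarith

lemma ent_5087_25000 : (126297261 / 250000000 : ℝ) ≤ binEntropy (5087 / 25000 : ℝ) ∧ binEntropy (5087 / 25000 : ℝ) ≤ (505189047 / 1000000000 : ℝ) := by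
  obtain ⟨a1, a2⟩ := log_5087_25000
  obtain ⟨b1, b2⟩ := log_19913_25000
  rw [binEntropy_eq_negMulLog_add_negMulLog_one_sub, show (1 : ℝ) - (5087 / 25000 : ℝ) = (19913 / 25000 : ℝ) by norm_num]
  unfold negMulLog
  constructor <;> linarith

lemma log_119_500 : (-1435484607 / 1000000000 : ℝ) ≤ log (119 / 500 : ℝ) ∧ log (119 / 500 : ℝ) ≤ (-358871151 / 250000000 : ℝ) := by
  obtain ⟨h1, h2⟩ := log_bracket (a := (119 / 500 : ℝ)) (x := (113 / 363 : ℝ)) (-3) 9 (by norm_num) (by norm_num)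
    (by norm_num)
  norm_num [Finset.sum_range_succ] at h1 h2
  constructor <;> linarith [log_two_gt_d9, log_two_lt_d9]

lemma log_381_500 : (-67952181 / 250000000 : ℝ) ≤ log (381 / 500 : ℝ) ∧ log (381 / 500 : ℝ) ≤ (-271808723 / 1000000000 : ℝ) := by
  obtain ⟨h1, h2⟩ := log_bracket (a := (381 / 500 : ℝ)) (x := (131 / 631 : ℝ)) (-1) 9 (by norm_num) (by norm_num)
    (by norm_num)
  norm_num [Finset.sum_range_succ] at h1 h2
  constructor <;> linarith [log_two_gt_d9, log_two_lt_d9]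

lemma ent_119_500 : (274381791 / 500000000 : ℝ) ≤ binEntropy (119 / 500 : ℝ) ∧ binEntropy (119 / 500 : ℝ) ≤ (109752717 / 200000000 : ℝ) := by
  obtain ⟨a1, a2⟩ := log_119_500
  obtain ⟨b1, b2⟩ := log_381_500
  rw [binEntropy_eq_negMulLog_add_negMulLog_one_sub, show (1 : ℝ) - (119 / 500 : ℝ) = (381 / 500 : ℝ) by norm_num]
  unfold negMulLog
  constructor <;> linarith

lemma ent_381_500 : (274381791 / 500000000 : ℝ) ≤ binEntropy (381 / 500 : ℝ) ∧ binEntropy (381 / 500 : ℝ) ≤ (109752717 / 200000000 : ℝ) := by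
  rw [show (381 / 500 : ℝ) = 1 - (119 / 500 : ℝ) by norm_num, binEntropy_one_sub]
  exact ent_119_500

lemma log_119_250 : (-371168713 / 500000000 : ℝ) ≤ log (119 / 250 : ℝ) ∧ log (119 / 250 : ℝ) ≤ (-742337423 / 1000000000 : ℝ) := by
  obtain ⟨h1, h2⟩ := log_bracket (a := (119 / 250 : ℝ)) (x := (113 / 363 : ℝ)) (-2) 9 (by norm_num) (by norm_num)
    (by norm_num)
  norm_num [Finset.sum_range_succ] at h1 h2
  constructor <;> linarith [log_two_gt_d9, log_two_lt_d9]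

lemma log_131_250 : (-129252719 / 200000000 : ℝ) ≤ log (131 / 250 : ℝ) ∧ log (131 / 250 : ℝ) ≤ (-323131797 / 500000000 : ℝ) := by
  obtain ⟨h1, h2⟩ := log_bracket (a := (131 / 250 : ℝ)) (x := (3 / 128 : ℝ)) (-1) 9 (by norm_num) (by norm_num)
    (by norm_num)
  norm_num [Finset.sum_range_succ] at h1 h2
  constructor <;> linarith [log_two_gt_d9, log_two_lt_d9]

lemma ent_119_250 : (43249671 / 62500000 : ℝ) ≤ binEntropy (119 / 250 : ℝ) ∧ binEntropy (119 / 250 : ℝ) ≤ (691994739 / 1000000000 : ℝ) := by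
  obtain ⟨a1, a2⟩ := log_119_250
  obtain ⟨b1, b2⟩ := log_131_250
  rw [binEntropy_eq_negMulLog_add_negMulLog_one_sub, show (1 : ℝ) - (119 / 250 : ℝ) = (131 / 250 : ℝ) by norm_num]
  unfold negMulLog
  constructor <;> linarith

lemma log_131_500 : (-167426347 / 125000000 : ℝ) ≤ log (131 / 500 : ℝ) ∧ log (131 / 500 : ℝ) ≤ (-669705387 / 500000000 : ℝ) := by
  obtain ⟨h1, h2⟩ := log_bracket (a := (131 / 500 : ℝ)) (x := (3 / 128 : ℝ)) (-2) 9 (by norm_num) (by norm_num)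
    (by norm_num)
  norm_num [Finset.sum_range_succ] at h1 h2
  constructor <;> linarith [log_two_gt_d9, log_two_lt_d9]

lemma log_369_500 : (-60762291 / 200000000 : ℝ) ≤ log (369 / 500 : ℝ) ∧ log (369 / 500 : ℝ) ≤ (-151905727 / 500000000 : ℝ) := by
  obtain ⟨h1, h2⟩ := log_bracket (a := (369 / 500 : ℝ)) (x := (119 / 619 : ℝ)) (-1) 9 (by norm_num) (by norm_num)
    (by norm_num)
  norm_num [Finset.sum_range_succ] at h1 h2
  constructor <;> linarith [log_two_gt_d9, log_two_lt_d9]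

lemma ent_131_500 : (23005539 / 40000000 : ℝ) ≤ binEntropy (131 / 500 : ℝ) ∧ binEntropy (131 / 500 : ℝ) ≤ (287569239 / 500000000 : ℝ) := by
  obtain ⟨a1, a2⟩ := log_131_500
  obtain ⟨b1, b2⟩ := log_369_500
  rw [binEntropy_eq_negMulLog_add_negMulLog_one_sub, show (1 : ℝ) - (131 / 500 : ℝ) = (369 / 500 : ℝ) by norm_num]
  unfold negMulLog
  constructor <;> linarith

lemma ent_369_500 : (23005539 / 40000000 : ℝ) ≤ binEntropy (369 / 500 : ℝ) ∧ binEntropy (369 / 500 : ℝ) ≤ (287569239 / 500000000 : ℝ) := by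
  rw [show (369 / 500 : ℝ) = 1 - (131 / 500 : ℝ) by norm_num, binEntropy_one_sub]
  exact ent_131_500

lemma log_263_2500 : (-112594599 / 50000000 : ℝ) ≤ log (263 / 2500 : ℝ) ∧ log (263 / 2500 : ℝ) ≤ (-2251891977 / 1000000000 : ℝ) := by
  obtain ⟨h1, h2⟩ := log_bracket (a := (263 / 2500 : ℝ)) (x := (427 / 1677 : ℝ)) (-4) 9 (by norm_num) (by norm_num)
    (by norm_num)
  norm_num [Finset.sum_range_succ] at h1 h2
  constructor <;> linarith [log_two_gt_d9, log_two_lt_d9]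

lemma log_2237_2500 : (-2223101 / 20000000 : ℝ) ≤ log (2237 / 2500 : ℝ) ∧ log (2237 / 2500 : ℝ) ≤ (-111155049 / 1000000000 : ℝ) := by
  obtain ⟨h1, h2⟩ := log_bracket (a := (2237 / 2500 : ℝ)) (x := (987 / 3487 : ℝ)) (-1) 9 (by norm_num) (by norm_num)
    (by norm_num)
  norm_num [Finset.sum_range_succ] at h1 h2
  constructor <;> linarith [log_two_gt_d9, log_two_lt_d9]

lemma log_3_100 : (-3506557899 / 1000000000 : ℝ) ≤ log (3 / 100 : ℝ) ∧ log (3 / 100 : ℝ) ≤ (-701311579 / 200000000 : ℝ) := by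
  obtain ⟨h1, h2⟩ := log_bracket (a := (3 / 100 : ℝ)) (x := (23 / 73 : ℝ)) (-6) 9 (by norm_num) (by norm_num)
    (by norm_num)
  norm_num [Finset.sum_range_succ] at h1 h2
  constructor <;> linarith [log_two_gt_d9, log_two_lt_d9]

lemma log_97_100 : (-3807401 / 125000000 : ℝ) ≤ log (97 / 100 : ℝ) ∧ log (97 / 100 : ℝ) ≤ (-15229603 / 500000000 : ℝ) := by
  obtain ⟨h1, h2⟩ := log_bracket (a := (97 / 100 : ℝ)) (x := (47 / 147 : ℝ)) (-1) 9 (by norm_num) (by norm_num)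
    (by norm_num)
  norm_num [Finset.sum_range_succ] at h1 h2
  constructor <;> linarith [log_two_gt_d9, log_two_lt_d9]

lemma ent_3_100 : (67371083 / 500000000 : ℝ) ≤ binEntropy (3 / 100 : ℝ) ∧ binEntropy (3 / 100 : ℝ) ≤ (134742169 / 1000000000 : ℝ) := by
  obtain ⟨a1, a2⟩ := log_3_100
  obtain ⟨b1, b2⟩ := log_97_100
  rw [binEntropy_eq_negMulLog_add_negMulLog_one_sub, show (1 : ℝ) - (3 / 100 : ℝ) = (97 / 100 : ℝ) by norm_num]
  unfold negMulLog
  constructor <;> linarith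

lemma ent_263_2500 : (336360573 / 1000000000 : ℝ) ≤ binEntropy (263 / 2500 : ℝ) ∧ binEntropy (263 / 2500 : ℝ) ≤ (2627817 / 7812500 : ℝ) := by
  obtain ⟨a1, a2⟩ := log_263_2500
  obtain ⟨b1, b2⟩ := log_2237_2500
  rw [binEntropy_eq_negMulLog_add_negMulLog_one_sub, show (1 : ℝ) - (263 / 2500 : ℝ) = (2237 / 2500 : ℝ) by norm_num]
  unfold negMulLog
  constructor <;> linarith

lemma log_119_2000 : (-352722371 / 125000000 : ℝ) ≤ log (119 / 2000 : ℝ) ∧ log (119 / 2000 : ℝ) ≤ (-705444741 / 250000000 : ℝ) := by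
  obtain ⟨h1, h2⟩ := log_bracket (a := (119 / 2000 : ℝ)) (x := (113 / 363 : ℝ)) (-5) 9 (by norm_num) (by norm_num)
    (by norm_num)
  norm_num [Finset.sum_range_succ] at h1 h2
  constructor <;> linarith [log_two_gt_d9, log_two_lt_d9]

lemma log_1881_2000 : (-61343631 / 1000000000 : ℝ) ≤ log (1881 / 2000 : ℝ) ∧ log (1881 / 2000 : ℝ) ≤ (-61343629 / 1000000000 : ℝ) := by
  obtain ⟨h1, h2⟩ := log_bracket (a := (1881 / 2000 : ℝ)) (x := (881 / 2881 : ℝ)) (-1) 9 (by norm_num) (by norm_num)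
    (by norm_num)
  norm_num [Finset.sum_range_succ] at h1 h2
  constructor <;> linarith [log_two_gt_d9, log_two_lt_d9]

lemma ent_119_2000 : (225589531 / 1000000000 : ℝ) ≤ binEntropy (119 / 2000 : ℝ) ∧ binEntropy (119 / 2000 : ℝ) ≤ (112794767 / 500000000 : ℝ) := by
  obtain ⟨a1, a2⟩ := log_119_2000
  obtain ⟨b1, b2⟩ := log_1881_2000
  rw [binEntropy_eq_negMulLog_add_negMulLog_one_sub, show (1 : ℝ) - (119 / 2000 : ℝ) = (1881 / 2000 : ℝ) by norm_num]
  unfold negMulLog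
  constructor <;> linarith

lemma ent_1881_2000 : (225589531 / 1000000000 : ℝ) ≤ binEntropy (1881 / 2000 : ℝ) ∧ binEntropy (1881 / 2000 : ℝ) ≤ (112794767 / 500000000 : ℝ) := by
  rw [show (1881 / 2000 : ℝ) = 1 - (119 / 2000 : ℝ) by norm_num, binEntropy_one_sub]
  exact ent_119_2000

lemma log_119_1000 : (-2128631787 / 1000000000 : ℝ) ≤ log (119 / 1000 : ℝ) ∧ log (119 / 1000 : ℝ) ≤ (-266078973 / 125000000 : ℝ) := by
  obtain ⟨h1, h2⟩ := log_bracket (a := (119 / 1000 : ℝ)) (x := (113 / 363 : ℝ)) (-4) 9 (by norm_num) (by norm_num)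
    (by norm_num)
  norm_num [Finset.sum_range_succ] at h1 h2
  constructor <;> linarith [log_two_gt_d9, log_two_lt_d9]

lemma log_881_1000 : (-63348827 / 500000000 : ℝ) ≤ log (881 / 1000 : ℝ) ∧ log (881 / 1000 : ℝ) ≤ (-31674413 / 250000000 : ℝ) := by
  obtain ⟨h1, h2⟩ := log_bracket (a := (881 / 1000 : ℝ)) (x := (381 / 1381 : ℝ)) (-1) 9 (by norm_num) (by norm_num)
    (by norm_num)
  norm_num [Finset.sum_range_succ] at h1 h2
  constructor <;> linarith [log_two_gt_d9, log_two_lt_d9]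

lemma ent_119_1000 : (364927813 / 1000000000 : ℝ) ≤ binEntropy (119 / 1000 : ℝ) ∧ binEntropy (119 / 1000 : ℝ) ≤ (45615977 / 125000000 : ℝ) := by
  obtain ⟨a1, a2⟩ := log_119_1000
  obtain ⟨b1, b2⟩ := log_881_1000
  rw [binEntropy_eq_negMulLog_add_negMulLog_one_sub, show (1 : ℝ) - (119 / 1000 : ℝ) = (881 / 1000 : ℝ) by norm_num]
  unfold negMulLog
  constructor <;> linarith

lemma log_881_2000 : (-163968967 / 200000000 : ℝ) ≤ log (881 / 2000 : ℝ) ∧ log (881 / 2000 : ℝ) ≤ (-819844833 / 1000000000 : ℝ) := by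
  obtain ⟨h1, h2⟩ := log_bracket (a := (881 / 2000 : ℝ)) (x := (381 / 1381 : ℝ)) (-2) 9 (by norm_num) (by norm_num)
    (by norm_num)
  norm_num [Finset.sum_range_succ] at h1 h2
  constructor <;> linarith [log_two_gt_d9, log_two_lt_d9]

lemma log_1119_2000 : (-72588969 / 125000000 : ℝ) ≤ log (1119 / 2000 : ℝ) ∧ log (1119 / 2000 : ℝ) ≤ (-2322847 / 4000000 : ℝ) := by
  obtain ⟨h1, h2⟩ := log_bracket (a := (1119 / 2000 : ℝ)) (x := (119 / 2119 : ℝ)) (-1) 9 (by norm_num) (by norm_num)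
    (by norm_num)
  norm_num [Finset.sum_range_succ] at h1 h2
  constructor <;> linarith [log_two_gt_d9, log_two_lt_d9]

lemma ent_881_2000 : (686049873 / 1000000000 : ℝ) ≤ binEntropy (881 / 2000 : ℝ) ∧ binEntropy (881 / 2000 : ℝ) ≤ (171512469 / 250000000 : ℝ) := by
  obtain ⟨a1, a2⟩ := log_881_2000
  obtain ⟨b1, b2⟩ := log_1119_2000
  rw [binEntropy_eq_negMulLog_add_negMulLog_one_sub, show (1 : ℝ) - (881 / 2000 : ℝ) = (1119 / 2000 : ℝ) by norm_num]
  unfold negMulLog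
  constructor <;> linarith

lemma ent_1119_2000 : (686049873 / 1000000000 : ℝ) ≤ binEntropy (1119 / 2000 : ℝ) ∧ binEntropy (1119 / 2000 : ℝ) ≤ (171512469 / 250000000 : ℝ) := by
  rw [show (1119 / 2000 : ℝ) = 1 - (881 / 2000 : ℝ) by norm_num, binEntropy_one_sub]
  exact ent_881_2000

lemma log_421_5000 : (-2474560359 / 1000000000 : ℝ) ≤ log (421 / 5000 : ℝ) ∧ log (421 / 5000 : ℝ) ≤ (-618640089 / 250000000 : ℝ) := by
  obtain ⟨h1, h2⟩ := log_bracket (a := (421 / 5000 : ℝ)) (x := (217 / 1467 : ℝ)) (-4) 9 (by norm_num) (by norm_num)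
    (by norm_num)
  norm_num [Finset.sum_range_succ] at h1 h2
  constructor <;> linarith [log_two_gt_d9, log_two_lt_d9]

lemma log_4579_5000 : (-549733 / 6250000 : ℝ) ≤ log (4579 / 5000 : ℝ) ∧ log (4579 / 5000 : ℝ) ≤ (-43978639 / 500000000 : ℝ) := by
  obtain ⟨h1, h2⟩ := log_bracket (a := (4579 / 5000 : ℝ)) (x := (2079 / 7079 : ℝ)) (-1) 9 (by norm_num) (by norm_num)
    (by norm_num)
  norm_num [Finset.sum_range_succ] at h1 h2
  constructor <;> linarith [log_two_gt_d9, log_two_lt_d9]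

lemma log_1_200 : (-5298317369 / 1000000000 : ℝ) ≤ log (1 / 200 : ℝ) ∧ log (1 / 200 : ℝ) ≤ (-1324579341 / 250000000 : ℝ) := by
  obtain ⟨h1, h2⟩ := log_bracket (a := (1 / 200 : ℝ)) (x := (7 / 57 : ℝ)) (-8) 9 (by norm_num) (by norm_num)
    (by norm_num)
  norm_num [Finset.sum_range_succ] at h1 h2
  constructor <;> linarith [log_two_gt_d9, log_two_lt_d9]

lemma log_199_200 : (-5012543 / 1000000000 : ℝ) ≤ log (199 / 200 : ℝ) ∧ log (199 / 200 : ℝ) ≤ (-5012539 / 1000000000 : ℝ) := by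
  obtain ⟨h1, h2⟩ := log_bracket (a := (199 / 200 : ℝ)) (x := (99 / 299 : ℝ)) (-1) 9 (by norm_num) (by norm_num)
    (by norm_num)
  norm_num [Finset.sum_range_succ] at h1 h2
  constructor <;> linarith [log_two_gt_d9, log_two_lt_d9]

lemma ent_1_200 : (31479063 / 1000000000 : ℝ) ≤ binEntropy (1 / 200 : ℝ) ∧ binEntropy (1 / 200 : ℝ) ≤ (7869767 / 250000000 : ℝ) := by
  obtain ⟨a1, a2⟩ := log_1_200
  obtain ⟨b1, b2⟩ := log_199_200
  rw [binEntropy_eq_negMulLog_add_negMulLog_one_sub, show (1 : ℝ) - (1 / 200 : ℝ) = (199 / 200 : ℝ) by norm_num]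
  unfold negMulLog
  constructor <;> linarith

lemma ent_421_5000 : (288909257 / 1000000000 : ℝ) ≤ binEntropy (421 / 5000 : ℝ) ∧ binEntropy (421 / 5000 : ℝ) ≤ (14445463 / 50000000 : ℝ) := by
  obtain ⟨a1, a2⟩ := log_421_5000
  obtain ⟨b1, b2⟩ := log_4579_5000
  rw [binEntropy_eq_negMulLog_add_negMulLog_one_sub, show (1 : ℝ) - (421 / 5000 : ℝ) = (4579 / 5000 : ℝ) by norm_num]
  unfold negMulLog
  constructor <;> linarith

lemma log_11_1000 : (-563732501 / 125000000 : ℝ) ≤ log (11 / 1000 : ℝ) ∧ log (11 / 1000 : ℝ) ≤ (-1127465001 / 250000000 : ℝ) := by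
  obtain ⟨h1, h2⟩ := log_bracket (a := (11 / 1000 : ℝ)) (x := (51 / 301 : ℝ)) (-7) 9 (by norm_num) (by norm_num)
    (by norm_num)
  norm_num [Finset.sum_range_succ] at h1 h2
  constructor <;> linarith [log_two_gt_d9, log_two_lt_d9]

lemma log_989_1000 : (-2765237 / 250000000 : ℝ) ≤ log (989 / 1000 : ℝ) ∧ log (989 / 1000 : ℝ) ≤ (-2212189 / 200000000 : ℝ) := by
  obtain ⟨h1, h2⟩ := log_bracket (a := (989 / 1000 : ℝ)) (x := (489 / 1489 : ℝ)) (-1) 9 (by norm_num) (by norm_num)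
    (by norm_num)
  norm_num [Finset.sum_range_succ] at h1 h2
  constructor <;> linarith [log_two_gt_d9, log_two_lt_d9]

lemma ent_11_1000 : (30273867 / 500000000 : ℝ) ≤ binEntropy (11 / 1000 : ℝ) ∧ binEntropy (11 / 1000 : ℝ) ≤ (30273869 / 500000000 : ℝ) := by
  obtain ⟨a1, a2⟩ := log_11_1000
  obtain ⟨b1, b2⟩ := log_989_1000
  rw [binEntropy_eq_negMulLog_add_negMulLog_one_sub, show (1 : ℝ) - (11 / 1000 : ℝ) = (989 / 1000 : ℝ) by norm_num]
  unfold negMulLog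
  constructor <;> linarith

lemma ent_989_1000 : (30273867 / 500000000 : ℝ) ≤ binEntropy (989 / 1000 : ℝ) ∧ binEntropy (989 / 1000 : ℝ) ≤ (30273869 / 500000000 : ℝ) := by
  rw [show (989 / 1000 : ℝ) = 1 - (11 / 1000 : ℝ) by norm_num, binEntropy_one_sub]
  exact ent_11_1000

lemma log_11_500 : (-954178207 / 250000000 : ℝ) ≤ log (11 / 500 : ℝ) ∧ log (11 / 500 : ℝ) ≤ (-477089103 / 125000000 : ℝ) := by
  obtain ⟨h1, h2⟩ := log_bracket (a := (11 / 500 : ℝ)) (x := (51 / 301 : ℝ)) (-6) 9 (by norm_num) (by norm_num)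
    (by norm_num)
  norm_num [Finset.sum_range_succ] at h1 h2
  constructor <;> linarith [log_two_gt_d9, log_two_lt_d9]

lemma log_489_500 : (-2224561 / 100000000 : ℝ) ≤ log (489 / 500 : ℝ) ∧ log (489 / 500 : ℝ) ≤ (-22245607 / 1000000000 : ℝ) := by
  obtain ⟨h1, h2⟩ := log_bracket (a := (489 / 500 : ℝ)) (x := (239 / 739 : ℝ)) (-1) 9 (by norm_num) (by norm_num)
    (by norm_num)
  norm_num [Finset.sum_range_succ] at h1 h2
  constructor <;> linarith [log_two_gt_d9, log_two_lt_d9]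

lemma ent_11_500 : (21144777 / 200000000 : ℝ) ≤ binEntropy (11 / 500 : ℝ) ∧ binEntropy (11 / 500 : ℝ) ≤ (105723889 / 1000000000 : ℝ) := by
  obtain ⟨a1, a2⟩ := log_11_500
  obtain ⟨b1, b2⟩ := log_489_500
  rw [binEntropy_eq_negMulLog_add_negMulLog_one_sub, show (1 : ℝ) - (11 / 500 : ℝ) = (489 / 500 : ℝ) by norm_num]
  unfold negMulLog
  constructor <;> linarith

lemma log_489_1000 : (-715392791 / 1000000000 : ℝ) ≤ log (489 / 1000 : ℝ) ∧ log (489 / 1000 : ℝ) ≤ (-715392787 / 1000000000 : ℝ) := by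
  obtain ⟨h1, h2⟩ := log_bracket (a := (489 / 1000 : ℝ)) (x := (239 / 739 : ℝ)) (-2) 9 (by norm_num) (by norm_num)
    (by norm_num)
  norm_num [Finset.sum_range_succ] at h1 h2
  constructor <;> linarith [log_two_gt_d9, log_two_lt_d9]

lemma log_511_1000 : (-67138569 / 100000000 : ℝ) ≤ log (511 / 1000 : ℝ) ∧ log (511 / 1000 : ℝ) ≤ (-83923211 / 125000000 : ℝ) := by
  obtain ⟨h1, h2⟩ := log_bracket (a := (511 / 1000 : ℝ)) (x := (11 / 1011 : ℝ)) (-1) 9 (by norm_num) (by norm_num)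
    (by norm_num)
  norm_num [Finset.sum_range_succ] at h1 h2
  constructor <;> linarith [log_two_gt_d9, log_two_lt_d9]

lemma ent_489_1000 : (692905159 / 1000000000 : ℝ) ≤ binEntropy (489 / 1000 : ℝ) ∧ binEntropy (489 / 1000 : ℝ) ≤ (692905163 / 1000000000 : ℝ) := by
  obtain ⟨a1, a2⟩ := log_489_1000
  obtain ⟨b1, b2⟩ := log_511_1000
  rw [binEntropy_eq_negMulLog_add_negMulLog_one_sub, show (1 : ℝ) - (489 / 1000 : ℝ) = (511 / 1000 : ℝ) by norm_num]
  unfold negMulLog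
  constructor <;> linarith

lemma ent_511_1000 : (692905159 / 1000000000 : ℝ) ≤ binEntropy (511 / 1000 : ℝ) ∧ binEntropy (511 / 1000 : ℝ) ≤ (692905163 / 1000000000 : ℝ) := by
  rw [show (511 / 1000 : ℝ) = 1 - (489 / 1000 : ℝ) by norm_num, binEntropy_one_sub]
  exact ent_489_1000

lemma log_20189_250000 : (-1258161509 / 500000000 : ℝ) ≤ log (20189 / 250000 : ℝ) ∧ log (20189 / 250000 : ℝ) ≤ (-503264603 / 200000000 : ℝ) := by
  obtain ⟨h1, h2⟩ := log_bracket (a := (20189 / 250000 : ℝ)) (x := (2282 / 17907 : ℝ)) (-4) 9 (by norm_num) (by norm_num)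
    (by norm_num)
  norm_num [Finset.sum_range_succ] at h1 h2
  constructor <;> linarith [log_two_gt_d9, log_two_lt_d9]

lemma log_229811_250000 : (-84203687 / 1000000000 : ℝ) ≤ log (229811 / 250000 : ℝ) ∧ log (229811 / 250000 : ℝ) ≤ (-16840737 / 200000000 : ℝ) := by
  obtain ⟨h1, h2⟩ := log_bracket (a := (229811 / 250000 : ℝ)) (x := (104811 / 354811 : ℝ)) (-1) 9 (by norm_num) (by norm_num)
    (by norm_num)
  norm_num [Finset.sum_range_succ] at h1 h2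
  constructor <;> linarith [log_two_gt_d9, log_two_lt_d9]

lemma log_9_10000 : (-3506557899 / 500000000 : ℝ) ≤ log (9 / 10000 : ℝ) ∧ log (9 / 10000 : ℝ) ≤ (-7013115791 / 1000000000 : ℝ) := by
  obtain ⟨h1, h2⟩ := log_bracket (a := (9 / 10000 : ℝ)) (x := (527 / 1777 : ℝ)) (-11) 9 (by norm_num) (by norm_num)
    (by norm_num)
  norm_num [Finset.sum_range_succ] at h1 h2
  constructor <;> linarith [log_two_gt_d9, log_two_lt_d9]

lemma log_9991_10000 : (-450203 / 500000000 : ℝ) ≤ log (9991 / 10000 : ℝ) ∧ log (9991 / 10000 : ℝ) ≤ (-900403 / 1000000000 : ℝ) := by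
  obtain ⟨h1, h2⟩ := log_bracket (a := (9991 / 10000 : ℝ)) (x := (4991 / 14991 : ℝ)) (-1) 9 (by norm_num) (by norm_num)
    (by norm_num)
  norm_num [Finset.sum_range_succ] at h1 h2
  constructor <;> linarith [log_two_gt_d9, log_two_lt_d9]

lemma ent_9_10000 : (1802849 / 250000000 : ℝ) ≤ binEntropy (9 / 10000 : ℝ) ∧ binEntropy (9 / 10000 : ℝ) ≤ (36057 / 5000000 : ℝ) := by
  obtain ⟨a1, a2⟩ := log_9_10000
  obtain ⟨b1, b2⟩ := log_9991_10000
  rw [binEntropy_eq_negMulLog_add_negMulLog_one_sub, show (1 : ℝ) - (9 / 10000 : ℝ) = (9991 / 10000 : ℝ) by norm_num]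
  unfold negMulLog
  constructor <;> linarith

lemma ent_20189_250000 : (280611913 / 1000000000 : ℝ) ≤ binEntropy (20189 / 250000 : ℝ) ∧ binEntropy (20189 / 250000 : ℝ) ≤ (70152979 / 250000000 : ℝ) := by
  obtain ⟨a1, a2⟩ := log_20189_250000
  obtain ⟨b1, b2⟩ := log_229811_250000
  rw [binEntropy_eq_negMulLog_add_negMulLog_one_sub, show (1 : ℝ) - (20189 / 250000 : ℝ) = (229811 / 250000 : ℝ) by norm_num]
  unfold negMulLog
  constructor <;> linarith

lemma log_1_100 : (-1151292547 / 250000000 : ℝ) ≤ log (1 / 100 : ℝ) ∧ log (1 / 100 : ℝ) ≤ (-575646273 / 125000000 : ℝ) := by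
  obtain ⟨h1, h2⟩ := log_bracket (a := (1 / 100 : ℝ)) (x := (7 / 57 : ℝ)) (-7) 9 (by norm_num) (by norm_num)
    (by norm_num)
  norm_num [Finset.sum_range_succ] at h1 h2
  constructor <;> linarith [log_two_gt_d9, log_two_lt_d9]

lemma log_99_100 : (-10050337 / 1000000000 : ℝ) ≤ log (99 / 100 : ℝ) ∧ log (99 / 100 : ℝ) ≤ (-5025167 / 500000000 : ℝ) := by
  obtain ⟨h1, h2⟩ := log_bracket (a := (99 / 100 : ℝ)) (x := (49 / 149 : ℝ)) (-1) 9 (by norm_num) (by norm_num)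
    (by norm_num)
  norm_num [Finset.sum_range_succ] at h1 h2
  constructor <;> linarith [log_two_gt_d9, log_two_lt_d9]

lemma ent_1_100 : (14000383 / 250000000 : ℝ) ≤ binEntropy (1 / 100 : ℝ) ∧ binEntropy (1 / 100 : ℝ) ≤ (109378 / 1953125 : ℝ) := by
  obtain ⟨a1, a2⟩ := log_1_100
  obtain ⟨b1, b2⟩ := log_99_100
  rw [binEntropy_eq_negMulLog_add_negMulLog_one_sub, show (1 : ℝ) - (1 / 100 : ℝ) = (99 / 100 : ℝ) by norm_num]
  unfold negMulLog
  constructor <;> linarith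

lemma ent_99_100 : (14000383 / 250000000 : ℝ) ≤ binEntropy (99 / 100 : ℝ) ∧ binEntropy (99 / 100 : ℝ) ≤ (109378 / 1953125 : ℝ) := by
  rw [show (99 / 100 : ℝ) = 1 - (1 / 100 : ℝ) by norm_num, binEntropy_one_sub]
  exact ent_1_100

lemma log_1_50 : (-3912023007 / 1000000000 : ℝ) ≤ log (1 / 50 : ℝ) ∧ log (1 / 50 : ℝ) ≤ (-3912023003 / 1000000000 : ℝ) := by
  obtain ⟨h1, h2⟩ := log_bracket (a := (1 / 50 : ℝ)) (x := (7 / 57 : ℝ)) (-6) 9 (by norm_num) (by norm_num)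
    (by norm_num)
  norm_num [Finset.sum_range_succ] at h1 h2
  constructor <;> linarith [log_two_gt_d9, log_two_lt_d9]

lemma log_49_50 : (-5050677 / 250000000 : ℝ) ≤ log (49 / 50 : ℝ) ∧ log (49 / 50 : ℝ) ≤ (-4040541 / 200000000 : ℝ) := by
  obtain ⟨h1, h2⟩ := log_bracket (a := (49 / 50 : ℝ)) (x := (12 / 37 : ℝ)) (-1) 9 (by norm_num) (by norm_num)
    (by norm_num)
  norm_num [Finset.sum_range_succ] at h1 h2
  constructor <;> linarith [log_two_gt_d9, log_two_lt_d9]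

lemma ent_1_50 : (9803911 / 100000000 : ℝ) ≤ binEntropy (1 / 50 : ℝ) ∧ binEntropy (1 / 50 : ℝ) ≤ (49019557 / 500000000 : ℝ) := by
  obtain ⟨a1, a2⟩ := log_1_50
  obtain ⟨b1, b2⟩ := log_49_50
  rw [binEntropy_eq_negMulLog_add_negMulLog_one_sub, show (1 : ℝ) - (1 / 50 : ℝ) = (49 / 50 : ℝ) by norm_num]
  unfold negMulLog
  constructor <;> linarith

lemma log_49_100 : (-713349889 / 1000000000 : ℝ) ≤ log (49 / 100 : ℝ) ∧ log (49 / 100 : ℝ) ≤ (-356674943 / 500000000 : ℝ) := by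
  obtain ⟨h1, h2⟩ := log_bracket (a := (49 / 100 : ℝ)) (x := (12 / 37 : ℝ)) (-2) 9 (by norm_num) (by norm_num)
    (by norm_num)
  norm_num [Finset.sum_range_succ] at h1 h2
  constructor <;> linarith [log_two_gt_d9, log_two_lt_d9]

lemma log_51_100 : (-336672277 / 500000000 : ℝ) ≤ log (51 / 100 : ℝ) ∧ log (51 / 100 : ℝ) ≤ (-673344553 / 1000000000 : ℝ) := by
  obtain ⟨h1, h2⟩ := log_bracket (a := (51 / 100 : ℝ)) (x := (1 / 101 : ℝ)) (-1) 9 (by norm_num) (by norm_num)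
    (by norm_num)
  norm_num [Finset.sum_range_succ] at h1 h2
  constructor <;> linarith [log_two_gt_d9, log_two_lt_d9]

lemma ent_49_100 : (346473583 / 500000000 : ℝ) ≤ binEntropy (49 / 100 : ℝ) ∧ binEntropy (49 / 100 : ℝ) ≤ (692947169 / 1000000000 : ℝ) := by
  obtain ⟨a1, a2⟩ := log_49_100
  obtain ⟨b1, b2⟩ := log_51_100
  rw [binEntropy_eq_negMulLog_add_negMulLog_one_sub, show (1 : ℝ) - (49 / 100 : ℝ) = (51 / 100 : ℝ) by norm_num]
  unfold negMulLog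
  constructor <;> linarith

lemma ent_51_100 : (346473583 / 500000000 : ℝ) ≤ binEntropy (51 / 100 : ℝ) ∧ binEntropy (51 / 100 : ℝ) ≤ (692947169 / 1000000000 : ℝ) := by
  rw [show (51 / 100 : ℝ) = 1 - (49 / 100 : ℝ) by norm_num, binEntropy_one_sub]
  exact ent_49_100

lemma log_11_100 : (-441454983 / 200000000 : ℝ) ≤ log (11 / 100 : ℝ) ∧ log (11 / 100 : ℝ) ≤ (-68977341 / 31250000 : ℝ) := by
  obtain ⟨h1, h2⟩ := log_bracket (a := (11 / 100 : ℝ)) (x := (19 / 69 : ℝ)) (-4) 9 (by norm_num) (by norm_num)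
    (by norm_num)
  norm_num [Finset.sum_range_succ] at h1 h2
  constructor <;> linarith [log_two_gt_d9, log_two_lt_d9]

lemma log_11_5000 : (-6119297921 / 1000000000 : ℝ) ≤ log (11 / 5000 : ℝ) ∧ log (11 / 5000 : ℝ) ≤ (-1529824479 / 250000000 : ℝ) := by
  obtain ⟨h1, h2⟩ := log_bracket (a := (11 / 5000 : ℝ)) (x := (79 / 1329 : ℝ)) (-9) 9 (by norm_num) (by norm_num)
    (by norm_num)
  norm_num [Finset.sum_range_succ] at h1 h2
  constructor <;> linarith [log_two_gt_d9, log_two_lt_d9]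

lemma log_10231_125000 : (-625722853 / 250000000 : ℝ) ≤ log (10231 / 125000 : ℝ) ∧ log (10231 / 125000 : ℝ) ≤ (-2502891409 / 1000000000 : ℝ) := by
  obtain ⟨h1, h2⟩ := log_bracket (a := (10231 / 125000 : ℝ)) (x := (4837 / 36087 : ℝ)) (-4) 9 (by norm_num) (by norm_num)
    (by norm_num)
  norm_num [Finset.sum_range_succ] at h1 h2
  constructor <;> linarith [log_two_gt_d9, log_two_lt_d9]

lemma log_114769_125000 : (-3415693 / 40000000 : ℝ) ≤ log (114769 / 125000 : ℝ) ∧ log (114769 / 125000 : ℝ) ≤ (-21348081 / 250000000 : ℝ) := by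
  obtain ⟨h1, h2⟩ := log_bracket (a := (114769 / 125000 : ℝ)) (x := (52269 / 177269 : ℝ)) (-1) 9 (by norm_num) (by norm_num)
    (by norm_num)
  norm_num [Finset.sum_range_succ] at h1 h2
  constructor <;> linarith [log_two_gt_d9, log_two_lt_d9]

end Vale.Agent.P322.BlockB
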