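import Mathlib
import Vale.Agent.P322.Mid.Rows
import Vale.Agent.P322.Mid.EdgeFam
import Vale.Agent.P322.Mid.NumB

/-!
P322: the step inequality for noise levels in `[1/20, 2/25]`.
-/

open Real Set

namespace Vale.Agent.P322.BlockB

lemma inBlock {ε : ℝ} (h0 : (1 / 20 : ℝ) ≤ ε) (h1 : ε ≤ (2 / 25 : ℝ)) :
    InBlock (21 / 25 : ℝ) ε (1 / 20 : ℝ) (2 / 25 : ℝ) (957 / 1000 : ℝ) (1057 / 1000 : ℝ) where
  κ0 := by norm_num
  κ1 := by norm_num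
  pos := by linarith
  le := h1
  lt := by norm_num
  mem := xRatio_mem (by norm_num) h0 h1 (by norm_num) (by linarith [ent_1_20.2])
    (by linarith [ent_2_25.1])
  xa0 := by norm_num
  xb1 := by linarith [log_two_lt_d9]
  ea_le := h0

theorem row_small {ε a b : ℝ} (h0 : (1 / 20 : ℝ) ≤ ε) (h1 : ε ≤ (2 / 25 : ℝ))
    (hd : |a - b| ≤ (3 / 50 : ℝ)) (ha : a ∈ Icc (0 : ℝ) 1) (hb : b ∈ Icc (0 : ℝ) 1) :
    StepAt ε (capBound (21 / 25 : ℝ) ε) a b := by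
  have p0 : phi (3 / 50 : ℝ) = log 2 - binEntropy (47 / 100 : ℝ) := by
    rw [phi, show (1 - (3 / 50 : ℝ)) / 2 = (47 / 100 : ℝ) by norm_num]
  have p1 : phi ((3 / 50 : ℝ) / (2 * (191 / 200 : ℝ))) = log 2 - binEntropy (185 / 382 : ℝ) := by
    rw [phi, show (1 - (3 / 50 : ℝ) / (2 * (191 / 200 : ℝ))) / 2 = (185 / 382 : ℝ) by norm_num]
  have p2 : phi ((3 / 50 : ℝ) / (2 * (1 - (191 / 200 : ℝ)))) = log 2 - binEntropy (1 / 6 : ℝ) := by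
    rw [phi, show (1 - (3 / 50 : ℝ) / (2 * (1 - (191 / 200 : ℝ)))) / 2 = (1 / 6 : ℝ) by norm_num]
  refine stepAt_first_row (x₀ := (3 / 50 : ℝ)) (m₁ := (191 / 200 : ℝ)) (ν := (61 / 20 : ℝ)) (lam := (1963 / 500 : ℝ))
    (inBlock h0 h1) (by norm_num) (by norm_num) (by norm_num) (by norm_num) (by norm_num)
    (by norm_num) ?_ ?_ ?_ ?_ ?_ (by linarith [log_two_gt_d9]) hd ha hb
  · have h := pow_le_pow_left₀ (mul_nonneg (by norm_num : (0 : ℝ) ≤ (1963 / 500 : ℝ))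
      (binEntropy_nonneg (by norm_num) (by norm_num)))
      (mul_le_mul_of_nonneg_left ent_2_25.2 (by norm_num : (0 : ℝ) ≤ (1963 / 500 : ℝ))) 2
    linarith [log_two_gt_d9]
  · rw [p0]; norm_num; linarith [ent_47_100.1, ent_47_100.2, ent_185_382.1, ent_185_382.2, ent_1_6.1, ent_1_6.2, ent_191_200.1, ent_191_200.2, log_two_gt_d9, log_two_lt_d9]
  · rw [p0]; norm_num; linarith [ent_47_100.1, ent_47_100.2, ent_185_382.1, ent_185_382.2, ent_1_6.1, ent_1_6.2, ent_191_200.1, ent_191_200.2, log_two_gt_d9, log_two_lt_d9]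
  · rw [p1, p2]; unfold mshape; norm_num; linarith [ent_47_100.1, ent_47_100.2, ent_185_382.1, ent_185_382.2, ent_1_6.1, ent_1_6.2, ent_191_200.1, ent_191_200.2, log_two_gt_d9, log_two_lt_d9]
  · rw [p1, p2]; unfold mshape; norm_num; linarith [ent_47_100.1, ent_47_100.2, ent_185_382.1, ent_185_382.2, ent_1_6.1, ent_1_6.2, ent_191_200.1, ent_191_200.2, log_two_gt_d9, log_two_lt_d9]

lemma cert0 : ∃ θ k, Cert (2 / 25 : ℝ) θ k ∧ (19769 / 20000 : ℝ) ≤ θ ∧ θ < 1 ∧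
    (4859 / 20000 : ℝ) * binEntropy (2 / 25 : ℝ) ≤ k := by
  obtain ⟨a1, a2⟩ := log_1258_3125
  obtain ⟨b1, b2⟩ := log_1867_3125
  obtain ⟨c1, c2⟩ := log_48_125
  obtain ⟨d1, d2⟩ := log_77_125
  have hd1 : (1 : ℝ) - (48 / 125 : ℝ) = (77 / 125 : ℝ) := by norm_num
  have hq1 : (1 : ℝ) - (1258 / 3125 : ℝ) = (1867 / 3125 : ℝ) := by norm_num
  refine exists_cert (d := (48 / 125 : ℝ)) (q := (1258 / 3125 : ℝ)) (θ₁ := (98849 / 100000 : ℝ)) (by norm_num) (by norm_num)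
    (by norm_num) (by norm_num) (by norm_num) ?_ ?_ (by norm_num) ?_ (by norm_num)
  · rw [hd1, hq1]; linarith
  · rw [hd1, hq1]; linarith
  · linarith [ent_48_125.1, ent_48_125.2, ent_2_25.1, ent_2_25.2, ent_1258_3125.1, ent_1258_3125.2]

lemma check0_a00 :
    0 ≤ midAt (21 / 25 : ℝ) (957 / 1000 : ℝ) (19769 / 20000 : ℝ) (4859 / 20000 : ℝ) (1 / 2 : ℝ) (3 / 50 : ℝ) := by
  unfold midAt mshape
  rw [show (1 / 2 : ℝ) - (3 / 50 : ℝ) / 2 = (47 / 100 : ℝ) by norm_num,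
    show (1 / 2 : ℝ) + (3 / 50 : ℝ) / 2 = (53 / 100 : ℝ) by norm_num]
  linarith [ent_47_100.1, ent_47_100.2, ent_53_100.1, ent_53_100.2, ent_1_2.1, ent_1_2.2, log_two_gt_d9, log_two_lt_d9]

lemma check0_b00 :
    0 ≤ midAt (21 / 25 : ℝ) (1057 / 1000 : ℝ) (19769 / 20000 : ℝ) (4859 / 20000 : ℝ) (1 / 2 : ℝ) (3 / 50 : ℝ) := by
  unfold midAt mshape
  rw [show (1 / 2 : ℝ) - (3 / 50 : ℝ) / 2 = (47 / 100 : ℝ) by norm_num,
    show (1 / 2 : ℝ) + (3 / 50 : ℝ) / 2 = (53 / 100 : ℝ) by norm_num]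
  linarith [ent_47_100.1, ent_47_100.2, ent_53_100.1, ent_53_100.2, ent_1_2.1, ent_1_2.2, log_two_gt_d9, log_two_lt_d9]

lemma check0_a01 :
    0 ≤ midAt (21 / 25 : ℝ) (957 / 1000 : ℝ) (19769 / 20000 : ℝ) (4859 / 20000 : ℝ) (1 / 2 : ℝ) (19 / 250 : ℝ) := by
  unfold midAt mshape
  rw [show (1 / 2 : ℝ) - (19 / 250 : ℝ) / 2 = (231 / 500 : ℝ) by norm_num,
    show (1 / 2 : ℝ) + (19 / 250 : ℝ) / 2 = (269 / 500 : ℝ) by norm_num]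
  linarith [ent_231_500.1, ent_231_500.2, ent_269_500.1, ent_269_500.2, ent_1_2.1, ent_1_2.2, log_two_gt_d9, log_two_lt_d9]

lemma check0_b01 :
    0 ≤ midAt (21 / 25 : ℝ) (1057 / 1000 : ℝ) (19769 / 20000 : ℝ) (4859 / 20000 : ℝ) (1 / 2 : ℝ) (19 / 250 : ℝ) := by
  unfold midAt mshape
  rw [show (1 / 2 : ℝ) - (19 / 250 : ℝ) / 2 = (231 / 500 : ℝ) by norm_num,
    show (1 / 2 : ℝ) + (19 / 250 : ℝ) / 2 = (269 / 500 : ℝ) by norm_num]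
  linarith [ent_231_500.1, ent_231_500.2, ent_269_500.1, ent_269_500.2, ent_1_2.1, ent_1_2.2, log_two_gt_d9, log_two_lt_d9]

lemma check0_a10 :
    0 ≤ midAt (21 / 25 : ℝ) (957 / 1000 : ℝ) (19769 / 20000 : ℝ) (4859 / 20000 : ℝ) (1887 / 2000 : ℝ) (3 / 50 : ℝ) := by
  unfold midAt mshape
  rw [show (1887 / 2000 : ℝ) - (3 / 50 : ℝ) / 2 = (1827 / 2000 : ℝ) by norm_num,
    show (1887 / 2000 : ℝ) + (3 / 50 : ℝ) / 2 = (1947 / 2000 : ℝ) by norm_num]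
  linarith [ent_1827_2000.1, ent_1827_2000.2, ent_1947_2000.1, ent_1947_2000.2, ent_1887_2000.1, ent_1887_2000.2, log_two_gt_d9, log_two_lt_d9]

lemma check0_b10 :
    0 ≤ midAt (21 / 25 : ℝ) (1057 / 1000 : ℝ) (19769 / 20000 : ℝ) (4859 / 20000 : ℝ) (1887 / 2000 : ℝ) (3 / 50 : ℝ) := by
  unfold midAt mshape
  rw [show (1887 / 2000 : ℝ) - (3 / 50 : ℝ) / 2 = (1827 / 2000 : ℝ) by norm_num,
    show (1887 / 2000 : ℝ) + (3 / 50 : ℝ) / 2 = (1947 / 2000 : ℝ) by norm_num]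
  linarith [ent_1827_2000.1, ent_1827_2000.2, ent_1947_2000.1, ent_1947_2000.2, ent_1887_2000.1, ent_1887_2000.2, log_two_gt_d9, log_two_lt_d9]

lemma check0_a11 :
    0 ≤ midAt (21 / 25 : ℝ) (957 / 1000 : ℝ) (19769 / 20000 : ℝ) (4859 / 20000 : ℝ) (1887 / 2000 : ℝ) (19 / 250 : ℝ) := by
  unfold midAt mshape
  rw [show (1887 / 2000 : ℝ) - (19 / 250 : ℝ) / 2 = (1811 / 2000 : ℝ) by norm_num,
    show (1887 / 2000 : ℝ) + (19 / 250 : ℝ) / 2 = (1963 / 2000 : ℝ) by norm_num]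
  linarith [ent_1811_2000.1, ent_1811_2000.2, ent_1963_2000.1, ent_1963_2000.2, ent_1887_2000.1, ent_1887_2000.2, log_two_gt_d9, log_two_lt_d9]

lemma check0_b11 :
    0 ≤ midAt (21 / 25 : ℝ) (1057 / 1000 : ℝ) (19769 / 20000 : ℝ) (4859 / 20000 : ℝ) (1887 / 2000 : ℝ) (19 / 250 : ℝ) := by
  unfold midAt mshape
  rw [show (1887 / 2000 : ℝ) - (19 / 250 : ℝ) / 2 = (1811 / 2000 : ℝ) by norm_num,
    show (1887 / 2000 : ℝ) + (19 / 250 : ℝ) / 2 = (1963 / 2000 : ℝ) by norm_num]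
  linarith [ent_1811_2000.1, ent_1811_2000.2, ent_1963_2000.1, ent_1963_2000.2, ent_1887_2000.1, ent_1887_2000.2, log_two_gt_d9, log_two_lt_d9]

theorem row0 {ε a b : ℝ} (h0 : (1 / 20 : ℝ) ≤ ε) (h1 : ε ≤ (2 / 25 : ℝ))
    (hd : |a - b| ∈ Icc (3 / 50 : ℝ) (19 / 250 : ℝ)) (ha : a ∈ Icc (0 : ℝ) 1) (hb : b ∈ Icc (0 : ℝ) 1) :
    StepAt ε (capBound (21 / 25 : ℝ) ε) a b :=
  stepAt_row (m₁ := (1887 / 2000 : ℝ)) (inBlock h0 h1) cert0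
    ⟨check0_a00, check0_b00, check0_a01, check0_b01, check0_a10, check0_b10, check0_a11, check0_b11⟩
    (by norm_num) (by norm_num) (by norm_num) (by norm_num) (by norm_num) (by norm_num)
    (by linarith [log_two_gt_d9]) hd ha hb

lemma cert1 : ∃ θ k, Cert (2 / 25 : ℝ) θ k ∧ (9819 / 10000 : ℝ) ≤ θ ∧ θ < 1 ∧
    (121 / 400 : ℝ) * binEntropy (2 / 25 : ℝ) ≤ k := by
  obtain ⟨a1, a2⟩ := log_1891_5000
  obtain ⟨b1, b2⟩ := log_3109_5000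
  obtain ⟨c1, c2⟩ := log_71_200
  obtain ⟨d1, d2⟩ := log_129_200
  have hd1 : (1 : ℝ) - (71 / 200 : ℝ) = (129 / 200 : ℝ) := by norm_num
  have hq1 : (1 : ℝ) - (1891 / 5000 : ℝ) = (3109 / 5000 : ℝ) := by norm_num
  refine exists_cert (d := (71 / 200 : ℝ)) (q := (1891 / 5000 : ℝ)) (θ₁ := (98191 / 100000 : ℝ)) (by norm_num) (by norm_num)
    (by norm_num) (by norm_num) (by norm_num) ?_ ?_ (by norm_num) ?_ (by norm_num)
  · rw [hd1, hq1]; linarith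
  · rw [hd1, hq1]; linarith
  · linarith [ent_71_200.1, ent_71_200.2, ent_2_25.1, ent_2_25.2, ent_1891_5000.1, ent_1891_5000.2]

lemma check1_a00 :
    0 ≤ midAt (21 / 25 : ℝ) (957 / 1000 : ℝ) (9819 / 10000 : ℝ) (121 / 400 : ℝ) (1 / 2 : ℝ) (19 / 250 : ℝ) := by
  unfold midAt mshape
  rw [show (1 / 2 : ℝ) - (19 / 250 : ℝ) / 2 = (231 / 500 : ℝ) by norm_num,
    show (1 / 2 : ℝ) + (19 / 250 : ℝ) / 2 = (269 / 500 : ℝ) by norm_num]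
  linarith [ent_231_500.1, ent_231_500.2, ent_269_500.1, ent_269_500.2, ent_1_2.1, ent_1_2.2, log_two_gt_d9, log_two_lt_d9]

lemma check1_b00 :
    0 ≤ midAt (21 / 25 : ℝ) (1057 / 1000 : ℝ) (9819 / 10000 : ℝ) (121 / 400 : ℝ) (1 / 2 : ℝ) (19 / 250 : ℝ) := by
  unfold midAt mshape
  rw [show (1 / 2 : ℝ) - (19 / 250 : ℝ) / 2 = (231 / 500 : ℝ) by norm_num,
    show (1 / 2 : ℝ) + (19 / 250 : ℝ) / 2 = (269 / 500 : ℝ) by norm_num]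
  linarith [ent_231_500.1, ent_231_500.2, ent_269_500.1, ent_269_500.2, ent_1_2.1, ent_1_2.2, log_two_gt_d9, log_two_lt_d9]

lemma check1_a01 :
    0 ≤ midAt (21 / 25 : ℝ) (957 / 1000 : ℝ) (9819 / 10000 : ℝ) (121 / 400 : ℝ) (1 / 2 : ℝ) (97 / 1000 : ℝ) := by
  unfold midAt mshape
  rw [show (1 / 2 : ℝ) - (97 / 1000 : ℝ) / 2 = (903 / 2000 : ℝ) by norm_num,
    show (1 / 2 : ℝ) + (97 / 1000 : ℝ) / 2 = (1097 / 2000 : ℝ) by norm_num]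
  linarith [ent_903_2000.1, ent_903_2000.2, ent_1097_2000.1, ent_1097_2000.2, ent_1_2.1, ent_1_2.2, log_two_gt_d9, log_two_lt_d9]

lemma check1_b01 :
    0 ≤ midAt (21 / 25 : ℝ) (1057 / 1000 : ℝ) (9819 / 10000 : ℝ) (121 / 400 : ℝ) (1 / 2 : ℝ) (97 / 1000 : ℝ) := by
  unfold midAt mshape
  rw [show (1 / 2 : ℝ) - (97 / 1000 : ℝ) / 2 = (903 / 2000 : ℝ) by norm_num,
    show (1 / 2 : ℝ) + (97 / 1000 : ℝ) / 2 = (1097 / 2000 : ℝ) by norm_num]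
  linarith [ent_903_2000.1, ent_903_2000.2, ent_1097_2000.1, ent_1097_2000.2, ent_1_2.1, ent_1_2.2, log_two_gt_d9, log_two_lt_d9]

lemma check1_a10 :
    0 ≤ midAt (21 / 25 : ℝ) (957 / 1000 : ℝ) (9819 / 10000 : ℝ) (121 / 400 : ℝ) (939 / 1000 : ℝ) (19 / 250 : ℝ) := by
  unfold midAt mshape
  rw [show (939 / 1000 : ℝ) - (19 / 250 : ℝ) / 2 = (901 / 1000 : ℝ) by norm_num,
    show (939 / 1000 : ℝ) + (19 / 250 : ℝ) / 2 = (977 / 1000 : ℝ) by norm_num]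
  linarith [ent_901_1000.1, ent_901_1000.2, ent_977_1000.1, ent_977_1000.2, ent_939_1000.1, ent_939_1000.2, log_two_gt_d9, log_two_lt_d9]

lemma check1_b10 :
    0 ≤ midAt (21 / 25 : ℝ) (1057 / 1000 : ℝ) (9819 / 10000 : ℝ) (121 / 400 : ℝ) (939 / 1000 : ℝ) (19 / 250 : ℝ) := by
  unfold midAt mshape
  rw [show (939 / 1000 : ℝ) - (19 / 250 : ℝ) / 2 = (901 / 1000 : ℝ) by norm_num,
    show (939 / 1000 : ℝ) + (19 / 250 : ℝ) / 2 = (977 / 1000 : ℝ) by norm_num]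
  linarith [ent_901_1000.1, ent_901_1000.2, ent_977_1000.1, ent_977_1000.2, ent_939_1000.1, ent_939_1000.2, log_two_gt_d9, log_two_lt_d9]

lemma check1_a11 :
    0 ≤ midAt (21 / 25 : ℝ) (957 / 1000 : ℝ) (9819 / 10000 : ℝ) (121 / 400 : ℝ) (939 / 1000 : ℝ) (97 / 1000 : ℝ) := by
  unfold midAt mshape
  rw [show (939 / 1000 : ℝ) - (97 / 1000 : ℝ) / 2 = (1781 / 2000 : ℝ) by norm_num,
    show (939 / 1000 : ℝ) + (97 / 1000 : ℝ) / 2 = (79 / 80 : ℝ) by norm_num]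
  linarith [ent_1781_2000.1, ent_1781_2000.2, ent_79_80.1, ent_79_80.2, ent_939_1000.1, ent_939_1000.2, log_two_gt_d9, log_two_lt_d9]

lemma check1_b11 :
    0 ≤ midAt (21 / 25 : ℝ) (1057 / 1000 : ℝ) (9819 / 10000 : ℝ) (121 / 400 : ℝ) (939 / 1000 : ℝ) (97 / 1000 : ℝ) := by
  unfold midAt mshape
  rw [show (939 / 1000 : ℝ) - (97 / 1000 : ℝ) / 2 = (1781 / 2000 : ℝ) by norm_num,
    show (939 / 1000 : ℝ) + (97 / 1000 : ℝ) / 2 = (79 / 80 : ℝ) by norm_num]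
  linarith [ent_1781_2000.1, ent_1781_2000.2, ent_79_80.1, ent_79_80.2, ent_939_1000.1, ent_939_1000.2, log_two_gt_d9, log_two_lt_d9]

theorem row1 {ε a b : ℝ} (h0 : (1 / 20 : ℝ) ≤ ε) (h1 : ε ≤ (2 / 25 : ℝ))
    (hd : |a - b| ∈ Icc (19 / 250 : ℝ) (97 / 1000 : ℝ)) (ha : a ∈ Icc (0 : ℝ) 1) (hb : b ∈ Icc (0 : ℝ) 1) :
    StepAt ε (capBound (21 / 25 : ℝ) ε) a b :=
  stepAt_row (m₁ := (939 / 1000 : ℝ)) (inBlock h0 h1) cert1
    ⟨check1_a00, check1_b00, check1_a01, check1_b01, check1_a10, check1_b10, check1_a11, check1_b11⟩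
    (by norm_num) (by norm_num) (by norm_num) (by norm_num) (by norm_num) (by norm_num)
    (by linarith [log_two_gt_d9]) hd ha hb

lemma cert2 : ∃ θ k, Cert (2 / 25 : ℝ) θ k ∧ (607 / 625 : ℝ) ≤ θ ∧ θ < 1 ∧
    (1509 / 4000 : ℝ) * binEntropy (2 / 25 : ℝ) ≤ k := by
  obtain ⟨a1, a2⟩ := log_4339_12500
  obtain ⟨b1, b2⟩ := log_8161_12500
  obtain ⟨c1, c2⟩ := log_159_500
  obtain ⟨d1, d2⟩ := log_341_500
  have hd1 : (1 : ℝ) - (159 / 500 : ℝ) = (341 / 500 : ℝ) := by norm_num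
  have hq1 : (1 : ℝ) - (4339 / 12500 : ℝ) = (8161 / 12500 : ℝ) := by norm_num
  refine exists_cert (d := (159 / 500 : ℝ)) (q := (4339 / 12500 : ℝ)) (θ₁ := (97123 / 100000 : ℝ)) (by norm_num) (by norm_num)
    (by norm_num) (by norm_num) (by norm_num) ?_ ?_ (by norm_num) ?_ (by norm_num)
  · rw [hd1, hq1]; linarith
  · rw [hd1, hq1]; linarith
  · linarith [ent_159_500.1, ent_159_500.2, ent_2_25.1, ent_2_25.2, ent_4339_12500.1, ent_4339_12500.2]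

lemma check2_a00 :
    0 ≤ midAt (21 / 25 : ℝ) (957 / 1000 : ℝ) (607 / 625 : ℝ) (1509 / 4000 : ℝ) (1 / 2 : ℝ) (97 / 1000 : ℝ) := by
  unfold midAt mshape
  rw [show (1 / 2 : ℝ) - (97 / 1000 : ℝ) / 2 = (903 / 2000 : ℝ) by norm_num,
    show (1 / 2 : ℝ) + (97 / 1000 : ℝ) / 2 = (1097 / 2000 : ℝ) by norm_num]
  linarith [ent_903_2000.1, ent_903_2000.2, ent_1097_2000.1, ent_1097_2000.2, ent_1_2.1, ent_1_2.2, log_two_gt_d9, log_two_lt_d9]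

lemma check2_b00 :
    0 ≤ midAt (21 / 25 : ℝ) (1057 / 1000 : ℝ) (607 / 625 : ℝ) (1509 / 4000 : ℝ) (1 / 2 : ℝ) (97 / 1000 : ℝ) := by
  unfold midAt mshape
  rw [show (1 / 2 : ℝ) - (97 / 1000 : ℝ) / 2 = (903 / 2000 : ℝ) by norm_num,
    show (1 / 2 : ℝ) + (97 / 1000 : ℝ) / 2 = (1097 / 2000 : ℝ) by norm_num]
  linarith [ent_903_2000.1, ent_903_2000.2, ent_1097_2000.1, ent_1097_2000.2, ent_1_2.1, ent_1_2.2, log_two_gt_d9, log_two_lt_d9]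

lemma check2_a01 :
    0 ≤ midAt (21 / 25 : ℝ) (957 / 1000 : ℝ) (607 / 625 : ℝ) (1509 / 4000 : ℝ) (1 / 2 : ℝ) (121 / 1000 : ℝ) := by
  unfold midAt mshape
  rw [show (1 / 2 : ℝ) - (121 / 1000 : ℝ) / 2 = (879 / 2000 : ℝ) by norm_num,
    show (1 / 2 : ℝ) + (121 / 1000 : ℝ) / 2 = (1121 / 2000 : ℝ) by norm_num]
  linarith [ent_879_2000.1, ent_879_2000.2, ent_1121_2000.1, ent_1121_2000.2, ent_1_2.1, ent_1_2.2, log_two_gt_d9, log_two_lt_d9]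

lemma check2_b01 :
    0 ≤ midAt (21 / 25 : ℝ) (1057 / 1000 : ℝ) (607 / 625 : ℝ) (1509 / 4000 : ℝ) (1 / 2 : ℝ) (121 / 1000 : ℝ) := by
  unfold midAt mshape
  rw [show (1 / 2 : ℝ) - (121 / 1000 : ℝ) / 2 = (879 / 2000 : ℝ) by norm_num,
    show (1 / 2 : ℝ) + (121 / 1000 : ℝ) / 2 = (1121 / 2000 : ℝ) by norm_num]
  linarith [ent_879_2000.1, ent_879_2000.2, ent_1121_2000.1, ent_1121_2000.2, ent_1_2.1, ent_1_2.2, log_two_gt_d9, log_two_lt_d9]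

lemma check2_a10 :
    0 ≤ midAt (21 / 25 : ℝ) (957 / 1000 : ℝ) (607 / 625 : ℝ) (1509 / 4000 : ℝ) (1867 / 2000 : ℝ) (97 / 1000 : ℝ) := by
  unfold midAt mshape
  rw [show (1867 / 2000 : ℝ) - (97 / 1000 : ℝ) / 2 = (177 / 200 : ℝ) by norm_num,
    show (1867 / 2000 : ℝ) + (97 / 1000 : ℝ) / 2 = (491 / 500 : ℝ) by norm_num]
  linarith [ent_177_200.1, ent_177_200.2, ent_491_500.1, ent_491_500.2, ent_1867_2000.1, ent_1867_2000.2, log_two_gt_d9, log_two_lt_d9]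

lemma check2_b10 :
    0 ≤ midAt (21 / 25 : ℝ) (1057 / 1000 : ℝ) (607 / 625 : ℝ) (1509 / 4000 : ℝ) (1867 / 2000 : ℝ) (97 / 1000 : ℝ) := by
  unfold midAt mshape
  rw [show (1867 / 2000 : ℝ) - (97 / 1000 : ℝ) / 2 = (177 / 200 : ℝ) by norm_num,
    show (1867 / 2000 : ℝ) + (97 / 1000 : ℝ) / 2 = (491 / 500 : ℝ) by norm_num]
  linarith [ent_177_200.1, ent_177_200.2, ent_491_500.1, ent_491_500.2, ent_1867_2000.1, ent_1867_2000.2, log_two_gt_d9, log_two_lt_d9]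

lemma check2_a11 :
    0 ≤ midAt (21 / 25 : ℝ) (957 / 1000 : ℝ) (607 / 625 : ℝ) (1509 / 4000 : ℝ) (1867 / 2000 : ℝ) (121 / 1000 : ℝ) := by
  unfold midAt mshape
  rw [show (1867 / 2000 : ℝ) - (121 / 1000 : ℝ) / 2 = (873 / 1000 : ℝ) by norm_num,
    show (1867 / 2000 : ℝ) + (121 / 1000 : ℝ) / 2 = (497 / 500 : ℝ) by norm_num]
  linarith [ent_873_1000.1, ent_873_1000.2, ent_497_500.1, ent_497_500.2, ent_1867_2000.1, ent_1867_2000.2, log_two_gt_d9, log_two_lt_d9]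

lemma check2_b11 :
    0 ≤ midAt (21 / 25 : ℝ) (1057 / 1000 : ℝ) (607 / 625 : ℝ) (1509 / 4000 : ℝ) (1867 / 2000 : ℝ) (121 / 1000 : ℝ) := by
  unfold midAt mshape
  rw [show (1867 / 2000 : ℝ) - (121 / 1000 : ℝ) / 2 = (873 / 1000 : ℝ) by norm_num,
    show (1867 / 2000 : ℝ) + (121 / 1000 : ℝ) / 2 = (497 / 500 : ℝ) by norm_num]
  linarith [ent_873_1000.1, ent_873_1000.2, ent_497_500.1, ent_497_500.2, ent_1867_2000.1, ent_1867_2000.2, log_two_gt_d9, log_two_lt_d9]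

theorem row2 {ε a b : ℝ} (h0 : (1 / 20 : ℝ) ≤ ε) (h1 : ε ≤ (2 / 25 : ℝ))
    (hd : |a - b| ∈ Icc (97 / 1000 : ℝ) (121 / 1000 : ℝ)) (ha : a ∈ Icc (0 : ℝ) 1) (hb : b ∈ Icc (0 : ℝ) 1) :
    StepAt ε (capBound (21 / 25 : ℝ) ε) a b :=
  stepAt_row (m₁ := (1867 / 2000 : ℝ)) (inBlock h0 h1) cert2
    ⟨check2_a00, check2_b00, check2_a01, check2_b01, check2_a10, check2_b10, check2_a11, check2_b11⟩
    (by norm_num) (by norm_num) (by norm_num) (by norm_num) (by norm_num) (by norm_num)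
    (by linarith [log_two_gt_d9]) hd ha hb

lemma cert3 : ∃ θ k, Cert (2 / 25 : ℝ) θ k ∧ (9569 / 10000 : ℝ) ≤ θ ∧ θ < 1 ∧
    (2273 / 5000 : ℝ) * binEntropy (2 / 25 : ℝ) ≤ k := by
  obtain ⟨a1, a2⟩ := log_7859_25000
  obtain ⟨b1, b2⟩ := log_17141_25000
  obtain ⟨c1, c2⟩ := log_279_1000
  obtain ⟨d1, d2⟩ := log_721_1000
  have hd1 : (1 : ℝ) - (279 / 1000 : ℝ) = (721 / 1000 : ℝ) := by norm_num
  have hq1 : (1 : ℝ) - (7859 / 25000 : ℝ) = (17141 / 25000 : ℝ) := by norm_num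
  refine exists_cert (d := (279 / 1000 : ℝ)) (q := (7859 / 25000 : ℝ)) (θ₁ := (5981 / 6250 : ℝ)) (by norm_num) (by norm_num)
    (by norm_num) (by norm_num) (by norm_num) ?_ ?_ (by norm_num) ?_ (by norm_num)
  · rw [hd1, hq1]; linarith
  · rw [hd1, hq1]; linarith
  · linarith [ent_279_1000.1, ent_279_1000.2, ent_2_25.1, ent_2_25.2, ent_7859_25000.1, ent_7859_25000.2]

lemma check3_a00 :
    0 ≤ midAt (21 / 25 : ℝ) (957 / 1000 : ℝ) (9569 / 10000 : ℝ) (2273 / 5000 : ℝ) (1 / 2 : ℝ) (121 / 1000 : ℝ) := by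
  unfold midAt mshape
  rw [show (1 / 2 : ℝ) - (121 / 1000 : ℝ) / 2 = (879 / 2000 : ℝ) by norm_num,
    show (1 / 2 : ℝ) + (121 / 1000 : ℝ) / 2 = (1121 / 2000 : ℝ) by norm_num]
  linarith [ent_879_2000.1, ent_879_2000.2, ent_1121_2000.1, ent_1121_2000.2, ent_1_2.1, ent_1_2.2, log_two_gt_d9, log_two_lt_d9]

lemma check3_b00 :
    0 ≤ midAt (21 / 25 : ℝ) (1057 / 1000 : ℝ) (9569 / 10000 : ℝ) (2273 / 5000 : ℝ) (1 / 2 : ℝ) (121 / 1000 : ℝ) := by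
  unfold midAt mshape
  rw [show (1 / 2 : ℝ) - (121 / 1000 : ℝ) / 2 = (879 / 2000 : ℝ) by norm_num,
    show (1 / 2 : ℝ) + (121 / 1000 : ℝ) / 2 = (1121 / 2000 : ℝ) by norm_num]
  linarith [ent_879_2000.1, ent_879_2000.2, ent_1121_2000.1, ent_1121_2000.2, ent_1_2.1, ent_1_2.2, log_two_gt_d9, log_two_lt_d9]

lemma check3_a01 :
    0 ≤ midAt (21 / 25 : ℝ) (957 / 1000 : ℝ) (9569 / 10000 : ℝ) (2273 / 5000 : ℝ) (1 / 2 : ℝ) (18 / 125 : ℝ) := by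
  unfold midAt mshape
  rw [show (1 / 2 : ℝ) - (18 / 125 : ℝ) / 2 = (107 / 250 : ℝ) by norm_num,
    show (1 / 2 : ℝ) + (18 / 125 : ℝ) / 2 = (143 / 250 : ℝ) by norm_num]
  linarith [ent_107_250.1, ent_107_250.2, ent_143_250.1, ent_143_250.2, ent_1_2.1, ent_1_2.2, log_two_gt_d9, log_two_lt_d9]

lemma check3_b01 :
    0 ≤ midAt (21 / 25 : ℝ) (1057 / 1000 : ℝ) (9569 / 10000 : ℝ) (2273 / 5000 : ℝ) (1 / 2 : ℝ) (18 / 125 : ℝ) := by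
  unfold midAt mshape
  rw [show (1 / 2 : ℝ) - (18 / 125 : ℝ) / 2 = (107 / 250 : ℝ) by norm_num,
    show (1 / 2 : ℝ) + (18 / 125 : ℝ) / 2 = (143 / 250 : ℝ) by norm_num]
  linarith [ent_107_250.1, ent_107_250.2, ent_143_250.1, ent_143_250.2, ent_1_2.1, ent_1_2.2, log_two_gt_d9, log_two_lt_d9]

lemma check3_a10 :
    0 ≤ midAt (21 / 25 : ℝ) (957 / 1000 : ℝ) (9569 / 10000 : ℝ) (2273 / 5000 : ℝ) (927 / 1000 : ℝ) (121 / 1000 : ℝ) := by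
  unfold midAt mshape
  rw [show (927 / 1000 : ℝ) - (121 / 1000 : ℝ) / 2 = (1733 / 2000 : ℝ) by norm_num,
    show (927 / 1000 : ℝ) + (121 / 1000 : ℝ) / 2 = (79 / 80 : ℝ) by norm_num]
  linarith [ent_1733_2000.1, ent_1733_2000.2, ent_79_80.1, ent_79_80.2, ent_927_1000.1, ent_927_1000.2, log_two_gt_d9, log_two_lt_d9]

lemma check3_b10 :
    0 ≤ midAt (21 / 25 : ℝ) (1057 / 1000 : ℝ) (9569 / 10000 : ℝ) (2273 / 5000 : ℝ) (927 / 1000 : ℝ) (121 / 1000 : ℝ) := by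
  unfold midAt mshape
  rw [show (927 / 1000 : ℝ) - (121 / 1000 : ℝ) / 2 = (1733 / 2000 : ℝ) by norm_num,
    show (927 / 1000 : ℝ) + (121 / 1000 : ℝ) / 2 = (79 / 80 : ℝ) by norm_num]
  linarith [ent_1733_2000.1, ent_1733_2000.2, ent_79_80.1, ent_79_80.2, ent_927_1000.1, ent_927_1000.2, log_two_gt_d9, log_two_lt_d9]

lemma check3_a11 :
    0 ≤ midAt (21 / 25 : ℝ) (957 / 1000 : ℝ) (9569 / 10000 : ℝ) (2273 / 5000 : ℝ) (927 / 1000 : ℝ) (18 / 125 : ℝ) := by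
  unfold midAt mshape
  rw [show (927 / 1000 : ℝ) - (18 / 125 : ℝ) / 2 = (171 / 200 : ℝ) by norm_num,
    show (927 / 1000 : ℝ) + (18 / 125 : ℝ) / 2 = (999 / 1000 : ℝ) by norm_num]
  linarith [ent_171_200.1, ent_171_200.2, ent_999_1000.1, ent_999_1000.2, ent_927_1000.1, ent_927_1000.2, log_two_gt_d9, log_two_lt_d9]

lemma check3_b11 :
    0 ≤ midAt (21 / 25 : ℝ) (1057 / 1000 : ℝ) (9569 / 10000 : ℝ) (2273 / 5000 : ℝ) (927 / 1000 : ℝ) (18 / 125 : ℝ) := by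
  unfold midAt mshape
  rw [show (927 / 1000 : ℝ) - (18 / 125 : ℝ) / 2 = (171 / 200 : ℝ) by norm_num,
    show (927 / 1000 : ℝ) + (18 / 125 : ℝ) / 2 = (999 / 1000 : ℝ) by norm_num]
  linarith [ent_171_200.1, ent_171_200.2, ent_999_1000.1, ent_999_1000.2, ent_927_1000.1, ent_927_1000.2, log_two_gt_d9, log_two_lt_d9]

theorem row3 {ε a b : ℝ} (h0 : (1 / 20 : ℝ) ≤ ε) (h1 : ε ≤ (2 / 25 : ℝ))
    (hd : |a - b| ∈ Icc (121 / 1000 : ℝ) (18 / 125 : ℝ)) (ha : a ∈ Icc (0 : ℝ) 1) (hb : b ∈ Icc (0 : ℝ) 1) :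
    StepAt ε (capBound (21 / 25 : ℝ) ε) a b :=
  stepAt_row (m₁ := (927 / 1000 : ℝ)) (inBlock h0 h1) cert3
    ⟨check3_a00, check3_b00, check3_a01, check3_b01, check3_a10, check3_b10, check3_a11, check3_b11⟩
    (by norm_num) (by norm_num) (by norm_num) (by norm_num) (by norm_num) (by norm_num)
    (by linarith [log_two_gt_d9]) hd ha hb

lemma cert4 : ∃ θ k, Cert (2 / 25 : ℝ) θ k ∧ (1177 / 1250 : ℝ) ≤ θ ∧ θ < 1 ∧
    (5209 / 10000 : ℝ) * binEntropy (2 / 25 : ℝ) ≤ k := by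
  obtain ⟨a1, a2⟩ := log_1429_5000
  obtain ⟨b1, b2⟩ := log_3571_5000
  obtain ⟨c1, c2⟩ := log_49_200
  obtain ⟨d1, d2⟩ := log_151_200
  have hd1 : (1 : ℝ) - (49 / 200 : ℝ) = (151 / 200 : ℝ) := by norm_num
  have hq1 : (1 : ℝ) - (1429 / 5000 : ℝ) = (3571 / 5000 : ℝ) := by norm_num
  refine exists_cert (d := (49 / 200 : ℝ)) (q := (1429 / 5000 : ℝ)) (θ₁ := (18833 / 20000 : ℝ)) (by norm_num) (by norm_num)
    (by norm_num) (by norm_num) (by norm_num) ?_ ?_ (by norm_num) ?_ (by norm_num)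
  · rw [hd1, hq1]; linarith
  · rw [hd1, hq1]; linarith
  · linarith [ent_49_200.1, ent_49_200.2, ent_2_25.1, ent_2_25.2, ent_1429_5000.1, ent_1429_5000.2]

lemma check4_a00 :
    0 ≤ midAt (21 / 25 : ℝ) (957 / 1000 : ℝ) (1177 / 1250 : ℝ) (5209 / 10000 : ℝ) (1 / 2 : ℝ) (18 / 125 : ℝ) := by
  unfold midAt mshape
  rw [show (1 / 2 : ℝ) - (18 / 125 : ℝ) / 2 = (107 / 250 : ℝ) by norm_num,
    show (1 / 2 : ℝ) + (18 / 125 : ℝ) / 2 = (143 / 250 : ℝ) by norm_num]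
  linarith [ent_107_250.1, ent_107_250.2, ent_143_250.1, ent_143_250.2, ent_1_2.1, ent_1_2.2, log_two_gt_d9, log_two_lt_d9]

lemma check4_b00 :
    0 ≤ midAt (21 / 25 : ℝ) (1057 / 1000 : ℝ) (1177 / 1250 : ℝ) (5209 / 10000 : ℝ) (1 / 2 : ℝ) (18 / 125 : ℝ) := by
  unfold midAt mshape
  rw [show (1 / 2 : ℝ) - (18 / 125 : ℝ) / 2 = (107 / 250 : ℝ) by norm_num,
    show (1 / 2 : ℝ) + (18 / 125 : ℝ) / 2 = (143 / 250 : ℝ) by norm_num]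
  linarith [ent_107_250.1, ent_107_250.2, ent_143_250.1, ent_143_250.2, ent_1_2.1, ent_1_2.2, log_two_gt_d9, log_two_lt_d9]

lemma check4_a01 :
    0 ≤ midAt (21 / 25 : ℝ) (957 / 1000 : ℝ) (1177 / 1250 : ℝ) (5209 / 10000 : ℝ) (1 / 2 : ℝ) (231 / 1000 : ℝ) := by
  unfold midAt mshape
  rw [show (1 / 2 : ℝ) - (231 / 1000 : ℝ) / 2 = (769 / 2000 : ℝ) by norm_num,
    show (1 / 2 : ℝ) + (231 / 1000 : ℝ) / 2 = (1231 / 2000 : ℝ) by norm_num]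
  linarith [ent_769_2000.1, ent_769_2000.2, ent_1231_2000.1, ent_1231_2000.2, ent_1_2.1, ent_1_2.2, log_two_gt_d9, log_two_lt_d9]

lemma check4_b01 :
    0 ≤ midAt (21 / 25 : ℝ) (1057 / 1000 : ℝ) (1177 / 1250 : ℝ) (5209 / 10000 : ℝ) (1 / 2 : ℝ) (231 / 1000 : ℝ) := by
  unfold midAt mshape
  rw [show (1 / 2 : ℝ) - (231 / 1000 : ℝ) / 2 = (769 / 2000 : ℝ) by norm_num,
    show (1 / 2 : ℝ) + (231 / 1000 : ℝ) / 2 = (1231 / 2000 : ℝ) by norm_num]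
  linarith [ent_769_2000.1, ent_769_2000.2, ent_1231_2000.1, ent_1231_2000.2, ent_1_2.1, ent_1_2.2, log_two_gt_d9, log_two_lt_d9]

lemma check4_a10 :
    0 ≤ midAt (21 / 25 : ℝ) (957 / 1000 : ℝ) (1177 / 1250 : ℝ) (5209 / 10000 : ℝ) (1 - (18 / 125 : ℝ) / 2) (18 / 125 : ℝ) := by
  unfold midAt mshape
  rw [show (1 - (18 / 125 : ℝ) / 2) - (18 / 125 : ℝ) / 2 = (107 / 125 : ℝ) by norm_num,
    show (1 - (18 / 125 : ℝ) / 2) + (18 / 125 : ℝ) / 2 = (1 : ℝ) by norm_num,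
    show (1 - (18 / 125 : ℝ) / 2) = (116 / 125 : ℝ) by norm_num]
  simp only [binEntropy_one]
  linarith [ent_107_125.1, ent_107_125.2, ent_116_125.1, ent_116_125.2, log_two_gt_d9, log_two_lt_d9]

lemma check4_b10 :
    0 ≤ midAt (21 / 25 : ℝ) (1057 / 1000 : ℝ) (1177 / 1250 : ℝ) (5209 / 10000 : ℝ) (1 - (18 / 125 : ℝ) / 2) (18 / 125 : ℝ) := by
  unfold midAt mshape
  rw [show (1 - (18 / 125 : ℝ) / 2) - (18 / 125 : ℝ) / 2 = (107 / 125 : ℝ) by norm_num,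
    show (1 - (18 / 125 : ℝ) / 2) + (18 / 125 : ℝ) / 2 = (1 : ℝ) by norm_num,
    show (1 - (18 / 125 : ℝ) / 2) = (116 / 125 : ℝ) by norm_num]
  simp only [binEntropy_one]
  linarith [ent_107_125.1, ent_107_125.2, ent_116_125.1, ent_116_125.2, log_two_gt_d9, log_two_lt_d9]

lemma check4_a11 :
    0 ≤ midAt (21 / 25 : ℝ) (957 / 1000 : ℝ) (1177 / 1250 : ℝ) (5209 / 10000 : ℝ) (1 - (231 / 1000 : ℝ) / 2) (231 / 1000 : ℝ) := by
  unfold midAt mshape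
  rw [show (1 - (231 / 1000 : ℝ) / 2) - (231 / 1000 : ℝ) / 2 = (769 / 1000 : ℝ) by norm_num,
    show (1 - (231 / 1000 : ℝ) / 2) + (231 / 1000 : ℝ) / 2 = (1 : ℝ) by norm_num,
    show (1 - (231 / 1000 : ℝ) / 2) = (1769 / 2000 : ℝ) by norm_num]
  simp only [binEntropy_one]
  linarith [ent_769_1000.1, ent_769_1000.2, ent_1769_2000.1, ent_1769_2000.2, log_two_gt_d9, log_two_lt_d9]

lemma check4_b11 :
    0 ≤ midAt (21 / 25 : ℝ) (1057 / 1000 : ℝ) (1177 / 1250 : ℝ) (5209 / 10000 : ℝ) (1 - (231 / 1000 : ℝ) / 2) (231 / 1000 : ℝ) := by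
  unfold midAt mshape
  rw [show (1 - (231 / 1000 : ℝ) / 2) - (231 / 1000 : ℝ) / 2 = (769 / 1000 : ℝ) by norm_num,
    show (1 - (231 / 1000 : ℝ) / 2) + (231 / 1000 : ℝ) / 2 = (1 : ℝ) by norm_num,
    show (1 - (231 / 1000 : ℝ) / 2) = (1769 / 2000 : ℝ) by norm_num]
  simp only [binEntropy_one]
  linarith [ent_769_1000.1, ent_769_1000.2, ent_1769_2000.1, ent_1769_2000.2, log_two_gt_d9, log_two_lt_d9]

theorem row4 {ε a b : ℝ} (h0 : (1 / 20 : ℝ) ≤ ε) (h1 : ε ≤ (2 / 25 : ℝ))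
    (hd : |a - b| ∈ Icc (18 / 125 : ℝ) (231 / 1000 : ℝ)) (ha : a ∈ Icc (0 : ℝ) 1) (hb : b ∈ Icc (0 : ℝ) 1) :
    StepAt ε (capBound (21 / 25 : ℝ) ε) a b :=
  stepAt_top_row (inBlock h0 h1) cert4
    ⟨check4_a00, check4_b00, check4_a01, check4_b01, check4_a10, check4_b10, check4_a11, check4_b11⟩
    (by norm_num) (by norm_num) (by norm_num) (by norm_num) hd ha hb

lemma cert5 : ∃ θ k, Cert (2 / 25 : ℝ) θ k ∧ (2191 / 2500 : ℝ) ≤ θ ∧ θ < 1 ∧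
    (14157 / 20000 : ℝ) * binEntropy (2 / 25 : ℝ) ≤ k := by
  obtain ⟨a1, a2⟩ := log_5087_25000
  obtain ⟨b1, b2⟩ := log_19913_25000
  obtain ⟨c1, c2⟩ := log_147_1000
  obtain ⟨d1, d2⟩ := log_853_1000
  have hd1 : (1 : ℝ) - (147 / 1000 : ℝ) = (853 / 1000 : ℝ) := by norm_num
  have hq1 : (1 : ℝ) - (5087 / 25000 : ℝ) = (19913 / 25000 : ℝ) := by norm_num
  refine exists_cert (d := (147 / 1000 : ℝ)) (q := (5087 / 25000 : ℝ)) (θ₁ := (87641 / 100000 : ℝ)) (by norm_num) (by norm_num)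
    (by norm_num) (by norm_num) (by norm_num) ?_ ?_ (by norm_num) ?_ (by norm_num)
  · rw [hd1, hq1]; linarith
  · rw [hd1, hq1]; linarith
  · linarith [ent_147_1000.1, ent_147_1000.2, ent_2_25.1, ent_2_25.2, ent_5087_25000.1, ent_5087_25000.2]

lemma check5_a00 :
    0 ≤ midAt (21 / 25 : ℝ) (957 / 1000 : ℝ) (2191 / 2500 : ℝ) (14157 / 20000 : ℝ) (1 / 2 : ℝ) (231 / 1000 : ℝ) := by
  unfold midAt mshape
  rw [show (1 / 2 : ℝ) - (231 / 1000 : ℝ) / 2 = (769 / 2000 : ℝ) by norm_num,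
    show (1 / 2 : ℝ) + (231 / 1000 : ℝ) / 2 = (1231 / 2000 : ℝ) by norm_num]
  linarith [ent_769_2000.1, ent_769_2000.2, ent_1231_2000.1, ent_1231_2000.2, ent_1_2.1, ent_1_2.2, log_two_gt_d9, log_two_lt_d9]

lemma check5_b00 :
    0 ≤ midAt (21 / 25 : ℝ) (1057 / 1000 : ℝ) (2191 / 2500 : ℝ) (14157 / 20000 : ℝ) (1 / 2 : ℝ) (231 / 1000 : ℝ) := by
  unfold midAt mshape
  rw [show (1 / 2 : ℝ) - (231 / 1000 : ℝ) / 2 = (769 / 2000 : ℝ) by norm_num,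
    show (1 / 2 : ℝ) + (231 / 1000 : ℝ) / 2 = (1231 / 2000 : ℝ) by norm_num]
  linarith [ent_769_2000.1, ent_769_2000.2, ent_1231_2000.1, ent_1231_2000.2, ent_1_2.1, ent_1_2.2, log_two_gt_d9, log_two_lt_d9]

lemma check5_a01 :
    0 ≤ midAt (21 / 25 : ℝ) (957 / 1000 : ℝ) (2191 / 2500 : ℝ) (14157 / 20000 : ℝ) (1 / 2 : ℝ) (131 / 250 : ℝ) := by
  unfold midAt mshape
  rw [show (1 / 2 : ℝ) - (131 / 250 : ℝ) / 2 = (119 / 500 : ℝ) by norm_num,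
    show (1 / 2 : ℝ) + (131 / 250 : ℝ) / 2 = (381 / 500 : ℝ) by norm_num]
  linarith [ent_119_500.1, ent_119_500.2, ent_381_500.1, ent_381_500.2, ent_1_2.1, ent_1_2.2, log_two_gt_d9, log_two_lt_d9]

lemma check5_b01 :
    0 ≤ midAt (21 / 25 : ℝ) (1057 / 1000 : ℝ) (2191 / 2500 : ℝ) (14157 / 20000 : ℝ) (1 / 2 : ℝ) (131 / 250 : ℝ) := by
  unfold midAt mshape
  rw [show (1 / 2 : ℝ) - (131 / 250 : ℝ) / 2 = (119 / 500 : ℝ) by norm_num,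
    show (1 / 2 : ℝ) + (131 / 250 : ℝ) / 2 = (381 / 500 : ℝ) by norm_num]
  linarith [ent_119_500.1, ent_119_500.2, ent_381_500.1, ent_381_500.2, ent_1_2.1, ent_1_2.2, log_two_gt_d9, log_two_lt_d9]

lemma check5_a10 :
    0 ≤ midAt (21 / 25 : ℝ) (957 / 1000 : ℝ) (2191 / 2500 : ℝ) (14157 / 20000 : ℝ) (1 - (231 / 1000 : ℝ) / 2) (231 / 1000 : ℝ) := by
  unfold midAt mshape
  rw [show (1 - (231 / 1000 : ℝ) / 2) - (231 / 1000 : ℝ) / 2 = (769 / 1000 : ℝ) by norm_num,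
    show (1 - (231 / 1000 : ℝ) / 2) + (231 / 1000 : ℝ) / 2 = (1 : ℝ) by norm_num,
    show (1 - (231 / 1000 : ℝ) / 2) = (1769 / 2000 : ℝ) by norm_num]
  simp only [binEntropy_one]
  linarith [ent_769_1000.1, ent_769_1000.2, ent_1769_2000.1, ent_1769_2000.2, log_two_gt_d9, log_two_lt_d9]

lemma check5_b10 :
    0 ≤ midAt (21 / 25 : ℝ) (1057 / 1000 : ℝ) (2191 / 2500 : ℝ) (14157 / 20000 : ℝ) (1 - (231 / 1000 : ℝ) / 2) (231 / 1000 : ℝ) := by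
  unfold midAt mshape
  rw [show (1 - (231 / 1000 : ℝ) / 2) - (231 / 1000 : ℝ) / 2 = (769 / 1000 : ℝ) by norm_num,
    show (1 - (231 / 1000 : ℝ) / 2) + (231 / 1000 : ℝ) / 2 = (1 : ℝ) by norm_num,
    show (1 - (231 / 1000 : ℝ) / 2) = (1769 / 2000 : ℝ) by norm_num]
  simp only [binEntropy_one]
  linarith [ent_769_1000.1, ent_769_1000.2, ent_1769_2000.1, ent_1769_2000.2, log_two_gt_d9, log_two_lt_d9]

lemma check5_a11 :
    0 ≤ midAt (21 / 25 : ℝ) (957 / 1000 : ℝ) (2191 / 2500 : ℝ) (14157 / 20000 : ℝ) (1 - (131 / 250 : ℝ) / 2) (131 / 250 : ℝ) := by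
  unfold midAt mshape
  rw [show (1 - (131 / 250 : ℝ) / 2) - (131 / 250 : ℝ) / 2 = (119 / 250 : ℝ) by norm_num,
    show (1 - (131 / 250 : ℝ) / 2) + (131 / 250 : ℝ) / 2 = (1 : ℝ) by norm_num,
    show (1 - (131 / 250 : ℝ) / 2) = (369 / 500 : ℝ) by norm_num]
  simp only [binEntropy_one]
  linarith [ent_119_250.1, ent_119_250.2, ent_369_500.1, ent_369_500.2, log_two_gt_d9, log_two_lt_d9]

lemma check5_b11 :
    0 ≤ midAt (21 / 25 : ℝ) (1057 / 1000 : ℝ) (2191 / 2500 : ℝ) (14157 / 20000 : ℝ) (1 - (131 / 250 : ℝ) / 2) (131 / 250 : ℝ) := by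
  unfold midAt mshape
  rw [show (1 - (131 / 250 : ℝ) / 2) - (131 / 250 : ℝ) / 2 = (119 / 250 : ℝ) by norm_num,
    show (1 - (131 / 250 : ℝ) / 2) + (131 / 250 : ℝ) / 2 = (1 : ℝ) by norm_num,
    show (1 - (131 / 250 : ℝ) / 2) = (369 / 500 : ℝ) by norm_num]
  simp only [binEntropy_one]
  linarith [ent_119_250.1, ent_119_250.2, ent_369_500.1, ent_369_500.2, log_two_gt_d9, log_two_lt_d9]

theorem row5 {ε a b : ℝ} (h0 : (1 / 20 : ℝ) ≤ ε) (h1 : ε ≤ (2 / 25 : ℝ))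
    (hd : |a - b| ∈ Icc (231 / 1000 : ℝ) (131 / 250 : ℝ)) (ha : a ∈ Icc (0 : ℝ) 1) (hb : b ∈ Icc (0 : ℝ) 1) :
    StepAt ε (capBound (21 / 25 : ℝ) ε) a b :=
  stepAt_top_row (inBlock h0 h1) cert5
    ⟨check5_a00, check5_b00, check5_a01, check5_b01, check5_a10, check5_b10, check5_a11, check5_b11⟩
    (by norm_num) (by norm_num) (by norm_num) (by norm_num) hd ha hb

lemma cert6 : ∃ θ k, Cert (2 / 25 : ℝ) θ k ∧ (13361 / 20000 : ℝ) ≤ θ ∧ θ < 1 ∧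
    (18801 / 20000 : ℝ) * binEntropy (2 / 25 : ℝ) ≤ k := by
  obtain ⟨a1, a2⟩ := log_263_2500
  obtain ⟨b1, b2⟩ := log_2237_2500
  obtain ⟨c1, c2⟩ := log_3_100
  obtain ⟨d1, d2⟩ := log_97_100
  have hd1 : (1 : ℝ) - (3 / 100 : ℝ) = (97 / 100 : ℝ) := by norm_num
  have hq1 : (1 : ℝ) - (263 / 2500 : ℝ) = (2237 / 2500 : ℝ) := by norm_num
  refine exists_cert (d := (3 / 100 : ℝ)) (q := (263 / 2500 : ℝ)) (θ₁ := (6681 / 10000 : ℝ)) (by norm_num) (by norm_num)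
    (by norm_num) (by norm_num) (by norm_num) ?_ ?_ (by norm_num) ?_ (by norm_num)
  · rw [hd1, hq1]; linarith
  · rw [hd1, hq1]; linarith
  · linarith [ent_3_100.1, ent_3_100.2, ent_2_25.1, ent_2_25.2, ent_263_2500.1, ent_263_2500.2]

lemma check6_a00 :
    0 ≤ midAt (21 / 25 : ℝ) (957 / 1000 : ℝ) (13361 / 20000 : ℝ) (18801 / 20000 : ℝ) (1 / 2 : ℝ) (131 / 250 : ℝ) := by
  unfold midAt mshape
  rw [show (1 / 2 : ℝ) - (131 / 250 : ℝ) / 2 = (119 / 500 : ℝ) by norm_num,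
    show (1 / 2 : ℝ) + (131 / 250 : ℝ) / 2 = (381 / 500 : ℝ) by norm_num]
  linarith [ent_119_500.1, ent_119_500.2, ent_381_500.1, ent_381_500.2, ent_1_2.1, ent_1_2.2, log_two_gt_d9, log_two_lt_d9]

lemma check6_b00 :
    0 ≤ midAt (21 / 25 : ℝ) (1057 / 1000 : ℝ) (13361 / 20000 : ℝ) (18801 / 20000 : ℝ) (1 / 2 : ℝ) (131 / 250 : ℝ) := by
  unfold midAt mshape
  rw [show (1 / 2 : ℝ) - (131 / 250 : ℝ) / 2 = (119 / 500 : ℝ) by norm_num,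
    show (1 / 2 : ℝ) + (131 / 250 : ℝ) / 2 = (381 / 500 : ℝ) by norm_num]
  linarith [ent_119_500.1, ent_119_500.2, ent_381_500.1, ent_381_500.2, ent_1_2.1, ent_1_2.2, log_two_gt_d9, log_two_lt_d9]

lemma check6_a01 :
    0 ≤ midAt (21 / 25 : ℝ) (957 / 1000 : ℝ) (13361 / 20000 : ℝ) (18801 / 20000 : ℝ) (1 / 2 : ℝ) (881 / 1000 : ℝ) := by
  unfold midAt mshape
  rw [show (1 / 2 : ℝ) - (881 / 1000 : ℝ) / 2 = (119 / 2000 : ℝ) by norm_num,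
    show (1 / 2 : ℝ) + (881 / 1000 : ℝ) / 2 = (1881 / 2000 : ℝ) by norm_num]
  linarith [ent_119_2000.1, ent_119_2000.2, ent_1881_2000.1, ent_1881_2000.2, ent_1_2.1, ent_1_2.2, log_two_gt_d9, log_two_lt_d9]

lemma check6_b01 :
    0 ≤ midAt (21 / 25 : ℝ) (1057 / 1000 : ℝ) (13361 / 20000 : ℝ) (18801 / 20000 : ℝ) (1 / 2 : ℝ) (881 / 1000 : ℝ) := by
  unfold midAt mshape
  rw [show (1 / 2 : ℝ) - (881 / 1000 : ℝ) / 2 = (119 / 2000 : ℝ) by norm_num,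
    show (1 / 2 : ℝ) + (881 / 1000 : ℝ) / 2 = (1881 / 2000 : ℝ) by norm_num]
  linarith [ent_119_2000.1, ent_119_2000.2, ent_1881_2000.1, ent_1881_2000.2, ent_1_2.1, ent_1_2.2, log_two_gt_d9, log_two_lt_d9]

lemma check6_a10 :
    0 ≤ midAt (21 / 25 : ℝ) (957 / 1000 : ℝ) (13361 / 20000 : ℝ) (18801 / 20000 : ℝ) (1 - (131 / 250 : ℝ) / 2) (131 / 250 : ℝ) := by
  unfold midAt mshape
  rw [show (1 - (131 / 250 : ℝ) / 2) - (131 / 250 : ℝ) / 2 = (119 / 250 : ℝ) by norm_num,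
    show (1 - (131 / 250 : ℝ) / 2) + (131 / 250 : ℝ) / 2 = (1 : ℝ) by norm_num,
    show (1 - (131 / 250 : ℝ) / 2) = (369 / 500 : ℝ) by norm_num]
  simp only [binEntropy_one]
  linarith [ent_119_250.1, ent_119_250.2, ent_369_500.1, ent_369_500.2, log_two_gt_d9, log_two_lt_d9]

lemma check6_b10 :
    0 ≤ midAt (21 / 25 : ℝ) (1057 / 1000 : ℝ) (13361 / 20000 : ℝ) (18801 / 20000 : ℝ) (1 - (131 / 250 : ℝ) / 2) (131 / 250 : ℝ) := by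
  unfold midAt mshape
  rw [show (1 - (131 / 250 : ℝ) / 2) - (131 / 250 : ℝ) / 2 = (119 / 250 : ℝ) by norm_num,
    show (1 - (131 / 250 : ℝ) / 2) + (131 / 250 : ℝ) / 2 = (1 : ℝ) by norm_num,
    show (1 - (131 / 250 : ℝ) / 2) = (369 / 500 : ℝ) by norm_num]
  simp only [binEntropy_one]
  linarith [ent_119_250.1, ent_119_250.2, ent_369_500.1, ent_369_500.2, log_two_gt_d9, log_two_lt_d9]

lemma check6_a11 :
    0 ≤ midAt (21 / 25 : ℝ) (957 / 1000 : ℝ) (13361 / 20000 : ℝ) (18801 / 20000 : ℝ) (1 - (881 / 1000 : ℝ) / 2) (881 / 1000 : ℝ) := by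
  unfold midAt mshape
  rw [show (1 - (881 / 1000 : ℝ) / 2) - (881 / 1000 : ℝ) / 2 = (119 / 1000 : ℝ) by norm_num,
    show (1 - (881 / 1000 : ℝ) / 2) + (881 / 1000 : ℝ) / 2 = (1 : ℝ) by norm_num,
    show (1 - (881 / 1000 : ℝ) / 2) = (1119 / 2000 : ℝ) by norm_num]
  simp only [binEntropy_one]
  linarith [ent_119_1000.1, ent_119_1000.2, ent_1119_2000.1, ent_1119_2000.2, log_two_gt_d9, log_two_lt_d9]

lemma check6_b11 :
    0 ≤ midAt (21 / 25 : ℝ) (1057 / 1000 : ℝ) (13361 / 20000 : ℝ) (18801 / 20000 : ℝ) (1 - (881 / 1000 : ℝ) / 2) (881 / 1000 : ℝ) := by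
  unfold midAt mshape
  rw [show (1 - (881 / 1000 : ℝ) / 2) - (881 / 1000 : ℝ) / 2 = (119 / 1000 : ℝ) by norm_num,
    show (1 - (881 / 1000 : ℝ) / 2) + (881 / 1000 : ℝ) / 2 = (1 : ℝ) by norm_num,
    show (1 - (881 / 1000 : ℝ) / 2) = (1119 / 2000 : ℝ) by norm_num]
  simp only [binEntropy_one]
  linarith [ent_119_1000.1, ent_119_1000.2, ent_1119_2000.1, ent_1119_2000.2, log_two_gt_d9, log_two_lt_d9]

theorem row6 {ε a b : ℝ} (h0 : (1 / 20 : ℝ) ≤ ε) (h1 : ε ≤ (2 / 25 : ℝ))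
    (hd : |a - b| ∈ Icc (131 / 250 : ℝ) (881 / 1000 : ℝ)) (ha : a ∈ Icc (0 : ℝ) 1) (hb : b ∈ Icc (0 : ℝ) 1) :
    StepAt ε (capBound (21 / 25 : ℝ) ε) a b :=
  stepAt_top_row (inBlock h0 h1) cert6
    ⟨check6_a00, check6_b00, check6_a01, check6_b01, check6_a10, check6_b10, check6_a11, check6_b11⟩
    (by norm_num) (by norm_num) (by norm_num) (by norm_num) hd ha hb

lemma cert7 : ∃ θ k, Cert (2 / 25 : ℝ) θ k ∧ (9663 / 20000 : ℝ) ≤ θ ∧ θ < 1 ∧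
    (9917 / 10000 : ℝ) * binEntropy (2 / 25 : ℝ) ≤ k := by
  obtain ⟨a1, a2⟩ := log_421_5000
  obtain ⟨b1, b2⟩ := log_4579_5000
  obtain ⟨c1, c2⟩ := log_1_200
  obtain ⟨d1, d2⟩ := log_199_200
  have hd1 : (1 : ℝ) - (1 / 200 : ℝ) = (199 / 200 : ℝ) := by norm_num
  have hq1 : (1 : ℝ) - (421 / 5000 : ℝ) = (4579 / 5000 : ℝ) := by norm_num
  refine exists_cert (d := (1 / 200 : ℝ)) (q := (421 / 5000 : ℝ)) (θ₁ := (302 / 625 : ℝ)) (by norm_num) (by norm_num)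
    (by norm_num) (by norm_num) (by norm_num) ?_ ?_ (by norm_num) ?_ (by norm_num)
  · rw [hd1, hq1]; linarith
  · rw [hd1, hq1]; linarith
  · linarith [ent_1_200.1, ent_1_200.2, ent_2_25.1, ent_2_25.2, ent_421_5000.1, ent_421_5000.2]

lemma check7_a00 :
    0 ≤ midAt (21 / 25 : ℝ) (957 / 1000 : ℝ) (9663 / 20000 : ℝ) (9917 / 10000 : ℝ) (1 / 2 : ℝ) (881 / 1000 : ℝ) := by
  unfold midAt mshape
  rw [show (1 / 2 : ℝ) - (881 / 1000 : ℝ) / 2 = (119 / 2000 : ℝ) by norm_num,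
    show (1 / 2 : ℝ) + (881 / 1000 : ℝ) / 2 = (1881 / 2000 : ℝ) by norm_num]
  linarith [ent_119_2000.1, ent_119_2000.2, ent_1881_2000.1, ent_1881_2000.2, ent_1_2.1, ent_1_2.2, log_two_gt_d9, log_two_lt_d9]

lemma check7_b00 :
    0 ≤ midAt (21 / 25 : ℝ) (1057 / 1000 : ℝ) (9663 / 20000 : ℝ) (9917 / 10000 : ℝ) (1 / 2 : ℝ) (881 / 1000 : ℝ) := by
  unfold midAt mshape
  rw [show (1 / 2 : ℝ) - (881 / 1000 : ℝ) / 2 = (119 / 2000 : ℝ) by norm_num,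
    show (1 / 2 : ℝ) + (881 / 1000 : ℝ) / 2 = (1881 / 2000 : ℝ) by norm_num]
  linarith [ent_119_2000.1, ent_119_2000.2, ent_1881_2000.1, ent_1881_2000.2, ent_1_2.1, ent_1_2.2, log_two_gt_d9, log_two_lt_d9]

lemma check7_a01 :
    0 ≤ midAt (21 / 25 : ℝ) (957 / 1000 : ℝ) (9663 / 20000 : ℝ) (9917 / 10000 : ℝ) (1 / 2 : ℝ) (489 / 500 : ℝ) := by
  unfold midAt mshape
  rw [show (1 / 2 : ℝ) - (489 / 500 : ℝ) / 2 = (11 / 1000 : ℝ) by norm_num,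
    show (1 / 2 : ℝ) + (489 / 500 : ℝ) / 2 = (989 / 1000 : ℝ) by norm_num]
  linarith [ent_11_1000.1, ent_11_1000.2, ent_989_1000.1, ent_989_1000.2, ent_1_2.1, ent_1_2.2, log_two_gt_d9, log_two_lt_d9]

lemma check7_b01 :
    0 ≤ midAt (21 / 25 : ℝ) (1057 / 1000 : ℝ) (9663 / 20000 : ℝ) (9917 / 10000 : ℝ) (1 / 2 : ℝ) (489 / 500 : ℝ) := by
  unfold midAt mshape
  rw [show (1 / 2 : ℝ) - (489 / 500 : ℝ) / 2 = (11 / 1000 : ℝ) by norm_num,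
    show (1 / 2 : ℝ) + (489 / 500 : ℝ) / 2 = (989 / 1000 : ℝ) by norm_num]
  linarith [ent_11_1000.1, ent_11_1000.2, ent_989_1000.1, ent_989_1000.2, ent_1_2.1, ent_1_2.2, log_two_gt_d9, log_two_lt_d9]

lemma check7_a10 :
    0 ≤ midAt (21 / 25 : ℝ) (957 / 1000 : ℝ) (9663 / 20000 : ℝ) (9917 / 10000 : ℝ) (1 - (881 / 1000 : ℝ) / 2) (881 / 1000 : ℝ) := by
  unfold midAt mshape
  rw [show (1 - (881 / 1000 : ℝ) / 2) - (881 / 1000 : ℝ) / 2 = (119 / 1000 : ℝ) by norm_num,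
    show (1 - (881 / 1000 : ℝ) / 2) + (881 / 1000 : ℝ) / 2 = (1 : ℝ) by norm_num,
    show (1 - (881 / 1000 : ℝ) / 2) = (1119 / 2000 : ℝ) by norm_num]
  simp only [binEntropy_one]
  linarith [ent_119_1000.1, ent_119_1000.2, ent_1119_2000.1, ent_1119_2000.2, log_two_gt_d9, log_two_lt_d9]

lemma check7_b10 :
    0 ≤ midAt (21 / 25 : ℝ) (1057 / 1000 : ℝ) (9663 / 20000 : ℝ) (9917 / 10000 : ℝ) (1 - (881 / 1000 : ℝ) / 2) (881 / 1000 : ℝ) := by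
  unfold midAt mshape
  rw [show (1 - (881 / 1000 : ℝ) / 2) - (881 / 1000 : ℝ) / 2 = (119 / 1000 : ℝ) by norm_num,
    show (1 - (881 / 1000 : ℝ) / 2) + (881 / 1000 : ℝ) / 2 = (1 : ℝ) by norm_num,
    show (1 - (881 / 1000 : ℝ) / 2) = (1119 / 2000 : ℝ) by norm_num]
  simp only [binEntropy_one]
  linarith [ent_119_1000.1, ent_119_1000.2, ent_1119_2000.1, ent_1119_2000.2, log_two_gt_d9, log_two_lt_d9]

lemma check7_a11 :
    0 ≤ midAt (21 / 25 : ℝ) (957 / 1000 : ℝ) (9663 / 20000 : ℝ) (9917 / 10000 : ℝ) (1 - (489 / 500 : ℝ) / 2) (489 / 500 : ℝ) := by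
  unfold midAt mshape
  rw [show (1 - (489 / 500 : ℝ) / 2) - (489 / 500 : ℝ) / 2 = (11 / 500 : ℝ) by norm_num,
    show (1 - (489 / 500 : ℝ) / 2) + (489 / 500 : ℝ) / 2 = (1 : ℝ) by norm_num,
    show (1 - (489 / 500 : ℝ) / 2) = (511 / 1000 : ℝ) by norm_num]
  simp only [binEntropy_one]
  linarith [ent_11_500.1, ent_11_500.2, ent_511_1000.1, ent_511_1000.2, log_two_gt_d9, log_two_lt_d9]

lemma check7_b11 :
    0 ≤ midAt (21 / 25 : ℝ) (1057 / 1000 : ℝ) (9663 / 20000 : ℝ) (9917 / 10000 : ℝ) (1 - (489 / 500 : ℝ) / 2) (489 / 500 : ℝ) := by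
  unfold midAt mshape
  rw [show (1 - (489 / 500 : ℝ) / 2) - (489 / 500 : ℝ) / 2 = (11 / 500 : ℝ) by norm_num,
    show (1 - (489 / 500 : ℝ) / 2) + (489 / 500 : ℝ) / 2 = (1 : ℝ) by norm_num,
    show (1 - (489 / 500 : ℝ) / 2) = (511 / 1000 : ℝ) by norm_num]
  simp only [binEntropy_one]
  linarith [ent_11_500.1, ent_11_500.2, ent_511_1000.1, ent_511_1000.2, log_two_gt_d9, log_two_lt_d9]

theorem row7 {ε a b : ℝ} (h0 : (1 / 20 : ℝ) ≤ ε) (h1 : ε ≤ (2 / 25 : ℝ))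
    (hd : |a - b| ∈ Icc (881 / 1000 : ℝ) (489 / 500 : ℝ)) (ha : a ∈ Icc (0 : ℝ) 1) (hb : b ∈ Icc (0 : ℝ) 1) :
    StepAt ε (capBound (21 / 25 : ℝ) ε) a b :=
  stepAt_top_row (inBlock h0 h1) cert7
    ⟨check7_a00, check7_b00, check7_a01, check7_b01, check7_a10, check7_b10, check7_a11, check7_b11⟩
    (by norm_num) (by norm_num) (by norm_num) (by norm_num) hd ha hb

lemma cert8 : ∃ θ k, Cert (2 / 25 : ℝ) θ k ∧ (1483 / 4000 : ℝ) ≤ θ ∧ θ < 1 ∧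
    (2497 / 2500 : ℝ) * binEntropy (2 / 25 : ℝ) ≤ k := by
  obtain ⟨a1, a2⟩ := log_20189_250000
  obtain ⟨b1, b2⟩ := log_229811_250000
  obtain ⟨c1, c2⟩ := log_9_10000
  obtain ⟨d1, d2⟩ := log_9991_10000
  have hd1 : (1 : ℝ) - (9 / 10000 : ℝ) = (9991 / 10000 : ℝ) := by norm_num
  have hq1 : (1 : ℝ) - (20189 / 250000 : ℝ) = (229811 / 250000 : ℝ) := by norm_num
  refine exists_cert (d := (9 / 10000 : ℝ)) (q := (20189 / 250000 : ℝ)) (θ₁ := (37077 / 100000 : ℝ)) (by norm_num) (by norm_num)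
    (by norm_num) (by norm_num) (by norm_num) ?_ ?_ (by norm_num) ?_ (by norm_num)
  · rw [hd1, hq1]; linarith
  · rw [hd1, hq1]; linarith
  · linarith [ent_9_10000.1, ent_9_10000.2, ent_2_25.1, ent_2_25.2, ent_20189_250000.1, ent_20189_250000.2]

lemma check8_a00 :
    0 ≤ midAt (21 / 25 : ℝ) (957 / 1000 : ℝ) (1483 / 4000 : ℝ) (2497 / 2500 : ℝ) (1 / 2 : ℝ) (489 / 500 : ℝ) := by
  unfold midAt mshape
  rw [show (1 / 2 : ℝ) - (489 / 500 : ℝ) / 2 = (11 / 1000 : ℝ) by norm_num,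
    show (1 / 2 : ℝ) + (489 / 500 : ℝ) / 2 = (989 / 1000 : ℝ) by norm_num]
  linarith [ent_11_1000.1, ent_11_1000.2, ent_989_1000.1, ent_989_1000.2, ent_1_2.1, ent_1_2.2, log_two_gt_d9, log_two_lt_d9]

lemma check8_b00 :
    0 ≤ midAt (21 / 25 : ℝ) (1057 / 1000 : ℝ) (1483 / 4000 : ℝ) (2497 / 2500 : ℝ) (1 / 2 : ℝ) (489 / 500 : ℝ) := by
  unfold midAt mshape
  rw [show (1 / 2 : ℝ) - (489 / 500 : ℝ) / 2 = (11 / 1000 : ℝ) by norm_num,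
    show (1 / 2 : ℝ) + (489 / 500 : ℝ) / 2 = (989 / 1000 : ℝ) by norm_num]
  linarith [ent_11_1000.1, ent_11_1000.2, ent_989_1000.1, ent_989_1000.2, ent_1_2.1, ent_1_2.2, log_two_gt_d9, log_two_lt_d9]

lemma check8_a01 :
    0 ≤ midAt (21 / 25 : ℝ) (957 / 1000 : ℝ) (1483 / 4000 : ℝ) (2497 / 2500 : ℝ) (1 / 2 : ℝ) (49 / 50 : ℝ) := by
  unfold midAt mshape
  rw [show (1 / 2 : ℝ) - (49 / 50 : ℝ) / 2 = (1 / 100 : ℝ) by norm_num,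
    show (1 / 2 : ℝ) + (49 / 50 : ℝ) / 2 = (99 / 100 : ℝ) by norm_num]
  linarith [ent_1_100.1, ent_1_100.2, ent_99_100.1, ent_99_100.2, ent_1_2.1, ent_1_2.2, log_two_gt_d9, log_two_lt_d9]

lemma check8_b01 :
    0 ≤ midAt (21 / 25 : ℝ) (1057 / 1000 : ℝ) (1483 / 4000 : ℝ) (2497 / 2500 : ℝ) (1 / 2 : ℝ) (49 / 50 : ℝ) := by
  unfold midAt mshape
  rw [show (1 / 2 : ℝ) - (49 / 50 : ℝ) / 2 = (1 / 100 : ℝ) by norm_num,
    show (1 / 2 : ℝ) + (49 / 50 : ℝ) / 2 = (99 / 100 : ℝ) by norm_num]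
  linarith [ent_1_100.1, ent_1_100.2, ent_99_100.1, ent_99_100.2, ent_1_2.1, ent_1_2.2, log_two_gt_d9, log_two_lt_d9]

lemma check8_a10 :
    0 ≤ midAt (21 / 25 : ℝ) (957 / 1000 : ℝ) (1483 / 4000 : ℝ) (2497 / 2500 : ℝ) (1 - (489 / 500 : ℝ) / 2) (489 / 500 : ℝ) := by
  unfold midAt mshape
  rw [show (1 - (489 / 500 : ℝ) / 2) - (489 / 500 : ℝ) / 2 = (11 / 500 : ℝ) by norm_num,
    show (1 - (489 / 500 : ℝ) / 2) + (489 / 500 : ℝ) / 2 = (1 : ℝ) by norm_num,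
    show (1 - (489 / 500 : ℝ) / 2) = (511 / 1000 : ℝ) by norm_num]
  simp only [binEntropy_one]
  linarith [ent_11_500.1, ent_11_500.2, ent_511_1000.1, ent_511_1000.2, log_two_gt_d9, log_two_lt_d9]

lemma check8_b10 :
    0 ≤ midAt (21 / 25 : ℝ) (1057 / 1000 : ℝ) (1483 / 4000 : ℝ) (2497 / 2500 : ℝ) (1 - (489 / 500 : ℝ) / 2) (489 / 500 : ℝ) := by
  unfold midAt mshape
  rw [show (1 - (489 / 500 : ℝ) / 2) - (489 / 500 : ℝ) / 2 = (11 / 500 : ℝ) by norm_num,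
    show (1 - (489 / 500 : ℝ) / 2) + (489 / 500 : ℝ) / 2 = (1 : ℝ) by norm_num,
    show (1 - (489 / 500 : ℝ) / 2) = (511 / 1000 : ℝ) by norm_num]
  simp only [binEntropy_one]
  linarith [ent_11_500.1, ent_11_500.2, ent_511_1000.1, ent_511_1000.2, log_two_gt_d9, log_two_lt_d9]

lemma check8_a11 :
    0 ≤ midAt (21 / 25 : ℝ) (957 / 1000 : ℝ) (1483 / 4000 : ℝ) (2497 / 2500 : ℝ) (1 - (49 / 50 : ℝ) / 2) (49 / 50 : ℝ) := by
  unfold midAt mshape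
  rw [show (1 - (49 / 50 : ℝ) / 2) - (49 / 50 : ℝ) / 2 = (1 / 50 : ℝ) by norm_num,
    show (1 - (49 / 50 : ℝ) / 2) + (49 / 50 : ℝ) / 2 = (1 : ℝ) by norm_num,
    show (1 - (49 / 50 : ℝ) / 2) = (51 / 100 : ℝ) by norm_num]
  simp only [binEntropy_one]
  linarith [ent_1_50.1, ent_1_50.2, ent_51_100.1, ent_51_100.2, log_two_gt_d9, log_two_lt_d9]

lemma check8_b11 :
    0 ≤ midAt (21 / 25 : ℝ) (1057 / 1000 : ℝ) (1483 / 4000 : ℝ) (2497 / 2500 : ℝ) (1 - (49 / 50 : ℝ) / 2) (49 / 50 : ℝ) := by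
  unfold midAt mshape
  rw [show (1 - (49 / 50 : ℝ) / 2) - (49 / 50 : ℝ) / 2 = (1 / 50 : ℝ) by norm_num,
    show (1 - (49 / 50 : ℝ) / 2) + (49 / 50 : ℝ) / 2 = (1 : ℝ) by norm_num,
    show (1 - (49 / 50 : ℝ) / 2) = (51 / 100 : ℝ) by norm_num]
  simp only [binEntropy_one]
  linarith [ent_1_50.1, ent_1_50.2, ent_51_100.1, ent_51_100.2, log_two_gt_d9, log_two_lt_d9]

theorem row8 {ε a b : ℝ} (h0 : (1 / 20 : ℝ) ≤ ε) (h1 : ε ≤ (2 / 25 : ℝ))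
    (hd : |a - b| ∈ Icc (489 / 500 : ℝ) (49 / 50 : ℝ)) (ha : a ∈ Icc (0 : ℝ) 1) (hb : b ∈ Icc (0 : ℝ) 1) :
    StepAt ε (capBound (21 / 25 : ℝ) ε) a b :=
  stepAt_top_row (inBlock h0 h1) cert8
    ⟨check8_a00, check8_b00, check8_a01, check8_b01, check8_a10, check8_b10, check8_a11, check8_b11⟩
    (by norm_num) (by norm_num) (by norm_num) (by norm_num) hd ha hb

theorem edge0 {ε a b : ℝ} (h0 : (1 / 20 : ℝ) ≤ ε) (h1 : ε ≤ (2 / 25 : ℝ))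
    (hd : (49 / 50 : ℝ) ≤ |a - b|) (ha : a ∈ Icc (0 : ℝ) 1) (hb : b ∈ Icc (0 : ℝ) 1) :
    StepAt ε (capBound (21 / 25 : ℝ) ε) a b := by
  have hx := xRatio_mem (xa := (957 / 1000 : ℝ)) (xb := (1057 / 1000 : ℝ)) (by norm_num) h0 h1 (by norm_num)
    (by linarith [ent_1_20.2]) (by linarith [ent_2_25.1])
  have hdd : (11 / 100 : ℝ) * (1 / 50 : ℝ) = (11 / 5000 : ℝ) := by norm_num
  have hqq : (2 / 25 : ℝ) + (1 - 2 * (2 / 25 : ℝ)) * (11 / 5000 : ℝ) = (10231 / 125000 : ℝ) := by norm_num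
  have hq1 : (1 : ℝ) - (10231 / 125000 : ℝ) = (114769 / 125000 : ℝ) := by norm_num
  have he1 : (1 : ℝ) - (2 / 25 : ℝ) = (23 / 25 : ℝ) := by norm_num
  have hHL : binEntropy (2 / 25 : ℝ) * log 2 ≤ (38645641 / 200000000 : ℝ) :=
    (mul_le_mul ent_2_25.2 log_two_lt_d9.le (log_nonneg one_le_two) (by norm_num)).trans
      (by norm_num)
  refine stepAt_edge (g := (11 / 100 : ℝ)) (u₀ := (1 / 50 : ℝ)) (S := (604374771 / 250000000 : ℝ)) (ℓ := (163069391 / 62500000 : ℝ)) (τ := (21319 / 50000 : ℝ))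
    (U₀ := (3912023003 / 1000000000 : ℝ)) (T := (0 : ℝ)) (by norm_num) (by linarith) h1 (by norm_num) hx (by norm_num)
    (by linarith [log_two_lt_d9]) (by norm_num) (by norm_num) (by norm_num) ?_ ?_ (by norm_num)
    ?_ ?_ ?_ ?_ (by norm_num) ?_ ?_ ?_ (by linarith) ha hb
  · rw [hdd, hqq, hq1]
    linarith [log_11_5000.1, log_10231_125000.2, log_114769_125000.2]
  · rw [hdd, hqq, hq1]
    linarith [log_10231_125000.2, log_114769_125000.1]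
  · rw [he1]; linarith [log_2_25.1, log_23_25.1]
  · rw [hdd]; linarith [log_11_5000.2]
  · linarith [log_1_50.2]
  · linarith [ent_2_25.1]
  · unfold edgeBr; linarith [ent_2_25.1, hHL, log_11_100.1]
  · unfold edgeBr; linarith [ent_2_25.1, hHL, log_11_100.1]
  · linarith [ent_2_25.2]

/-- Steps for every pair of means at every noise level of the block. -/
theorem stepAt_all {ε a b : ℝ} (h0 : (1 / 20 : ℝ) ≤ ε) (h1 : ε ≤ (2 / 25 : ℝ))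
    (ha : a ∈ Icc (0 : ℝ) 1) (hb : b ∈ Icc (0 : ℝ) 1) : StepAt ε (capBound (21 / 25 : ℝ) ε) a b := by
  rcases le_total |a - b| (3 / 50 : ℝ) with h | g0
  · exact row_small h0 h1 h ha hb
  rcases le_total |a - b| (19 / 250 : ℝ) with h | g1
  · exact row0 h0 h1 ⟨g0, h⟩ ha hb
  rcases le_total |a - b| (97 / 1000 : ℝ) with h | g2
  · exact row1 h0 h1 ⟨g1, h⟩ ha hb
  rcases le_total |a - b| (121 / 1000 : ℝ) with h | g3
  · exact row2 h0 h1 ⟨g2, h⟩ ha hb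
  rcases le_total |a - b| (18 / 125 : ℝ) with h | g4
  · exact row3 h0 h1 ⟨g3, h⟩ ha hb
  rcases le_total |a - b| (231 / 1000 : ℝ) with h | g5
  · exact row4 h0 h1 ⟨g4, h⟩ ha hb
  rcases le_total |a - b| (131 / 250 : ℝ) with h | g6
  · exact row5 h0 h1 ⟨g5, h⟩ ha hb
  rcases le_total |a - b| (881 / 1000 : ℝ) with h | g7
  · exact row6 h0 h1 ⟨g6, h⟩ ha hb
  rcases le_total |a - b| (489 / 500 : ℝ) with h | g8
  · exact row7 h0 h1 ⟨g7, h⟩ ha hb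
  rcases le_total |a - b| (49 / 50 : ℝ) with h | g9
  · exact row8 h0 h1 ⟨g8, h⟩ ha hb
  exact edge0 h0 h1 g9 ha hb

end Vale.Agent.P322.BlockB
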