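import Mathlib
import Vale.Agent.P322.Numerics

/-!
P322: certified bounds of logarithms and entropies for noise levels in `[2/25, 21/200]`.
-/

open Real

namespace Vale.Agent.P322.BlockC

lemma log_2_25 : (-1262864323 / 500000000 : ℝ) ≤ log (2 / 25 : ℝ) ∧ log (2 / 25 : ℝ) ≤ (-2525728643 / 1000000000 : ℝ) := by
  obtain ⟨h1, h2⟩ := log_bracket (a := (2 / 25 : ℝ)) (x := (7 / 57 : ℝ)) (-4) 9 (by norm_num) (by norm_num)
    (by norm_num)
  norm_num [Finset.sum_range_succ] at h1 h2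
  constructor <;> linarith [log_two_gt_d9, log_two_lt_d9]

lemma log_23_25 : (-8338161 / 100000000 : ℝ) ≤ log (23 / 25 : ℝ) ∧ log (23 / 25 : ℝ) ≤ (-10422701 / 125000000 : ℝ) := by
  obtain ⟨h1, h2⟩ := log_bracket (a := (23 / 25 : ℝ)) (x := (21 / 71 : ℝ)) (-1) 9 (by norm_num) (by norm_num)
    (by norm_num)
  norm_num [Finset.sum_range_succ] at h1 h2
  constructor <;> linarith [log_two_gt_d9, log_two_lt_d9]

lemma ent_2_25 : (27876937 / 100000000 : ℝ) ≤ binEntropy (2 / 25 : ℝ) ∧ binEntropy (2 / 25 : ℝ) ≤ (278769373 / 1000000000 : ℝ) := by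
  obtain ⟨a1, a2⟩ := log_2_25
  obtain ⟨b1, b2⟩ := log_23_25
  rw [binEntropy_eq_negMulLog_add_negMulLog_one_sub, show (1 : ℝ) - (2 / 25 : ℝ) = (23 / 25 : ℝ) by norm_num]
  unfold negMulLog
  constructor <;> linarith

lemma log_21_200 : (-225379493 / 100000000 : ℝ) ≤ log (21 / 200 : ℝ) ∧ log (21 / 200 : ℝ) ≤ (-2253794927 / 1000000000 : ℝ) := by
  obtain ⟨h1, h2⟩ := log_bracket (a := (21 / 200 : ℝ)) (x := (17 / 67 : ℝ)) (-4) 9 (by norm_num) (by norm_num)
    (by norm_num)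
  norm_num [Finset.sum_range_succ] at h1 h2
  constructor <;> linarith [log_two_gt_d9, log_two_lt_d9]

lemma log_179_200 : (-110931561 / 1000000000 : ℝ) ≤ log (179 / 200 : ℝ) ∧ log (179 / 200 : ℝ) ≤ (-2773289 / 25000000 : ℝ) := by
  obtain ⟨h1, h2⟩ := log_bracket (a := (179 / 200 : ℝ)) (x := (79 / 279 : ℝ)) (-1) 9 (by norm_num) (by norm_num)
    (by norm_num)
  norm_num [Finset.sum_range_succ] at h1 h2
  constructor <;> linarith [log_two_gt_d9, log_two_lt_d9]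

lemma ent_21_200 : (335932213 / 1000000000 : ℝ) ≤ binEntropy (21 / 200 : ℝ) ∧ binEntropy (21 / 200 : ℝ) ≤ (67186443 / 200000000 : ℝ) := by
  obtain ⟨a1, a2⟩ := log_21_200
  obtain ⟨b1, b2⟩ := log_179_200
  rw [binEntropy_eq_negMulLog_add_negMulLog_one_sub, show (1 : ℝ) - (21 / 200 : ℝ) = (179 / 200 : ℝ) by norm_num]
  unfold negMulLog
  constructor <;> linarith

lemma log_23_50 : (-77652879 / 100000000 : ℝ) ≤ log (23 / 50 : ℝ) ∧ log (23 / 50 : ℝ) ≤ (-194132197 / 250000000 : ℝ) := by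
  obtain ⟨h1, h2⟩ := log_bracket (a := (23 / 50 : ℝ)) (x := (21 / 71 : ℝ)) (-2) 9 (by norm_num) (by norm_num)
    (by norm_num)
  norm_num [Finset.sum_range_succ] at h1 h2
  constructor <;> linarith [log_two_gt_d9, log_two_lt_d9]

lemma log_27_50 : (-30809307 / 50000000 : ℝ) ≤ log (27 / 50 : ℝ) ∧ log (27 / 50 : ℝ) ≤ (-616186139 / 1000000000 : ℝ) := by
  obtain ⟨h1, h2⟩ := log_bracket (a := (27 / 50 : ℝ)) (x := (1 / 26 : ℝ)) (-1) 9 (by norm_num) (by norm_num)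
    (by norm_num)
  norm_num [Finset.sum_range_succ] at h1 h2
  constructor <;> linarith [log_two_gt_d9, log_two_lt_d9]

lemma ent_23_50 : (689943757 / 1000000000 : ℝ) ≤ binEntropy (23 / 50 : ℝ) ∧ binEntropy (23 / 50 : ℝ) ≤ (689943759 / 1000000000 : ℝ) := by
  obtain ⟨a1, a2⟩ := log_23_50
  obtain ⟨b1, b2⟩ := log_27_50
  rw [binEntropy_eq_negMulLog_add_negMulLog_one_sub, show (1 : ℝ) - (23 / 50 : ℝ) = (27 / 50 : ℝ) by norm_num]
  unfold negMulLog
  constructor <;> linarith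

lemma log_897_1874 : (-368387301 / 500000000 : ℝ) ≤ log (897 / 1874 : ℝ) ∧ log (897 / 1874 : ℝ) ≤ (-736774599 / 1000000000 : ℝ) := by
  obtain ⟨h1, h2⟩ := log_bracket (a := (897 / 1874 : ℝ)) (x := (857 / 2731 : ℝ)) (-2) 9 (by norm_num) (by norm_num)
    (by norm_num)
  norm_num [Finset.sum_range_succ] at h1 h2
  constructor <;> linarith [log_two_gt_d9, log_two_lt_d9]

lemma log_977_1874 : (-651343811 / 1000000000 : ℝ) ≤ log (977 / 1874 : ℝ) ∧ log (977 / 1874 : ℝ) ≤ (-65134381 / 100000000 : ℝ) := by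
  obtain ⟨h1, h2⟩ := log_bracket (a := (977 / 1874 : ℝ)) (x := (20 / 957 : ℝ)) (-1) 9 (by norm_num) (by norm_num)
    (by norm_num)
  norm_num [Finset.sum_range_succ] at h1 h2
  constructor <;> linarith [log_two_gt_d9, log_two_lt_d9]

lemma ent_897_1874 : (173058927 / 250000000 : ℝ) ≤ binEntropy (897 / 1874 : ℝ) ∧ binEntropy (897 / 1874 : ℝ) ≤ (692235711 / 1000000000 : ℝ) := by
  obtain ⟨a1, a2⟩ := log_897_1874
  obtain ⟨b1, b2⟩ := log_977_1874
  rw [binEntropy_eq_negMulLog_add_negMulLog_one_sub, show (1 : ℝ) - (897 / 1874 : ℝ) = (977 / 1874 : ℝ) by norm_num]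
  unfold negMulLog
  constructor <;> linarith

lemma log_23_126 : (-425196923 / 250000000 : ℝ) ≤ log (23 / 126 : ℝ) ∧ log (23 / 126 : ℝ) ≤ (-170078769 / 100000000 : ℝ) := by
  obtain ⟨h1, h2⟩ := log_bracket (a := (23 / 126 : ℝ)) (x := (29 / 155 : ℝ)) (-3) 9 (by norm_num) (by norm_num)
    (by norm_num)
  norm_num [Finset.sum_range_succ] at h1 h2
  constructor <;> linarith [log_two_gt_d9, log_two_lt_d9]

lemma log_103_126 : (-201552919 / 1000000000 : ℝ) ≤ log (103 / 126 : ℝ) ∧ log (103 / 126 : ℝ) ≤ (-100776459 / 500000000 : ℝ) := by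
  obtain ⟨h1, h2⟩ := log_bracket (a := (103 / 126 : ℝ)) (x := (20 / 83 : ℝ)) (-1) 9 (by norm_num) (by norm_num)
    (by norm_num)
  norm_num [Finset.sum_range_succ] at h1 h2
  constructor <;> linarith [log_two_gt_d9, log_two_lt_d9]

lemma ent_23_126 : (475222757 / 1000000000 : ℝ) ≤ binEntropy (23 / 126 : ℝ) ∧ binEntropy (23 / 126 : ℝ) ≤ (475222759 / 1000000000 : ℝ) := by
  obtain ⟨a1, a2⟩ := log_23_126
  obtain ⟨b1, b2⟩ := log_103_126
  rw [binEntropy_eq_negMulLog_add_negMulLog_one_sub, show (1 : ℝ) - (23 / 126 : ℝ) = (103 / 126 : ℝ) by norm_num]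
  unfold negMulLog
  constructor <;> linarith

lemma log_63_1000 : (-1382310277 / 500000000 : ℝ) ≤ log (63 / 1000 : ℝ) ∧ log (63 / 1000 : ℝ) ≤ (-2764620551 / 1000000000 : ℝ) := by
  obtain ⟨h1, h2⟩ := log_bracket (a := (63 / 1000 : ℝ)) (x := (1 / 251 : ℝ)) (-4) 9 (by norm_num) (by norm_num)
    (by norm_num)
  norm_num [Finset.sum_range_succ] at h1 h2
  constructor <;> linarith [log_two_gt_d9, log_two_lt_d9]

lemma log_937_1000 : (-32535999 / 500000000 : ℝ) ≤ log (937 / 1000 : ℝ) ∧ log (937 / 1000 : ℝ) ≤ (-16267999 / 250000000 : ℝ) := by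
  obtain ⟨h1, h2⟩ := log_bracket (a := (937 / 1000 : ℝ)) (x := (437 / 1437 : ℝ)) (-1) 9 (by norm_num) (by norm_num)
    (by norm_num)
  norm_num [Finset.sum_range_succ] at h1 h2
  constructor <;> linarith [log_two_gt_d9, log_two_lt_d9]

lemma ent_63_1000 : (117571777 / 500000000 : ℝ) ≤ binEntropy (63 / 1000 : ℝ) ∧ binEntropy (63 / 1000 : ℝ) ≤ (117571779 / 500000000 : ℝ) := by
  obtain ⟨a1, a2⟩ := log_63_1000
  obtain ⟨b1, b2⟩ := log_937_1000
  rw [binEntropy_eq_negMulLog_add_negMulLog_one_sub, show (1 : ℝ) - (63 / 1000 : ℝ) = (937 / 1000 : ℝ) by norm_num]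
  unfold negMulLog
  constructor <;> linarith

lemma ent_937_1000 : (117571777 / 500000000 : ℝ) ≤ binEntropy (937 / 1000 : ℝ) ∧ binEntropy (937 / 1000 : ℝ) ≤ (117571779 / 500000000 : ℝ) := by
  rw [show (937 / 1000 : ℝ) = 1 - (63 / 1000 : ℝ) by norm_num, binEntropy_one_sub]
  exact ent_63_1000

lemma log_20181_50000 : (-907281439 / 1000000000 : ℝ) ≤ log (20181 / 50000 : ℝ) ∧ log (20181 / 50000 : ℝ) ≤ (-907281437 / 1000000000 : ℝ) := by
  obtain ⟨h1, h2⟩ := log_bracket (a := (20181 / 50000 : ℝ)) (x := (7681 / 32681 : ℝ)) (-2) 9 (by norm_num) (by norm_num)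
    (by norm_num)
  norm_num [Finset.sum_range_succ] at h1 h2
  constructor <;> linarith [log_two_gt_d9, log_two_lt_d9]

lemma log_29819_50000 : (-32304827 / 62500000 : ℝ) ≤ log (29819 / 50000 : ℝ) ∧ log (29819 / 50000 : ℝ) ≤ (-51687723 / 100000000 : ℝ) := by
  obtain ⟨h1, h2⟩ := log_bracket (a := (29819 / 50000 : ℝ)) (x := (4819 / 54819 : ℝ)) (-1) 9 (by norm_num) (by norm_num)
    (by norm_num)
  norm_num [Finset.sum_range_succ] at h1 h2
  constructor <;> linarith [log_two_gt_d9, log_two_lt_d9]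

lemma log_189_500 : (-243215271 / 250000000 : ℝ) ≤ log (189 / 500 : ℝ) ∧ log (189 / 500 : ℝ) ≤ (-486430541 / 500000000 : ℝ) := by
  obtain ⟨h1, h2⟩ := log_bracket (a := (189 / 500 : ℝ)) (x := (32 / 157 : ℝ)) (-2) 9 (by norm_num) (by norm_num)
    (by norm_num)
  norm_num [Finset.sum_range_succ] at h1 h2
  constructor <;> linarith [log_two_gt_d9, log_two_lt_d9]

lemma log_311_500 : (-474815187 / 1000000000 : ℝ) ≤ log (311 / 500 : ℝ) ∧ log (311 / 500 : ℝ) ≤ (-94963037 / 200000000 : ℝ) := by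
  obtain ⟨h1, h2⟩ := log_bracket (a := (311 / 500 : ℝ)) (x := (61 / 561 : ℝ)) (-1) 9 (by norm_num) (by norm_num)
    (by norm_num)
  norm_num [Finset.sum_range_succ] at h1 h2
  constructor <;> linarith [log_two_gt_d9, log_two_lt_d9]

lemma ent_189_500 : (331538267 / 500000000 : ℝ) ≤ binEntropy (189 / 500 : ℝ) ∧ binEntropy (189 / 500 : ℝ) ≤ (663076537 / 1000000000 : ℝ) := by
  obtain ⟨a1, a2⟩ := log_189_500
  obtain ⟨b1, b2⟩ := log_311_500
  rw [binEntropy_eq_negMulLog_add_negMulLog_one_sub, show (1 : ℝ) - (189 / 500 : ℝ) = (311 / 500 : ℝ) by norm_num]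
  unfold negMulLog
  constructor <;> linarith

lemma ent_20181_50000 : (42153261 / 62500000 : ℝ) ≤ binEntropy (20181 / 50000 : ℝ) ∧ binEntropy (20181 / 50000 : ℝ) ≤ (674452179 / 1000000000 : ℝ) := by
  obtain ⟨a1, a2⟩ := log_20181_50000
  obtain ⟨b1, b2⟩ := log_29819_50000
  rw [binEntropy_eq_negMulLog_add_negMulLog_one_sub, show (1 : ℝ) - (20181 / 50000 : ℝ) = (29819 / 50000 : ℝ) by norm_num]
  unfold negMulLog
  constructor <;> linarith

lemma ent_27_50 : (689943757 / 1000000000 : ℝ) ≤ binEntropy (27 / 50 : ℝ) ∧ binEntropy (27 / 50 : ℝ) ≤ (689943759 / 1000000000 : ℝ) := by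
  rw [show (27 / 50 : ℝ) = 1 - (23 / 50 : ℝ) by norm_num, binEntropy_one_sub]
  exact ent_23_50

lemma ent_1_2 : (6931471803 / 10000000000 : ℝ) ≤ binEntropy (1 / 2 : ℝ) ∧ binEntropy (1 / 2 : ℝ) ≤ (108304247 / 156250000 : ℝ) := by
  rw [show (1 / 2 : ℝ) = 2⁻¹ by norm_num, binEntropy_two_inv]
  constructor <;> linarith [log_two_gt_d9, log_two_lt_d9]

lemma log_899_2000 : (-399809713 / 500000000 : ℝ) ≤ log (899 / 2000 : ℝ) ∧ log (899 / 2000 : ℝ) ≤ (-24988107 / 31250000 : ℝ) := by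
  obtain ⟨h1, h2⟩ := log_bracket (a := (899 / 2000 : ℝ)) (x := (399 / 1399 : ℝ)) (-2) 9 (by norm_num) (by norm_num)
    (by norm_num)
  norm_num [Finset.sum_range_succ] at h1 h2
  constructor <;> linarith [log_two_gt_d9, log_two_lt_d9]

lemma log_1101_2000 : (-149232081 / 250000000 : ℝ) ≤ log (1101 / 2000 : ℝ) ∧ log (1101 / 2000 : ℝ) ≤ (-298464161 / 500000000 : ℝ) := by
  obtain ⟨h1, h2⟩ := log_bracket (a := (1101 / 2000 : ℝ)) (x := (101 / 2101 : ℝ)) (-1) 9 (by norm_num) (by norm_num)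
    (by norm_num)
  norm_num [Finset.sum_range_succ] at h1 h2
  constructor <;> linarith [log_two_gt_d9, log_two_lt_d9]

lemma ent_899_2000 : (172009493 / 250000000 : ℝ) ≤ binEntropy (899 / 2000 : ℝ) ∧ binEntropy (899 / 2000 : ℝ) ≤ (27521519 / 40000000 : ℝ) := by
  obtain ⟨a1, a2⟩ := log_899_2000
  obtain ⟨b1, b2⟩ := log_1101_2000
  rw [binEntropy_eq_negMulLog_add_negMulLog_one_sub, show (1 : ℝ) - (899 / 2000 : ℝ) = (1101 / 2000 : ℝ) by norm_num]
  unfold negMulLog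
  constructor <;> linarith

lemma ent_1101_2000 : (172009493 / 250000000 : ℝ) ≤ binEntropy (1101 / 2000 : ℝ) ∧ binEntropy (1101 / 2000 : ℝ) ≤ (27521519 / 40000000 : ℝ) := by
  rw [show (1101 / 2000 : ℝ) = 1 - (899 / 2000 : ℝ) by norm_num, binEntropy_one_sub]
  exact ent_899_2000

lemma log_29_250 : (-2154165089 / 1000000000 : ℝ) ≤ log (29 / 250 : ℝ) ∧ log (29 / 250 : ℝ) ≤ (-1077082543 / 500000000 : ℝ) := by
  obtain ⟨h1, h2⟩ := log_bracket (a := (29 / 250 : ℝ)) (x := (107 / 357 : ℝ)) (-4) 9 (by norm_num) (by norm_num)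
    (by norm_num)
  norm_num [Finset.sum_range_succ] at h1 h2
  constructor <;> linarith [log_two_gt_d9, log_two_lt_d9]

lemma log_221_250 : (-123298217 / 1000000000 : ℝ) ≤ log (221 / 250 : ℝ) ∧ log (221 / 250 : ℝ) ≤ (-15412277 / 125000000 : ℝ) := by
  obtain ⟨h1, h2⟩ := log_bracket (a := (221 / 250 : ℝ)) (x := (48 / 173 : ℝ)) (-1) 9 (by norm_num) (by norm_num)
    (by norm_num)
  norm_num [Finset.sum_range_succ] at h1 h2
  constructor <;> linarith [log_two_gt_d9, log_two_lt_d9]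

lemma ent_29_250 : (89719693 / 250000000 : ℝ) ≤ binEntropy (29 / 250 : ℝ) ∧ binEntropy (29 / 250 : ℝ) ≤ (14355151 / 40000000 : ℝ) := by
  obtain ⟨a1, a2⟩ := log_29_250
  obtain ⟨b1, b2⟩ := log_221_250
  rw [binEntropy_eq_negMulLog_add_negMulLog_one_sub, show (1 : ℝ) - (29 / 250 : ℝ) = (221 / 250 : ℝ) by norm_num]
  unfold negMulLog
  constructor <;> linarith

lemma ent_221_250 : (89719693 / 250000000 : ℝ) ≤ binEntropy (221 / 250 : ℝ) ∧ binEntropy (221 / 250 : ℝ) ≤ (14355151 / 40000000 : ℝ) := by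
  rw [show (221 / 250 : ℝ) = 1 - (29 / 250 : ℝ) by norm_num, binEntropy_one_sub]
  exact ent_29_250

lemma log_9_250 : (-1662118171 / 500000000 : ℝ) ≤ log (9 / 250 : ℝ) ∧ log (9 / 250 : ℝ) ≤ (-3324236339 / 1000000000 : ℝ) := by
  obtain ⟨h1, h2⟩ := log_bracket (a := (9 / 250 : ℝ)) (x := (19 / 269 : ℝ)) (-5) 9 (by norm_num) (by norm_num)
    (by norm_num)
  norm_num [Finset.sum_range_succ] at h1 h2
  constructor <;> linarith [log_two_gt_d9, log_two_lt_d9]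

lemma log_241_250 : (-7332797 / 200000000 : ℝ) ≤ log (241 / 250 : ℝ) ∧ log (241 / 250 : ℝ) ≤ (-36663983 / 1000000000 : ℝ) := by
  obtain ⟨h1, h2⟩ := log_bracket (a := (241 / 250 : ℝ)) (x := (58 / 183 : ℝ)) (-1) 9 (by norm_num) (by norm_num)
    (by norm_num)
  norm_num [Finset.sum_range_succ] at h1 h2
  constructor <;> linarith [log_two_gt_d9, log_two_lt_d9]

lemma ent_9_250 : (155016587 / 1000000000 : ℝ) ≤ binEntropy (9 / 250 : ℝ) ∧ binEntropy (9 / 250 : ℝ) ≤ (15501659 / 100000000 : ℝ) := by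
  obtain ⟨a1, a2⟩ := log_9_250
  obtain ⟨b1, b2⟩ := log_241_250
  rw [binEntropy_eq_negMulLog_add_negMulLog_one_sub, show (1 : ℝ) - (9 / 250 : ℝ) = (241 / 250 : ℝ) by norm_num]
  unfold negMulLog
  constructor <;> linarith

lemma ent_241_250 : (155016587 / 1000000000 : ℝ) ≤ binEntropy (241 / 250 : ℝ) ∧ binEntropy (241 / 250 : ℝ) ≤ (15501659 / 100000000 : ℝ) := by
  rw [show (241 / 250 : ℝ) = 1 - (9 / 250 : ℝ) by norm_num, binEntropy_one_sub]
  exact ent_9_250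

lemma log_19_250 : (-128851097 / 50000000 : ℝ) ≤ log (19 / 250 : ℝ) ∧ log (19 / 250 : ℝ) ≤ (-2577021937 / 1000000000 : ℝ) := by
  obtain ⟨h1, h2⟩ := log_bracket (a := (19 / 250 : ℝ)) (x := (27 / 277 : ℝ)) (-4) 9 (by norm_num) (by norm_num)
    (by norm_num)
  norm_num [Finset.sum_range_succ] at h1 h2
  constructor <;> linarith [log_two_gt_d9, log_two_lt_d9]

lemma log_231_250 : (-9880401 / 125000000 : ℝ) ≤ log (231 / 250 : ℝ) ∧ log (231 / 250 : ℝ) ≤ (-39521603 / 500000000 : ℝ) := by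
  obtain ⟨h1, h2⟩ := log_bracket (a := (231 / 250 : ℝ)) (x := (53 / 178 : ℝ)) (-1) 9 (by norm_num) (by norm_num)
    (by norm_num)
  norm_num [Finset.sum_range_succ] at h1 h2
  constructor <;> linarith [log_two_gt_d9, log_two_lt_d9]

lemma ent_19_250 : (268889589 / 1000000000 : ℝ) ≤ binEntropy (19 / 250 : ℝ) ∧ binEntropy (19 / 250 : ℝ) ≤ (33611199 / 125000000 : ℝ) := by
  obtain ⟨a1, a2⟩ := log_19_250
  obtain ⟨b1, b2⟩ := log_231_250
  rw [binEntropy_eq_negMulLog_add_negMulLog_one_sub, show (1 : ℝ) - (19 / 250 : ℝ) = (231 / 250 : ℝ) by norm_num]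
  unfold negMulLog
  constructor <;> linarith

lemma ent_231_250 : (268889589 / 1000000000 : ℝ) ≤ binEntropy (231 / 250 : ℝ) ∧ binEntropy (231 / 250 : ℝ) ≤ (33611199 / 125000000 : ℝ) := by
  rw [show (231 / 250 : ℝ) = 1 - (19 / 250 : ℝ) by norm_num, binEntropy_one_sub]
  exact ent_19_250

lemma log_253_2000 : (-516878243 / 250000000 : ℝ) ≤ log (253 / 2000 : ℝ) ∧ log (253 / 2000 : ℝ) ≤ (-206751297 / 100000000 : ℝ) := by
  obtain ⟨h1, h2⟩ := log_bracket (a := (253 / 2000 : ℝ)) (x := (3 / 503 : ℝ)) (-3) 9 (by norm_num) (by norm_num)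
    (by norm_num)
  norm_num [Finset.sum_range_succ] at h1 h2
  constructor <;> linarith [log_two_gt_d9, log_two_lt_d9]

lemma log_1747_2000 : (-2704943 / 20000000 : ℝ) ≤ log (1747 / 2000 : ℝ) ∧ log (1747 / 2000 : ℝ) ≤ (-135247149 / 1000000000 : ℝ) := by
  obtain ⟨h1, h2⟩ := log_bracket (a := (1747 / 2000 : ℝ)) (x := (747 / 2747 : ℝ)) (-1) 9 (by norm_num) (by norm_num)
    (by norm_num)
  norm_num [Finset.sum_range_succ] at h1 h2
  constructor <;> linarith [log_two_gt_d9, log_two_lt_d9]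

lemma ent_253_2000 : (15187151 / 40000000 : ℝ) ≤ binEntropy (253 / 2000 : ℝ) ∧ binEntropy (253 / 2000 : ℝ) ≤ (379678777 / 1000000000 : ℝ) := by
  obtain ⟨a1, a2⟩ := log_253_2000
  obtain ⟨b1, b2⟩ := log_1747_2000
  rw [binEntropy_eq_negMulLog_add_negMulLog_one_sub, show (1 : ℝ) - (253 / 2000 : ℝ) = (1747 / 2000 : ℝ) by norm_num]
  unfold negMulLog
  constructor <;> linarith

lemma ent_1747_2000 : (15187151 / 40000000 : ℝ) ≤ binEntropy (1747 / 2000 : ℝ) ∧ binEntropy (1747 / 2000 : ℝ) ≤ (379678777 / 1000000000 : ℝ) := by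
  rw [show (1747 / 2000 : ℝ) = 1 - (253 / 2000 : ℝ) by norm_num, binEntropy_one_sub]
  exact ent_253_2000

lemma log_51_2000 : (-3669076829 / 1000000000 : ℝ) ≤ log (51 / 2000 : ℝ) ∧ log (51 / 2000 : ℝ) ≤ (-146763073 / 40000000 : ℝ) := by
  obtain ⟨h1, h2⟩ := log_bracket (a := (51 / 2000 : ℝ)) (x := (79 / 329 : ℝ)) (-6) 9 (by norm_num) (by norm_num)
    (by norm_num)
  norm_num [Finset.sum_range_succ] at h1 h2
  constructor <;> linarith [log_two_gt_d9, log_two_lt_d9]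

lemma log_1949_2000 : (-25830761 / 1000000000 : ℝ) ≤ log (1949 / 2000 : ℝ) ∧ log (1949 / 2000 : ℝ) ≤ (-12915379 / 500000000 : ℝ) := by
  obtain ⟨h1, h2⟩ := log_bracket (a := (1949 / 2000 : ℝ)) (x := (949 / 2949 : ℝ)) (-1) 9 (by norm_num) (by norm_num)
    (by norm_num)
  norm_num [Finset.sum_range_succ] at h1 h2
  constructor <;> linarith [log_two_gt_d9, log_two_lt_d9]

lemma ent_51_2000 : (29683383 / 250000000 : ℝ) ≤ binEntropy (51 / 2000 : ℝ) ∧ binEntropy (51 / 2000 : ℝ) ≤ (3710423 / 31250000 : ℝ) := by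
  obtain ⟨a1, a2⟩ := log_51_2000
  obtain ⟨b1, b2⟩ := log_1949_2000
  rw [binEntropy_eq_negMulLog_add_negMulLog_one_sub, show (1 : ℝ) - (51 / 2000 : ℝ) = (1949 / 2000 : ℝ) by norm_num]
  unfold negMulLog
  constructor <;> linarith

lemma ent_1949_2000 : (29683383 / 250000000 : ℝ) ≤ binEntropy (1949 / 2000 : ℝ) ∧ binEntropy (1949 / 2000 : ℝ) ≤ (3710423 / 31250000 : ℝ) := by
  rw [show (1949 / 2000 : ℝ) = 1 - (51 / 2000 : ℝ) by norm_num, binEntropy_one_sub]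
  exact ent_51_2000

lemma log_37913_100000 : (-484938063 / 500000000 : ℝ) ≤ log (37913 / 100000 : ℝ) ∧ log (37913 / 100000 : ℝ) ≤ (-242469031 / 250000000 : ℝ) := by
  obtain ⟨h1, h2⟩ := log_bracket (a := (37913 / 100000 : ℝ)) (x := (12913 / 62913 : ℝ)) (-2) 9 (by norm_num) (by norm_num)
    (by norm_num)
  norm_num [Finset.sum_range_succ] at h1 h2
  constructor <;> linarith [log_two_gt_d9, log_two_lt_d9]

lemma log_62087_100000 : (-476633559 / 1000000000 : ℝ) ≤ log (62087 / 100000 : ℝ) ∧ log (62087 / 100000 : ℝ) ≤ (-238316779 / 500000000 : ℝ) := by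
  obtain ⟨h1, h2⟩ := log_bracket (a := (62087 / 100000 : ℝ)) (x := (12087 / 112087 : ℝ)) (-1) 9 (by norm_num) (by norm_num)
    (by norm_num)
  norm_num [Finset.sum_range_succ] at h1 h2
  constructor <;> linarith [log_two_gt_d9, log_two_lt_d9]

lemma log_347_1000 : (-2116861 / 2000000 : ℝ) ≤ log (347 / 1000 : ℝ) ∧ log (347 / 1000 : ℝ) ≤ (-529215249 / 500000000 : ℝ) := by
  obtain ⟨h1, h2⟩ := log_bracket (a := (347 / 1000 : ℝ)) (x := (97 / 597 : ℝ)) (-2) 9 (by norm_num) (by norm_num)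
    (by norm_num)
  norm_num [Finset.sum_range_succ] at h1 h2
  constructor <;> linarith [log_two_gt_d9, log_two_lt_d9]

lemma log_653_1000 : (-8523563 / 20000000 : ℝ) ≤ log (653 / 1000 : ℝ) ∧ log (653 / 1000 : ℝ) ≤ (-426178149 / 1000000000 : ℝ) := by
  obtain ⟨h1, h2⟩ := log_bracket (a := (653 / 1000 : ℝ)) (x := (153 / 1153 : ℝ)) (-1) 9 (by norm_num) (by norm_num)
    (by norm_num)
  norm_num [Finset.sum_range_succ] at h1 h2
  constructor <;> linarith [log_two_gt_d9, log_two_lt_d9]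

lemma ent_347_1000 : (322784857 / 500000000 : ℝ) ≤ binEntropy (347 / 1000 : ℝ) ∧ binEntropy (347 / 1000 : ℝ) ≤ (161392429 / 250000000 : ℝ) := by
  obtain ⟨a1, a2⟩ := log_347_1000
  obtain ⟨b1, b2⟩ := log_653_1000
  rw [binEntropy_eq_negMulLog_add_negMulLog_one_sub, show (1 : ℝ) - (347 / 1000 : ℝ) = (653 / 1000 : ℝ) by norm_num]
  unfold negMulLog
  constructor <;> linarith

lemma ent_37913_100000 : (165909153 / 250000000 : ℝ) ≤ binEntropy (37913 / 100000 : ℝ) ∧ binEntropy (37913 / 100000 : ℝ) ≤ (331818307 / 500000000 : ℝ) := by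
  obtain ⟨a1, a2⟩ := log_37913_100000
  obtain ⟨b1, b2⟩ := log_62087_100000
  rw [binEntropy_eq_negMulLog_add_negMulLog_one_sub, show (1 : ℝ) - (37913 / 100000 : ℝ) = (62087 / 100000 : ℝ) by norm_num]
  unfold negMulLog
  constructor <;> linarith

lemma log_109_250 : (-830113037 / 1000000000 : ℝ) ≤ log (109 / 250 : ℝ) ∧ log (109 / 250 : ℝ) ≤ (-166022607 / 200000000 : ℝ) := by
  obtain ⟨h1, h2⟩ := log_bracket (a := (109 / 250 : ℝ)) (x := (93 / 343 : ℝ)) (-2) 9 (by norm_num) (by norm_num)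
    (by norm_num)
  norm_num [Finset.sum_range_succ] at h1 h2
  constructor <;> linarith [log_two_gt_d9, log_two_lt_d9]

lemma log_141_250 : (-143175257 / 250000000 : ℝ) ≤ log (141 / 250 : ℝ) ∧ log (141 / 250 : ℝ) ≤ (-572701027 / 1000000000 : ℝ) := by
  obtain ⟨h1, h2⟩ := log_bracket (a := (141 / 250 : ℝ)) (x := (8 / 133 : ℝ)) (-1) 9 (by norm_num) (by norm_num)
    (by norm_num)
  norm_num [Finset.sum_range_succ] at h1 h2
  constructor <;> linarith [log_two_gt_d9, log_two_lt_d9]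

lemma ent_109_250 : (342466331 / 500000000 : ℝ) ≤ binEntropy (109 / 250 : ℝ) ∧ binEntropy (109 / 250 : ℝ) ≤ (85616583 / 125000000 : ℝ) := by
  obtain ⟨a1, a2⟩ := log_109_250
  obtain ⟨b1, b2⟩ := log_141_250
  rw [binEntropy_eq_negMulLog_add_negMulLog_one_sub, show (1 : ℝ) - (109 / 250 : ℝ) = (141 / 250 : ℝ) by norm_num]
  unfold negMulLog
  constructor <;> linarith

lemma ent_141_250 : (342466331 / 500000000 : ℝ) ≤ binEntropy (141 / 250 : ℝ) ∧ binEntropy (141 / 250 : ℝ) ≤ (85616583 / 125000000 : ℝ) := by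
  rw [show (141 / 250 : ℝ) = 1 - (109 / 250 : ℝ) by norm_num, binEntropy_one_sub]
  exact ent_109_250

lemma log_33_250 : (-1012476679 / 500000000 : ℝ) ≤ log (33 / 250 : ℝ) ∧ log (33 / 250 : ℝ) ≤ (-404990671 / 200000000 : ℝ) := by
  obtain ⟨h1, h2⟩ := log_bracket (a := (33 / 250 : ℝ)) (x := (7 / 257 : ℝ)) (-3) 9 (by norm_num) (by norm_num)
    (by norm_num)
  norm_num [Finset.sum_range_succ] at h1 h2
  constructor <;> linarith [log_two_gt_d9, log_two_lt_d9]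

lemma log_217_250 : (-28312713 / 200000000 : ℝ) ≤ log (217 / 250 : ℝ) ∧ log (217 / 250 : ℝ) ≤ (-35390891 / 250000000 : ℝ) := by
  obtain ⟨h1, h2⟩ := log_bracket (a := (217 / 250 : ℝ)) (x := (46 / 171 : ℝ)) (-1) 9 (by norm_num) (by norm_num)
    (by norm_num)
  norm_num [Finset.sum_range_succ] at h1 h2
  constructor <;> linarith [log_two_gt_d9, log_two_lt_d9]

lemma ent_33_250 : (48771377 / 125000000 : ℝ) ≤ binEntropy (33 / 250 : ℝ) ∧ binEntropy (33 / 250 : ℝ) ≤ (195085509 / 500000000 : ℝ) := by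
  obtain ⟨a1, a2⟩ := log_33_250
  obtain ⟨b1, b2⟩ := log_217_250
  rw [binEntropy_eq_negMulLog_add_negMulLog_one_sub, show (1 : ℝ) - (33 / 250 : ℝ) = (217 / 250 : ℝ) by norm_num]
  unfold negMulLog
  constructor <;> linarith

lemma ent_217_250 : (48771377 / 125000000 : ℝ) ≤ binEntropy (217 / 250 : ℝ) ∧ binEntropy (217 / 250 : ℝ) ≤ (195085509 / 500000000 : ℝ) := by
  rw [show (217 / 250 : ℝ) = 1 - (33 / 250 : ℝ) by norm_num, binEntropy_one_sub]
  exact ent_33_250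

lemma log_31_1000 : (-3473768077 / 1000000000 : ℝ) ≤ log (31 / 1000 : ℝ) ∧ log (31 / 1000 : ℝ) ≤ (-3473768071 / 1000000000 : ℝ) := by
  obtain ⟨h1, h2⟩ := log_bracket (a := (31 / 1000 : ℝ)) (x := (123 / 373 : ℝ)) (-6) 9 (by norm_num) (by norm_num)
    (by norm_num)
  norm_num [Finset.sum_range_succ] at h1 h2
  constructor <;> linarith [log_two_gt_d9, log_two_lt_d9]

lemma log_969_1000 : (-7872667 / 250000000 : ℝ) ≤ log (969 / 1000 : ℝ) ∧ log (969 / 1000 : ℝ) ≤ (-15745333 / 500000000 : ℝ) := by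
  obtain ⟨h1, h2⟩ := log_bracket (a := (969 / 1000 : ℝ)) (x := (469 / 1469 : ℝ)) (-1) 9 (by norm_num) (by norm_num)
    (by norm_num)
  norm_num [Finset.sum_range_succ] at h1 h2
  constructor <;> linarith [log_two_gt_d9, log_two_lt_d9]

lemma ent_31_1000 : (27640253 / 200000000 : ℝ) ≤ binEntropy (31 / 1000 : ℝ) ∧ binEntropy (31 / 1000 : ℝ) ≤ (34550317 / 250000000 : ℝ) := by
  obtain ⟨a1, a2⟩ := log_31_1000
  obtain ⟨b1, b2⟩ := log_969_1000
  rw [binEntropy_eq_negMulLog_add_negMulLog_one_sub, show (1 : ℝ) - (31 / 1000 : ℝ) = (969 / 1000 : ℝ) by norm_num]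
  unfold negMulLog
  constructor <;> linarith

lemma ent_969_1000 : (27640253 / 200000000 : ℝ) ≤ binEntropy (969 / 1000 : ℝ) ∧ binEntropy (969 / 1000 : ℝ) ≤ (34550317 / 250000000 : ℝ) := by
  rw [show (969 / 1000 : ℝ) = 1 - (31 / 1000 : ℝ) by norm_num, binEntropy_one_sub]
  exact ent_31_1000

lemma log_163_2000 : (-125357613 / 50000000 : ℝ) ≤ log (163 / 2000 : ℝ) ∧ log (163 / 2000 : ℝ) ≤ (-2507152257 / 1000000000 : ℝ) := by
  obtain ⟨h1, h2⟩ := log_bracket (a := (163 / 2000 : ℝ)) (x := (19 / 144 : ℝ)) (-4) 9 (by norm_num) (by norm_num)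
    (by norm_num)
  norm_num [Finset.sum_range_succ] at h1 h2
  constructor <;> linarith [log_two_gt_d9, log_two_lt_d9]

lemma log_1837_2000 : (-680107 / 8000000 : ℝ) ≤ log (1837 / 2000 : ℝ) ∧ log (1837 / 2000 : ℝ) ≤ (-85013373 / 1000000000 : ℝ) := by
  obtain ⟨h1, h2⟩ := log_bracket (a := (1837 / 2000 : ℝ)) (x := (837 / 2837 : ℝ)) (-1) 9 (by norm_num) (by norm_num)
    (by norm_num)
  norm_num [Finset.sum_range_succ] at h1 h2
  constructor <;> linarith [log_two_gt_d9, log_two_lt_d9]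

lemma ent_163_2000 : (70604423 / 250000000 : ℝ) ≤ binEntropy (163 / 2000 : ℝ) ∧ binEntropy (163 / 2000 : ℝ) ≤ (56483539 / 200000000 : ℝ) := by
  obtain ⟨a1, a2⟩ := log_163_2000
  obtain ⟨b1, b2⟩ := log_1837_2000
  rw [binEntropy_eq_negMulLog_add_negMulLog_one_sub, show (1 : ℝ) - (163 / 2000 : ℝ) = (1837 / 2000 : ℝ) by norm_num]
  unfold negMulLog
  constructor <;> linarith

lemma ent_1837_2000 : (70604423 / 250000000 : ℝ) ≤ binEntropy (1837 / 2000 : ℝ) ∧ binEntropy (1837 / 2000 : ℝ) ≤ (56483539 / 200000000 : ℝ) := by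
  rw [show (1837 / 2000 : ℝ) = 1 - (163 / 2000 : ℝ) by norm_num, binEntropy_one_sub]
  exact ent_163_2000

lemma log_291_2000 : (-963789597 / 500000000 : ℝ) ≤ log (291 / 2000 : ℝ) ∧ log (291 / 2000 : ℝ) ≤ (-1927579191 / 1000000000 : ℝ) := by
  obtain ⟨h1, h2⟩ := log_bracket (a := (291 / 2000 : ℝ)) (x := (41 / 541 : ℝ)) (-3) 9 (by norm_num) (by norm_num)
    (by norm_num)
  norm_num [Finset.sum_range_succ] at h1 h2
  constructor <;> linarith [log_two_gt_d9, log_two_lt_d9]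

lemma log_1709_2000 : (-157238777 / 1000000000 : ℝ) ≤ log (1709 / 2000 : ℝ) ∧ log (1709 / 2000 : ℝ) ≤ (-19654847 / 125000000 : ℝ) := by
  obtain ⟨h1, h2⟩ := log_bracket (a := (1709 / 2000 : ℝ)) (x := (709 / 2709 : ℝ)) (-1) 9 (by norm_num) (by norm_num)
    (by norm_num)
  norm_num [Finset.sum_range_succ] at h1 h2
  constructor <;> linarith [log_two_gt_d9, log_two_lt_d9]

lemma ent_291_2000 : (207411653 / 500000000 : ℝ) ≤ binEntropy (291 / 2000 : ℝ) ∧ binEntropy (291 / 2000 : ℝ) ≤ (103705827 / 250000000 : ℝ) := by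
  obtain ⟨a1, a2⟩ := log_291_2000
  obtain ⟨b1, b2⟩ := log_1709_2000
  rw [binEntropy_eq_negMulLog_add_negMulLog_one_sub, show (1 : ℝ) - (291 / 2000 : ℝ) = (1709 / 2000 : ℝ) by norm_num]
  unfold negMulLog
  constructor <;> linarith

lemma ent_1709_2000 : (207411653 / 500000000 : ℝ) ≤ binEntropy (1709 / 2000 : ℝ) ∧ binEntropy (1709 / 2000 : ℝ) ≤ (103705827 / 250000000 : ℝ) := by
  rw [show (1709 / 2000 : ℝ) = 1 - (291 / 2000 : ℝ) by norm_num, binEntropy_one_sub]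
  exact ent_291_2000

lemma log_7_400 : (-5056943 / 1250000 : ℝ) ≤ log (7 / 400 : ℝ) ∧ log (7 / 400 : ℝ) ≤ (-1011388599 / 250000000 : ℝ) := by
  obtain ⟨h1, h2⟩ := log_bracket (a := (7 / 400 : ℝ)) (x := (3 / 53 : ℝ)) (-6) 9 (by norm_num) (by norm_num)
    (by norm_num)
  norm_num [Finset.sum_range_succ] at h1 h2
  constructor <;> linarith [log_two_gt_d9, log_two_lt_d9]

lemma log_393_400 : (-2206867 / 125000000 : ℝ) ≤ log (393 / 400 : ℝ) ∧ log (393 / 400 : ℝ) ≤ (-17654933 / 1000000000 : ℝ) := by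
  obtain ⟨h1, h2⟩ := log_bracket (a := (393 / 400 : ℝ)) (x := (193 / 593 : ℝ)) (-1) 9 (by norm_num) (by norm_num)
    (by norm_num)
  norm_num [Finset.sum_range_succ] at h1 h2
  constructor <;> linarith [log_two_gt_d9, log_two_lt_d9]

lemma ent_7_400 : (88143173 / 1000000000 : ℝ) ≤ binEntropy (7 / 400 : ℝ) ∧ binEntropy (7 / 400 : ℝ) ≤ (88143177 / 1000000000 : ℝ) := by
  obtain ⟨a1, a2⟩ := log_7_400
  obtain ⟨b1, b2⟩ := log_393_400
  rw [binEntropy_eq_negMulLog_add_negMulLog_one_sub, show (1 : ℝ) - (7 / 400 : ℝ) = (393 / 400 : ℝ) by norm_num]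
  unfold negMulLog
  constructor <;> linarith

lemma ent_393_400 : (88143173 / 1000000000 : ℝ) ≤ binEntropy (393 / 400 : ℝ) ∧ binEntropy (393 / 400 : ℝ) ≤ (88143177 / 1000000000 : ℝ) := by
  rw [show (393 / 400 : ℝ) = 1 - (7 / 400 : ℝ) by norm_num, binEntropy_one_sub]
  exact ent_7_400

lemma log_3499_10000 : (-1050107881 / 1000000000 : ℝ) ≤ log (3499 / 10000 : ℝ) ∧ log (3499 / 10000 : ℝ) ≤ (-1050107879 / 1000000000 : ℝ) := by
  obtain ⟨h1, h2⟩ := log_bracket (a := (3499 / 10000 : ℝ)) (x := (999 / 5999 : ℝ)) (-2) 9 (by norm_num) (by norm_num)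
    (by norm_num)
  norm_num [Finset.sum_range_succ] at h1 h2
  constructor <;> linarith [log_two_gt_d9, log_two_lt_d9]

lemma log_6501_10000 : (-430629083 / 1000000000 : ℝ) ≤ log (6501 / 10000 : ℝ) ∧ log (6501 / 10000 : ℝ) ≤ (-430629081 / 1000000000 : ℝ) := by
  obtain ⟨h1, h2⟩ := log_bracket (a := (6501 / 10000 : ℝ)) (x := (1501 / 11501 : ℝ)) (-1) 9 (by norm_num) (by norm_num)
    (by norm_num)
  norm_num [Finset.sum_range_succ] at h1 h2
  constructor <;> linarith [log_two_gt_d9, log_two_lt_d9]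

lemma log_31_100 : (-585591491 / 500000000 : ℝ) ≤ log (31 / 100 : ℝ) ∧ log (31 / 100 : ℝ) ≤ (-58559149 / 50000000 : ℝ) := by
  obtain ⟨h1, h2⟩ := log_bracket (a := (31 / 100 : ℝ)) (x := (3 / 28 : ℝ)) (-2) 9 (by norm_num) (by norm_num)
    (by norm_num)
  norm_num [Finset.sum_range_succ] at h1 h2
  constructor <;> linarith [log_two_gt_d9, log_two_lt_d9]

lemma log_69_100 : (-185531841 / 500000000 : ℝ) ≤ log (69 / 100 : ℝ) ∧ log (69 / 100 : ℝ) ≤ (-371063681 / 1000000000 : ℝ) := by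
  obtain ⟨h1, h2⟩ := log_bracket (a := (69 / 100 : ℝ)) (x := (19 / 119 : ℝ)) (-1) 9 (by norm_num) (by norm_num)
    (by norm_num)
  norm_num [Finset.sum_range_succ] at h1 h2
  constructor <;> linarith [log_two_gt_d9, log_two_lt_d9]

lemma ent_31_100 : (619100663 / 1000000000 : ℝ) ≤ binEntropy (31 / 100 : ℝ) ∧ binEntropy (31 / 100 : ℝ) ≤ (123820133 / 200000000 : ℝ) := by
  obtain ⟨a1, a2⟩ := log_31_100
  obtain ⟨b1, b2⟩ := log_69_100
  rw [binEntropy_eq_negMulLog_add_negMulLog_one_sub, show (1 : ℝ) - (31 / 100 : ℝ) = (69 / 100 : ℝ) by norm_num]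
  unfold negMulLog
  constructor <;> linarith

lemma ent_3499_10000 : (80923089 / 125000000 : ℝ) ≤ binEntropy (3499 / 10000 : ℝ) ∧ binEntropy (3499 / 10000 : ℝ) ≤ (129476943 / 200000000 : ℝ) := by
  obtain ⟨a1, a2⟩ := log_3499_10000
  obtain ⟨b1, b2⟩ := log_6501_10000
  rw [binEntropy_eq_negMulLog_add_negMulLog_one_sub, show (1 : ℝ) - (3499 / 10000 : ℝ) = (6501 / 10000 : ℝ) by norm_num]
  unfold negMulLog
  constructor <;> linarith

lemma log_421_1000 : (-432561223 / 500000000 : ℝ) ≤ log (421 / 1000 : ℝ) ∧ log (421 / 1000 : ℝ) ≤ (-216280611 / 250000000 : ℝ) := by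
  obtain ⟨h1, h2⟩ := log_bracket (a := (421 / 1000 : ℝ)) (x := (171 / 671 : ℝ)) (-2) 9 (by norm_num) (by norm_num)
    (by norm_num)
  norm_num [Finset.sum_range_succ] at h1 h2
  constructor <;> linarith [log_two_gt_d9, log_two_lt_d9]

lemma log_579_1000 : (-273226401 / 500000000 : ℝ) ≤ log (579 / 1000 : ℝ) ∧ log (579 / 1000 : ℝ) ≤ (-546452801 / 1000000000 : ℝ) := by
  obtain ⟨h1, h2⟩ := log_bracket (a := (579 / 1000 : ℝ)) (x := (79 / 1079 : ℝ)) (-1) 9 (by norm_num) (by norm_num)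
    (by norm_num)
  norm_num [Finset.sum_range_succ] at h1 h2
  constructor <;> linarith [log_two_gt_d9, log_two_lt_d9]

lemma ent_421_1000 : (8507659 / 12500000 : ℝ) ≤ binEntropy (421 / 1000 : ℝ) ∧ binEntropy (421 / 1000 : ℝ) ≤ (680612723 / 1000000000 : ℝ) := by
  obtain ⟨a1, a2⟩ := log_421_1000
  obtain ⟨b1, b2⟩ := log_579_1000
  rw [binEntropy_eq_negMulLog_add_negMulLog_one_sub, show (1 : ℝ) - (421 / 1000 : ℝ) = (579 / 1000 : ℝ) by norm_num]
  unfold negMulLog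
  constructor <;> linarith

lemma ent_579_1000 : (8507659 / 12500000 : ℝ) ≤ binEntropy (579 / 1000 : ℝ) ∧ binEntropy (579 / 1000 : ℝ) ≤ (680612723 / 1000000000 : ℝ) := by
  rw [show (579 / 1000 : ℝ) = 1 - (421 / 1000 : ℝ) by norm_num, binEntropy_one_sub]
  exact ent_421_1000

lemma log_19_125 : (-1883874759 / 1000000000 : ℝ) ≤ log (19 / 125 : ℝ) ∧ log (19 / 125 : ℝ) ≤ (-1883874757 / 1000000000 : ℝ) := by
  obtain ⟨h1, h2⟩ := log_bracket (a := (19 / 125 : ℝ)) (x := (27 / 277 : ℝ)) (-3) 9 (by norm_num) (by norm_num)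
    (by norm_num)
  norm_num [Finset.sum_range_succ] at h1 h2
  constructor <;> linarith [log_two_gt_d9, log_two_lt_d9]

lemma log_106_125 : (-41218661 / 250000000 : ℝ) ≤ log (106 / 125 : ℝ) ∧ log (106 / 125 : ℝ) ≤ (-82437321 / 500000000 : ℝ) := by
  obtain ⟨h1, h2⟩ := log_bracket (a := (106 / 125 : ℝ)) (x := (87 / 337 : ℝ)) (-1) 9 (by norm_num) (by norm_num)
    (by norm_num)
  norm_num [Finset.sum_range_succ] at h1 h2
  constructor <;> linarith [log_two_gt_d9, log_two_lt_d9]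

lemma ent_19_125 : (426162659 / 1000000000 : ℝ) ≤ binEntropy (19 / 125 : ℝ) ∧ binEntropy (19 / 125 : ℝ) ≤ (213081331 / 500000000 : ℝ) := by
  obtain ⟨a1, a2⟩ := log_19_125
  obtain ⟨b1, b2⟩ := log_106_125
  rw [binEntropy_eq_negMulLog_add_negMulLog_one_sub, show (1 : ℝ) - (19 / 125 : ℝ) = (106 / 125 : ℝ) by norm_num]
  unfold negMulLog
  constructor <;> linarith

lemma ent_106_125 : (426162659 / 1000000000 : ℝ) ≤ binEntropy (106 / 125 : ℝ) ∧ binEntropy (106 / 125 : ℝ) ≤ (213081331 / 500000000 : ℝ) := by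
  rw [show (106 / 125 : ℝ) = 1 - (19 / 125 : ℝ) by norm_num, binEntropy_one_sub]
  exact ent_19_125

lemma log_3_125 : (-3729701451 / 1000000000 : ℝ) ≤ log (3 / 125 : ℝ) ∧ log (3 / 125 : ℝ) ≤ (-3729701447 / 1000000000 : ℝ) := by
  obtain ⟨h1, h2⟩ := log_bracket (a := (3 / 125 : ℝ)) (x := (67 / 317 : ℝ)) (-6) 9 (by norm_num) (by norm_num)
    (by norm_num)
  norm_num [Finset.sum_range_succ] at h1 h2
  constructor <;> linarith [log_two_gt_d9, log_two_lt_d9]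

lemma log_122_125 : (-24292693 / 1000000000 : ℝ) ≤ log (122 / 125 : ℝ) ∧ log (122 / 125 : ℝ) ≤ (-24292691 / 1000000000 : ℝ) := by
  obtain ⟨h1, h2⟩ := log_bracket (a := (122 / 125 : ℝ)) (x := (119 / 369 : ℝ)) (-1) 9 (by norm_num) (by norm_num)
    (by norm_num)
  norm_num [Finset.sum_range_succ] at h1 h2
  constructor <;> linarith [log_two_gt_d9, log_two_lt_d9]

lemma ent_3_125 : (113222501 / 1000000000 : ℝ) ≤ binEntropy (3 / 125 : ℝ) ∧ binEntropy (3 / 125 : ℝ) ≤ (14152813 / 125000000 : ℝ) := by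
  obtain ⟨a1, a2⟩ := log_3_125
  obtain ⟨b1, b2⟩ := log_122_125
  rw [binEntropy_eq_negMulLog_add_negMulLog_one_sub, show (1 : ℝ) - (3 / 125 : ℝ) = (122 / 125 : ℝ) by norm_num]
  unfold negMulLog
  constructor <;> linarith

lemma ent_122_125 : (113222501 / 1000000000 : ℝ) ≤ binEntropy (122 / 125 : ℝ) ∧ binEntropy (122 / 125 : ℝ) ≤ (14152813 / 125000000 : ℝ) := by
  rw [show (122 / 125 : ℝ) = 1 - (3 / 125 : ℝ) by norm_num, binEntropy_one_sub]
  exact ent_3_125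

lemma log_11_125 : (-1215209233 / 500000000 : ℝ) ≤ log (11 / 125 : ℝ) ∧ log (11 / 125 : ℝ) ≤ (-2430418463 / 1000000000 : ℝ) := by
  obtain ⟨h1, h2⟩ := log_bracket (a := (11 / 125 : ℝ)) (x := (51 / 301 : ℝ)) (-4) 9 (by norm_num) (by norm_num)
    (by norm_num)
  norm_num [Finset.sum_range_succ] at h1 h2
  constructor <;> linarith [log_two_gt_d9, log_two_lt_d9]

lemma log_114_125 : (-9211529 / 100000000 : ℝ) ≤ log (114 / 125 : ℝ) ∧ log (114 / 125 : ℝ) ≤ (-11514411 / 125000000 : ℝ) := by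
  obtain ⟨h1, h2⟩ := log_bracket (a := (114 / 125 : ℝ)) (x := (103 / 353 : ℝ)) (-1) 9 (by norm_num) (by norm_num)
    (by norm_num)
  norm_num [Finset.sum_range_succ] at h1 h2
  constructor <;> linarith [log_two_gt_d9, log_two_lt_d9]

lemma ent_11_125 : (297885967 / 1000000000 : ℝ) ≤ binEntropy (11 / 125 : ℝ) ∧ binEntropy (11 / 125 : ℝ) ≤ (29788597 / 100000000 : ℝ) := by
  obtain ⟨a1, a2⟩ := log_11_125
  obtain ⟨b1, b2⟩ := log_114_125
  rw [binEntropy_eq_negMulLog_add_negMulLog_one_sub, show (1 : ℝ) - (11 / 125 : ℝ) = (114 / 125 : ℝ) by norm_num]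
  unfold negMulLog
  constructor <;> linarith

lemma ent_114_125 : (297885967 / 1000000000 : ℝ) ≤ binEntropy (114 / 125 : ℝ) ∧ binEntropy (114 / 125 : ℝ) ≤ (29788597 / 100000000 : ℝ) := by
  rw [show (114 / 125 : ℝ) = 1 - (11 / 125 : ℝ) by norm_num, binEntropy_one_sub]
  exact ent_11_125

lemma log_167_1000 : (-447440367 / 250000000 : ℝ) ≤ log (167 / 1000 : ℝ) ∧ log (167 / 1000 : ℝ) ≤ (-357952293 / 200000000 : ℝ) := by
  obtain ⟨h1, h2⟩ := log_bracket (a := (167 / 1000 : ℝ)) (x := (21 / 146 : ℝ)) (-3) 9 (by norm_num) (by norm_num)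
    (by norm_num)
  norm_num [Finset.sum_range_succ] at h1 h2
  constructor <;> linarith [log_two_gt_d9, log_two_lt_d9]

lemma log_833_1000 : (-91360819 / 500000000 : ℝ) ≤ log (833 / 1000 : ℝ) ∧ log (833 / 1000 : ℝ) ≤ (-45680409 / 250000000 : ℝ) := by
  obtain ⟨h1, h2⟩ := log_bracket (a := (833 / 1000 : ℝ)) (x := (333 / 1333 : ℝ)) (-1) 9 (by norm_num) (by norm_num)
    (by norm_num)
  norm_num [Finset.sum_range_succ] at h1 h2
  constructor <;> linarith [log_two_gt_d9, log_two_lt_d9]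

lemma ent_167_1000 : (451097287 / 1000000000 : ℝ) ≤ binEntropy (167 / 1000 : ℝ) ∧ binEntropy (167 / 1000 : ℝ) ≤ (45109729 / 100000000 : ℝ) := by
  obtain ⟨a1, a2⟩ := log_167_1000
  obtain ⟨b1, b2⟩ := log_833_1000
  rw [binEntropy_eq_negMulLog_add_negMulLog_one_sub, show (1 : ℝ) - (167 / 1000 : ℝ) = (833 / 1000 : ℝ) by norm_num]
  unfold negMulLog
  constructor <;> linarith

lemma ent_833_1000 : (451097287 / 1000000000 : ℝ) ≤ binEntropy (833 / 1000 : ℝ) ∧ binEntropy (833 / 1000 : ℝ) ≤ (45109729 / 100000000 : ℝ) := by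
  rw [show (833 / 1000 : ℝ) = 1 - (167 / 1000 : ℝ) by norm_num, binEntropy_one_sub]
  exact ent_167_1000

lemma log_9_1000 : (-294408169 / 62500000 : ℝ) ≤ log (9 / 1000 : ℝ) ∧ log (9 / 1000 : ℝ) ≤ (-4710530699 / 1000000000 : ℝ) := by
  obtain ⟨h1, h2⟩ := log_bracket (a := (9 / 1000 : ℝ)) (x := (19 / 269 : ℝ)) (-7) 9 (by norm_num) (by norm_num)
    (by norm_num)
  norm_num [Finset.sum_range_succ] at h1 h2
  constructor <;> linarith [log_two_gt_d9, log_two_lt_d9]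

lemma log_991_1000 : (-1808149 / 200000000 : ℝ) ≤ log (991 / 1000 : ℝ) ∧ log (991 / 1000 : ℝ) ≤ (-4520371 / 500000000 : ℝ) := by
  obtain ⟨h1, h2⟩ := log_bracket (a := (991 / 1000 : ℝ)) (x := (491 / 1491 : ℝ)) (-1) 9 (by norm_num) (by norm_num)
    (by norm_num)
  norm_num [Finset.sum_range_succ] at h1 h2
  constructor <;> linarith [log_two_gt_d9, log_two_lt_d9]

lemma ent_9_1000 : (51354151 / 1000000000 : ℝ) ≤ binEntropy (9 / 1000 : ℝ) ∧ binEntropy (9 / 1000 : ℝ) ≤ (10270831 / 200000000 : ℝ) := by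
  obtain ⟨a1, a2⟩ := log_9_1000
  obtain ⟨b1, b2⟩ := log_991_1000
  rw [binEntropy_eq_negMulLog_add_negMulLog_one_sub, show (1 : ℝ) - (9 / 1000 : ℝ) = (991 / 1000 : ℝ) by norm_num]
  unfold negMulLog
  constructor <;> linarith

lemma ent_991_1000 : (51354151 / 1000000000 : ℝ) ≤ binEntropy (991 / 1000 : ℝ) ∧ binEntropy (991 / 1000 : ℝ) ≤ (10270831 / 200000000 : ℝ) := by
  rw [show (991 / 1000 : ℝ) = 1 - (9 / 1000 : ℝ) by norm_num, binEntropy_one_sub]
  exact ent_9_1000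

lemma log_7997_25000 : (-569904677 / 500000000 : ℝ) ≤ log (7997 / 25000 : ℝ) ∧ log (7997 / 25000 : ℝ) ≤ (-142476169 / 125000000 : ℝ) := by
  obtain ⟨h1, h2⟩ := log_bracket (a := (7997 / 25000 : ℝ)) (x := (1747 / 14247 : ℝ)) (-2) 9 (by norm_num) (by norm_num)
    (by norm_num)
  norm_num [Finset.sum_range_succ] at h1 h2
  constructor <;> linarith [log_two_gt_d9, log_two_lt_d9]

lemma log_17003_25000 : (-385486027 / 1000000000 : ℝ) ≤ log (17003 / 25000 : ℝ) ∧ log (17003 / 25000 : ℝ) ≤ (-15419441 / 40000000 : ℝ) := by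
  obtain ⟨h1, h2⟩ := log_bracket (a := (17003 / 25000 : ℝ)) (x := (4503 / 29503 : ℝ)) (-1) 9 (by norm_num) (by norm_num)
    (by norm_num)
  norm_num [Finset.sum_range_succ] at h1 h2
  constructor <;> linarith [log_two_gt_d9, log_two_lt_d9]

lemma log_34_125 : (-650976607 / 500000000 : ℝ) ≤ log (34 / 125 : ℝ) ∧ log (34 / 125 : ℝ) ≤ (-325488303 / 250000000 : ℝ) := by
  obtain ⟨h1, h2⟩ := log_bracket (a := (34 / 125 : ℝ)) (x := (11 / 261 : ℝ)) (-2) 9 (by norm_num) (by norm_num)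
    (by norm_num)
  norm_num [Finset.sum_range_succ] at h1 h2
  constructor <;> linarith [log_two_gt_d9, log_two_lt_d9]

lemma log_91_125 : (-39681779 / 125000000 : ℝ) ≤ log (91 / 125 : ℝ) ∧ log (91 / 125 : ℝ) ≤ (-31745423 / 100000000 : ℝ) := by
  obtain ⟨h1, h2⟩ := log_bracket (a := (91 / 125 : ℝ)) (x := (57 / 307 : ℝ)) (-1) 9 (by norm_num) (by norm_num)
    (by norm_num)
  norm_num [Finset.sum_range_succ] at h1 h2
  constructor <;> linarith [log_two_gt_d9, log_two_lt_d9]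

lemma ent_34_125 : (585237953 / 1000000000 : ℝ) ≤ binEntropy (34 / 125 : ℝ) ∧ binEntropy (34 / 125 : ℝ) ≤ (146309489 / 250000000 : ℝ) := by
  obtain ⟨a1, a2⟩ := log_34_125
  obtain ⟨b1, b2⟩ := log_91_125
  rw [binEntropy_eq_negMulLog_add_negMulLog_one_sub, show (1 : ℝ) - (34 / 125 : ℝ) = (91 / 125 : ℝ) by norm_num]
  unfold negMulLog
  constructor <;> linarith

lemma ent_7997_25000 : (62677897 / 100000000 : ℝ) ≤ binEntropy (7997 / 25000 : ℝ) ∧ binEntropy (7997 / 25000 : ℝ) ≤ (626778973 / 1000000000 : ℝ) := by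
  obtain ⟨a1, a2⟩ := log_7997_25000
  obtain ⟨b1, b2⟩ := log_17003_25000
  rw [binEntropy_eq_negMulLog_add_negMulLog_one_sub, show (1 : ℝ) - (7997 / 25000 : ℝ) = (17003 / 25000 : ℝ) by norm_num]
  unfold negMulLog
  constructor <;> linarith

lemma log_407_1000 : (-179788419 / 200000000 : ℝ) ≤ log (407 / 1000 : ℝ) ∧ log (407 / 1000 : ℝ) ≤ (-898942093 / 1000000000 : ℝ) := by
  obtain ⟨h1, h2⟩ := log_bracket (a := (407 / 1000 : ℝ)) (x := (157 / 657 : ℝ)) (-2) 9 (by norm_num) (by norm_num)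
    (by norm_num)
  norm_num [Finset.sum_range_succ] at h1 h2
  constructor <;> linarith [log_two_gt_d9, log_two_lt_d9]

lemma log_593_1000 : (-522560881 / 1000000000 : ℝ) ≤ log (593 / 1000 : ℝ) ∧ log (593 / 1000 : ℝ) ≤ (-522560879 / 1000000000 : ℝ) := by
  obtain ⟨h1, h2⟩ := log_bracket (a := (593 / 1000 : ℝ)) (x := (93 / 1093 : ℝ)) (-1) 9 (by norm_num) (by norm_num)
    (by norm_num)
  norm_num [Finset.sum_range_succ] at h1 h2
  constructor <;> linarith [log_two_gt_d9, log_two_lt_d9]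

lemma ent_407_1000 : (675748033 / 1000000000 : ℝ) ≤ binEntropy (407 / 1000 : ℝ) ∧ binEntropy (407 / 1000 : ℝ) ≤ (168937009 / 250000000 : ℝ) := by
  obtain ⟨a1, a2⟩ := log_407_1000
  obtain ⟨b1, b2⟩ := log_593_1000
  rw [binEntropy_eq_negMulLog_add_negMulLog_one_sub, show (1 : ℝ) - (407 / 1000 : ℝ) = (593 / 1000 : ℝ) by norm_num]
  unfold negMulLog
  constructor <;> linarith

lemma ent_593_1000 : (675748033 / 1000000000 : ℝ) ≤ binEntropy (593 / 1000 : ℝ) ∧ binEntropy (593 / 1000 : ℝ) ≤ (168937009 / 250000000 : ℝ) := by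
  rw [show (593 / 1000 : ℝ) = 1 - (407 / 1000 : ℝ) by norm_num, binEntropy_one_sub]
  exact ent_407_1000

lemma log_349_2000 : (-1745830539 / 1000000000 : ℝ) ≤ log (349 / 2000 : ℝ) ∧ log (349 / 2000 : ℝ) ≤ (-218228817 / 125000000 : ℝ) := by
  obtain ⟨h1, h2⟩ := log_bracket (a := (349 / 2000 : ℝ)) (x := (99 / 599 : ℝ)) (-3) 9 (by norm_num) (by norm_num)
    (by norm_num)
  norm_num [Finset.sum_range_succ] at h1 h2
  constructor <;> linarith [log_two_gt_d9, log_two_lt_d9]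

lemma log_1651_2000 : (-374543 / 1953125 : ℝ) ≤ log (1651 / 2000 : ℝ) ∧ log (1651 / 2000 : ℝ) ≤ (-38353203 / 200000000 : ℝ) := by
  obtain ⟨h1, h2⟩ := log_bracket (a := (1651 / 2000 : ℝ)) (x := (651 / 2651 : ℝ)) (-1) 9 (by norm_num) (by norm_num)
    (by norm_num)
  norm_num [Finset.sum_range_succ] at h1 h2
  constructor <;> linarith [log_two_gt_d9, log_two_lt_d9]

lemma ent_349_2000 : (462950273 / 1000000000 : ℝ) ≤ binEntropy (349 / 2000 : ℝ) ∧ binEntropy (349 / 2000 : ℝ) ≤ (115737569 / 250000000 : ℝ) := by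
  obtain ⟨a1, a2⟩ := log_349_2000
  obtain ⟨b1, b2⟩ := log_1651_2000
  rw [binEntropy_eq_negMulLog_add_negMulLog_one_sub, show (1 : ℝ) - (349 / 2000 : ℝ) = (1651 / 2000 : ℝ) by norm_num]
  unfold negMulLog
  constructor <;> linarith

lemma ent_1651_2000 : (462950273 / 1000000000 : ℝ) ≤ binEntropy (1651 / 2000 : ℝ) ∧ binEntropy (1651 / 2000 : ℝ) ≤ (115737569 / 250000000 : ℝ) := by
  rw [show (1651 / 2000 : ℝ) = 1 - (349 / 2000 : ℝ) by norm_num, binEntropy_one_sub]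
  exact ent_349_2000

lemma log_33_2000 : (-41043949 / 10000000 : ℝ) ≤ log (33 / 2000 : ℝ) ∧ log (33 / 2000 : ℝ) ≤ (-256524681 / 62500000 : ℝ) := by
  obtain ⟨h1, h2⟩ := log_bracket (a := (33 / 2000 : ℝ)) (x := (7 / 257 : ℝ)) (-6) 9 (by norm_num) (by norm_num)
    (by norm_num)
  norm_num [Finset.sum_range_succ] at h1 h2
  constructor <;> linarith [log_two_gt_d9, log_two_lt_d9]

lemma log_1967_2000 : (-8318821 / 500000000 : ℝ) ≤ log (1967 / 2000 : ℝ) ∧ log (1967 / 2000 : ℝ) ≤ (-16637639 / 1000000000 : ℝ) := by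
  obtain ⟨h1, h2⟩ := log_bracket (a := (1967 / 2000 : ℝ)) (x := (967 / 2967 : ℝ)) (-1) 9 (by norm_num) (by norm_num)
    (by norm_num)
  norm_num [Finset.sum_range_succ] at h1 h2
  constructor <;> linarith [log_two_gt_d9, log_two_lt_d9]

lemma ent_33_2000 : (84085633 / 1000000000 : ℝ) ≤ binEntropy (33 / 2000 : ℝ) ∧ binEntropy (33 / 2000 : ℝ) ≤ (84085637 / 1000000000 : ℝ) := by
  obtain ⟨a1, a2⟩ := log_33_2000
  obtain ⟨b1, b2⟩ := log_1967_2000
  rw [binEntropy_eq_negMulLog_add_negMulLog_one_sub, show (1 : ℝ) - (33 / 2000 : ℝ) = (1967 / 2000 : ℝ) by norm_num]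
  unfold negMulLog
  constructor <;> linarith

lemma ent_1967_2000 : (84085633 / 1000000000 : ℝ) ≤ binEntropy (1967 / 2000 : ℝ) ∧ binEntropy (1967 / 2000 : ℝ) ≤ (84085637 / 1000000000 : ℝ) := by
  rw [show (1967 / 2000 : ℝ) = 1 - (33 / 2000 : ℝ) by norm_num, binEntropy_one_sub]
  exact ent_33_2000

lemma log_191_2000 : (-2348629033 / 1000000000 : ℝ) ≤ log (191 / 2000 : ℝ) ∧ log (191 / 2000 : ℝ) ≤ (-234862903 / 100000000 : ℝ) := by
  obtain ⟨h1, h2⟩ := log_bracket (a := (191 / 2000 : ℝ)) (x := (33 / 158 : ℝ)) (-4) 9 (by norm_num) (by norm_num)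
    (by norm_num)
  norm_num [Finset.sum_range_succ] at h1 h2
  constructor <;> linarith [log_two_gt_d9, log_two_lt_d9]

lemma log_1809_2000 : (-4014919 / 40000000 : ℝ) ≤ log (1809 / 2000 : ℝ) ∧ log (1809 / 2000 : ℝ) ≤ (-100372973 / 1000000000 : ℝ) := by
  obtain ⟨h1, h2⟩ := log_bracket (a := (1809 / 2000 : ℝ)) (x := (809 / 2809 : ℝ)) (-1) 9 (by norm_num) (by norm_num)
    (by norm_num)
  norm_num [Finset.sum_range_succ] at h1 h2
  constructor <;> linarith [log_two_gt_d9, log_two_lt_d9]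

lemma ent_191_2000 : (157540713 / 500000000 : ℝ) ≤ binEntropy (191 / 2000 : ℝ) ∧ binEntropy (191 / 2000 : ℝ) ≤ (315081429 / 1000000000 : ℝ) := by
  obtain ⟨a1, a2⟩ := log_191_2000
  obtain ⟨b1, b2⟩ := log_1809_2000
  rw [binEntropy_eq_negMulLog_add_negMulLog_one_sub, show (1 : ℝ) - (191 / 2000 : ℝ) = (1809 / 2000 : ℝ) by norm_num]
  unfold negMulLog
  constructor <;> linarith

lemma ent_1809_2000 : (157540713 / 500000000 : ℝ) ≤ binEntropy (1809 / 2000 : ℝ) ∧ binEntropy (1809 / 2000 : ℝ) ≤ (315081429 / 1000000000 : ℝ) := by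
  rw [show (1809 / 2000 : ℝ) = 1 - (191 / 2000 : ℝ) by norm_num, binEntropy_one_sub]
  exact ent_191_2000

lemma log_377_2000 : (-1668657273 / 1000000000 : ℝ) ≤ log (377 / 2000 : ℝ) ∧ log (377 / 2000 : ℝ) ≤ (-1668657271 / 1000000000 : ℝ) := by
  obtain ⟨h1, h2⟩ := log_bracket (a := (377 / 2000 : ℝ)) (x := (127 / 627 : ℝ)) (-3) 9 (by norm_num) (by norm_num)
    (by norm_num)
  norm_num [Finset.sum_range_succ] at h1 h2
  constructor <;> linarith [log_two_gt_d9, log_two_lt_d9]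

lemma log_1623_2000 : (-208870893 / 1000000000 : ℝ) ≤ log (1623 / 2000 : ℝ) ∧ log (1623 / 2000 : ℝ) ≤ (-208870891 / 1000000000 : ℝ) := by
  obtain ⟨h1, h2⟩ := log_bracket (a := (1623 / 2000 : ℝ)) (x := (623 / 2623 : ℝ)) (-1) 9 (by norm_num) (by norm_num)
    (by norm_num)
  norm_num [Finset.sum_range_succ] at h1 h2
  constructor <;> linarith [log_two_gt_d9, log_two_lt_d9]

lemma ent_377_2000 : (484040623 / 1000000000 : ℝ) ≤ binEntropy (377 / 2000 : ℝ) ∧ binEntropy (377 / 2000 : ℝ) ≤ (242020313 / 500000000 : ℝ) := by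
  obtain ⟨a1, a2⟩ := log_377_2000
  obtain ⟨b1, b2⟩ := log_1623_2000
  rw [binEntropy_eq_negMulLog_add_negMulLog_one_sub, show (1 : ℝ) - (377 / 2000 : ℝ) = (1623 / 2000 : ℝ) by norm_num]
  unfold negMulLog
  constructor <;> linarith

lemma ent_1623_2000 : (484040623 / 1000000000 : ℝ) ≤ binEntropy (1623 / 2000 : ℝ) ∧ binEntropy (1623 / 2000 : ℝ) ≤ (242020313 / 500000000 : ℝ) := by
  rw [show (1623 / 2000 : ℝ) = 1 - (377 / 2000 : ℝ) by norm_num, binEntropy_one_sub]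
  exact ent_377_2000

lemma log_1_400 : (-119829291 / 20000000 : ℝ) ≤ log (1 / 400 : ℝ) ∧ log (1 / 400 : ℝ) ≤ (-187233267 / 31250000 : ℝ) := by
  obtain ⟨h1, h2⟩ := log_bracket (a := (1 / 400 : ℝ)) (x := (7 / 57 : ℝ)) (-9) 9 (by norm_num) (by norm_num)
    (by norm_num)
  norm_num [Finset.sum_range_succ] at h1 h2
  constructor <;> linarith [log_two_gt_d9, log_two_lt_d9]

lemma log_399_400 : (-2503131 / 1000000000 : ℝ) ≤ log (399 / 400 : ℝ) ∧ log (399 / 400 : ℝ) ≤ (-312891 / 125000000 : ℝ) := by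
  obtain ⟨h1, h2⟩ := log_bracket (a := (399 / 400 : ℝ)) (x := (199 / 599 : ℝ)) (-1) 9 (by norm_num) (by norm_num)
    (by norm_num)
  norm_num [Finset.sum_range_succ] at h1 h2
  constructor <;> linarith [log_two_gt_d9, log_two_lt_d9]

lemma ent_1_400 : (17475531 / 1000000000 : ℝ) ≤ binEntropy (1 / 400 : ℝ) ∧ binEntropy (1 / 400 : ℝ) ≤ (3495107 / 200000000 : ℝ) := by
  obtain ⟨a1, a2⟩ := log_1_400
  obtain ⟨b1, b2⟩ := log_399_400
  rw [binEntropy_eq_negMulLog_add_negMulLog_one_sub, show (1 : ℝ) - (1 / 400 : ℝ) = (399 / 400 : ℝ) by norm_num]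
  unfold negMulLog
  constructor <;> linarith

lemma ent_399_400 : (17475531 / 1000000000 : ℝ) ≤ binEntropy (399 / 400 : ℝ) ∧ binEntropy (399 / 400 : ℝ) ≤ (3495107 / 200000000 : ℝ) := by
  rw [show (399 / 400 : ℝ) = 1 - (1 / 400 : ℝ) by norm_num, binEntropy_one_sub]
  exact ent_1_400

lemma log_29381_100000 : (-61241099 / 50000000 : ℝ) ≤ log (29381 / 100000 : ℝ) ∧ log (29381 / 100000 : ℝ) ≤ (-612410989 / 500000000 : ℝ) := by
  obtain ⟨h1, h2⟩ := log_bracket (a := (29381 / 100000 : ℝ)) (x := (4381 / 54381 : ℝ)) (-2) 9 (by norm_num) (by norm_num)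
    (by norm_num)
  norm_num [Finset.sum_range_succ] at h1 h2
  constructor <;> linarith [log_two_gt_d9, log_two_lt_d9]

lemma log_70619_100000 : (-347870957 / 1000000000 : ℝ) ≤ log (70619 / 100000 : ℝ) ∧ log (70619 / 100000 : ℝ) ≤ (-69574191 / 200000000 : ℝ) := by
  obtain ⟨h1, h2⟩ := log_bracket (a := (70619 / 100000 : ℝ)) (x := (20619 / 120619 : ℝ)) (-1) 9 (by norm_num) (by norm_num)
    (by norm_num)
  norm_num [Finset.sum_range_succ] at h1 h2
  constructor <;> linarith [log_two_gt_d9, log_two_lt_d9]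

lemma log_239_1000 : (-89455733 / 62500000 : ℝ) ≤ log (239 / 1000 : ℝ) ∧ log (239 / 1000 : ℝ) ≤ (-57251669 / 40000000 : ℝ) := by
  obtain ⟨h1, h2⟩ := log_bracket (a := (239 / 1000 : ℝ)) (x := (57 / 182 : ℝ)) (-3) 9 (by norm_num) (by norm_num)
    (by norm_num)
  norm_num [Finset.sum_range_succ] at h1 h2
  constructor <;> linarith [log_two_gt_d9, log_two_lt_d9]

lemma log_761_1000 : (-136560961 / 500000000 : ℝ) ≤ log (761 / 1000 : ℝ) ∧ log (761 / 1000 : ℝ) ≤ (-426753 / 1562500 : ℝ) := by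
  obtain ⟨h1, h2⟩ := log_bracket (a := (761 / 1000 : ℝ)) (x := (261 / 1261 : ℝ)) (-1) 9 (by norm_num) (by norm_num)
    (by norm_num)
  norm_num [Finset.sum_range_succ] at h1 h2
  constructor <;> linarith [log_two_gt_d9, log_two_lt_d9]

lemma ent_239_1000 : (549924503 / 1000000000 : ℝ) ≤ binEntropy (239 / 1000 : ℝ) ∧ binEntropy (239 / 1000 : ℝ) ≤ (274962253 / 500000000 : ℝ) := by
  obtain ⟨a1, a2⟩ := log_239_1000
  obtain ⟨b1, b2⟩ := log_761_1000
  rw [binEntropy_eq_negMulLog_add_negMulLog_one_sub, show (1 : ℝ) - (239 / 1000 : ℝ) = (761 / 1000 : ℝ) by norm_num]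
  unfold negMulLog
  constructor <;> linarith

lemma ent_29381_100000 : (121105587 / 200000000 : ℝ) ≤ binEntropy (29381 / 100000 : ℝ) ∧ binEntropy (29381 / 100000 : ℝ) ≤ (302763969 / 500000000 : ℝ) := by
  obtain ⟨a1, a2⟩ := log_29381_100000
  obtain ⟨b1, b2⟩ := log_70619_100000
  rw [binEntropy_eq_negMulLog_add_negMulLog_one_sub, show (1 : ℝ) - (29381 / 100000 : ℝ) = (70619 / 100000 : ℝ) by norm_num]
  unfold negMulLog
  constructor <;> linarith

lemma log_383_1000 : (-959720291 / 1000000000 : ℝ) ≤ log (383 / 1000 : ℝ) ∧ log (383 / 1000 : ℝ) ≤ (-959720289 / 1000000000 : ℝ) := by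
  obtain ⟨h1, h2⟩ := log_bracket (a := (383 / 1000 : ℝ)) (x := (133 / 633 : ℝ)) (-2) 9 (by norm_num) (by norm_num)
    (by norm_num)
  norm_num [Finset.sum_range_succ] at h1 h2
  constructor <;> linarith [log_two_gt_d9, log_two_lt_d9]

lemma log_617_1000 : (-30180391 / 62500000 : ℝ) ≤ log (617 / 1000 : ℝ) ∧ log (617 / 1000 : ℝ) ≤ (-241443127 / 500000000 : ℝ) := by
  obtain ⟨h1, h2⟩ := log_bracket (a := (617 / 1000 : ℝ)) (x := (117 / 1117 : ℝ)) (-1) 9 (by norm_num) (by norm_num)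
    (by norm_num)
  norm_num [Finset.sum_range_succ] at h1 h2
  constructor <;> linarith [log_two_gt_d9, log_two_lt_d9]

lemma ent_383_1000 : (665513689 / 1000000000 : ℝ) ≤ binEntropy (383 / 1000 : ℝ) ∧ binEntropy (383 / 1000 : ℝ) ≤ (166378423 / 250000000 : ℝ) := by
  obtain ⟨a1, a2⟩ := log_383_1000
  obtain ⟨b1, b2⟩ := log_617_1000
  rw [binEntropy_eq_negMulLog_add_negMulLog_one_sub, show (1 : ℝ) - (383 / 1000 : ℝ) = (617 / 1000 : ℝ) by norm_num]
  unfold negMulLog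
  constructor <;> linarith

lemma ent_617_1000 : (665513689 / 1000000000 : ℝ) ≤ binEntropy (617 / 1000 : ℝ) ∧ binEntropy (617 / 1000 : ℝ) ≤ (166378423 / 250000000 : ℝ) := by
  rw [show (617 / 1000 : ℝ) = 1 - (383 / 1000 : ℝ) by norm_num, binEntropy_one_sub]
  exact ent_383_1000

lemma log_93_500 : (-841004303 / 500000000 : ℝ) ≤ log (93 / 500 : ℝ) ∧ log (93 / 500 : ℝ) ≤ (-420502151 / 250000000 : ℝ) := by
  obtain ⟨h1, h2⟩ := log_bracket (a := (93 / 500 : ℝ)) (x := (61 / 311 : ℝ)) (-3) 9 (by norm_num) (by norm_num)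
    (by norm_num)
  norm_num [Finset.sum_range_succ] at h1 h2
  constructor <;> linarith [log_two_gt_d9, log_two_lt_d9]

lemma log_407_500 : (-102897457 / 500000000 : ℝ) ≤ log (407 / 500 : ℝ) ∧ log (407 / 500 : ℝ) ≤ (-6431091 / 31250000 : ℝ) := by
  obtain ⟨h1, h2⟩ := log_bracket (a := (407 / 500 : ℝ)) (x := (157 / 657 : ℝ)) (-1) 9 (by norm_num) (by norm_num)
    (by norm_num)
  norm_num [Finset.sum_range_succ] at h1 h2
  constructor <;> linarith [log_two_gt_d9, log_two_lt_d9]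

lemma ent_93_500 : (240185329 / 500000000 : ℝ) ≤ binEntropy (93 / 500 : ℝ) ∧ binEntropy (93 / 500 : ℝ) ≤ (480370661 / 1000000000 : ℝ) := by
  obtain ⟨a1, a2⟩ := log_93_500
  obtain ⟨b1, b2⟩ := log_407_500
  rw [binEntropy_eq_negMulLog_add_negMulLog_one_sub, show (1 : ℝ) - (93 / 500 : ℝ) = (407 / 500 : ℝ) by norm_num]
  unfold negMulLog
  constructor <;> linarith

lemma ent_407_500 : (240185329 / 500000000 : ℝ) ≤ binEntropy (407 / 500 : ℝ) ∧ binEntropy (407 / 500 : ℝ) ≤ (480370661 / 1000000000 : ℝ) := by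
  rw [show (407 / 500 : ℝ) = 1 - (93 / 500 : ℝ) by norm_num, binEntropy_one_sub]
  exact ent_93_500

lemma log_93_1000 : (-2375155787 / 1000000000 : ℝ) ≤ log (93 / 1000 : ℝ) ∧ log (93 / 1000 : ℝ) ≤ (-296894473 / 125000000 : ℝ) := by
  obtain ⟨h1, h2⟩ := log_bracket (a := (93 / 1000 : ℝ)) (x := (61 / 311 : ℝ)) (-4) 9 (by norm_num) (by norm_num)
    (by norm_num)
  norm_num [Finset.sum_range_succ] at h1 h2
  constructor <;> linarith [log_two_gt_d9, log_two_lt_d9]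

lemma log_907_1000 : (-9761283 / 100000000 : ℝ) ≤ log (907 / 1000 : ℝ) ∧ log (907 / 1000 : ℝ) ≤ (-24403207 / 250000000 : ℝ) := by
  obtain ⟨h1, h2⟩ := log_bracket (a := (907 / 1000 : ℝ)) (x := (407 / 1407 : ℝ)) (-1) 9 (by norm_num) (by norm_num)
    (by norm_num)
  norm_num [Finset.sum_range_succ] at h1 h2
  constructor <;> linarith [log_two_gt_d9, log_two_lt_d9]

lemma ent_93_1000 : (154712161 / 500000000 : ℝ) ≤ binEntropy (93 / 1000 : ℝ) ∧ binEntropy (93 / 1000 : ℝ) ≤ (154712163 / 500000000 : ℝ) := by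
  obtain ⟨a1, a2⟩ := log_93_1000
  obtain ⟨b1, b2⟩ := log_907_1000
  rw [binEntropy_eq_negMulLog_add_negMulLog_one_sub, show (1 : ℝ) - (93 / 1000 : ℝ) = (907 / 1000 : ℝ) by norm_num]
  unfold negMulLog
  constructor <;> linarith

lemma ent_907_1000 : (154712161 / 500000000 : ℝ) ≤ binEntropy (907 / 1000 : ℝ) ∧ binEntropy (907 / 1000 : ℝ) ≤ (154712163 / 500000000 : ℝ) := by
  rw [show (907 / 1000 : ℝ) = 1 - (93 / 1000 : ℝ) by norm_num, binEntropy_one_sub]
  exact ent_93_1000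

lemma log_117_500 : (-290486833 / 200000000 : ℝ) ≤ log (117 / 500 : ℝ) ∧ log (117 / 500 : ℝ) ≤ (-726217081 / 500000000 : ℝ) := by
  obtain ⟨h1, h2⟩ := log_bracket (a := (117 / 500 : ℝ)) (x := (109 / 359 : ℝ)) (-3) 9 (by norm_num) (by norm_num)
    (by norm_num)
  norm_num [Finset.sum_range_succ] at h1 h2
  constructor <;> linarith [log_two_gt_d9, log_two_lt_d9]

lemma log_383_500 : (-26657311 / 100000000 : ℝ) ≤ log (383 / 500 : ℝ) ∧ log (383 / 500 : ℝ) ≤ (-66643277 / 250000000 : ℝ) := by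
  obtain ⟨h1, h2⟩ := log_bracket (a := (383 / 500 : ℝ)) (x := (133 / 633 : ℝ)) (-1) 9 (by norm_num) (by norm_num)
    (by norm_num)
  norm_num [Finset.sum_range_succ] at h1 h2
  constructor <;> linarith [log_two_gt_d9, log_two_lt_d9]

lemma ent_117_500 : (272032297 / 500000000 : ℝ) ≤ binEntropy (117 / 500 : ℝ) ∧ binEntropy (117 / 500 : ℝ) ≤ (544064597 / 1000000000 : ℝ) := by
  obtain ⟨a1, a2⟩ := log_117_500
  obtain ⟨b1, b2⟩ := log_383_500
  rw [binEntropy_eq_negMulLog_add_negMulLog_one_sub, show (1 : ℝ) - (117 / 500 : ℝ) = (383 / 500 : ℝ) by norm_num]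
  unfold negMulLog
  constructor <;> linarith

lemma ent_383_500 : (272032297 / 500000000 : ℝ) ≤ binEntropy (383 / 500 : ℝ) ∧ binEntropy (383 / 500 : ℝ) ≤ (544064597 / 1000000000 : ℝ) := by
  rw [show (383 / 500 : ℝ) = 1 - (117 / 500 : ℝ) by norm_num, binEntropy_one_sub]
  exact ent_117_500

lemma log_117_1000 : (-1072790673 / 500000000 : ℝ) ≤ log (117 / 1000 : ℝ) ∧ log (117 / 1000 : ℝ) ≤ (-1072790671 / 500000000 : ℝ) := by
  obtain ⟨h1, h2⟩ := log_bracket (a := (117 / 1000 : ℝ)) (x := (109 / 359 : ℝ)) (-4) 9 (by norm_num) (by norm_num)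
    (by norm_num)
  norm_num [Finset.sum_range_succ] at h1 h2
  constructor <;> linarith [log_two_gt_d9, log_two_lt_d9]

lemma log_883_1000 : (-124430079 / 1000000000 : ℝ) ≤ log (883 / 1000 : ℝ) ∧ log (883 / 1000 : ℝ) ≤ (-62215039 / 500000000 : ℝ) := by
  obtain ⟨h1, h2⟩ := log_bracket (a := (883 / 1000 : ℝ)) (x := (383 / 1383 : ℝ)) (-1) 9 (by norm_num) (by norm_num)
    (by norm_num)
  norm_num [Finset.sum_range_succ] at h1 h2
  constructor <;> linarith [log_two_gt_d9, log_two_lt_d9]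

lemma ent_117_1000 : (14436191 / 40000000 : ℝ) ≤ binEntropy (117 / 1000 : ℝ) ∧ binEntropy (117 / 1000 : ℝ) ≤ (180452389 / 500000000 : ℝ) := by
  obtain ⟨a1, a2⟩ := log_117_1000
  obtain ⟨b1, b2⟩ := log_883_1000
  rw [binEntropy_eq_negMulLog_add_negMulLog_one_sub, show (1 : ℝ) - (117 / 1000 : ℝ) = (883 / 1000 : ℝ) by norm_num]
  unfold negMulLog
  constructor <;> linarith

lemma ent_883_1000 : (14436191 / 40000000 : ℝ) ≤ binEntropy (883 / 1000 : ℝ) ∧ binEntropy (883 / 1000 : ℝ) ≤ (180452389 / 500000000 : ℝ) := by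
  rw [show (883 / 1000 : ℝ) = 1 - (117 / 1000 : ℝ) by norm_num, binEntropy_one_sub]
  exact ent_117_1000

lemma log_25589_100000 : (-272601523 / 200000000 : ℝ) ≤ log (25589 / 100000 : ℝ) ∧ log (25589 / 100000 : ℝ) ≤ (-1363007613 / 1000000000 : ℝ) := by
  obtain ⟨h1, h2⟩ := log_bracket (a := (25589 / 100000 : ℝ)) (x := (589 / 50589 : ℝ)) (-2) 9 (by norm_num) (by norm_num)
    (by norm_num)
  norm_num [Finset.sum_range_succ] at h1 h2
  constructor <;> linarith [log_two_gt_d9, log_two_lt_d9]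

lemma log_74411_100000 : (-147783203 / 500000000 : ℝ) ≤ log (74411 / 100000 : ℝ) ∧ log (74411 / 100000 : ℝ) ≤ (-59113281 / 200000000 : ℝ) := by
  obtain ⟨h1, h2⟩ := log_bracket (a := (74411 / 100000 : ℝ)) (x := (24411 / 124411 : ℝ)) (-1) 9 (by norm_num) (by norm_num)
    (by norm_num)
  norm_num [Finset.sum_range_succ] at h1 h2
  constructor <;> linarith [log_two_gt_d9, log_two_lt_d9]

lemma log_191_1000 : (-413870463 / 250000000 : ℝ) ≤ log (191 / 1000 : ℝ) ∧ log (191 / 1000 : ℝ) ≤ (-33109637 / 20000000 : ℝ) := by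
  obtain ⟨h1, h2⟩ := log_bracket (a := (191 / 1000 : ℝ)) (x := (33 / 158 : ℝ)) (-3) 9 (by norm_num) (by norm_num)
    (by norm_num)
  norm_num [Finset.sum_range_succ] at h1 h2
  constructor <;> linarith [log_two_gt_d9, log_two_lt_d9]

lemma log_809_1000 : (-211956363 / 1000000000 : ℝ) ≤ log (809 / 1000 : ℝ) ∧ log (809 / 1000 : ℝ) ≤ (-211956361 / 1000000000 : ℝ) := by
  obtain ⟨h1, h2⟩ := log_bracket (a := (809 / 1000 : ℝ)) (x := (309 / 1309 : ℝ)) (-1) 9 (by norm_num) (by norm_num)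
    (by norm_num)
  norm_num [Finset.sum_range_succ] at h1 h2
  constructor <;> linarith [log_two_gt_d9, log_two_lt_d9]

lemma ent_191_1000 : (487669729 / 1000000000 : ℝ) ≤ binEntropy (191 / 1000 : ℝ) ∧ binEntropy (191 / 1000 : ℝ) ≤ (121917433 / 250000000 : ℝ) := by
  obtain ⟨a1, a2⟩ := log_191_1000
  obtain ⟨b1, b2⟩ := log_809_1000
  rw [binEntropy_eq_negMulLog_add_negMulLog_one_sub, show (1 : ℝ) - (191 / 1000 : ℝ) = (809 / 1000 : ℝ) by norm_num]
  unfold negMulLog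
  constructor <;> linarith

lemma ent_25589_100000 : (113742787 / 200000000 : ℝ) ≤ binEntropy (25589 / 100000 : ℝ) ∧ binEntropy (25589 / 100000 : ℝ) ≤ (568713937 / 1000000000 : ℝ) := by
  obtain ⟨a1, a2⟩ := log_25589_100000
  obtain ⟨b1, b2⟩ := log_74411_100000
  rw [binEntropy_eq_negMulLog_add_negMulLog_one_sub, show (1 : ℝ) - (25589 / 100000 : ℝ) = (74411 / 100000 : ℝ) by norm_num]
  unfold negMulLog
  constructor <;> linarith

lemma log_613_2000 : (-47301501 / 40000000 : ℝ) ≤ log (613 / 2000 : ℝ) ∧ log (613 / 2000 : ℝ) ≤ (-1182537523 / 1000000000 : ℝ) := by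
  obtain ⟨h1, h2⟩ := log_bracket (a := (613 / 2000 : ℝ)) (x := (113 / 1113 : ℝ)) (-2) 9 (by norm_num) (by norm_num)
    (by norm_num)
  norm_num [Finset.sum_range_succ] at h1 h2
  constructor <;> linarith [log_two_gt_d9, log_two_lt_d9]

lemma log_1387_2000 : (-9150101 / 25000000 : ℝ) ≤ log (1387 / 2000 : ℝ) ∧ log (1387 / 2000 : ℝ) ≤ (-183002019 / 500000000 : ℝ) := by
  obtain ⟨h1, h2⟩ := log_bracket (a := (1387 / 2000 : ℝ)) (x := (387 / 2387 : ℝ)) (-1) 9 (by norm_num) (by norm_num)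
    (by norm_num)
  norm_num [Finset.sum_range_succ] at h1 h2
  constructor <;> linarith [log_two_gt_d9, log_two_lt_d9]

lemma ent_613_2000 : (616271551 / 1000000000 : ℝ) ≤ binEntropy (613 / 2000 : ℝ) ∧ binEntropy (613 / 2000 : ℝ) ≤ (308135777 / 500000000 : ℝ) := by
  obtain ⟨a1, a2⟩ := log_613_2000
  obtain ⟨b1, b2⟩ := log_1387_2000
  rw [binEntropy_eq_negMulLog_add_negMulLog_one_sub, show (1 : ℝ) - (613 / 2000 : ℝ) = (1387 / 2000 : ℝ) by norm_num]
  unfold negMulLog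
  constructor <;> linarith

lemma ent_1387_2000 : (616271551 / 1000000000 : ℝ) ≤ binEntropy (1387 / 2000 : ℝ) ∧ binEntropy (1387 / 2000 : ℝ) ≤ (308135777 / 500000000 : ℝ) := by
  rw [show (1387 / 2000 : ℝ) = 1 - (613 / 2000 : ℝ) by norm_num, binEntropy_one_sub]
  exact ent_613_2000

lemma log_387_1000 : (-949330587 / 1000000000 : ℝ) ≤ log (387 / 1000 : ℝ) ∧ log (387 / 1000 : ℝ) ≤ (-189866117 / 200000000 : ℝ) := by
  obtain ⟨h1, h2⟩ := log_bracket (a := (387 / 1000 : ℝ)) (x := (137 / 637 : ℝ)) (-2) 9 (by norm_num) (by norm_num)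
    (by norm_num)
  norm_num [Finset.sum_range_succ] at h1 h2
  constructor <;> linarith [log_two_gt_d9, log_two_lt_d9]

lemma log_613_1000 : (-61173793 / 125000000 : ℝ) ≤ log (613 / 1000 : ℝ) ∧ log (613 / 1000 : ℝ) ≤ (-244695171 / 500000000 : ℝ) := by
  obtain ⟨h1, h2⟩ := log_bracket (a := (613 / 1000 : ℝ)) (x := (113 / 1113 : ℝ)) (-1) 9 (by norm_num) (by norm_num)
    (by norm_num)
  norm_num [Finset.sum_range_succ] at h1 h2
  constructor <;> linarith [log_two_gt_d9, log_two_lt_d9]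

lemma ent_387_1000 : (41711701 / 62500000 : ℝ) ≤ binEntropy (387 / 1000 : ℝ) ∧ binEntropy (387 / 1000 : ℝ) ≤ (667387219 / 1000000000 : ℝ) := by
  obtain ⟨a1, a2⟩ := log_387_1000
  obtain ⟨b1, b2⟩ := log_613_1000
  rw [binEntropy_eq_negMulLog_add_negMulLog_one_sub, show (1 : ℝ) - (387 / 1000 : ℝ) = (613 / 1000 : ℝ) by norm_num]
  unfold negMulLog
  constructor <;> linarith

lemma ent_613_1000 : (41711701 / 62500000 : ℝ) ≤ binEntropy (613 / 1000 : ℝ) ∧ binEntropy (613 / 1000 : ℝ) ≤ (667387219 / 1000000000 : ℝ) := by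
  rw [show (613 / 1000 : ℝ) = 1 - (387 / 1000 : ℝ) by norm_num, binEntropy_one_sub]
  exact ent_387_1000

lemma log_387_2000 : (-205309721 / 125000000 : ℝ) ≤ log (387 / 2000 : ℝ) ∧ log (387 / 2000 : ℝ) ≤ (-328495553 / 200000000 : ℝ) := by
  obtain ⟨h1, h2⟩ := log_bracket (a := (387 / 2000 : ℝ)) (x := (137 / 637 : ℝ)) (-3) 9 (by norm_num) (by norm_num)
    (by norm_num)
  norm_num [Finset.sum_range_succ] at h1 h2
  constructor <;> linarith [log_two_gt_d9, log_two_lt_d9]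

lemma log_1613_2000 : (-107525691 / 500000000 : ℝ) ≤ log (1613 / 2000 : ℝ) ∧ log (1613 / 2000 : ℝ) ≤ (-215051381 / 1000000000 : ℝ) := by
  obtain ⟨h1, h2⟩ := log_bracket (a := (1613 / 2000 : ℝ)) (x := (613 / 2613 : ℝ)) (-1) 9 (by norm_num) (by norm_num)
    (by norm_num)
  norm_num [Finset.sum_range_succ] at h1 h2
  constructor <;> linarith [log_two_gt_d9, log_two_lt_d9]

lemma ent_387_2000 : (245629193 / 500000000 : ℝ) ≤ binEntropy (387 / 2000 : ℝ) ∧ binEntropy (387 / 2000 : ℝ) ≤ (122814597 / 250000000 : ℝ) := by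
  obtain ⟨a1, a2⟩ := log_387_2000
  obtain ⟨b1, b2⟩ := log_1613_2000
  rw [binEntropy_eq_negMulLog_add_negMulLog_one_sub, show (1 : ℝ) - (387 / 2000 : ℝ) = (1613 / 2000 : ℝ) by norm_num]
  unfold negMulLog
  constructor <;> linarith

lemma ent_1613_2000 : (245629193 / 500000000 : ℝ) ≤ binEntropy (1613 / 2000 : ℝ) ∧ binEntropy (1613 / 2000 : ℝ) ≤ (122814597 / 250000000 : ℝ) := by
  rw [show (1613 / 2000 : ℝ) = 1 - (387 / 2000 : ℝ) by norm_num, binEntropy_one_sub]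
  exact ent_387_2000

lemma log_17689_100000 : (-173222721 / 100000000 : ℝ) ≤ log (17689 / 100000 : ℝ) ∧ log (17689 / 100000 : ℝ) ≤ (-1732227207 / 1000000000 : ℝ) := by
  obtain ⟨h1, h2⟩ := log_bracket (a := (17689 / 100000 : ℝ)) (x := (5189 / 30189 : ℝ)) (-3) 9 (by norm_num) (by norm_num)
    (by norm_num)
  norm_num [Finset.sum_range_succ] at h1 h2
  constructor <;> linarith [log_two_gt_d9, log_two_lt_d9]

lemma log_82311_100000 : (-194665431 / 1000000000 : ℝ) ≤ log (82311 / 100000 : ℝ) ∧ log (82311 / 100000 : ℝ) ≤ (-194665429 / 1000000000 : ℝ) := by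
  obtain ⟨h1, h2⟩ := log_bracket (a := (82311 / 100000 : ℝ)) (x := (32311 / 132311 : ℝ)) (-1) 9 (by norm_num) (by norm_num)
    (by norm_num)
  norm_num [Finset.sum_range_succ] at h1 h2
  constructor <;> linarith [log_two_gt_d9, log_two_lt_d9]

lemma log_91_1000 : (-1198447887 / 500000000 : ℝ) ≤ log (91 / 1000 : ℝ) ∧ log (91 / 1000 : ℝ) ≤ (-2396895771 / 1000000000 : ℝ) := by
  obtain ⟨h1, h2⟩ := log_bracket (a := (91 / 1000 : ℝ)) (x := (57 / 307 : ℝ)) (-4) 9 (by norm_num) (by norm_num)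
    (by norm_num)
  norm_num [Finset.sum_range_succ] at h1 h2
  constructor <;> linarith [log_two_gt_d9, log_two_lt_d9]

lemma log_909_1000 : (-47705093 / 500000000 : ℝ) ≤ log (909 / 1000 : ℝ) ∧ log (909 / 1000 : ℝ) ≤ (-11926273 / 125000000 : ℝ) := by
  obtain ⟨h1, h2⟩ := log_bracket (a := (909 / 1000 : ℝ)) (x := (409 / 1409 : ℝ)) (-1) 9 (by norm_num) (by norm_num)
    (by norm_num)
  norm_num [Finset.sum_range_succ] at h1 h2
  constructor <;> linarith [log_two_gt_d9, log_two_lt_d9]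

lemma ent_91_1000 : (76211343 / 250000000 : ℝ) ≤ binEntropy (91 / 1000 : ℝ) ∧ binEntropy (91 / 1000 : ℝ) ≤ (2438763 / 8000000 : ℝ) := by
  obtain ⟨a1, a2⟩ := log_91_1000
  obtain ⟨b1, b2⟩ := log_909_1000
  rw [binEntropy_eq_negMulLog_add_negMulLog_one_sub, show (1 : ℝ) - (91 / 1000 : ℝ) = (909 / 1000 : ℝ) by norm_num]
  unfold negMulLog
  constructor <;> linarith

lemma ent_17689_100000 : (466644731 / 1000000000 : ℝ) ≤ binEntropy (17689 / 100000 : ℝ) ∧ binEntropy (17689 / 100000 : ℝ) ≤ (93328947 / 200000000 : ℝ) := by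
  obtain ⟨a1, a2⟩ := log_17689_100000
  obtain ⟨b1, b2⟩ := log_82311_100000
  rw [binEntropy_eq_negMulLog_add_negMulLog_one_sub, show (1 : ℝ) - (17689 / 100000 : ℝ) = (82311 / 100000 : ℝ) by norm_num]
  unfold negMulLog
  constructor <;> linarith

lemma log_39_250 : (-1857899273 / 1000000000 : ℝ) ≤ log (39 / 250 : ℝ) ∧ log (39 / 250 : ℝ) ≤ (-185789927 / 100000000 : ℝ) := by
  obtain ⟨h1, h2⟩ := log_bracket (a := (39 / 250 : ℝ)) (x := (31 / 281 : ℝ)) (-3) 9 (by norm_num) (by norm_num)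
    (by norm_num)
  norm_num [Finset.sum_range_succ] at h1 h2
  constructor <;> linarith [log_two_gt_d9, log_two_lt_d9]

lemma log_211_250 : (-33920557 / 200000000 : ℝ) ≤ log (211 / 250 : ℝ) ∧ log (211 / 250 : ℝ) ≤ (-5300087 / 31250000 : ℝ) := by
  obtain ⟨h1, h2⟩ := log_bracket (a := (211 / 250 : ℝ)) (x := (43 / 168 : ℝ)) (-1) 9 (by norm_num) (by norm_num)
    (by norm_num)
  norm_num [Finset.sum_range_succ] at h1 h2
  constructor <;> linarith [log_two_gt_d9, log_two_lt_d9]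

lemma ent_39_250 : (86595407 / 200000000 : ℝ) ≤ binEntropy (39 / 250 : ℝ) ∧ binEntropy (39 / 250 : ℝ) ≤ (216488519 / 500000000 : ℝ) := by
  obtain ⟨a1, a2⟩ := log_39_250
  obtain ⟨b1, b2⟩ := log_211_250
  rw [binEntropy_eq_negMulLog_add_negMulLog_one_sub, show (1 : ℝ) - (39 / 250 : ℝ) = (211 / 250 : ℝ) by norm_num]
  unfold negMulLog
  constructor <;> linarith

lemma ent_211_250 : (86595407 / 200000000 : ℝ) ≤ binEntropy (211 / 250 : ℝ) ∧ binEntropy (211 / 250 : ℝ) ≤ (216488519 / 500000000 : ℝ) := by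
  rw [show (211 / 250 : ℝ) = 1 - (39 / 250 : ℝ) by norm_num, binEntropy_one_sub]
  exact ent_39_250

lemma log_39_125 : (-291188023 / 250000000 : ℝ) ≤ log (39 / 125 : ℝ) ∧ log (39 / 125 : ℝ) ≤ (-116475209 / 100000000 : ℝ) := by
  obtain ⟨h1, h2⟩ := log_bracket (a := (39 / 125 : ℝ)) (x := (31 / 281 : ℝ)) (-2) 9 (by norm_num) (by norm_num)
    (by norm_num)
  norm_num [Finset.sum_range_succ] at h1 h2
  constructor <;> linarith [log_two_gt_d9, log_two_lt_d9]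

lemma log_86_125 : (-186983221 / 500000000 : ℝ) ≤ log (86 / 125 : ℝ) ∧ log (86 / 125 : ℝ) ≤ (-9349161 / 25000000 : ℝ) := by
  obtain ⟨h1, h2⟩ := log_bracket (a := (86 / 125 : ℝ)) (x := (47 / 297 : ℝ)) (-1) 9 (by norm_num) (by norm_num)
    (by norm_num)
  norm_num [Finset.sum_range_succ] at h1 h2
  constructor <;> linarith [log_two_gt_d9, log_two_lt_d9]

lemma ent_39_125 : (310345781 / 500000000 : ℝ) ≤ binEntropy (39 / 125 : ℝ) ∧ binEntropy (39 / 125 : ℝ) ≤ (124138313 / 200000000 : ℝ) := by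
  obtain ⟨a1, a2⟩ := log_39_125
  obtain ⟨b1, b2⟩ := log_86_125
  rw [binEntropy_eq_negMulLog_add_negMulLog_one_sub, show (1 : ℝ) - (39 / 125 : ℝ) = (86 / 125 : ℝ) by norm_num]
  unfold negMulLog
  constructor <;> linarith

lemma log_43_125 : (-1067113623 / 1000000000 : ℝ) ≤ log (43 / 125 : ℝ) ∧ log (43 / 125 : ℝ) ≤ (-1067113621 / 1000000000 : ℝ) := by
  obtain ⟨h1, h2⟩ := log_bracket (a := (43 / 125 : ℝ)) (x := (47 / 297 : ℝ)) (-2) 9 (by norm_num) (by norm_num)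
    (by norm_num)
  norm_num [Finset.sum_range_succ] at h1 h2
  constructor <;> linarith [log_two_gt_d9, log_two_lt_d9]

lemma log_82_125 : (-421594491 / 1000000000 : ℝ) ≤ log (82 / 125 : ℝ) ∧ log (82 / 125 : ℝ) ≤ (-421594489 / 1000000000 : ℝ) := by
  obtain ⟨h1, h2⟩ := log_bracket (a := (82 / 125 : ℝ)) (x := (39 / 289 : ℝ)) (-1) 9 (by norm_num) (by norm_num)
    (by norm_num)
  norm_num [Finset.sum_range_succ] at h1 h2
  constructor <;> linarith [log_two_gt_d9, log_two_lt_d9]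

lemma ent_43_125 : (64365307 / 100000000 : ℝ) ≤ binEntropy (43 / 125 : ℝ) ∧ binEntropy (43 / 125 : ℝ) ≤ (643653073 / 1000000000 : ℝ) := by
  obtain ⟨a1, a2⟩ := log_43_125
  obtain ⟨b1, b2⟩ := log_82_125
  rw [binEntropy_eq_negMulLog_add_negMulLog_one_sub, show (1 : ℝ) - (43 / 125 : ℝ) = (82 / 125 : ℝ) by norm_num]
  unfold negMulLog
  constructor <;> linarith

lemma ent_82_125 : (64365307 / 100000000 : ℝ) ≤ binEntropy (82 / 125 : ℝ) ∧ binEntropy (82 / 125 : ℝ) ≤ (643653073 / 1000000000 : ℝ) := by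
  rw [show (82 / 125 : ℝ) = 1 - (43 / 125 : ℝ) by norm_num, binEntropy_one_sub]
  exact ent_43_125

lemma log_12159_100000 : (-2107100551 / 1000000000 : ℝ) ≤ log (12159 / 100000 : ℝ) ∧ log (12159 / 100000 : ℝ) ≤ (-2107100547 / 1000000000 : ℝ) := by
  obtain ⟨h1, h2⟩ := log_bracket (a := (12159 / 100000 : ℝ)) (x := (5909 / 18409 : ℝ)) (-4) 9 (by norm_num) (by norm_num)
    (by norm_num)
  norm_num [Finset.sum_range_succ] at h1 h2
  constructor <;> linarith [log_two_gt_d9, log_two_lt_d9]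

lemma log_87841_100000 : (-5185673 / 40000000 : ℝ) ≤ log (87841 / 100000 : ℝ) ∧ log (87841 / 100000 : ℝ) ≤ (-129641823 / 1000000000 : ℝ) := by
  obtain ⟨h1, h2⟩ := log_bracket (a := (87841 / 100000 : ℝ)) (x := (37841 / 137841 : ℝ)) (-1) 9 (by norm_num) (by norm_num)
    (by norm_num)
  norm_num [Finset.sum_range_succ] at h1 h2
  constructor <;> linarith [log_two_gt_d9, log_two_lt_d9]

lemma log_21_1000 : (-3863232843 / 1000000000 : ℝ) ≤ log (21 / 1000 : ℝ) ∧ log (21 / 1000 : ℝ) ≤ (-3863232839 / 1000000000 : ℝ) := by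
  obtain ⟨h1, h2⟩ := log_bracket (a := (21 / 1000 : ℝ)) (x := (43 / 293 : ℝ)) (-6) 9 (by norm_num) (by norm_num)
    (by norm_num)
  norm_num [Finset.sum_range_succ] at h1 h2
  constructor <;> linarith [log_two_gt_d9, log_two_lt_d9]

lemma log_979_1000 : (-21223637 / 1000000000 : ℝ) ≤ log (979 / 1000 : ℝ) ∧ log (979 / 1000 : ℝ) ≤ (-4244727 / 200000000 : ℝ) := by
  obtain ⟨h1, h2⟩ := log_bracket (a := (979 / 1000 : ℝ)) (x := (479 / 1479 : ℝ)) (-1) 9 (by norm_num) (by norm_num)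
    (by norm_num)
  norm_num [Finset.sum_range_succ] at h1 h2
  constructor <;> linarith [log_two_gt_d9, log_two_lt_d9]

lemma ent_21_1000 : (25476457 / 250000000 : ℝ) ≤ binEntropy (21 / 1000 : ℝ) ∧ binEntropy (21 / 1000 : ℝ) ≤ (101905831 / 1000000000 : ℝ) := by
  obtain ⟨a1, a2⟩ := log_21_1000
  obtain ⟨b1, b2⟩ := log_979_1000
  rw [binEntropy_eq_negMulLog_add_negMulLog_one_sub, show (1 : ℝ) - (21 / 1000 : ℝ) = (979 / 1000 : ℝ) by norm_num]
  unfold negMulLog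
  constructor <;> linarith

lemma ent_12159_100000 : (370081029 / 1000000000 : ℝ) ≤ binEntropy (12159 / 100000 : ℝ) ∧ binEntropy (12159 / 100000 : ℝ) ≤ (46260129 / 125000000 : ℝ) := by
  obtain ⟨a1, a2⟩ := log_12159_100000
  obtain ⟨b1, b2⟩ := log_87841_100000
  rw [binEntropy_eq_negMulLog_add_negMulLog_one_sub, show (1 : ℝ) - (12159 / 100000 : ℝ) = (87841 / 100000 : ℝ) by norm_num]
  unfold negMulLog
  constructor <;> linarith

lemma log_11_250 : (-3123565647 / 1000000000 : ℝ) ≤ log (11 / 250 : ℝ) ∧ log (11 / 250 : ℝ) ≤ (-3123565643 / 1000000000 : ℝ) := by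
  obtain ⟨h1, h2⟩ := log_bracket (a := (11 / 250 : ℝ)) (x := (51 / 301 : ℝ)) (-5) 9 (by norm_num) (by norm_num)
    (by norm_num)
  norm_num [Finset.sum_range_succ] at h1 h2
  constructor <;> linarith [log_two_gt_d9, log_two_lt_d9]

lemma log_239_250 : (-44997367 / 1000000000 : ℝ) ≤ log (239 / 250 : ℝ) ∧ log (239 / 250 : ℝ) ≤ (-8999473 / 200000000 : ℝ) := by
  obtain ⟨h1, h2⟩ := log_bracket (a := (239 / 250 : ℝ)) (x := (57 / 182 : ℝ)) (-1) 9 (by norm_num) (by norm_num)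
    (by norm_num)
  norm_num [Finset.sum_range_succ] at h1 h2
  constructor <;> linarith [log_two_gt_d9, log_two_lt_d9]

lemma ent_11_250 : (180454369 / 1000000000 : ℝ) ≤ binEntropy (11 / 250 : ℝ) ∧ binEntropy (11 / 250 : ℝ) ≤ (45113593 / 250000000 : ℝ) := by
  obtain ⟨a1, a2⟩ := log_11_250
  obtain ⟨b1, b2⟩ := log_239_250
  rw [binEntropy_eq_negMulLog_add_negMulLog_one_sub, show (1 : ℝ) - (11 / 250 : ℝ) = (239 / 250 : ℝ) by norm_num]
  unfold negMulLog
  constructor <;> linarith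

lemma ent_239_250 : (180454369 / 1000000000 : ℝ) ≤ binEntropy (239 / 250 : ℝ) ∧ binEntropy (239 / 250 : ℝ) ≤ (45113593 / 250000000 : ℝ) := by
  rw [show (239 / 250 : ℝ) = 1 - (11 / 250 : ℝ) by norm_num, binEntropy_one_sub]
  exact ent_11_250

lemma log_57_125 : (-78526247 / 100000000 : ℝ) ≤ log (57 / 125 : ℝ) ∧ log (57 / 125 : ℝ) ≤ (-196315617 / 250000000 : ℝ) := by
  obtain ⟨h1, h2⟩ := log_bracket (a := (57 / 125 : ℝ)) (x := (103 / 353 : ℝ)) (-2) 9 (by norm_num) (by norm_num)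
    (by norm_num)
  norm_num [Finset.sum_range_succ] at h1 h2
  constructor <;> linarith [log_two_gt_d9, log_two_lt_d9]

lemma log_68_125 : (-608806033 / 1000000000 : ℝ) ≤ log (68 / 125 : ℝ) ∧ log (68 / 125 : ℝ) ≤ (-608806031 / 1000000000 : ℝ) := by
  obtain ⟨h1, h2⟩ := log_bracket (a := (68 / 125 : ℝ)) (x := (11 / 261 : ℝ)) (-1) 9 (by norm_num) (by norm_num)
    (by norm_num)
  norm_num [Finset.sum_range_succ] at h1 h2
  constructor <;> linarith [log_two_gt_d9, log_two_lt_d9]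

lemma ent_57_125 : (344635083 / 500000000 : ℝ) ≤ binEntropy (57 / 125 : ℝ) ∧ binEntropy (57 / 125 : ℝ) ≤ (689270169 / 1000000000 : ℝ) := by
  obtain ⟨a1, a2⟩ := log_57_125
  obtain ⟨b1, b2⟩ := log_68_125
  rw [binEntropy_eq_negMulLog_add_negMulLog_one_sub, show (1 : ℝ) - (57 / 125 : ℝ) = (68 / 125 : ℝ) by norm_num]
  unfold negMulLog
  constructor <;> linarith

lemma ent_68_125 : (344635083 / 500000000 : ℝ) ≤ binEntropy (68 / 125 : ℝ) ∧ binEntropy (68 / 125 : ℝ) ≤ (689270169 / 1000000000 : ℝ) := by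
  rw [show (68 / 125 : ℝ) = 1 - (57 / 125 : ℝ) by norm_num, binEntropy_one_sub]
  exact ent_57_125

lemma log_11053_100000 : (-2202468303 / 1000000000 : ℝ) ≤ log (11053 / 100000 : ℝ) ∧ log (11053 / 100000 : ℝ) ≤ (-22024683 / 10000000 : ℝ) := by
  obtain ⟨h1, h2⟩ := log_bracket (a := (11053 / 100000 : ℝ)) (x := (4803 / 17303 : ℝ)) (-4) 9 (by norm_num) (by norm_num)
    (by norm_num)
  norm_num [Finset.sum_range_succ] at h1 h2
  constructor <;> linarith [log_two_gt_d9, log_two_lt_d9]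

lemma log_88947_100000 : (-234259 / 2000000 : ℝ) ≤ log (88947 / 100000 : ℝ) ∧ log (88947 / 100000 : ℝ) ≤ (-58564749 / 500000000 : ℝ) := by
  obtain ⟨h1, h2⟩ := log_bracket (a := (88947 / 100000 : ℝ)) (x := (38947 / 138947 : ℝ)) (-1) 9 (by norm_num) (by norm_num)
    (by norm_num)
  norm_num [Finset.sum_range_succ] at h1 h2
  constructor <;> linarith [log_two_gt_d9, log_two_lt_d9]

lemma log_7_1000 : (-1240461283 / 250000000 : ℝ) ≤ log (7 / 1000 : ℝ) ∧ log (7 / 1000 : ℝ) ≤ (-4961845127 / 1000000000 : ℝ) := by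
  obtain ⟨h1, h2⟩ := log_bracket (a := (7 / 1000 : ℝ)) (x := (99 / 349 : ℝ)) (-8) 9 (by norm_num) (by norm_num)
    (by norm_num)
  norm_num [Finset.sum_range_succ] at h1 h2
  constructor <;> linarith [log_two_gt_d9, log_two_lt_d9]

lemma log_993_1000 : (-878077 / 125000000 : ℝ) ≤ log (993 / 1000 : ℝ) ∧ log (993 / 1000 : ℝ) ≤ (-7024613 / 1000000000 : ℝ) := by
  obtain ⟨h1, h2⟩ := log_bracket (a := (993 / 1000 : ℝ)) (x := (493 / 1493 : ℝ)) (-1) 9 (by norm_num) (by norm_num)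
    (by norm_num)
  norm_num [Finset.sum_range_succ] at h1 h2
  constructor <;> linarith [log_two_gt_d9, log_two_lt_d9]

lemma ent_7_1000 : (10427089 / 250000000 : ℝ) ≤ binEntropy (7 / 1000 : ℝ) ∧ binEntropy (7 / 1000 : ℝ) ≤ (1042709 / 25000000 : ℝ) := by
  obtain ⟨a1, a2⟩ := log_7_1000
  obtain ⟨b1, b2⟩ := log_993_1000
  rw [binEntropy_eq_negMulLog_add_negMulLog_one_sub, show (1 : ℝ) - (7 / 1000 : ℝ) = (993 / 1000 : ℝ) by norm_num]
  unfold negMulLog
  constructor <;> linarith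

lemma ent_11053_100000 : (69524399 / 200000000 : ℝ) ≤ binEntropy (11053 / 100000 : ℝ) ∧ binEntropy (11053 / 100000 : ℝ) ≤ (173810999 / 500000000 : ℝ) := by
  obtain ⟨a1, a2⟩ := log_11053_100000
  obtain ⟨b1, b2⟩ := log_88947_100000
  rw [binEntropy_eq_negMulLog_add_negMulLog_one_sub, show (1 : ℝ) - (11053 / 100000 : ℝ) = (88947 / 100000 : ℝ) by norm_num]
  unfold negMulLog
  constructor <;> linarith

lemma log_2_125 : (-4135166559 / 1000000000 : ℝ) ≤ log (2 / 125 : ℝ) ∧ log (2 / 125 : ℝ) ≤ (-827033311 / 200000000 : ℝ) := by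
  obtain ⟨h1, h2⟩ := log_bracket (a := (2 / 125 : ℝ)) (x := (3 / 253 : ℝ)) (-6) 9 (by norm_num) (by norm_num)
    (by norm_num)
  norm_num [Finset.sum_range_succ] at h1 h2
  constructor <;> linarith [log_two_gt_d9, log_two_lt_d9]

lemma log_123_125 : (-16129383 / 1000000000 : ℝ) ≤ log (123 / 125 : ℝ) ∧ log (123 / 125 : ℝ) ≤ (-806469 / 50000000 : ℝ) := by
  obtain ⟨h1, h2⟩ := log_bracket (a := (123 / 125 : ℝ)) (x := (121 / 371 : ℝ)) (-1) 9 (by norm_num) (by norm_num)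
    (by norm_num)
  norm_num [Finset.sum_range_succ] at h1 h2
  constructor <;> linarith [log_two_gt_d9, log_two_lt_d9]

lemma ent_2_125 : (41016987 / 500000000 : ℝ) ≤ binEntropy (2 / 125 : ℝ) ∧ binEntropy (2 / 125 : ℝ) ≤ (41016989 / 500000000 : ℝ) := by
  obtain ⟨a1, a2⟩ := log_2_125
  obtain ⟨b1, b2⟩ := log_123_125
  rw [binEntropy_eq_negMulLog_add_negMulLog_one_sub, show (1 : ℝ) - (2 / 125 : ℝ) = (123 / 125 : ℝ) by norm_num]
  unfold negMulLog
  constructor <;> linarith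

lemma ent_123_125 : (41016987 / 500000000 : ℝ) ≤ binEntropy (123 / 125 : ℝ) ∧ binEntropy (123 / 125 : ℝ) ≤ (41016989 / 500000000 : ℝ) := by
  rw [show (123 / 125 : ℝ) = 1 - (2 / 125 : ℝ) by norm_num, binEntropy_one_sub]
  exact ent_2_125

lemma log_4_125 : (-1721009689 / 500000000 : ℝ) ≤ log (4 / 125 : ℝ) ∧ log (4 / 125 : ℝ) ≤ (-1721009687 / 500000000 : ℝ) := by
  obtain ⟨h1, h2⟩ := log_bracket (a := (4 / 125 : ℝ)) (x := (3 / 253 : ℝ)) (-5) 9 (by norm_num) (by norm_num)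
    (by norm_num)
  norm_num [Finset.sum_range_succ] at h1 h2
  constructor <;> linarith [log_two_gt_d9, log_two_lt_d9]

lemma log_121_125 : (-4065399 / 125000000 : ℝ) ≤ log (121 / 125 : ℝ) ∧ log (121 / 125 : ℝ) ≤ (-3252319 / 100000000 : ℝ) := by
  obtain ⟨h1, h2⟩ := log_bracket (a := (121 / 125 : ℝ)) (x := (117 / 367 : ℝ)) (-1) 9 (by norm_num) (by norm_num)
    (by norm_num)
  norm_num [Finset.sum_range_succ] at h1 h2
  constructor <;> linarith [log_two_gt_d9, log_two_lt_d9]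

lemma ent_4_125 : (141627067 / 1000000000 : ℝ) ≤ binEntropy (4 / 125 : ℝ) ∧ binEntropy (4 / 125 : ℝ) ≤ (14162707 / 100000000 : ℝ) := by
  obtain ⟨a1, a2⟩ := log_4_125
  obtain ⟨b1, b2⟩ := log_121_125
  rw [binEntropy_eq_negMulLog_add_negMulLog_one_sub, show (1 : ℝ) - (4 / 125 : ℝ) = (121 / 125 : ℝ) by norm_num]
  unfold negMulLog
  constructor <;> linarith

lemma log_121_250 : (-725670373 / 1000000000 : ℝ) ≤ log (121 / 250 : ℝ) ∧ log (121 / 250 : ℝ) ≤ (-72567037 / 100000000 : ℝ) := by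
  obtain ⟨h1, h2⟩ := log_bracket (a := (121 / 250 : ℝ)) (x := (117 / 367 : ℝ)) (-2) 9 (by norm_num) (by norm_num)
    (by norm_num)
  norm_num [Finset.sum_range_succ] at h1 h2
  constructor <;> linarith [log_two_gt_d9, log_two_lt_d9]

lemma log_129_250 : (-330824257 / 500000000 : ℝ) ≤ log (129 / 250 : ℝ) ∧ log (129 / 250 : ℝ) ≤ (-661648513 / 1000000000 : ℝ) := by
  obtain ⟨h1, h2⟩ := log_bracket (a := (129 / 250 : ℝ)) (x := (2 / 127 : ℝ)) (-1) 9 (by norm_num) (by norm_num)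
    (by norm_num)
  norm_num [Finset.sum_range_succ] at h1 h2
  constructor <;> linarith [log_two_gt_d9, log_two_lt_d9]

lemma ent_121_250 : (692635091 / 1000000000 : ℝ) ≤ binEntropy (121 / 250 : ℝ) ∧ binEntropy (121 / 250 : ℝ) ≤ (346317547 / 500000000 : ℝ) := by
  obtain ⟨a1, a2⟩ := log_121_250
  obtain ⟨b1, b2⟩ := log_129_250
  rw [binEntropy_eq_negMulLog_add_negMulLog_one_sub, show (1 : ℝ) - (121 / 250 : ℝ) = (129 / 250 : ℝ) by norm_num]
  unfold negMulLog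
  constructor <;> linarith

lemma ent_129_250 : (692635091 / 1000000000 : ℝ) ≤ binEntropy (129 / 250 : ℝ) ∧ binEntropy (129 / 250 : ℝ) ≤ (346317547 / 500000000 : ℝ) := by
  rw [show (129 / 250 : ℝ) = 1 - (121 / 250 : ℝ) by norm_num, binEntropy_one_sub]
  exact ent_121_250

lemma log_10737_100000 : (-2231474467 / 1000000000 : ℝ) ≤ log (10737 / 100000 : ℝ) ∧ log (10737 / 100000 : ℝ) ≤ (-69733577 / 31250000 : ℝ) := by
  obtain ⟨h1, h2⟩ := log_bracket (a := (10737 / 100000 : ℝ)) (x := (4487 / 16987 : ℝ)) (-4) 9 (by norm_num) (by norm_num)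
    (by norm_num)
  norm_num [Finset.sum_range_succ] at h1 h2
  constructor <;> linarith [log_two_gt_d9, log_two_lt_d9]

lemma log_89263_100000 : (-56791559 / 500000000 : ℝ) ≤ log (89263 / 100000 : ℝ) ∧ log (89263 / 100000 : ℝ) ≤ (-113583117 / 1000000000 : ℝ) := by
  obtain ⟨h1, h2⟩ := log_bracket (a := (89263 / 100000 : ℝ)) (x := (39263 / 139263 : ℝ)) (-1) 9 (by norm_num) (by norm_num)
    (by norm_num)
  norm_num [Finset.sum_range_succ] at h1 h2
  constructor <;> linarith [log_two_gt_d9, log_two_lt_d9]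

lemma log_3_1000 : (-5809142993 / 1000000000 : ℝ) ≤ log (3 / 1000 : ℝ) ∧ log (3 / 1000 : ℝ) ≤ (-5809142987 / 1000000000 : ℝ) := by
  obtain ⟨h1, h2⟩ := log_bracket (a := (3 / 1000 : ℝ)) (x := (67 / 317 : ℝ)) (-9) 9 (by norm_num) (by norm_num)
    (by norm_num)
  norm_num [Finset.sum_range_succ] at h1 h2
  constructor <;> linarith [log_two_gt_d9, log_two_lt_d9]

lemma log_997_1000 : (-300451 / 100000000 : ℝ) ≤ log (997 / 1000 : ℝ) ∧ log (997 / 1000 : ℝ) ≤ (-3004507 / 1000000000 : ℝ) := by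
  obtain ⟨h1, h2⟩ := log_bracket (a := (997 / 1000 : ℝ)) (x := (497 / 1497 : ℝ)) (-1) 9 (by norm_num) (by norm_num)
    (by norm_num)
  norm_num [Finset.sum_range_succ] at h1 h2
  constructor <;> linarith [log_two_gt_d9, log_two_lt_d9]

lemma ent_3_1000 : (10211461 / 500000000 : ℝ) ≤ binEntropy (3 / 1000 : ℝ) ∧ binEntropy (3 / 1000 : ℝ) ≤ (10211463 / 500000000 : ℝ) := by
  obtain ⟨a1, a2⟩ := log_3_1000
  obtain ⟨b1, b2⟩ := log_997_1000
  rw [binEntropy_eq_negMulLog_add_negMulLog_one_sub, show (1 : ℝ) - (3 / 1000 : ℝ) = (997 / 1000 : ℝ) by norm_num]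
  unfold negMulLog
  constructor <;> linarith

lemma ent_10737_100000 : (34098111 / 100000000 : ℝ) ≤ binEntropy (10737 / 100000 : ℝ) ∧ binEntropy (10737 / 100000 : ℝ) ≤ (340981113 / 1000000000 : ℝ) := by
  obtain ⟨a1, a2⟩ := log_10737_100000
  obtain ⟨b1, b2⟩ := log_89263_100000
  rw [binEntropy_eq_negMulLog_add_negMulLog_one_sub, show (1 : ℝ) - (10737 / 100000 : ℝ) = (89263 / 100000 : ℝ) by norm_num]
  unfold negMulLog
  constructor <;> linarith

lemma log_3_400 : (-4892852261 / 1000000000 : ℝ) ≤ log (3 / 400 : ℝ) ∧ log (3 / 400 : ℝ) ≤ (-978570451 / 200000000 : ℝ) := by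
  obtain ⟨h1, h2⟩ := log_bracket (a := (3 / 400 : ℝ)) (x := (23 / 73 : ℝ)) (-8) 9 (by norm_num) (by norm_num)
    (by norm_num)
  norm_num [Finset.sum_range_succ] at h1 h2
  constructor <;> linarith [log_two_gt_d9, log_two_lt_d9]

lemma log_397_400 : (-7528267 / 1000000000 : ℝ) ≤ log (397 / 400 : ℝ) ∧ log (397 / 400 : ℝ) ≤ (-941033 / 125000000 : ℝ) := by
  obtain ⟨h1, h2⟩ := log_bracket (a := (397 / 400 : ℝ)) (x := (197 / 597 : ℝ)) (-1) 9 (by norm_num) (by norm_num)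
    (by norm_num)
  norm_num [Finset.sum_range_succ] at h1 h2
  constructor <;> linarith [log_two_gt_d9, log_two_lt_d9]

lemma ent_3_400 : (44168193 / 1000000000 : ℝ) ≤ binEntropy (3 / 400 : ℝ) ∧ binEntropy (3 / 400 : ℝ) ≤ (44168197 / 1000000000 : ℝ) := by
  obtain ⟨a1, a2⟩ := log_3_400
  obtain ⟨b1, b2⟩ := log_397_400
  rw [binEntropy_eq_negMulLog_add_negMulLog_one_sub, show (1 : ℝ) - (3 / 400 : ℝ) = (397 / 400 : ℝ) by norm_num]
  unfold negMulLog
  constructor <;> linarith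

lemma ent_397_400 : (44168193 / 1000000000 : ℝ) ≤ binEntropy (397 / 400 : ℝ) ∧ binEntropy (397 / 400 : ℝ) ≤ (44168197 / 1000000000 : ℝ) := by
  rw [show (397 / 400 : ℝ) = 1 - (3 / 400 : ℝ) by norm_num, binEntropy_one_sub]
  exact ent_3_400

lemma log_3_200 : (-104992627 / 25000000 : ℝ) ≤ log (3 / 200 : ℝ) ∧ log (3 / 200 : ℝ) ≤ (-167988203 / 40000000 : ℝ) := by
  obtain ⟨h1, h2⟩ := log_bracket (a := (3 / 200 : ℝ)) (x := (23 / 73 : ℝ)) (-7) 9 (by norm_num) (by norm_num)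
    (by norm_num)
  norm_num [Finset.sum_range_succ] at h1 h2
  constructor <;> linarith [log_two_gt_d9, log_two_lt_d9]

lemma log_197_200 : (-15113639 / 1000000000 : ℝ) ≤ log (197 / 200 : ℝ) ∧ log (197 / 200 : ℝ) ≤ (-3778409 / 250000000 : ℝ) := by
  obtain ⟨h1, h2⟩ := log_bracket (a := (197 / 200 : ℝ)) (x := (97 / 297 : ℝ)) (-1) 9 (by norm_num) (by norm_num)
    (by norm_num)
  norm_num [Finset.sum_range_succ] at h1 h2
  constructor <;> linarith [log_two_gt_d9, log_two_lt_d9]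

lemma ent_3_200 : (77882507 / 1000000000 : ℝ) ≤ binEntropy (3 / 200 : ℝ) ∧ binEntropy (3 / 200 : ℝ) ≤ (77882511 / 1000000000 : ℝ) := by
  obtain ⟨a1, a2⟩ := log_3_200
  obtain ⟨b1, b2⟩ := log_197_200
  rw [binEntropy_eq_negMulLog_add_negMulLog_one_sub, show (1 : ℝ) - (3 / 200 : ℝ) = (197 / 200 : ℝ) by norm_num]
  unfold negMulLog
  constructor <;> linarith

lemma log_197_400 : (-708260819 / 1000000000 : ℝ) ≤ log (197 / 400 : ℝ) ∧ log (197 / 400 : ℝ) ≤ (-44266301 / 62500000 : ℝ) := by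
  obtain ⟨h1, h2⟩ := log_bracket (a := (197 / 400 : ℝ)) (x := (97 / 297 : ℝ)) (-2) 9 (by norm_num) (by norm_num)
    (by norm_num)
  norm_num [Finset.sum_range_succ] at h1 h2
  constructor <;> linarith [log_two_gt_d9, log_two_lt_d9]

lemma log_203_400 : (-678258569 / 1000000000 : ℝ) ≤ log (203 / 400 : ℝ) ∧ log (203 / 400 : ℝ) ≤ (-678258567 / 1000000000 : ℝ) := by
  obtain ⟨h1, h2⟩ := log_bracket (a := (203 / 400 : ℝ)) (x := (3 / 403 : ℝ)) (-1) 9 (by norm_num) (by norm_num)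
    (by norm_num)
  norm_num [Finset.sum_range_succ] at h1 h2
  constructor <;> linarith [log_two_gt_d9, log_two_lt_d9]

lemma ent_197_400 : (346517337 / 500000000 : ℝ) ≤ binEntropy (197 / 400 : ℝ) ∧ binEntropy (197 / 400 : ℝ) ≤ (346517339 / 500000000 : ℝ) := by
  obtain ⟨a1, a2⟩ := log_197_400
  obtain ⟨b1, b2⟩ := log_203_400
  rw [binEntropy_eq_negMulLog_add_negMulLog_one_sub, show (1 : ℝ) - (197 / 400 : ℝ) = (203 / 400 : ℝ) by norm_num]
  unfold negMulLog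
  constructor <;> linarith

lemma ent_203_400 : (346517337 / 500000000 : ℝ) ≤ binEntropy (203 / 400 : ℝ) ∧ binEntropy (203 / 400 : ℝ) ≤ (346517339 / 500000000 : ℝ) := by
  rw [show (203 / 400 : ℝ) = 1 - (197 / 400 : ℝ) by norm_num, binEntropy_one_sub]
  exact ent_197_400

lemma log_5329_50000 : (-559714851 / 250000000 : ℝ) ≤ log (5329 / 50000 : ℝ) ∧ log (5329 / 50000 : ℝ) ≤ (-2238859401 / 1000000000 : ℝ) := by
  obtain ⟨h1, h2⟩ := log_bracket (a := (5329 / 50000 : ℝ)) (x := (1102 / 4227 : ℝ)) (-4) 9 (by norm_num) (by norm_num)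
    (by norm_num)
  norm_num [Finset.sum_range_succ] at h1 h2
  constructor <;> linarith [log_two_gt_d9, log_two_lt_d9]

lemma log_44671_50000 : (-22539697 / 200000000 : ℝ) ≤ log (44671 / 50000 : ℝ) ∧ log (44671 / 50000 : ℝ) ≤ (-112698483 / 1000000000 : ℝ) := by
  obtain ⟨h1, h2⟩ := log_bracket (a := (44671 / 50000 : ℝ)) (x := (19671 / 69671 : ℝ)) (-1) 9 (by norm_num) (by norm_num)
    (by norm_num)
  norm_num [Finset.sum_range_succ] at h1 h2
  constructor <;> linarith [log_two_gt_d9, log_two_lt_d9]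

lemma log_1_500 : (-6214608101 / 1000000000 : ℝ) ≤ log (1 / 500 : ℝ) ∧ log (1 / 500 : ℝ) ≤ (-194206503 / 31250000 : ℝ) := by
  obtain ⟨h1, h2⟩ := log_bracket (a := (1 / 500 : ℝ)) (x := (3 / 253 : ℝ)) (-9) 9 (by norm_num) (by norm_num)
    (by norm_num)
  norm_num [Finset.sum_range_succ] at h1 h2
  constructor <;> linarith [log_two_gt_d9, log_two_lt_d9]

lemma log_499_500 : (-500501 / 250000000 : ℝ) ≤ log (499 / 500 : ℝ) ∧ log (499 / 500 : ℝ) ≤ (-1001 / 500000 : ℝ) := by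
  obtain ⟨h1, h2⟩ := log_bracket (a := (499 / 500 : ℝ)) (x := (249 / 749 : ℝ)) (-1) 9 (by norm_num) (by norm_num)
    (by norm_num)
  norm_num [Finset.sum_range_succ] at h1 h2
  constructor <;> linarith [log_two_gt_d9, log_two_lt_d9]

lemma ent_1_500 : (3606803 / 250000000 : ℝ) ≤ binEntropy (1 / 500 : ℝ) ∧ binEntropy (1 / 500 : ℝ) ≤ (14427217 / 1000000000 : ℝ) := by
  obtain ⟨a1, a2⟩ := log_1_500
  obtain ⟨b1, b2⟩ := log_499_500
  rw [binEntropy_eq_negMulLog_add_negMulLog_one_sub, show (1 : ℝ) - (1 / 500 : ℝ) = (499 / 500 : ℝ) by norm_num]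
  unfold negMulLog
  constructor <;> linarith

lemma ent_5329_50000 : (339304713 / 1000000000 : ℝ) ≤ binEntropy (5329 / 50000 : ℝ) ∧ binEntropy (5329 / 50000 : ℝ) ≤ (84826179 / 250000000 : ℝ) := by
  obtain ⟨a1, a2⟩ := log_5329_50000
  obtain ⟨b1, b2⟩ := log_44671_50000
  rw [binEntropy_eq_negMulLog_add_negMulLog_one_sub, show (1 : ℝ) - (5329 / 50000 : ℝ) = (44671 / 50000 : ℝ) by norm_num]
  unfold negMulLog
  constructor <;> linarith

lemma log_1_200 : (-5298317369 / 1000000000 : ℝ) ≤ log (1 / 200 : ℝ) ∧ log (1 / 200 : ℝ) ≤ (-1324579341 / 250000000 : ℝ) := by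
  obtain ⟨h1, h2⟩ := log_bracket (a := (1 / 200 : ℝ)) (x := (7 / 57 : ℝ)) (-8) 9 (by norm_num) (by norm_num)
    (by norm_num)
  norm_num [Finset.sum_range_succ] at h1 h2
  constructor <;> linarith [log_two_gt_d9, log_two_lt_d9]

lemma log_199_200 : (-5012543 / 1000000000 : ℝ) ≤ log (199 / 200 : ℝ) ∧ log (199 / 200 : ℝ) ≤ (-5012539 / 1000000000 : ℝ) := by
  obtain ⟨h1, h2⟩ := log_bracket (a := (199 / 200 : ℝ)) (x := (99 / 299 : ℝ)) (-1) 9 (by norm_num) (by norm_num)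
    (by norm_num)
  norm_num [Finset.sum_range_succ] at h1 h2
  constructor <;> linarith [log_two_gt_d9, log_two_lt_d9]

lemma ent_1_200 : (31479063 / 1000000000 : ℝ) ≤ binEntropy (1 / 200 : ℝ) ∧ binEntropy (1 / 200 : ℝ) ≤ (7869767 / 250000000 : ℝ) := by
  obtain ⟨a1, a2⟩ := log_1_200
  obtain ⟨b1, b2⟩ := log_199_200
  rw [binEntropy_eq_negMulLog_add_negMulLog_one_sub, show (1 : ℝ) - (1 / 200 : ℝ) = (199 / 200 : ℝ) by norm_num]
  unfold negMulLog
  constructor <;> linarith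

lemma ent_199_200 : (31479063 / 1000000000 : ℝ) ≤ binEntropy (199 / 200 : ℝ) ∧ binEntropy (199 / 200 : ℝ) ≤ (7869767 / 250000000 : ℝ) := by
  rw [show (199 / 200 : ℝ) = 1 - (1 / 200 : ℝ) by norm_num, binEntropy_one_sub]
  exact ent_1_200

lemma log_1_100 : (-1151292547 / 250000000 : ℝ) ≤ log (1 / 100 : ℝ) ∧ log (1 / 100 : ℝ) ≤ (-575646273 / 125000000 : ℝ) := by
  obtain ⟨h1, h2⟩ := log_bracket (a := (1 / 100 : ℝ)) (x := (7 / 57 : ℝ)) (-7) 9 (by norm_num) (by norm_num)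
    (by norm_num)
  norm_num [Finset.sum_range_succ] at h1 h2
  constructor <;> linarith [log_two_gt_d9, log_two_lt_d9]

lemma log_99_100 : (-10050337 / 1000000000 : ℝ) ≤ log (99 / 100 : ℝ) ∧ log (99 / 100 : ℝ) ≤ (-5025167 / 500000000 : ℝ) := by
  obtain ⟨h1, h2⟩ := log_bracket (a := (99 / 100 : ℝ)) (x := (49 / 149 : ℝ)) (-1) 9 (by norm_num) (by norm_num)
    (by norm_num)
  norm_num [Finset.sum_range_succ] at h1 h2
  constructor <;> linarith [log_two_gt_d9, log_two_lt_d9]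

lemma ent_1_100 : (14000383 / 250000000 : ℝ) ≤ binEntropy (1 / 100 : ℝ) ∧ binEntropy (1 / 100 : ℝ) ≤ (109378 / 1953125 : ℝ) := by
  obtain ⟨a1, a2⟩ := log_1_100
  obtain ⟨b1, b2⟩ := log_99_100
  rw [binEntropy_eq_negMulLog_add_negMulLog_one_sub, show (1 : ℝ) - (1 / 100 : ℝ) = (99 / 100 : ℝ) by norm_num]
  unfold negMulLog
  constructor <;> linarith

lemma log_99_200 : (-703197517 / 1000000000 : ℝ) ≤ log (99 / 200 : ℝ) ∧ log (99 / 200 : ℝ) ≤ (-351598757 / 500000000 : ℝ) := by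
  obtain ⟨h1, h2⟩ := log_bracket (a := (99 / 200 : ℝ)) (x := (49 / 149 : ℝ)) (-2) 9 (by norm_num) (by norm_num)
    (by norm_num)
  norm_num [Finset.sum_range_succ] at h1 h2
  constructor <;> linarith [log_two_gt_d9, log_two_lt_d9]

lemma log_101_200 : (-13663937 / 20000000 : ℝ) ≤ log (101 / 200 : ℝ) ∧ log (101 / 200 : ℝ) ≤ (-683196849 / 1000000000 : ℝ) := by
  obtain ⟨h1, h2⟩ := log_bracket (a := (101 / 200 : ℝ)) (x := (1 / 201 : ℝ)) (-1) 9 (by norm_num) (by norm_num)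
    (by norm_num)
  norm_num [Finset.sum_range_succ] at h1 h2
  constructor <;> linarith [log_two_gt_d9, log_two_lt_d9]

lemma ent_99_200 : (346548589 / 500000000 : ℝ) ≤ binEntropy (99 / 200 : ℝ) ∧ binEntropy (99 / 200 : ℝ) ≤ (693097181 / 1000000000 : ℝ) := by
  obtain ⟨a1, a2⟩ := log_99_200
  obtain ⟨b1, b2⟩ := log_101_200
  rw [binEntropy_eq_negMulLog_add_negMulLog_one_sub, show (1 : ℝ) - (99 / 200 : ℝ) = (101 / 200 : ℝ) by norm_num]
  unfold negMulLog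
  constructor <;> linarith

lemma ent_101_200 : (346548589 / 500000000 : ℝ) ≤ binEntropy (101 / 200 : ℝ) ∧ binEntropy (101 / 200 : ℝ) ≤ (693097181 / 1000000000 : ℝ) := by
  rw [show (101 / 200 : ℝ) = 1 - (99 / 200 : ℝ) by norm_num, binEntropy_one_sub]
  exact ent_99_200

lemma log_257_2000 : (-256478297 / 125000000 : ℝ) ≤ log (257 / 2000 : ℝ) ∧ log (257 / 2000 : ℝ) ≤ (-2051826373 / 1000000000 : ℝ) := by
  obtain ⟨h1, h2⟩ := log_bracket (a := (257 / 2000 : ℝ)) (x := (7 / 507 : ℝ)) (-3) 9 (by norm_num) (by norm_num)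
    (by norm_num)
  norm_num [Finset.sum_range_succ] at h1 h2
  constructor <;> linarith [log_two_gt_d9, log_two_lt_d9]

lemma log_257_200000 : (-1664249141 / 250000000 : ℝ) ≤ log (257 / 200000 : ℝ) ∧ log (257 / 200000 : ℝ) ≤ (-3328498279 / 500000000 : ℝ) := by
  obtain ⟨h1, h2⟩ := log_bracket (a := (257 / 200000 : ℝ)) (x := (987 / 7237 : ℝ)) (-10) 9 (by norm_num) (by norm_num)
    (by norm_num)
  norm_num [Finset.sum_range_succ] at h1 h2
  constructor <;> linarith [log_two_gt_d9, log_two_lt_d9]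

lemma log_9404599_100000000 : (-1181985681 / 500000000 : ℝ) ≤ log (9404599 / 100000000 : ℝ) ∧ log (9404599 / 100000000 : ℝ) ≤ (-2363971359 / 1000000000 : ℝ) := by
  obtain ⟨h1, h2⟩ := log_bracket (a := (9404599 / 100000000 : ℝ)) (x := (3154599 / 15654599 : ℝ)) (-4) 9 (by norm_num) (by norm_num)
    (by norm_num)
  norm_num [Finset.sum_range_succ] at h1 h2
  constructor <;> linarith [log_two_gt_d9, log_two_lt_d9]

lemma log_90595401_100000000 : (-98766737 / 1000000000 : ℝ) ≤ log (90595401 / 100000000 : ℝ) ∧ log (90595401 / 100000000 : ℝ) ≤ (-19753347 / 200000000 : ℝ) := by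
  obtain ⟨h1, h2⟩ := log_bracket (a := (90595401 / 100000000 : ℝ)) (x := (40595401 / 140595401 : ℝ)) (-1) 9 (by norm_num) (by norm_num)
    (by norm_num)
  norm_num [Finset.sum_range_succ] at h1 h2
  constructor <;> linarith [log_two_gt_d9, log_two_lt_d9]

lemma log_29_200 : (-965510769 / 500000000 : ℝ) ≤ log (29 / 200 : ℝ) ∧ log (29 / 200 : ℝ) ≤ (-386204307 / 200000000 : ℝ) := by
  obtain ⟨h1, h2⟩ := log_bracket (a := (29 / 200 : ℝ)) (x := (2 / 27 : ℝ)) (-3) 9 (by norm_num) (by norm_num)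
    (by norm_num)
  norm_num [Finset.sum_range_succ] at h1 h2
  constructor <;> linarith [log_two_gt_d9, log_two_lt_d9]

lemma log_29_20000 : (-261447669 / 40000000 : ℝ) ≤ log (29 / 20000 : ℝ) ∧ log (29 / 20000 : ℝ) ≤ (-6536191719 / 1000000000 : ℝ) := by
  obtain ⟨h1, h2⟩ := log_bracket (a := (29 / 20000 : ℝ)) (x := (303 / 1553 : ℝ)) (-10) 9 (by norm_num) (by norm_num)
    (by norm_num)
  norm_num [Finset.sum_range_succ] at h1 h2
  constructor <;> linarith [log_two_gt_d9, log_two_lt_d9]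

lemma log_212291_2000000 : (-1121472243 / 500000000 : ℝ) ≤ log (212291 / 2000000 : ℝ) ∧ log (212291 / 2000000 : ℝ) ≤ (-2242944483 / 1000000000 : ℝ) := by
  obtain ⟨h1, h2⟩ := log_bracket (a := (212291 / 2000000 : ℝ)) (x := (87291 / 337291 : ℝ)) (-4) 9 (by norm_num) (by norm_num)
    (by norm_num)
  norm_num [Finset.sum_range_succ] at h1 h2
  constructor <;> linarith [log_two_gt_d9, log_two_lt_d9]

lemma log_1787709_2000000 : (-112212269 / 1000000000 : ℝ) ≤ log (1787709 / 2000000 : ℝ) ∧ log (1787709 / 2000000 : ℝ) ≤ (-28053067 / 250000000 : ℝ) := by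
  obtain ⟨h1, h2⟩ := log_bracket (a := (1787709 / 2000000 : ℝ)) (x := (787709 / 2787709 : ℝ)) (-1) 9 (by norm_num) (by norm_num)
    (by norm_num)
  norm_num [Finset.sum_range_succ] at h1 h2
  constructor <;> linarith [log_two_gt_d9, log_two_lt_d9]

end Vale.Agent.P322.BlockC
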