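import Mathlib
import Vale.Agent.P322.Mid.Rows
import Vale.Agent.P322.Mid.EdgeFam
import Vale.Agent.P322.Mid.NumC

/-!
P322: the step inequality for noise levels in `[2/25, 21/200]`.
-/

open Real Set

namespace Vale.Agent.P322.BlockC

lemma inBlock {ε : ℝ} (h0 : (2 / 25 : ℝ) ≤ ε) (h1 : ε ≤ (21 / 200 : ℝ)) :
    InBlock (41 / 50 : ℝ) ε (2 / 25 : ℝ) (21 / 200 : ℝ) (132 / 125 : ℝ) (1119 / 1000 : ℝ) where
  κ0 := by norm_num
  κ1 := by norm_num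
  pos := by linarith
  le := h1
  lt := by norm_num
  mem := xRatio_mem (by norm_num) h0 h1 (by norm_num) (by linarith [ent_2_25.2])
    (by linarith [ent_21_200.1])
  xa0 := by norm_num
  xb1 := by linarith [log_two_lt_d9]
  ea_le := h0

theorem row_small {ε a b : ℝ} (h0 : (2 / 25 : ℝ) ≤ ε) (h1 : ε ≤ (21 / 200 : ℝ))
    (hd : |a - b| ≤ (2 / 25 : ℝ)) (ha : a ∈ Icc (0 : ℝ) 1) (hb : b ∈ Icc (0 : ℝ) 1) :
    StepAt ε (capBound (41 / 50 : ℝ) ε) a b := by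
  have p0 : phi (2 / 25 : ℝ) = log 2 - binEntropy (23 / 50 : ℝ) := by
    rw [phi, show (1 - (2 / 25 : ℝ)) / 2 = (23 / 50 : ℝ) by norm_num]
  have p1 : phi ((2 / 25 : ℝ) / (2 * (937 / 1000 : ℝ))) = log 2 - binEntropy (897 / 1874 : ℝ) := by
    rw [phi, show (1 - (2 / 25 : ℝ) / (2 * (937 / 1000 : ℝ))) / 2 = (897 / 1874 : ℝ) by norm_num]
  have p2 : phi ((2 / 25 : ℝ) / (2 * (1 - (937 / 1000 : ℝ)))) = log 2 - binEntropy (23 / 126 : ℝ) := by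
    rw [phi, show (1 - (2 / 25 : ℝ) / (2 * (1 - (937 / 1000 : ℝ)))) / 2 = (23 / 126 : ℝ) by norm_num]
  refine stepAt_first_row (x₀ := (2 / 25 : ℝ)) (m₁ := (937 / 1000 : ℝ)) (ν := (93 / 40 : ℝ)) (lam := (3211 / 1000 : ℝ))
    (inBlock h0 h1) (by norm_num) (by norm_num) (by norm_num) (by norm_num) (by norm_num)
    (by norm_num) ?_ ?_ ?_ ?_ ?_ (by linarith [log_two_gt_d9]) hd ha hb
  · have h := pow_le_pow_left₀ (mul_nonneg (by norm_num : (0 : ℝ) ≤ (3211 / 1000 : ℝ))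
      (binEntropy_nonneg (by norm_num) (by norm_num)))
      (mul_le_mul_of_nonneg_left ent_21_200.2 (by norm_num : (0 : ℝ) ≤ (3211 / 1000 : ℝ))) 2
    linarith [log_two_gt_d9]
  · rw [p0]; norm_num; linarith [ent_23_50.1, ent_23_50.2, ent_897_1874.1, ent_897_1874.2, ent_23_126.1, ent_23_126.2, ent_937_1000.1, ent_937_1000.2, log_two_gt_d9, log_two_lt_d9]
  · rw [p0]; norm_num; linarith [ent_23_50.1, ent_23_50.2, ent_897_1874.1, ent_897_1874.2, ent_23_126.1, ent_23_126.2, ent_937_1000.1, ent_937_1000.2, log_two_gt_d9, log_two_lt_d9]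
  · rw [p1, p2]; unfold mshape; norm_num; linarith [ent_23_50.1, ent_23_50.2, ent_897_1874.1, ent_897_1874.2, ent_23_126.1, ent_23_126.2, ent_937_1000.1, ent_937_1000.2, log_two_gt_d9, log_two_lt_d9]
  · rw [p1, p2]; unfold mshape; norm_num; linarith [ent_23_50.1, ent_23_50.2, ent_897_1874.1, ent_897_1874.2, ent_23_126.1, ent_23_126.2, ent_937_1000.1, ent_937_1000.2, log_two_gt_d9, log_two_lt_d9]

lemma cert0 : ∃ θ k, Cert (21 / 200 : ℝ) θ k ∧ (787 / 800 : ℝ) ≤ θ ∧ θ < 1 ∧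
    (5403 / 20000 : ℝ) * binEntropy (21 / 200 : ℝ) ≤ k := by
  obtain ⟨a1, a2⟩ := log_20181_50000
  obtain ⟨b1, b2⟩ := log_29819_50000
  obtain ⟨c1, c2⟩ := log_189_500
  obtain ⟨d1, d2⟩ := log_311_500
  have hd1 : (1 : ℝ) - (189 / 500 : ℝ) = (311 / 500 : ℝ) := by norm_num
  have hq1 : (1 : ℝ) - (20181 / 50000 : ℝ) = (29819 / 50000 : ℝ) := by norm_num
  refine exists_cert (d := (189 / 500 : ℝ)) (q := (20181 / 50000 : ℝ)) (θ₁ := (12297 / 12500 : ℝ)) (by norm_num) (by norm_num)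
    (by norm_num) (by norm_num) (by norm_num) ?_ ?_ (by norm_num) ?_ (by norm_num)
  · rw [hd1, hq1]; linarith
  · rw [hd1, hq1]; linarith
  · linarith [ent_189_500.1, ent_189_500.2, ent_21_200.1, ent_21_200.2, ent_20181_50000.1, ent_20181_50000.2]

lemma check0_a00 :
    0 ≤ midAt (41 / 50 : ℝ) (132 / 125 : ℝ) (787 / 800 : ℝ) (5403 / 20000 : ℝ) (1 / 2 : ℝ) (2 / 25 : ℝ) := by
  unfold midAt mshape
  rw [show (1 / 2 : ℝ) - (2 / 25 : ℝ) / 2 = (23 / 50 : ℝ) by norm_num,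
    show (1 / 2 : ℝ) + (2 / 25 : ℝ) / 2 = (27 / 50 : ℝ) by norm_num]
  linarith [ent_23_50.1, ent_23_50.2, ent_27_50.1, ent_27_50.2, ent_1_2.1, ent_1_2.2, log_two_gt_d9, log_two_lt_d9]

lemma check0_b00 :
    0 ≤ midAt (41 / 50 : ℝ) (1119 / 1000 : ℝ) (787 / 800 : ℝ) (5403 / 20000 : ℝ) (1 / 2 : ℝ) (2 / 25 : ℝ) := by
  unfold midAt mshape
  rw [show (1 / 2 : ℝ) - (2 / 25 : ℝ) / 2 = (23 / 50 : ℝ) by norm_num,
    show (1 / 2 : ℝ) + (2 / 25 : ℝ) / 2 = (27 / 50 : ℝ) by norm_num]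
  linarith [ent_23_50.1, ent_23_50.2, ent_27_50.1, ent_27_50.2, ent_1_2.1, ent_1_2.2, log_two_gt_d9, log_two_lt_d9]

lemma check0_a01 :
    0 ≤ midAt (41 / 50 : ℝ) (132 / 125 : ℝ) (787 / 800 : ℝ) (5403 / 20000 : ℝ) (1 / 2 : ℝ) (101 / 1000 : ℝ) := by
  unfold midAt mshape
  rw [show (1 / 2 : ℝ) - (101 / 1000 : ℝ) / 2 = (899 / 2000 : ℝ) by norm_num,
    show (1 / 2 : ℝ) + (101 / 1000 : ℝ) / 2 = (1101 / 2000 : ℝ) by norm_num]
  linarith [ent_899_2000.1, ent_899_2000.2, ent_1101_2000.1, ent_1101_2000.2, ent_1_2.1, ent_1_2.2, log_two_gt_d9, log_two_lt_d9]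

lemma check0_b01 :
    0 ≤ midAt (41 / 50 : ℝ) (1119 / 1000 : ℝ) (787 / 800 : ℝ) (5403 / 20000 : ℝ) (1 / 2 : ℝ) (101 / 1000 : ℝ) := by
  unfold midAt mshape
  rw [show (1 / 2 : ℝ) - (101 / 1000 : ℝ) / 2 = (899 / 2000 : ℝ) by norm_num,
    show (1 / 2 : ℝ) + (101 / 1000 : ℝ) / 2 = (1101 / 2000 : ℝ) by norm_num]
  linarith [ent_899_2000.1, ent_899_2000.2, ent_1101_2000.1, ent_1101_2000.2, ent_1_2.1, ent_1_2.2, log_two_gt_d9, log_two_lt_d9]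

lemma check0_a10 :
    0 ≤ midAt (41 / 50 : ℝ) (132 / 125 : ℝ) (787 / 800 : ℝ) (5403 / 20000 : ℝ) (231 / 250 : ℝ) (2 / 25 : ℝ) := by
  unfold midAt mshape
  rw [show (231 / 250 : ℝ) - (2 / 25 : ℝ) / 2 = (221 / 250 : ℝ) by norm_num,
    show (231 / 250 : ℝ) + (2 / 25 : ℝ) / 2 = (241 / 250 : ℝ) by norm_num]
  linarith [ent_221_250.1, ent_221_250.2, ent_241_250.1, ent_241_250.2, ent_231_250.1, ent_231_250.2, log_two_gt_d9, log_two_lt_d9]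

lemma check0_b10 :
    0 ≤ midAt (41 / 50 : ℝ) (1119 / 1000 : ℝ) (787 / 800 : ℝ) (5403 / 20000 : ℝ) (231 / 250 : ℝ) (2 / 25 : ℝ) := by
  unfold midAt mshape
  rw [show (231 / 250 : ℝ) - (2 / 25 : ℝ) / 2 = (221 / 250 : ℝ) by norm_num,
    show (231 / 250 : ℝ) + (2 / 25 : ℝ) / 2 = (241 / 250 : ℝ) by norm_num]
  linarith [ent_221_250.1, ent_221_250.2, ent_241_250.1, ent_241_250.2, ent_231_250.1, ent_231_250.2, log_two_gt_d9, log_two_lt_d9]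

lemma check0_a11 :
    0 ≤ midAt (41 / 50 : ℝ) (132 / 125 : ℝ) (787 / 800 : ℝ) (5403 / 20000 : ℝ) (231 / 250 : ℝ) (101 / 1000 : ℝ) := by
  unfold midAt mshape
  rw [show (231 / 250 : ℝ) - (101 / 1000 : ℝ) / 2 = (1747 / 2000 : ℝ) by norm_num,
    show (231 / 250 : ℝ) + (101 / 1000 : ℝ) / 2 = (1949 / 2000 : ℝ) by norm_num]
  linarith [ent_1747_2000.1, ent_1747_2000.2, ent_1949_2000.1, ent_1949_2000.2, ent_231_250.1, ent_231_250.2, log_two_gt_d9, log_two_lt_d9]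

lemma check0_b11 :
    0 ≤ midAt (41 / 50 : ℝ) (1119 / 1000 : ℝ) (787 / 800 : ℝ) (5403 / 20000 : ℝ) (231 / 250 : ℝ) (101 / 1000 : ℝ) := by
  unfold midAt mshape
  rw [show (231 / 250 : ℝ) - (101 / 1000 : ℝ) / 2 = (1747 / 2000 : ℝ) by norm_num,
    show (231 / 250 : ℝ) + (101 / 1000 : ℝ) / 2 = (1949 / 2000 : ℝ) by norm_num]
  linarith [ent_1747_2000.1, ent_1747_2000.2, ent_1949_2000.1, ent_1949_2000.2, ent_231_250.1, ent_231_250.2, log_two_gt_d9, log_two_lt_d9]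

theorem row0 {ε a b : ℝ} (h0 : (2 / 25 : ℝ) ≤ ε) (h1 : ε ≤ (21 / 200 : ℝ))
    (hd : |a - b| ∈ Icc (2 / 25 : ℝ) (101 / 1000 : ℝ)) (ha : a ∈ Icc (0 : ℝ) 1) (hb : b ∈ Icc (0 : ℝ) 1) :
    StepAt ε (capBound (41 / 50 : ℝ) ε) a b :=
  stepAt_row (m₁ := (231 / 250 : ℝ)) (inBlock h0 h1) cert0
    ⟨check0_a00, check0_b00, check0_a01, check0_b01, check0_a10, check0_b10, check0_a11, check0_b11⟩
    (by norm_num) (by norm_num) (by norm_num) (by norm_num) (by norm_num) (by norm_num)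
    (by linarith [log_two_gt_d9]) hd ha hb

lemma cert1 : ∃ θ k, Cert (21 / 200 : ℝ) θ k ∧ (9743 / 10000 : ℝ) ≤ θ ∧ θ < 1 ∧
    (3369 / 10000 : ℝ) * binEntropy (21 / 200 : ℝ) ≤ k := by
  obtain ⟨a1, a2⟩ := log_37913_100000
  obtain ⟨b1, b2⟩ := log_62087_100000
  obtain ⟨c1, c2⟩ := log_347_1000
  obtain ⟨d1, d2⟩ := log_653_1000
  have hd1 : (1 : ℝ) - (347 / 1000 : ℝ) = (653 / 1000 : ℝ) := by norm_num
  have hq1 : (1 : ℝ) - (37913 / 100000 : ℝ) = (62087 / 100000 : ℝ) := by norm_num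
  refine exists_cert (d := (347 / 1000 : ℝ)) (q := (37913 / 100000 : ℝ)) (θ₁ := (48717 / 50000 : ℝ)) (by norm_num) (by norm_num)
    (by norm_num) (by norm_num) (by norm_num) ?_ ?_ (by norm_num) ?_ (by norm_num)
  · rw [hd1, hq1]; linarith
  · rw [hd1, hq1]; linarith
  · linarith [ent_347_1000.1, ent_347_1000.2, ent_21_200.1, ent_21_200.2, ent_37913_100000.1, ent_37913_100000.2]

lemma check1_a00 :
    0 ≤ midAt (41 / 50 : ℝ) (132 / 125 : ℝ) (9743 / 10000 : ℝ) (3369 / 10000 : ℝ) (1 / 2 : ℝ) (101 / 1000 : ℝ) := by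
  unfold midAt mshape
  rw [show (1 / 2 : ℝ) - (101 / 1000 : ℝ) / 2 = (899 / 2000 : ℝ) by norm_num,
    show (1 / 2 : ℝ) + (101 / 1000 : ℝ) / 2 = (1101 / 2000 : ℝ) by norm_num]
  linarith [ent_899_2000.1, ent_899_2000.2, ent_1101_2000.1, ent_1101_2000.2, ent_1_2.1, ent_1_2.2, log_two_gt_d9, log_two_lt_d9]

lemma check1_b00 :
    0 ≤ midAt (41 / 50 : ℝ) (1119 / 1000 : ℝ) (9743 / 10000 : ℝ) (3369 / 10000 : ℝ) (1 / 2 : ℝ) (101 / 1000 : ℝ) := by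
  unfold midAt mshape
  rw [show (1 / 2 : ℝ) - (101 / 1000 : ℝ) / 2 = (899 / 2000 : ℝ) by norm_num,
    show (1 / 2 : ℝ) + (101 / 1000 : ℝ) / 2 = (1101 / 2000 : ℝ) by norm_num]
  linarith [ent_899_2000.1, ent_899_2000.2, ent_1101_2000.1, ent_1101_2000.2, ent_1_2.1, ent_1_2.2, log_two_gt_d9, log_two_lt_d9]

lemma check1_a01 :
    0 ≤ midAt (41 / 50 : ℝ) (132 / 125 : ℝ) (9743 / 10000 : ℝ) (3369 / 10000 : ℝ) (1 / 2 : ℝ) (16 / 125 : ℝ) := by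
  unfold midAt mshape
  rw [show (1 / 2 : ℝ) - (16 / 125 : ℝ) / 2 = (109 / 250 : ℝ) by norm_num,
    show (1 / 2 : ℝ) + (16 / 125 : ℝ) / 2 = (141 / 250 : ℝ) by norm_num]
  linarith [ent_109_250.1, ent_109_250.2, ent_141_250.1, ent_141_250.2, ent_1_2.1, ent_1_2.2, log_two_gt_d9, log_two_lt_d9]

lemma check1_b01 :
    0 ≤ midAt (41 / 50 : ℝ) (1119 / 1000 : ℝ) (9743 / 10000 : ℝ) (3369 / 10000 : ℝ) (1 / 2 : ℝ) (16 / 125 : ℝ) := by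
  unfold midAt mshape
  rw [show (1 / 2 : ℝ) - (16 / 125 : ℝ) / 2 = (109 / 250 : ℝ) by norm_num,
    show (1 / 2 : ℝ) + (16 / 125 : ℝ) / 2 = (141 / 250 : ℝ) by norm_num]
  linarith [ent_109_250.1, ent_109_250.2, ent_141_250.1, ent_141_250.2, ent_1_2.1, ent_1_2.2, log_two_gt_d9, log_two_lt_d9]

lemma check1_a10 :
    0 ≤ midAt (41 / 50 : ℝ) (132 / 125 : ℝ) (9743 / 10000 : ℝ) (3369 / 10000 : ℝ) (1837 / 2000 : ℝ) (101 / 1000 : ℝ) := by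
  unfold midAt mshape
  rw [show (1837 / 2000 : ℝ) - (101 / 1000 : ℝ) / 2 = (217 / 250 : ℝ) by norm_num,
    show (1837 / 2000 : ℝ) + (101 / 1000 : ℝ) / 2 = (969 / 1000 : ℝ) by norm_num]
  linarith [ent_217_250.1, ent_217_250.2, ent_969_1000.1, ent_969_1000.2, ent_1837_2000.1, ent_1837_2000.2, log_two_gt_d9, log_two_lt_d9]

lemma check1_b10 :
    0 ≤ midAt (41 / 50 : ℝ) (1119 / 1000 : ℝ) (9743 / 10000 : ℝ) (3369 / 10000 : ℝ) (1837 / 2000 : ℝ) (101 / 1000 : ℝ) := by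
  unfold midAt mshape
  rw [show (1837 / 2000 : ℝ) - (101 / 1000 : ℝ) / 2 = (217 / 250 : ℝ) by norm_num,
    show (1837 / 2000 : ℝ) + (101 / 1000 : ℝ) / 2 = (969 / 1000 : ℝ) by norm_num]
  linarith [ent_217_250.1, ent_217_250.2, ent_969_1000.1, ent_969_1000.2, ent_1837_2000.1, ent_1837_2000.2, log_two_gt_d9, log_two_lt_d9]

lemma check1_a11 :
    0 ≤ midAt (41 / 50 : ℝ) (132 / 125 : ℝ) (9743 / 10000 : ℝ) (3369 / 10000 : ℝ) (1837 / 2000 : ℝ) (16 / 125 : ℝ) := by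
  unfold midAt mshape
  rw [show (1837 / 2000 : ℝ) - (16 / 125 : ℝ) / 2 = (1709 / 2000 : ℝ) by norm_num,
    show (1837 / 2000 : ℝ) + (16 / 125 : ℝ) / 2 = (393 / 400 : ℝ) by norm_num]
  linarith [ent_1709_2000.1, ent_1709_2000.2, ent_393_400.1, ent_393_400.2, ent_1837_2000.1, ent_1837_2000.2, log_two_gt_d9, log_two_lt_d9]

lemma check1_b11 :
    0 ≤ midAt (41 / 50 : ℝ) (1119 / 1000 : ℝ) (9743 / 10000 : ℝ) (3369 / 10000 : ℝ) (1837 / 2000 : ℝ) (16 / 125 : ℝ) := by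
  unfold midAt mshape
  rw [show (1837 / 2000 : ℝ) - (16 / 125 : ℝ) / 2 = (1709 / 2000 : ℝ) by norm_num,
    show (1837 / 2000 : ℝ) + (16 / 125 : ℝ) / 2 = (393 / 400 : ℝ) by norm_num]
  linarith [ent_1709_2000.1, ent_1709_2000.2, ent_393_400.1, ent_393_400.2, ent_1837_2000.1, ent_1837_2000.2, log_two_gt_d9, log_two_lt_d9]

theorem row1 {ε a b : ℝ} (h0 : (2 / 25 : ℝ) ≤ ε) (h1 : ε ≤ (21 / 200 : ℝ))
    (hd : |a - b| ∈ Icc (101 / 1000 : ℝ) (16 / 125 : ℝ)) (ha : a ∈ Icc (0 : ℝ) 1) (hb : b ∈ Icc (0 : ℝ) 1) :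
    StepAt ε (capBound (41 / 50 : ℝ) ε) a b :=
  stepAt_row (m₁ := (1837 / 2000 : ℝ)) (inBlock h0 h1) cert1
    ⟨check1_a00, check1_b00, check1_a01, check1_b01, check1_a10, check1_b10, check1_a11, check1_b11⟩
    (by norm_num) (by norm_num) (by norm_num) (by norm_num) (by norm_num) (by norm_num)
    (by linarith [log_two_gt_d9]) hd ha hb

lemma cert2 : ∃ θ k, Cert (21 / 200 : ℝ) θ k ∧ (9601 / 10000 : ℝ) ≤ θ ∧ θ < 1 ∧
    (8299 / 20000 : ℝ) * binEntropy (21 / 200 : ℝ) ≤ k := by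
  obtain ⟨a1, a2⟩ := log_3499_10000
  obtain ⟨b1, b2⟩ := log_6501_10000
  obtain ⟨c1, c2⟩ := log_31_100
  obtain ⟨d1, d2⟩ := log_69_100
  have hd1 : (1 : ℝ) - (31 / 100 : ℝ) = (69 / 100 : ℝ) := by norm_num
  have hq1 : (1 : ℝ) - (3499 / 10000 : ℝ) = (6501 / 10000 : ℝ) := by norm_num
  refine exists_cert (d := (31 / 100 : ℝ)) (q := (3499 / 10000 : ℝ)) (θ₁ := (24003 / 25000 : ℝ)) (by norm_num) (by norm_num)
    (by norm_num) (by norm_num) (by norm_num) ?_ ?_ (by norm_num) ?_ (by norm_num)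
  · rw [hd1, hq1]; linarith
  · rw [hd1, hq1]; linarith
  · linarith [ent_31_100.1, ent_31_100.2, ent_21_200.1, ent_21_200.2, ent_3499_10000.1, ent_3499_10000.2]

lemma check2_a00 :
    0 ≤ midAt (41 / 50 : ℝ) (132 / 125 : ℝ) (9601 / 10000 : ℝ) (8299 / 20000 : ℝ) (1 / 2 : ℝ) (16 / 125 : ℝ) := by
  unfold midAt mshape
  rw [show (1 / 2 : ℝ) - (16 / 125 : ℝ) / 2 = (109 / 250 : ℝ) by norm_num,
    show (1 / 2 : ℝ) + (16 / 125 : ℝ) / 2 = (141 / 250 : ℝ) by norm_num]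
  linarith [ent_109_250.1, ent_109_250.2, ent_141_250.1, ent_141_250.2, ent_1_2.1, ent_1_2.2, log_two_gt_d9, log_two_lt_d9]

lemma check2_b00 :
    0 ≤ midAt (41 / 50 : ℝ) (1119 / 1000 : ℝ) (9601 / 10000 : ℝ) (8299 / 20000 : ℝ) (1 / 2 : ℝ) (16 / 125 : ℝ) := by
  unfold midAt mshape
  rw [show (1 / 2 : ℝ) - (16 / 125 : ℝ) / 2 = (109 / 250 : ℝ) by norm_num,
    show (1 / 2 : ℝ) + (16 / 125 : ℝ) / 2 = (141 / 250 : ℝ) by norm_num]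
  linarith [ent_109_250.1, ent_109_250.2, ent_141_250.1, ent_141_250.2, ent_1_2.1, ent_1_2.2, log_two_gt_d9, log_two_lt_d9]

lemma check2_a01 :
    0 ≤ midAt (41 / 50 : ℝ) (132 / 125 : ℝ) (9601 / 10000 : ℝ) (8299 / 20000 : ℝ) (1 / 2 : ℝ) (79 / 500 : ℝ) := by
  unfold midAt mshape
  rw [show (1 / 2 : ℝ) - (79 / 500 : ℝ) / 2 = (421 / 1000 : ℝ) by norm_num,
    show (1 / 2 : ℝ) + (79 / 500 : ℝ) / 2 = (579 / 1000 : ℝ) by norm_num]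
  linarith [ent_421_1000.1, ent_421_1000.2, ent_579_1000.1, ent_579_1000.2, ent_1_2.1, ent_1_2.2, log_two_gt_d9, log_two_lt_d9]

lemma check2_b01 :
    0 ≤ midAt (41 / 50 : ℝ) (1119 / 1000 : ℝ) (9601 / 10000 : ℝ) (8299 / 20000 : ℝ) (1 / 2 : ℝ) (79 / 500 : ℝ) := by
  unfold midAt mshape
  rw [show (1 / 2 : ℝ) - (79 / 500 : ℝ) / 2 = (421 / 1000 : ℝ) by norm_num,
    show (1 / 2 : ℝ) + (79 / 500 : ℝ) / 2 = (579 / 1000 : ℝ) by norm_num]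
  linarith [ent_421_1000.1, ent_421_1000.2, ent_579_1000.1, ent_579_1000.2, ent_1_2.1, ent_1_2.2, log_two_gt_d9, log_two_lt_d9]

lemma check2_a10 :
    0 ≤ midAt (41 / 50 : ℝ) (132 / 125 : ℝ) (9601 / 10000 : ℝ) (8299 / 20000 : ℝ) (114 / 125 : ℝ) (16 / 125 : ℝ) := by
  unfold midAt mshape
  rw [show (114 / 125 : ℝ) - (16 / 125 : ℝ) / 2 = (106 / 125 : ℝ) by norm_num,
    show (114 / 125 : ℝ) + (16 / 125 : ℝ) / 2 = (122 / 125 : ℝ) by norm_num]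
  linarith [ent_106_125.1, ent_106_125.2, ent_122_125.1, ent_122_125.2, ent_114_125.1, ent_114_125.2, log_two_gt_d9, log_two_lt_d9]

lemma check2_b10 :
    0 ≤ midAt (41 / 50 : ℝ) (1119 / 1000 : ℝ) (9601 / 10000 : ℝ) (8299 / 20000 : ℝ) (114 / 125 : ℝ) (16 / 125 : ℝ) := by
  unfold midAt mshape
  rw [show (114 / 125 : ℝ) - (16 / 125 : ℝ) / 2 = (106 / 125 : ℝ) by norm_num,
    show (114 / 125 : ℝ) + (16 / 125 : ℝ) / 2 = (122 / 125 : ℝ) by norm_num]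
  linarith [ent_106_125.1, ent_106_125.2, ent_122_125.1, ent_122_125.2, ent_114_125.1, ent_114_125.2, log_two_gt_d9, log_two_lt_d9]

lemma check2_a11 :
    0 ≤ midAt (41 / 50 : ℝ) (132 / 125 : ℝ) (9601 / 10000 : ℝ) (8299 / 20000 : ℝ) (114 / 125 : ℝ) (79 / 500 : ℝ) := by
  unfold midAt mshape
  rw [show (114 / 125 : ℝ) - (79 / 500 : ℝ) / 2 = (833 / 1000 : ℝ) by norm_num,
    show (114 / 125 : ℝ) + (79 / 500 : ℝ) / 2 = (991 / 1000 : ℝ) by norm_num]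
  linarith [ent_833_1000.1, ent_833_1000.2, ent_991_1000.1, ent_991_1000.2, ent_114_125.1, ent_114_125.2, log_two_gt_d9, log_two_lt_d9]

lemma check2_b11 :
    0 ≤ midAt (41 / 50 : ℝ) (1119 / 1000 : ℝ) (9601 / 10000 : ℝ) (8299 / 20000 : ℝ) (114 / 125 : ℝ) (79 / 500 : ℝ) := by
  unfold midAt mshape
  rw [show (114 / 125 : ℝ) - (79 / 500 : ℝ) / 2 = (833 / 1000 : ℝ) by norm_num,
    show (114 / 125 : ℝ) + (79 / 500 : ℝ) / 2 = (991 / 1000 : ℝ) by norm_num]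
  linarith [ent_833_1000.1, ent_833_1000.2, ent_991_1000.1, ent_991_1000.2, ent_114_125.1, ent_114_125.2, log_two_gt_d9, log_two_lt_d9]

theorem row2 {ε a b : ℝ} (h0 : (2 / 25 : ℝ) ≤ ε) (h1 : ε ≤ (21 / 200 : ℝ))
    (hd : |a - b| ∈ Icc (16 / 125 : ℝ) (79 / 500 : ℝ)) (ha : a ∈ Icc (0 : ℝ) 1) (hb : b ∈ Icc (0 : ℝ) 1) :
    StepAt ε (capBound (41 / 50 : ℝ) ε) a b :=
  stepAt_row (m₁ := (114 / 125 : ℝ)) (inBlock h0 h1) cert2
    ⟨check2_a00, check2_b00, check2_a01, check2_b01, check2_a10, check2_b10, check2_a11, check2_b11⟩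
    (by norm_num) (by norm_num) (by norm_num) (by norm_num) (by norm_num) (by norm_num)
    (by linarith [log_two_gt_d9]) hd ha hb

lemma cert3 : ∃ θ k, Cert (21 / 200 : ℝ) θ k ∧ (18837 / 20000 : ℝ) ≤ θ ∧ θ < 1 ∧
    (9863 / 20000 : ℝ) * binEntropy (21 / 200 : ℝ) ≤ k := by
  obtain ⟨a1, a2⟩ := log_7997_25000
  obtain ⟨b1, b2⟩ := log_17003_25000
  obtain ⟨c1, c2⟩ := log_34_125
  obtain ⟨d1, d2⟩ := log_91_125
  have hd1 : (1 : ℝ) - (34 / 125 : ℝ) = (91 / 125 : ℝ) := by norm_num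
  have hq1 : (1 : ℝ) - (7997 / 25000 : ℝ) = (17003 / 25000 : ℝ) := by norm_num
  refine exists_cert (d := (34 / 125 : ℝ)) (q := (7997 / 25000 : ℝ)) (θ₁ := (94189 / 100000 : ℝ)) (by norm_num) (by norm_num)
    (by norm_num) (by norm_num) (by norm_num) ?_ ?_ (by norm_num) ?_ (by norm_num)
  · rw [hd1, hq1]; linarith
  · rw [hd1, hq1]; linarith
  · linarith [ent_34_125.1, ent_34_125.2, ent_21_200.1, ent_21_200.2, ent_7997_25000.1, ent_7997_25000.2]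

lemma check3_a00 :
    0 ≤ midAt (41 / 50 : ℝ) (132 / 125 : ℝ) (18837 / 20000 : ℝ) (9863 / 20000 : ℝ) (1 / 2 : ℝ) (79 / 500 : ℝ) := by
  unfold midAt mshape
  rw [show (1 / 2 : ℝ) - (79 / 500 : ℝ) / 2 = (421 / 1000 : ℝ) by norm_num,
    show (1 / 2 : ℝ) + (79 / 500 : ℝ) / 2 = (579 / 1000 : ℝ) by norm_num]
  linarith [ent_421_1000.1, ent_421_1000.2, ent_579_1000.1, ent_579_1000.2, ent_1_2.1, ent_1_2.2, log_two_gt_d9, log_two_lt_d9]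

lemma check3_b00 :
    0 ≤ midAt (41 / 50 : ℝ) (1119 / 1000 : ℝ) (18837 / 20000 : ℝ) (9863 / 20000 : ℝ) (1 / 2 : ℝ) (79 / 500 : ℝ) := by
  unfold midAt mshape
  rw [show (1 / 2 : ℝ) - (79 / 500 : ℝ) / 2 = (421 / 1000 : ℝ) by norm_num,
    show (1 / 2 : ℝ) + (79 / 500 : ℝ) / 2 = (579 / 1000 : ℝ) by norm_num]
  linarith [ent_421_1000.1, ent_421_1000.2, ent_579_1000.1, ent_579_1000.2, ent_1_2.1, ent_1_2.2, log_two_gt_d9, log_two_lt_d9]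

lemma check3_a01 :
    0 ≤ midAt (41 / 50 : ℝ) (132 / 125 : ℝ) (18837 / 20000 : ℝ) (9863 / 20000 : ℝ) (1 / 2 : ℝ) (93 / 500 : ℝ) := by
  unfold midAt mshape
  rw [show (1 / 2 : ℝ) - (93 / 500 : ℝ) / 2 = (407 / 1000 : ℝ) by norm_num,
    show (1 / 2 : ℝ) + (93 / 500 : ℝ) / 2 = (593 / 1000 : ℝ) by norm_num]
  linarith [ent_407_1000.1, ent_407_1000.2, ent_593_1000.1, ent_593_1000.2, ent_1_2.1, ent_1_2.2, log_two_gt_d9, log_two_lt_d9]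

lemma check3_b01 :
    0 ≤ midAt (41 / 50 : ℝ) (1119 / 1000 : ℝ) (18837 / 20000 : ℝ) (9863 / 20000 : ℝ) (1 / 2 : ℝ) (93 / 500 : ℝ) := by
  unfold midAt mshape
  rw [show (1 / 2 : ℝ) - (93 / 500 : ℝ) / 2 = (407 / 1000 : ℝ) by norm_num,
    show (1 / 2 : ℝ) + (93 / 500 : ℝ) / 2 = (593 / 1000 : ℝ) by norm_num]
  linarith [ent_407_1000.1, ent_407_1000.2, ent_593_1000.1, ent_593_1000.2, ent_1_2.1, ent_1_2.2, log_two_gt_d9, log_two_lt_d9]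

lemma check3_a10 :
    0 ≤ midAt (41 / 50 : ℝ) (132 / 125 : ℝ) (18837 / 20000 : ℝ) (9863 / 20000 : ℝ) (1809 / 2000 : ℝ) (79 / 500 : ℝ) := by
  unfold midAt mshape
  rw [show (1809 / 2000 : ℝ) - (79 / 500 : ℝ) / 2 = (1651 / 2000 : ℝ) by norm_num,
    show (1809 / 2000 : ℝ) + (79 / 500 : ℝ) / 2 = (1967 / 2000 : ℝ) by norm_num]
  linarith [ent_1651_2000.1, ent_1651_2000.2, ent_1967_2000.1, ent_1967_2000.2, ent_1809_2000.1, ent_1809_2000.2, log_two_gt_d9, log_two_lt_d9]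

lemma check3_b10 :
    0 ≤ midAt (41 / 50 : ℝ) (1119 / 1000 : ℝ) (18837 / 20000 : ℝ) (9863 / 20000 : ℝ) (1809 / 2000 : ℝ) (79 / 500 : ℝ) := by
  unfold midAt mshape
  rw [show (1809 / 2000 : ℝ) - (79 / 500 : ℝ) / 2 = (1651 / 2000 : ℝ) by norm_num,
    show (1809 / 2000 : ℝ) + (79 / 500 : ℝ) / 2 = (1967 / 2000 : ℝ) by norm_num]
  linarith [ent_1651_2000.1, ent_1651_2000.2, ent_1967_2000.1, ent_1967_2000.2, ent_1809_2000.1, ent_1809_2000.2, log_two_gt_d9, log_two_lt_d9]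

lemma check3_a11 :
    0 ≤ midAt (41 / 50 : ℝ) (132 / 125 : ℝ) (18837 / 20000 : ℝ) (9863 / 20000 : ℝ) (1809 / 2000 : ℝ) (93 / 500 : ℝ) := by
  unfold midAt mshape
  rw [show (1809 / 2000 : ℝ) - (93 / 500 : ℝ) / 2 = (1623 / 2000 : ℝ) by norm_num,
    show (1809 / 2000 : ℝ) + (93 / 500 : ℝ) / 2 = (399 / 400 : ℝ) by norm_num]
  linarith [ent_1623_2000.1, ent_1623_2000.2, ent_399_400.1, ent_399_400.2, ent_1809_2000.1, ent_1809_2000.2, log_two_gt_d9, log_two_lt_d9]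

lemma check3_b11 :
    0 ≤ midAt (41 / 50 : ℝ) (1119 / 1000 : ℝ) (18837 / 20000 : ℝ) (9863 / 20000 : ℝ) (1809 / 2000 : ℝ) (93 / 500 : ℝ) := by
  unfold midAt mshape
  rw [show (1809 / 2000 : ℝ) - (93 / 500 : ℝ) / 2 = (1623 / 2000 : ℝ) by norm_num,
    show (1809 / 2000 : ℝ) + (93 / 500 : ℝ) / 2 = (399 / 400 : ℝ) by norm_num]
  linarith [ent_1623_2000.1, ent_1623_2000.2, ent_399_400.1, ent_399_400.2, ent_1809_2000.1, ent_1809_2000.2, log_two_gt_d9, log_two_lt_d9]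

theorem row3 {ε a b : ℝ} (h0 : (2 / 25 : ℝ) ≤ ε) (h1 : ε ≤ (21 / 200 : ℝ))
    (hd : |a - b| ∈ Icc (79 / 500 : ℝ) (93 / 500 : ℝ)) (ha : a ∈ Icc (0 : ℝ) 1) (hb : b ∈ Icc (0 : ℝ) 1) :
    StepAt ε (capBound (41 / 50 : ℝ) ε) a b :=
  stepAt_row (m₁ := (1809 / 2000 : ℝ)) (inBlock h0 h1) cert3
    ⟨check3_a00, check3_b00, check3_a01, check3_b01, check3_a10, check3_b10, check3_a11, check3_b11⟩
    (by norm_num) (by norm_num) (by norm_num) (by norm_num) (by norm_num) (by norm_num)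
    (by linarith [log_two_gt_d9]) hd ha hb

lemma cert4 : ∃ θ k, Cert (21 / 200 : ℝ) θ k ∧ (9227 / 10000 : ℝ) ≤ θ ∧ θ < 1 ∧
    (2797 / 5000 : ℝ) * binEntropy (21 / 200 : ℝ) ≤ k := by
  obtain ⟨a1, a2⟩ := log_29381_100000
  obtain ⟨b1, b2⟩ := log_70619_100000
  obtain ⟨c1, c2⟩ := log_239_1000
  obtain ⟨d1, d2⟩ := log_761_1000
  have hd1 : (1 : ℝ) - (239 / 1000 : ℝ) = (761 / 1000 : ℝ) := by norm_num
  have hq1 : (1 : ℝ) - (29381 / 100000 : ℝ) = (70619 / 100000 : ℝ) := by norm_num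
  refine exists_cert (d := (239 / 1000 : ℝ)) (q := (29381 / 100000 : ℝ)) (θ₁ := (5767 / 6250 : ℝ)) (by norm_num) (by norm_num)
    (by norm_num) (by norm_num) (by norm_num) ?_ ?_ (by norm_num) ?_ (by norm_num)
  · rw [hd1, hq1]; linarith
  · rw [hd1, hq1]; linarith
  · linarith [ent_239_1000.1, ent_239_1000.2, ent_21_200.1, ent_21_200.2, ent_29381_100000.1, ent_29381_100000.2]

lemma check4_a00 :
    0 ≤ midAt (41 / 50 : ℝ) (132 / 125 : ℝ) (9227 / 10000 : ℝ) (2797 / 5000 : ℝ) (1 / 2 : ℝ) (93 / 500 : ℝ) := by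
  unfold midAt mshape
  rw [show (1 / 2 : ℝ) - (93 / 500 : ℝ) / 2 = (407 / 1000 : ℝ) by norm_num,
    show (1 / 2 : ℝ) + (93 / 500 : ℝ) / 2 = (593 / 1000 : ℝ) by norm_num]
  linarith [ent_407_1000.1, ent_407_1000.2, ent_593_1000.1, ent_593_1000.2, ent_1_2.1, ent_1_2.2, log_two_gt_d9, log_two_lt_d9]

lemma check4_b00 :
    0 ≤ midAt (41 / 50 : ℝ) (1119 / 1000 : ℝ) (9227 / 10000 : ℝ) (2797 / 5000 : ℝ) (1 / 2 : ℝ) (93 / 500 : ℝ) := by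
  unfold midAt mshape
  rw [show (1 / 2 : ℝ) - (93 / 500 : ℝ) / 2 = (407 / 1000 : ℝ) by norm_num,
    show (1 / 2 : ℝ) + (93 / 500 : ℝ) / 2 = (593 / 1000 : ℝ) by norm_num]
  linarith [ent_407_1000.1, ent_407_1000.2, ent_593_1000.1, ent_593_1000.2, ent_1_2.1, ent_1_2.2, log_two_gt_d9, log_two_lt_d9]

lemma check4_a01 :
    0 ≤ midAt (41 / 50 : ℝ) (132 / 125 : ℝ) (9227 / 10000 : ℝ) (2797 / 5000 : ℝ) (1 / 2 : ℝ) (117 / 500 : ℝ) := by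
  unfold midAt mshape
  rw [show (1 / 2 : ℝ) - (117 / 500 : ℝ) / 2 = (383 / 1000 : ℝ) by norm_num,
    show (1 / 2 : ℝ) + (117 / 500 : ℝ) / 2 = (617 / 1000 : ℝ) by norm_num]
  linarith [ent_383_1000.1, ent_383_1000.2, ent_617_1000.1, ent_617_1000.2, ent_1_2.1, ent_1_2.2, log_two_gt_d9, log_two_lt_d9]

lemma check4_b01 :
    0 ≤ midAt (41 / 50 : ℝ) (1119 / 1000 : ℝ) (9227 / 10000 : ℝ) (2797 / 5000 : ℝ) (1 / 2 : ℝ) (117 / 500 : ℝ) := by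
  unfold midAt mshape
  rw [show (1 / 2 : ℝ) - (117 / 500 : ℝ) / 2 = (383 / 1000 : ℝ) by norm_num,
    show (1 / 2 : ℝ) + (117 / 500 : ℝ) / 2 = (617 / 1000 : ℝ) by norm_num]
  linarith [ent_383_1000.1, ent_383_1000.2, ent_617_1000.1, ent_617_1000.2, ent_1_2.1, ent_1_2.2, log_two_gt_d9, log_two_lt_d9]

lemma check4_a10 :
    0 ≤ midAt (41 / 50 : ℝ) (132 / 125 : ℝ) (9227 / 10000 : ℝ) (2797 / 5000 : ℝ) (1 - (93 / 500 : ℝ) / 2) (93 / 500 : ℝ) := by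
  unfold midAt mshape
  rw [show (1 - (93 / 500 : ℝ) / 2) - (93 / 500 : ℝ) / 2 = (407 / 500 : ℝ) by norm_num,
    show (1 - (93 / 500 : ℝ) / 2) + (93 / 500 : ℝ) / 2 = (1 : ℝ) by norm_num,
    show (1 - (93 / 500 : ℝ) / 2) = (907 / 1000 : ℝ) by norm_num]
  simp only [binEntropy_one]
  linarith [ent_407_500.1, ent_407_500.2, ent_907_1000.1, ent_907_1000.2, log_two_gt_d9, log_two_lt_d9]

lemma check4_b10 :
    0 ≤ midAt (41 / 50 : ℝ) (1119 / 1000 : ℝ) (9227 / 10000 : ℝ) (2797 / 5000 : ℝ) (1 - (93 / 500 : ℝ) / 2) (93 / 500 : ℝ) := by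
  unfold midAt mshape
  rw [show (1 - (93 / 500 : ℝ) / 2) - (93 / 500 : ℝ) / 2 = (407 / 500 : ℝ) by norm_num,
    show (1 - (93 / 500 : ℝ) / 2) + (93 / 500 : ℝ) / 2 = (1 : ℝ) by norm_num,
    show (1 - (93 / 500 : ℝ) / 2) = (907 / 1000 : ℝ) by norm_num]
  simp only [binEntropy_one]
  linarith [ent_407_500.1, ent_407_500.2, ent_907_1000.1, ent_907_1000.2, log_two_gt_d9, log_two_lt_d9]

lemma check4_a11 :
    0 ≤ midAt (41 / 50 : ℝ) (132 / 125 : ℝ) (9227 / 10000 : ℝ) (2797 / 5000 : ℝ) (1 - (117 / 500 : ℝ) / 2) (117 / 500 : ℝ) := by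
  unfold midAt mshape
  rw [show (1 - (117 / 500 : ℝ) / 2) - (117 / 500 : ℝ) / 2 = (383 / 500 : ℝ) by norm_num,
    show (1 - (117 / 500 : ℝ) / 2) + (117 / 500 : ℝ) / 2 = (1 : ℝ) by norm_num,
    show (1 - (117 / 500 : ℝ) / 2) = (883 / 1000 : ℝ) by norm_num]
  simp only [binEntropy_one]
  linarith [ent_383_500.1, ent_383_500.2, ent_883_1000.1, ent_883_1000.2, log_two_gt_d9, log_two_lt_d9]

lemma check4_b11 :
    0 ≤ midAt (41 / 50 : ℝ) (1119 / 1000 : ℝ) (9227 / 10000 : ℝ) (2797 / 5000 : ℝ) (1 - (117 / 500 : ℝ) / 2) (117 / 500 : ℝ) := by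
  unfold midAt mshape
  rw [show (1 - (117 / 500 : ℝ) / 2) - (117 / 500 : ℝ) / 2 = (383 / 500 : ℝ) by norm_num,
    show (1 - (117 / 500 : ℝ) / 2) + (117 / 500 : ℝ) / 2 = (1 : ℝ) by norm_num,
    show (1 - (117 / 500 : ℝ) / 2) = (883 / 1000 : ℝ) by norm_num]
  simp only [binEntropy_one]
  linarith [ent_383_500.1, ent_383_500.2, ent_883_1000.1, ent_883_1000.2, log_two_gt_d9, log_two_lt_d9]

theorem row4 {ε a b : ℝ} (h0 : (2 / 25 : ℝ) ≤ ε) (h1 : ε ≤ (21 / 200 : ℝ))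
    (hd : |a - b| ∈ Icc (93 / 500 : ℝ) (117 / 500 : ℝ)) (ha : a ∈ Icc (0 : ℝ) 1) (hb : b ∈ Icc (0 : ℝ) 1) :
    StepAt ε (capBound (41 / 50 : ℝ) ε) a b :=
  stepAt_top_row (inBlock h0 h1) cert4
    ⟨check4_a00, check4_b00, check4_a01, check4_b01, check4_a10, check4_b10, check4_a11, check4_b11⟩
    (by norm_num) (by norm_num) (by norm_num) (by norm_num) hd ha hb

lemma cert5 : ∃ θ k, Cert (21 / 200 : ℝ) θ k ∧ (17763 / 20000 : ℝ) ≤ θ ∧ θ < 1 ∧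
    (13061 / 20000 : ℝ) * binEntropy (21 / 200 : ℝ) ≤ k := by
  obtain ⟨a1, a2⟩ := log_25589_100000
  obtain ⟨b1, b2⟩ := log_74411_100000
  obtain ⟨c1, c2⟩ := log_191_1000
  obtain ⟨d1, d2⟩ := log_809_1000
  have hd1 : (1 : ℝ) - (191 / 1000 : ℝ) = (809 / 1000 : ℝ) := by norm_num
  have hq1 : (1 : ℝ) - (25589 / 100000 : ℝ) = (74411 / 100000 : ℝ) := by norm_num
  refine exists_cert (d := (191 / 1000 : ℝ)) (q := (25589 / 100000 : ℝ)) (θ₁ := (5551 / 6250 : ℝ)) (by norm_num) (by norm_num)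
    (by norm_num) (by norm_num) (by norm_num) ?_ ?_ (by norm_num) ?_ (by norm_num)
  · rw [hd1, hq1]; linarith
  · rw [hd1, hq1]; linarith
  · linarith [ent_191_1000.1, ent_191_1000.2, ent_21_200.1, ent_21_200.2, ent_25589_100000.1, ent_25589_100000.2]

lemma check5_a00 :
    0 ≤ midAt (41 / 50 : ℝ) (132 / 125 : ℝ) (17763 / 20000 : ℝ) (13061 / 20000 : ℝ) (1 / 2 : ℝ) (117 / 500 : ℝ) := by
  unfold midAt mshape
  rw [show (1 / 2 : ℝ) - (117 / 500 : ℝ) / 2 = (383 / 1000 : ℝ) by norm_num,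
    show (1 / 2 : ℝ) + (117 / 500 : ℝ) / 2 = (617 / 1000 : ℝ) by norm_num]
  linarith [ent_383_1000.1, ent_383_1000.2, ent_617_1000.1, ent_617_1000.2, ent_1_2.1, ent_1_2.2, log_two_gt_d9, log_two_lt_d9]

lemma check5_b00 :
    0 ≤ midAt (41 / 50 : ℝ) (1119 / 1000 : ℝ) (17763 / 20000 : ℝ) (13061 / 20000 : ℝ) (1 / 2 : ℝ) (117 / 500 : ℝ) := by
  unfold midAt mshape
  rw [show (1 / 2 : ℝ) - (117 / 500 : ℝ) / 2 = (383 / 1000 : ℝ) by norm_num,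
    show (1 / 2 : ℝ) + (117 / 500 : ℝ) / 2 = (617 / 1000 : ℝ) by norm_num]
  linarith [ent_383_1000.1, ent_383_1000.2, ent_617_1000.1, ent_617_1000.2, ent_1_2.1, ent_1_2.2, log_two_gt_d9, log_two_lt_d9]

lemma check5_a01 :
    0 ≤ midAt (41 / 50 : ℝ) (132 / 125 : ℝ) (17763 / 20000 : ℝ) (13061 / 20000 : ℝ) (1 / 2 : ℝ) (387 / 1000 : ℝ) := by
  unfold midAt mshape
  rw [show (1 / 2 : ℝ) - (387 / 1000 : ℝ) / 2 = (613 / 2000 : ℝ) by norm_num,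
    show (1 / 2 : ℝ) + (387 / 1000 : ℝ) / 2 = (1387 / 2000 : ℝ) by norm_num]
  linarith [ent_613_2000.1, ent_613_2000.2, ent_1387_2000.1, ent_1387_2000.2, ent_1_2.1, ent_1_2.2, log_two_gt_d9, log_two_lt_d9]

lemma check5_b01 :
    0 ≤ midAt (41 / 50 : ℝ) (1119 / 1000 : ℝ) (17763 / 20000 : ℝ) (13061 / 20000 : ℝ) (1 / 2 : ℝ) (387 / 1000 : ℝ) := by
  unfold midAt mshape
  rw [show (1 / 2 : ℝ) - (387 / 1000 : ℝ) / 2 = (613 / 2000 : ℝ) by norm_num,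
    show (1 / 2 : ℝ) + (387 / 1000 : ℝ) / 2 = (1387 / 2000 : ℝ) by norm_num]
  linarith [ent_613_2000.1, ent_613_2000.2, ent_1387_2000.1, ent_1387_2000.2, ent_1_2.1, ent_1_2.2, log_two_gt_d9, log_two_lt_d9]

lemma check5_a10 :
    0 ≤ midAt (41 / 50 : ℝ) (132 / 125 : ℝ) (17763 / 20000 : ℝ) (13061 / 20000 : ℝ) (1 - (117 / 500 : ℝ) / 2) (117 / 500 : ℝ) := by
  unfold midAt mshape
  rw [show (1 - (117 / 500 : ℝ) / 2) - (117 / 500 : ℝ) / 2 = (383 / 500 : ℝ) by norm_num,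
    show (1 - (117 / 500 : ℝ) / 2) + (117 / 500 : ℝ) / 2 = (1 : ℝ) by norm_num,
    show (1 - (117 / 500 : ℝ) / 2) = (883 / 1000 : ℝ) by norm_num]
  simp only [binEntropy_one]
  linarith [ent_383_500.1, ent_383_500.2, ent_883_1000.1, ent_883_1000.2, log_two_gt_d9, log_two_lt_d9]

lemma check5_b10 :
    0 ≤ midAt (41 / 50 : ℝ) (1119 / 1000 : ℝ) (17763 / 20000 : ℝ) (13061 / 20000 : ℝ) (1 - (117 / 500 : ℝ) / 2) (117 / 500 : ℝ) := by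
  unfold midAt mshape
  rw [show (1 - (117 / 500 : ℝ) / 2) - (117 / 500 : ℝ) / 2 = (383 / 500 : ℝ) by norm_num,
    show (1 - (117 / 500 : ℝ) / 2) + (117 / 500 : ℝ) / 2 = (1 : ℝ) by norm_num,
    show (1 - (117 / 500 : ℝ) / 2) = (883 / 1000 : ℝ) by norm_num]
  simp only [binEntropy_one]
  linarith [ent_383_500.1, ent_383_500.2, ent_883_1000.1, ent_883_1000.2, log_two_gt_d9, log_two_lt_d9]

lemma check5_a11 :
    0 ≤ midAt (41 / 50 : ℝ) (132 / 125 : ℝ) (17763 / 20000 : ℝ) (13061 / 20000 : ℝ) (1 - (387 / 1000 : ℝ) / 2) (387 / 1000 : ℝ) := by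
  unfold midAt mshape
  rw [show (1 - (387 / 1000 : ℝ) / 2) - (387 / 1000 : ℝ) / 2 = (613 / 1000 : ℝ) by norm_num,
    show (1 - (387 / 1000 : ℝ) / 2) + (387 / 1000 : ℝ) / 2 = (1 : ℝ) by norm_num,
    show (1 - (387 / 1000 : ℝ) / 2) = (1613 / 2000 : ℝ) by norm_num]
  simp only [binEntropy_one]
  linarith [ent_613_1000.1, ent_613_1000.2, ent_1613_2000.1, ent_1613_2000.2, log_two_gt_d9, log_two_lt_d9]

lemma check5_b11 :
    0 ≤ midAt (41 / 50 : ℝ) (1119 / 1000 : ℝ) (17763 / 20000 : ℝ) (13061 / 20000 : ℝ) (1 - (387 / 1000 : ℝ) / 2) (387 / 1000 : ℝ) := by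
  unfold midAt mshape
  rw [show (1 - (387 / 1000 : ℝ) / 2) - (387 / 1000 : ℝ) / 2 = (613 / 1000 : ℝ) by norm_num,
    show (1 - (387 / 1000 : ℝ) / 2) + (387 / 1000 : ℝ) / 2 = (1 : ℝ) by norm_num,
    show (1 - (387 / 1000 : ℝ) / 2) = (1613 / 2000 : ℝ) by norm_num]
  simp only [binEntropy_one]
  linarith [ent_613_1000.1, ent_613_1000.2, ent_1613_2000.1, ent_1613_2000.2, log_two_gt_d9, log_two_lt_d9]

theorem row5 {ε a b : ℝ} (h0 : (2 / 25 : ℝ) ≤ ε) (h1 : ε ≤ (21 / 200 : ℝ))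
    (hd : |a - b| ∈ Icc (117 / 500 : ℝ) (387 / 1000 : ℝ)) (ha : a ∈ Icc (0 : ℝ) 1) (hb : b ∈ Icc (0 : ℝ) 1) :
    StepAt ε (capBound (41 / 50 : ℝ) ε) a b :=
  stepAt_top_row (inBlock h0 h1) cert5
    ⟨check5_a00, check5_b00, check5_a01, check5_b01, check5_a10, check5_b10, check5_a11, check5_b11⟩
    (by norm_num) (by norm_num) (by norm_num) (by norm_num) hd ha hb

lemma cert6 : ∃ θ k, Cert (21 / 200 : ℝ) θ k ∧ (7731 / 10000 : ℝ) ≤ θ ∧ θ < 1 ∧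
    (16809 / 20000 : ℝ) * binEntropy (21 / 200 : ℝ) ≤ k := by
  obtain ⟨a1, a2⟩ := log_17689_100000
  obtain ⟨b1, b2⟩ := log_82311_100000
  obtain ⟨c1, c2⟩ := log_91_1000
  obtain ⟨d1, d2⟩ := log_909_1000
  have hd1 : (1 : ℝ) - (91 / 1000 : ℝ) = (909 / 1000 : ℝ) := by norm_num
  have hq1 : (1 : ℝ) - (17689 / 100000 : ℝ) = (82311 / 100000 : ℝ) := by norm_num
  refine exists_cert (d := (91 / 1000 : ℝ)) (q := (17689 / 100000 : ℝ)) (θ₁ := (38657 / 50000 : ℝ)) (by norm_num) (by norm_num)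
    (by norm_num) (by norm_num) (by norm_num) ?_ ?_ (by norm_num) ?_ (by norm_num)
  · rw [hd1, hq1]; linarith
  · rw [hd1, hq1]; linarith
  · linarith [ent_91_1000.1, ent_91_1000.2, ent_21_200.1, ent_21_200.2, ent_17689_100000.1, ent_17689_100000.2]

lemma check6_a00 :
    0 ≤ midAt (41 / 50 : ℝ) (132 / 125 : ℝ) (7731 / 10000 : ℝ) (16809 / 20000 : ℝ) (1 / 2 : ℝ) (387 / 1000 : ℝ) := by
  unfold midAt mshape
  rw [show (1 / 2 : ℝ) - (387 / 1000 : ℝ) / 2 = (613 / 2000 : ℝ) by norm_num,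
    show (1 / 2 : ℝ) + (387 / 1000 : ℝ) / 2 = (1387 / 2000 : ℝ) by norm_num]
  linarith [ent_613_2000.1, ent_613_2000.2, ent_1387_2000.1, ent_1387_2000.2, ent_1_2.1, ent_1_2.2, log_two_gt_d9, log_two_lt_d9]

lemma check6_b00 :
    0 ≤ midAt (41 / 50 : ℝ) (1119 / 1000 : ℝ) (7731 / 10000 : ℝ) (16809 / 20000 : ℝ) (1 / 2 : ℝ) (387 / 1000 : ℝ) := by
  unfold midAt mshape
  rw [show (1 / 2 : ℝ) - (387 / 1000 : ℝ) / 2 = (613 / 2000 : ℝ) by norm_num,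
    show (1 / 2 : ℝ) + (387 / 1000 : ℝ) / 2 = (1387 / 2000 : ℝ) by norm_num]
  linarith [ent_613_2000.1, ent_613_2000.2, ent_1387_2000.1, ent_1387_2000.2, ent_1_2.1, ent_1_2.2, log_two_gt_d9, log_two_lt_d9]

lemma check6_a01 :
    0 ≤ midAt (41 / 50 : ℝ) (132 / 125 : ℝ) (7731 / 10000 : ℝ) (16809 / 20000 : ℝ) (1 / 2 : ℝ) (86 / 125 : ℝ) := by
  unfold midAt mshape
  rw [show (1 / 2 : ℝ) - (86 / 125 : ℝ) / 2 = (39 / 250 : ℝ) by norm_num,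
    show (1 / 2 : ℝ) + (86 / 125 : ℝ) / 2 = (211 / 250 : ℝ) by norm_num]
  linarith [ent_39_250.1, ent_39_250.2, ent_211_250.1, ent_211_250.2, ent_1_2.1, ent_1_2.2, log_two_gt_d9, log_two_lt_d9]

lemma check6_b01 :
    0 ≤ midAt (41 / 50 : ℝ) (1119 / 1000 : ℝ) (7731 / 10000 : ℝ) (16809 / 20000 : ℝ) (1 / 2 : ℝ) (86 / 125 : ℝ) := by
  unfold midAt mshape
  rw [show (1 / 2 : ℝ) - (86 / 125 : ℝ) / 2 = (39 / 250 : ℝ) by norm_num,
    show (1 / 2 : ℝ) + (86 / 125 : ℝ) / 2 = (211 / 250 : ℝ) by norm_num]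
  linarith [ent_39_250.1, ent_39_250.2, ent_211_250.1, ent_211_250.2, ent_1_2.1, ent_1_2.2, log_two_gt_d9, log_two_lt_d9]

lemma check6_a10 :
    0 ≤ midAt (41 / 50 : ℝ) (132 / 125 : ℝ) (7731 / 10000 : ℝ) (16809 / 20000 : ℝ) (1 - (387 / 1000 : ℝ) / 2) (387 / 1000 : ℝ) := by
  unfold midAt mshape
  rw [show (1 - (387 / 1000 : ℝ) / 2) - (387 / 1000 : ℝ) / 2 = (613 / 1000 : ℝ) by norm_num,
    show (1 - (387 / 1000 : ℝ) / 2) + (387 / 1000 : ℝ) / 2 = (1 : ℝ) by norm_num,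
    show (1 - (387 / 1000 : ℝ) / 2) = (1613 / 2000 : ℝ) by norm_num]
  simp only [binEntropy_one]
  linarith [ent_613_1000.1, ent_613_1000.2, ent_1613_2000.1, ent_1613_2000.2, log_two_gt_d9, log_two_lt_d9]

lemma check6_b10 :
    0 ≤ midAt (41 / 50 : ℝ) (1119 / 1000 : ℝ) (7731 / 10000 : ℝ) (16809 / 20000 : ℝ) (1 - (387 / 1000 : ℝ) / 2) (387 / 1000 : ℝ) := by
  unfold midAt mshape
  rw [show (1 - (387 / 1000 : ℝ) / 2) - (387 / 1000 : ℝ) / 2 = (613 / 1000 : ℝ) by norm_num,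
    show (1 - (387 / 1000 : ℝ) / 2) + (387 / 1000 : ℝ) / 2 = (1 : ℝ) by norm_num,
    show (1 - (387 / 1000 : ℝ) / 2) = (1613 / 2000 : ℝ) by norm_num]
  simp only [binEntropy_one]
  linarith [ent_613_1000.1, ent_613_1000.2, ent_1613_2000.1, ent_1613_2000.2, log_two_gt_d9, log_two_lt_d9]

lemma check6_a11 :
    0 ≤ midAt (41 / 50 : ℝ) (132 / 125 : ℝ) (7731 / 10000 : ℝ) (16809 / 20000 : ℝ) (1 - (86 / 125 : ℝ) / 2) (86 / 125 : ℝ) := by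
  unfold midAt mshape
  rw [show (1 - (86 / 125 : ℝ) / 2) - (86 / 125 : ℝ) / 2 = (39 / 125 : ℝ) by norm_num,
    show (1 - (86 / 125 : ℝ) / 2) + (86 / 125 : ℝ) / 2 = (1 : ℝ) by norm_num,
    show (1 - (86 / 125 : ℝ) / 2) = (82 / 125 : ℝ) by norm_num]
  simp only [binEntropy_one]
  linarith [ent_39_125.1, ent_39_125.2, ent_82_125.1, ent_82_125.2, log_two_gt_d9, log_two_lt_d9]

lemma check6_b11 :
    0 ≤ midAt (41 / 50 : ℝ) (1119 / 1000 : ℝ) (7731 / 10000 : ℝ) (16809 / 20000 : ℝ) (1 - (86 / 125 : ℝ) / 2) (86 / 125 : ℝ) := by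
  unfold midAt mshape
  rw [show (1 - (86 / 125 : ℝ) / 2) - (86 / 125 : ℝ) / 2 = (39 / 125 : ℝ) by norm_num,
    show (1 - (86 / 125 : ℝ) / 2) + (86 / 125 : ℝ) / 2 = (1 : ℝ) by norm_num,
    show (1 - (86 / 125 : ℝ) / 2) = (82 / 125 : ℝ) by norm_num]
  simp only [binEntropy_one]
  linarith [ent_39_125.1, ent_39_125.2, ent_82_125.1, ent_82_125.2, log_two_gt_d9, log_two_lt_d9]

theorem row6 {ε a b : ℝ} (h0 : (2 / 25 : ℝ) ≤ ε) (h1 : ε ≤ (21 / 200 : ℝ))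
    (hd : |a - b| ∈ Icc (387 / 1000 : ℝ) (86 / 125 : ℝ)) (ha : a ∈ Icc (0 : ℝ) 1) (hb : b ∈ Icc (0 : ℝ) 1) :
    StepAt ε (capBound (41 / 50 : ℝ) ε) a b :=
  stepAt_top_row (inBlock h0 h1) cert6
    ⟨check6_a00, check6_b00, check6_a01, check6_b01, check6_a10, check6_b10, check6_a11, check6_b11⟩
    (by norm_num) (by norm_num) (by norm_num) (by norm_num) hd ha hb

lemma cert7 : ∃ θ k, Cert (21 / 200 : ℝ) θ k ∧ (2879 / 5000 : ℝ) ≤ θ ∧ θ < 1 ∧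
    (2419 / 2500 : ℝ) * binEntropy (21 / 200 : ℝ) ≤ k := by
  obtain ⟨a1, a2⟩ := log_12159_100000
  obtain ⟨b1, b2⟩ := log_87841_100000
  obtain ⟨c1, c2⟩ := log_21_1000
  obtain ⟨d1, d2⟩ := log_979_1000
  have hd1 : (1 : ℝ) - (21 / 1000 : ℝ) = (979 / 1000 : ℝ) := by norm_num
  have hq1 : (1 : ℝ) - (12159 / 100000 : ℝ) = (87841 / 100000 : ℝ) := by norm_num
  refine exists_cert (d := (21 / 1000 : ℝ)) (q := (12159 / 100000 : ℝ)) (θ₁ := (57583 / 100000 : ℝ)) (by norm_num) (by norm_num)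
    (by norm_num) (by norm_num) (by norm_num) ?_ ?_ (by norm_num) ?_ (by norm_num)
  · rw [hd1, hq1]; linarith
  · rw [hd1, hq1]; linarith
  · linarith [ent_21_1000.1, ent_21_1000.2, ent_21_200.1, ent_21_200.2, ent_12159_100000.1, ent_12159_100000.2]

lemma check7_a00 :
    0 ≤ midAt (41 / 50 : ℝ) (132 / 125 : ℝ) (2879 / 5000 : ℝ) (2419 / 2500 : ℝ) (1 / 2 : ℝ) (86 / 125 : ℝ) := by
  unfold midAt mshape
  rw [show (1 / 2 : ℝ) - (86 / 125 : ℝ) / 2 = (39 / 250 : ℝ) by norm_num,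
    show (1 / 2 : ℝ) + (86 / 125 : ℝ) / 2 = (211 / 250 : ℝ) by norm_num]
  linarith [ent_39_250.1, ent_39_250.2, ent_211_250.1, ent_211_250.2, ent_1_2.1, ent_1_2.2, log_two_gt_d9, log_two_lt_d9]

lemma check7_b00 :
    0 ≤ midAt (41 / 50 : ℝ) (1119 / 1000 : ℝ) (2879 / 5000 : ℝ) (2419 / 2500 : ℝ) (1 / 2 : ℝ) (86 / 125 : ℝ) := by
  unfold midAt mshape
  rw [show (1 / 2 : ℝ) - (86 / 125 : ℝ) / 2 = (39 / 250 : ℝ) by norm_num,
    show (1 / 2 : ℝ) + (86 / 125 : ℝ) / 2 = (211 / 250 : ℝ) by norm_num]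
  linarith [ent_39_250.1, ent_39_250.2, ent_211_250.1, ent_211_250.2, ent_1_2.1, ent_1_2.2, log_two_gt_d9, log_two_lt_d9]

lemma check7_a01 :
    0 ≤ midAt (41 / 50 : ℝ) (132 / 125 : ℝ) (2879 / 5000 : ℝ) (2419 / 2500 : ℝ) (1 / 2 : ℝ) (114 / 125 : ℝ) := by
  unfold midAt mshape
  rw [show (1 / 2 : ℝ) - (114 / 125 : ℝ) / 2 = (11 / 250 : ℝ) by norm_num,
    show (1 / 2 : ℝ) + (114 / 125 : ℝ) / 2 = (239 / 250 : ℝ) by norm_num]
  linarith [ent_11_250.1, ent_11_250.2, ent_239_250.1, ent_239_250.2, ent_1_2.1, ent_1_2.2, log_two_gt_d9, log_two_lt_d9]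

lemma check7_b01 :
    0 ≤ midAt (41 / 50 : ℝ) (1119 / 1000 : ℝ) (2879 / 5000 : ℝ) (2419 / 2500 : ℝ) (1 / 2 : ℝ) (114 / 125 : ℝ) := by
  unfold midAt mshape
  rw [show (1 / 2 : ℝ) - (114 / 125 : ℝ) / 2 = (11 / 250 : ℝ) by norm_num,
    show (1 / 2 : ℝ) + (114 / 125 : ℝ) / 2 = (239 / 250 : ℝ) by norm_num]
  linarith [ent_11_250.1, ent_11_250.2, ent_239_250.1, ent_239_250.2, ent_1_2.1, ent_1_2.2, log_two_gt_d9, log_two_lt_d9]

lemma check7_a10 :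
    0 ≤ midAt (41 / 50 : ℝ) (132 / 125 : ℝ) (2879 / 5000 : ℝ) (2419 / 2500 : ℝ) (1 - (86 / 125 : ℝ) / 2) (86 / 125 : ℝ) := by
  unfold midAt mshape
  rw [show (1 - (86 / 125 : ℝ) / 2) - (86 / 125 : ℝ) / 2 = (39 / 125 : ℝ) by norm_num,
    show (1 - (86 / 125 : ℝ) / 2) + (86 / 125 : ℝ) / 2 = (1 : ℝ) by norm_num,
    show (1 - (86 / 125 : ℝ) / 2) = (82 / 125 : ℝ) by norm_num]
  simp only [binEntropy_one]
  linarith [ent_39_125.1, ent_39_125.2, ent_82_125.1, ent_82_125.2, log_two_gt_d9, log_two_lt_d9]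

lemma check7_b10 :
    0 ≤ midAt (41 / 50 : ℝ) (1119 / 1000 : ℝ) (2879 / 5000 : ℝ) (2419 / 2500 : ℝ) (1 - (86 / 125 : ℝ) / 2) (86 / 125 : ℝ) := by
  unfold midAt mshape
  rw [show (1 - (86 / 125 : ℝ) / 2) - (86 / 125 : ℝ) / 2 = (39 / 125 : ℝ) by norm_num,
    show (1 - (86 / 125 : ℝ) / 2) + (86 / 125 : ℝ) / 2 = (1 : ℝ) by norm_num,
    show (1 - (86 / 125 : ℝ) / 2) = (82 / 125 : ℝ) by norm_num]
  simp only [binEntropy_one]
  linarith [ent_39_125.1, ent_39_125.2, ent_82_125.1, ent_82_125.2, log_two_gt_d9, log_two_lt_d9]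

lemma check7_a11 :
    0 ≤ midAt (41 / 50 : ℝ) (132 / 125 : ℝ) (2879 / 5000 : ℝ) (2419 / 2500 : ℝ) (1 - (114 / 125 : ℝ) / 2) (114 / 125 : ℝ) := by
  unfold midAt mshape
  rw [show (1 - (114 / 125 : ℝ) / 2) - (114 / 125 : ℝ) / 2 = (11 / 125 : ℝ) by norm_num,
    show (1 - (114 / 125 : ℝ) / 2) + (114 / 125 : ℝ) / 2 = (1 : ℝ) by norm_num,
    show (1 - (114 / 125 : ℝ) / 2) = (68 / 125 : ℝ) by norm_num]
  simp only [binEntropy_one]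
  linarith [ent_11_125.1, ent_11_125.2, ent_68_125.1, ent_68_125.2, log_two_gt_d9, log_two_lt_d9]

lemma check7_b11 :
    0 ≤ midAt (41 / 50 : ℝ) (1119 / 1000 : ℝ) (2879 / 5000 : ℝ) (2419 / 2500 : ℝ) (1 - (114 / 125 : ℝ) / 2) (114 / 125 : ℝ) := by
  unfold midAt mshape
  rw [show (1 - (114 / 125 : ℝ) / 2) - (114 / 125 : ℝ) / 2 = (11 / 125 : ℝ) by norm_num,
    show (1 - (114 / 125 : ℝ) / 2) + (114 / 125 : ℝ) / 2 = (1 : ℝ) by norm_num,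
    show (1 - (114 / 125 : ℝ) / 2) = (68 / 125 : ℝ) by norm_num]
  simp only [binEntropy_one]
  linarith [ent_11_125.1, ent_11_125.2, ent_68_125.1, ent_68_125.2, log_two_gt_d9, log_two_lt_d9]

theorem row7 {ε a b : ℝ} (h0 : (2 / 25 : ℝ) ≤ ε) (h1 : ε ≤ (21 / 200 : ℝ))
    (hd : |a - b| ∈ Icc (86 / 125 : ℝ) (114 / 125 : ℝ)) (ha : a ∈ Icc (0 : ℝ) 1) (hb : b ∈ Icc (0 : ℝ) 1) :
    StepAt ε (capBound (41 / 50 : ℝ) ε) a b :=
  stepAt_top_row (inBlock h0 h1) cert7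
    ⟨check7_a00, check7_b00, check7_a01, check7_b01, check7_a10, check7_b10, check7_a11, check7_b11⟩
    (by norm_num) (by norm_num) (by norm_num) (by norm_num) hd ha hb

lemma cert8 : ∃ θ k, Cert (21 / 200 : ℝ) θ k ∧ (1167 / 2500 : ℝ) ≤ θ ∧ θ < 1 ∧
    (9907 / 10000 : ℝ) * binEntropy (21 / 200 : ℝ) ≤ k := by
  obtain ⟨a1, a2⟩ := log_11053_100000
  obtain ⟨b1, b2⟩ := log_88947_100000
  obtain ⟨c1, c2⟩ := log_7_1000
  obtain ⟨d1, d2⟩ := log_993_1000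
  have hd1 : (1 : ℝ) - (7 / 1000 : ℝ) = (993 / 1000 : ℝ) := by norm_num
  have hq1 : (1 : ℝ) - (11053 / 100000 : ℝ) = (88947 / 100000 : ℝ) := by norm_num
  refine exists_cert (d := (7 / 1000 : ℝ)) (q := (11053 / 100000 : ℝ)) (θ₁ := (46683 / 100000 : ℝ)) (by norm_num) (by norm_num)
    (by norm_num) (by norm_num) (by norm_num) ?_ ?_ (by norm_num) ?_ (by norm_num)
  · rw [hd1, hq1]; linarith
  · rw [hd1, hq1]; linarith
  · linarith [ent_7_1000.1, ent_7_1000.2, ent_21_200.1, ent_21_200.2, ent_11053_100000.1, ent_11053_100000.2]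

lemma check8_a00 :
    0 ≤ midAt (41 / 50 : ℝ) (132 / 125 : ℝ) (1167 / 2500 : ℝ) (9907 / 10000 : ℝ) (1 / 2 : ℝ) (114 / 125 : ℝ) := by
  unfold midAt mshape
  rw [show (1 / 2 : ℝ) - (114 / 125 : ℝ) / 2 = (11 / 250 : ℝ) by norm_num,
    show (1 / 2 : ℝ) + (114 / 125 : ℝ) / 2 = (239 / 250 : ℝ) by norm_num]
  linarith [ent_11_250.1, ent_11_250.2, ent_239_250.1, ent_239_250.2, ent_1_2.1, ent_1_2.2, log_two_gt_d9, log_two_lt_d9]

lemma check8_b00 :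
    0 ≤ midAt (41 / 50 : ℝ) (1119 / 1000 : ℝ) (1167 / 2500 : ℝ) (9907 / 10000 : ℝ) (1 / 2 : ℝ) (114 / 125 : ℝ) := by
  unfold midAt mshape
  rw [show (1 / 2 : ℝ) - (114 / 125 : ℝ) / 2 = (11 / 250 : ℝ) by norm_num,
    show (1 / 2 : ℝ) + (114 / 125 : ℝ) / 2 = (239 / 250 : ℝ) by norm_num]
  linarith [ent_11_250.1, ent_11_250.2, ent_239_250.1, ent_239_250.2, ent_1_2.1, ent_1_2.2, log_two_gt_d9, log_two_lt_d9]

lemma check8_a01 :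
    0 ≤ midAt (41 / 50 : ℝ) (132 / 125 : ℝ) (1167 / 2500 : ℝ) (9907 / 10000 : ℝ) (1 / 2 : ℝ) (121 / 125 : ℝ) := by
  unfold midAt mshape
  rw [show (1 / 2 : ℝ) - (121 / 125 : ℝ) / 2 = (2 / 125 : ℝ) by norm_num,
    show (1 / 2 : ℝ) + (121 / 125 : ℝ) / 2 = (123 / 125 : ℝ) by norm_num]
  linarith [ent_2_125.1, ent_2_125.2, ent_123_125.1, ent_123_125.2, ent_1_2.1, ent_1_2.2, log_two_gt_d9, log_two_lt_d9]

lemma check8_b01 :
    0 ≤ midAt (41 / 50 : ℝ) (1119 / 1000 : ℝ) (1167 / 2500 : ℝ) (9907 / 10000 : ℝ) (1 / 2 : ℝ) (121 / 125 : ℝ) := by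
  unfold midAt mshape
  rw [show (1 / 2 : ℝ) - (121 / 125 : ℝ) / 2 = (2 / 125 : ℝ) by norm_num,
    show (1 / 2 : ℝ) + (121 / 125 : ℝ) / 2 = (123 / 125 : ℝ) by norm_num]
  linarith [ent_2_125.1, ent_2_125.2, ent_123_125.1, ent_123_125.2, ent_1_2.1, ent_1_2.2, log_two_gt_d9, log_two_lt_d9]

lemma check8_a10 :
    0 ≤ midAt (41 / 50 : ℝ) (132 / 125 : ℝ) (1167 / 2500 : ℝ) (9907 / 10000 : ℝ) (1 - (114 / 125 : ℝ) / 2) (114 / 125 : ℝ) := by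
  unfold midAt mshape
  rw [show (1 - (114 / 125 : ℝ) / 2) - (114 / 125 : ℝ) / 2 = (11 / 125 : ℝ) by norm_num,
    show (1 - (114 / 125 : ℝ) / 2) + (114 / 125 : ℝ) / 2 = (1 : ℝ) by norm_num,
    show (1 - (114 / 125 : ℝ) / 2) = (68 / 125 : ℝ) by norm_num]
  simp only [binEntropy_one]
  linarith [ent_11_125.1, ent_11_125.2, ent_68_125.1, ent_68_125.2, log_two_gt_d9, log_two_lt_d9]

lemma check8_b10 :
    0 ≤ midAt (41 / 50 : ℝ) (1119 / 1000 : ℝ) (1167 / 2500 : ℝ) (9907 / 10000 : ℝ) (1 - (114 / 125 : ℝ) / 2) (114 / 125 : ℝ) := by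
  unfold midAt mshape
  rw [show (1 - (114 / 125 : ℝ) / 2) - (114 / 125 : ℝ) / 2 = (11 / 125 : ℝ) by norm_num,
    show (1 - (114 / 125 : ℝ) / 2) + (114 / 125 : ℝ) / 2 = (1 : ℝ) by norm_num,
    show (1 - (114 / 125 : ℝ) / 2) = (68 / 125 : ℝ) by norm_num]
  simp only [binEntropy_one]
  linarith [ent_11_125.1, ent_11_125.2, ent_68_125.1, ent_68_125.2, log_two_gt_d9, log_two_lt_d9]

lemma check8_a11 :
    0 ≤ midAt (41 / 50 : ℝ) (132 / 125 : ℝ) (1167 / 2500 : ℝ) (9907 / 10000 : ℝ) (1 - (121 / 125 : ℝ) / 2) (121 / 125 : ℝ) := by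
  unfold midAt mshape
  rw [show (1 - (121 / 125 : ℝ) / 2) - (121 / 125 : ℝ) / 2 = (4 / 125 : ℝ) by norm_num,
    show (1 - (121 / 125 : ℝ) / 2) + (121 / 125 : ℝ) / 2 = (1 : ℝ) by norm_num,
    show (1 - (121 / 125 : ℝ) / 2) = (129 / 250 : ℝ) by norm_num]
  simp only [binEntropy_one]
  linarith [ent_4_125.1, ent_4_125.2, ent_129_250.1, ent_129_250.2, log_two_gt_d9, log_two_lt_d9]

lemma check8_b11 :
    0 ≤ midAt (41 / 50 : ℝ) (1119 / 1000 : ℝ) (1167 / 2500 : ℝ) (9907 / 10000 : ℝ) (1 - (121 / 125 : ℝ) / 2) (121 / 125 : ℝ) := by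
  unfold midAt mshape
  rw [show (1 - (121 / 125 : ℝ) / 2) - (121 / 125 : ℝ) / 2 = (4 / 125 : ℝ) by norm_num,
    show (1 - (121 / 125 : ℝ) / 2) + (121 / 125 : ℝ) / 2 = (1 : ℝ) by norm_num,
    show (1 - (121 / 125 : ℝ) / 2) = (129 / 250 : ℝ) by norm_num]
  simp only [binEntropy_one]
  linarith [ent_4_125.1, ent_4_125.2, ent_129_250.1, ent_129_250.2, log_two_gt_d9, log_two_lt_d9]

theorem row8 {ε a b : ℝ} (h0 : (2 / 25 : ℝ) ≤ ε) (h1 : ε ≤ (21 / 200 : ℝ))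
    (hd : |a - b| ∈ Icc (114 / 125 : ℝ) (121 / 125 : ℝ)) (ha : a ∈ Icc (0 : ℝ) 1) (hb : b ∈ Icc (0 : ℝ) 1) :
    StepAt ε (capBound (41 / 50 : ℝ) ε) a b :=
  stepAt_top_row (inBlock h0 h1) cert8
    ⟨check8_a00, check8_b00, check8_a01, check8_b01, check8_a10, check8_b10, check8_a11, check8_b11⟩
    (by norm_num) (by norm_num) (by norm_num) (by norm_num) hd ha hb

lemma cert9 : ∃ θ k, Cert (21 / 200 : ℝ) θ k ∧ (8069 / 20000 : ℝ) ≤ θ ∧ θ < 1 ∧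
    (19929 / 20000 : ℝ) * binEntropy (21 / 200 : ℝ) ≤ k := by
  obtain ⟨a1, a2⟩ := log_10737_100000
  obtain ⟨b1, b2⟩ := log_89263_100000
  obtain ⟨c1, c2⟩ := log_3_1000
  obtain ⟨d1, d2⟩ := log_997_1000
  have hd1 : (1 : ℝ) - (3 / 1000 : ℝ) = (997 / 1000 : ℝ) := by norm_num
  have hq1 : (1 : ℝ) - (10737 / 100000 : ℝ) = (89263 / 100000 : ℝ) := by norm_num
  refine exists_cert (d := (3 / 1000 : ℝ)) (q := (10737 / 100000 : ℝ)) (θ₁ := (10087 / 25000 : ℝ)) (by norm_num) (by norm_num)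
    (by norm_num) (by norm_num) (by norm_num) ?_ ?_ (by norm_num) ?_ (by norm_num)
  · rw [hd1, hq1]; linarith
  · rw [hd1, hq1]; linarith
  · linarith [ent_3_1000.1, ent_3_1000.2, ent_21_200.1, ent_21_200.2, ent_10737_100000.1, ent_10737_100000.2]

lemma check9_a00 :
    0 ≤ midAt (41 / 50 : ℝ) (132 / 125 : ℝ) (8069 / 20000 : ℝ) (19929 / 20000 : ℝ) (1 / 2 : ℝ) (121 / 125 : ℝ) := by
  unfold midAt mshape
  rw [show (1 / 2 : ℝ) - (121 / 125 : ℝ) / 2 = (2 / 125 : ℝ) by norm_num,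
    show (1 / 2 : ℝ) + (121 / 125 : ℝ) / 2 = (123 / 125 : ℝ) by norm_num]
  linarith [ent_2_125.1, ent_2_125.2, ent_123_125.1, ent_123_125.2, ent_1_2.1, ent_1_2.2, log_two_gt_d9, log_two_lt_d9]

lemma check9_b00 :
    0 ≤ midAt (41 / 50 : ℝ) (1119 / 1000 : ℝ) (8069 / 20000 : ℝ) (19929 / 20000 : ℝ) (1 / 2 : ℝ) (121 / 125 : ℝ) := by
  unfold midAt mshape
  rw [show (1 / 2 : ℝ) - (121 / 125 : ℝ) / 2 = (2 / 125 : ℝ) by norm_num,
    show (1 / 2 : ℝ) + (121 / 125 : ℝ) / 2 = (123 / 125 : ℝ) by norm_num]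
  linarith [ent_2_125.1, ent_2_125.2, ent_123_125.1, ent_123_125.2, ent_1_2.1, ent_1_2.2, log_two_gt_d9, log_two_lt_d9]

lemma check9_a01 :
    0 ≤ midAt (41 / 50 : ℝ) (132 / 125 : ℝ) (8069 / 20000 : ℝ) (19929 / 20000 : ℝ) (1 / 2 : ℝ) (197 / 200 : ℝ) := by
  unfold midAt mshape
  rw [show (1 / 2 : ℝ) - (197 / 200 : ℝ) / 2 = (3 / 400 : ℝ) by norm_num,
    show (1 / 2 : ℝ) + (197 / 200 : ℝ) / 2 = (397 / 400 : ℝ) by norm_num]
  linarith [ent_3_400.1, ent_3_400.2, ent_397_400.1, ent_397_400.2, ent_1_2.1, ent_1_2.2, log_two_gt_d9, log_two_lt_d9]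

lemma check9_b01 :
    0 ≤ midAt (41 / 50 : ℝ) (1119 / 1000 : ℝ) (8069 / 20000 : ℝ) (19929 / 20000 : ℝ) (1 / 2 : ℝ) (197 / 200 : ℝ) := by
  unfold midAt mshape
  rw [show (1 / 2 : ℝ) - (197 / 200 : ℝ) / 2 = (3 / 400 : ℝ) by norm_num,
    show (1 / 2 : ℝ) + (197 / 200 : ℝ) / 2 = (397 / 400 : ℝ) by norm_num]
  linarith [ent_3_400.1, ent_3_400.2, ent_397_400.1, ent_397_400.2, ent_1_2.1, ent_1_2.2, log_two_gt_d9, log_two_lt_d9]

lemma check9_a10 :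
    0 ≤ midAt (41 / 50 : ℝ) (132 / 125 : ℝ) (8069 / 20000 : ℝ) (19929 / 20000 : ℝ) (1 - (121 / 125 : ℝ) / 2) (121 / 125 : ℝ) := by
  unfold midAt mshape
  rw [show (1 - (121 / 125 : ℝ) / 2) - (121 / 125 : ℝ) / 2 = (4 / 125 : ℝ) by norm_num,
    show (1 - (121 / 125 : ℝ) / 2) + (121 / 125 : ℝ) / 2 = (1 : ℝ) by norm_num,
    show (1 - (121 / 125 : ℝ) / 2) = (129 / 250 : ℝ) by norm_num]
  simp only [binEntropy_one]
  linarith [ent_4_125.1, ent_4_125.2, ent_129_250.1, ent_129_250.2, log_two_gt_d9, log_two_lt_d9]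

lemma check9_b10 :
    0 ≤ midAt (41 / 50 : ℝ) (1119 / 1000 : ℝ) (8069 / 20000 : ℝ) (19929 / 20000 : ℝ) (1 - (121 / 125 : ℝ) / 2) (121 / 125 : ℝ) := by
  unfold midAt mshape
  rw [show (1 - (121 / 125 : ℝ) / 2) - (121 / 125 : ℝ) / 2 = (4 / 125 : ℝ) by norm_num,
    show (1 - (121 / 125 : ℝ) / 2) + (121 / 125 : ℝ) / 2 = (1 : ℝ) by norm_num,
    show (1 - (121 / 125 : ℝ) / 2) = (129 / 250 : ℝ) by norm_num]
  simp only [binEntropy_one]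
  linarith [ent_4_125.1, ent_4_125.2, ent_129_250.1, ent_129_250.2, log_two_gt_d9, log_two_lt_d9]

lemma check9_a11 :
    0 ≤ midAt (41 / 50 : ℝ) (132 / 125 : ℝ) (8069 / 20000 : ℝ) (19929 / 20000 : ℝ) (1 - (197 / 200 : ℝ) / 2) (197 / 200 : ℝ) := by
  unfold midAt mshape
  rw [show (1 - (197 / 200 : ℝ) / 2) - (197 / 200 : ℝ) / 2 = (3 / 200 : ℝ) by norm_num,
    show (1 - (197 / 200 : ℝ) / 2) + (197 / 200 : ℝ) / 2 = (1 : ℝ) by norm_num,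
    show (1 - (197 / 200 : ℝ) / 2) = (203 / 400 : ℝ) by norm_num]
  simp only [binEntropy_one]
  linarith [ent_3_200.1, ent_3_200.2, ent_203_400.1, ent_203_400.2, log_two_gt_d9, log_two_lt_d9]

lemma check9_b11 :
    0 ≤ midAt (41 / 50 : ℝ) (1119 / 1000 : ℝ) (8069 / 20000 : ℝ) (19929 / 20000 : ℝ) (1 - (197 / 200 : ℝ) / 2) (197 / 200 : ℝ) := by
  unfold midAt mshape
  rw [show (1 - (197 / 200 : ℝ) / 2) - (197 / 200 : ℝ) / 2 = (3 / 200 : ℝ) by norm_num,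
    show (1 - (197 / 200 : ℝ) / 2) + (197 / 200 : ℝ) / 2 = (1 : ℝ) by norm_num,
    show (1 - (197 / 200 : ℝ) / 2) = (203 / 400 : ℝ) by norm_num]
  simp only [binEntropy_one]
  linarith [ent_3_200.1, ent_3_200.2, ent_203_400.1, ent_203_400.2, log_two_gt_d9, log_two_lt_d9]

theorem row9 {ε a b : ℝ} (h0 : (2 / 25 : ℝ) ≤ ε) (h1 : ε ≤ (21 / 200 : ℝ))
    (hd : |a - b| ∈ Icc (121 / 125 : ℝ) (197 / 200 : ℝ)) (ha : a ∈ Icc (0 : ℝ) 1) (hb : b ∈ Icc (0 : ℝ) 1) :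
    StepAt ε (capBound (41 / 50 : ℝ) ε) a b :=
  stepAt_top_row (inBlock h0 h1) cert9
    ⟨check9_a00, check9_b00, check9_a01, check9_b01, check9_a10, check9_b10, check9_a11, check9_b11⟩
    (by norm_num) (by norm_num) (by norm_num) (by norm_num) hd ha hb

lemma cert10 : ∃ θ k, Cert (21 / 200 : ℝ) θ k ∧ (1513 / 4000 : ℝ) ≤ θ ∧ θ < 1 ∧
    (3991 / 4000 : ℝ) * binEntropy (21 / 200 : ℝ) ≤ k := by
  obtain ⟨a1, a2⟩ := log_5329_50000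
  obtain ⟨b1, b2⟩ := log_44671_50000
  obtain ⟨c1, c2⟩ := log_1_500
  obtain ⟨d1, d2⟩ := log_499_500
  have hd1 : (1 : ℝ) - (1 / 500 : ℝ) = (499 / 500 : ℝ) := by norm_num
  have hq1 : (1 : ℝ) - (5329 / 50000 : ℝ) = (44671 / 50000 : ℝ) := by norm_num
  refine exists_cert (d := (1 / 500 : ℝ)) (q := (5329 / 50000 : ℝ)) (θ₁ := (9457 / 25000 : ℝ)) (by norm_num) (by norm_num)
    (by norm_num) (by norm_num) (by norm_num) ?_ ?_ (by norm_num) ?_ (by norm_num)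
  · rw [hd1, hq1]; linarith
  · rw [hd1, hq1]; linarith
  · linarith [ent_1_500.1, ent_1_500.2, ent_21_200.1, ent_21_200.2, ent_5329_50000.1, ent_5329_50000.2]

lemma check10_a00 :
    0 ≤ midAt (41 / 50 : ℝ) (132 / 125 : ℝ) (1513 / 4000 : ℝ) (3991 / 4000 : ℝ) (1 / 2 : ℝ) (197 / 200 : ℝ) := by
  unfold midAt mshape
  rw [show (1 / 2 : ℝ) - (197 / 200 : ℝ) / 2 = (3 / 400 : ℝ) by norm_num,
    show (1 / 2 : ℝ) + (197 / 200 : ℝ) / 2 = (397 / 400 : ℝ) by norm_num]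
  linarith [ent_3_400.1, ent_3_400.2, ent_397_400.1, ent_397_400.2, ent_1_2.1, ent_1_2.2, log_two_gt_d9, log_two_lt_d9]

lemma check10_b00 :
    0 ≤ midAt (41 / 50 : ℝ) (1119 / 1000 : ℝ) (1513 / 4000 : ℝ) (3991 / 4000 : ℝ) (1 / 2 : ℝ) (197 / 200 : ℝ) := by
  unfold midAt mshape
  rw [show (1 / 2 : ℝ) - (197 / 200 : ℝ) / 2 = (3 / 400 : ℝ) by norm_num,
    show (1 / 2 : ℝ) + (197 / 200 : ℝ) / 2 = (397 / 400 : ℝ) by norm_num]
  linarith [ent_3_400.1, ent_3_400.2, ent_397_400.1, ent_397_400.2, ent_1_2.1, ent_1_2.2, log_two_gt_d9, log_two_lt_d9]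

lemma check10_a01 :
    0 ≤ midAt (41 / 50 : ℝ) (132 / 125 : ℝ) (1513 / 4000 : ℝ) (3991 / 4000 : ℝ) (1 / 2 : ℝ) (99 / 100 : ℝ) := by
  unfold midAt mshape
  rw [show (1 / 2 : ℝ) - (99 / 100 : ℝ) / 2 = (1 / 200 : ℝ) by norm_num,
    show (1 / 2 : ℝ) + (99 / 100 : ℝ) / 2 = (199 / 200 : ℝ) by norm_num]
  linarith [ent_1_200.1, ent_1_200.2, ent_199_200.1, ent_199_200.2, ent_1_2.1, ent_1_2.2, log_two_gt_d9, log_two_lt_d9]

lemma check10_b01 :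
    0 ≤ midAt (41 / 50 : ℝ) (1119 / 1000 : ℝ) (1513 / 4000 : ℝ) (3991 / 4000 : ℝ) (1 / 2 : ℝ) (99 / 100 : ℝ) := by
  unfold midAt mshape
  rw [show (1 / 2 : ℝ) - (99 / 100 : ℝ) / 2 = (1 / 200 : ℝ) by norm_num,
    show (1 / 2 : ℝ) + (99 / 100 : ℝ) / 2 = (199 / 200 : ℝ) by norm_num]
  linarith [ent_1_200.1, ent_1_200.2, ent_199_200.1, ent_199_200.2, ent_1_2.1, ent_1_2.2, log_two_gt_d9, log_two_lt_d9]

lemma check10_a10 :
    0 ≤ midAt (41 / 50 : ℝ) (132 / 125 : ℝ) (1513 / 4000 : ℝ) (3991 / 4000 : ℝ) (1 - (197 / 200 : ℝ) / 2) (197 / 200 : ℝ) := by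
  unfold midAt mshape
  rw [show (1 - (197 / 200 : ℝ) / 2) - (197 / 200 : ℝ) / 2 = (3 / 200 : ℝ) by norm_num,
    show (1 - (197 / 200 : ℝ) / 2) + (197 / 200 : ℝ) / 2 = (1 : ℝ) by norm_num,
    show (1 - (197 / 200 : ℝ) / 2) = (203 / 400 : ℝ) by norm_num]
  simp only [binEntropy_one]
  linarith [ent_3_200.1, ent_3_200.2, ent_203_400.1, ent_203_400.2, log_two_gt_d9, log_two_lt_d9]

lemma check10_b10 :
    0 ≤ midAt (41 / 50 : ℝ) (1119 / 1000 : ℝ) (1513 / 4000 : ℝ) (3991 / 4000 : ℝ) (1 - (197 / 200 : ℝ) / 2) (197 / 200 : ℝ) := by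
  unfold midAt mshape
  rw [show (1 - (197 / 200 : ℝ) / 2) - (197 / 200 : ℝ) / 2 = (3 / 200 : ℝ) by norm_num,
    show (1 - (197 / 200 : ℝ) / 2) + (197 / 200 : ℝ) / 2 = (1 : ℝ) by norm_num,
    show (1 - (197 / 200 : ℝ) / 2) = (203 / 400 : ℝ) by norm_num]
  simp only [binEntropy_one]
  linarith [ent_3_200.1, ent_3_200.2, ent_203_400.1, ent_203_400.2, log_two_gt_d9, log_two_lt_d9]

lemma check10_a11 :
    0 ≤ midAt (41 / 50 : ℝ) (132 / 125 : ℝ) (1513 / 4000 : ℝ) (3991 / 4000 : ℝ) (1 - (99 / 100 : ℝ) / 2) (99 / 100 : ℝ) := by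
  unfold midAt mshape
  rw [show (1 - (99 / 100 : ℝ) / 2) - (99 / 100 : ℝ) / 2 = (1 / 100 : ℝ) by norm_num,
    show (1 - (99 / 100 : ℝ) / 2) + (99 / 100 : ℝ) / 2 = (1 : ℝ) by norm_num,
    show (1 - (99 / 100 : ℝ) / 2) = (101 / 200 : ℝ) by norm_num]
  simp only [binEntropy_one]
  linarith [ent_1_100.1, ent_1_100.2, ent_101_200.1, ent_101_200.2, log_two_gt_d9, log_two_lt_d9]

lemma check10_b11 :
    0 ≤ midAt (41 / 50 : ℝ) (1119 / 1000 : ℝ) (1513 / 4000 : ℝ) (3991 / 4000 : ℝ) (1 - (99 / 100 : ℝ) / 2) (99 / 100 : ℝ) := by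
  unfold midAt mshape
  rw [show (1 - (99 / 100 : ℝ) / 2) - (99 / 100 : ℝ) / 2 = (1 / 100 : ℝ) by norm_num,
    show (1 - (99 / 100 : ℝ) / 2) + (99 / 100 : ℝ) / 2 = (1 : ℝ) by norm_num,
    show (1 - (99 / 100 : ℝ) / 2) = (101 / 200 : ℝ) by norm_num]
  simp only [binEntropy_one]
  linarith [ent_1_100.1, ent_1_100.2, ent_101_200.1, ent_101_200.2, log_two_gt_d9, log_two_lt_d9]

theorem row10 {ε a b : ℝ} (h0 : (2 / 25 : ℝ) ≤ ε) (h1 : ε ≤ (21 / 200 : ℝ))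
    (hd : |a - b| ∈ Icc (197 / 200 : ℝ) (99 / 100 : ℝ)) (ha : a ∈ Icc (0 : ℝ) 1) (hb : b ∈ Icc (0 : ℝ) 1) :
    StepAt ε (capBound (41 / 50 : ℝ) ε) a b :=
  stepAt_top_row (inBlock h0 h1) cert10
    ⟨check10_a00, check10_b00, check10_a01, check10_b01, check10_a10, check10_b10, check10_a11, check10_b11⟩
    (by norm_num) (by norm_num) (by norm_num) (by norm_num) hd ha hb

theorem edge0 {ε a b : ℝ} (h0 : (2 / 25 : ℝ) ≤ ε) (h1 : ε ≤ (93 / 1000 : ℝ))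
    (hd : (99 / 100 : ℝ) ≤ |a - b|) (ha : a ∈ Icc (0 : ℝ) 1) (hb : b ∈ Icc (0 : ℝ) 1) :
    StepAt ε (capBound (41 / 50 : ℝ) ε) a b := by
  have hx := xRatio_mem (xa := (132 / 125 : ℝ)) (xb := (1091 / 1000 : ℝ)) (by norm_num) h0 h1 (by norm_num)
    (by linarith [ent_2_25.2]) (by linarith [ent_93_1000.1])
  have hdd : (257 / 2000 : ℝ) * (1 / 100 : ℝ) = (257 / 200000 : ℝ) := by norm_num
  have hqq : (93 / 1000 : ℝ) + (1 - 2 * (93 / 1000 : ℝ)) * (257 / 200000 : ℝ) = (9404599 / 100000000 : ℝ) := by norm_num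
  have hq1 : (1 : ℝ) - (9404599 / 100000000 : ℝ) = (90595401 / 100000000 : ℝ) := by norm_num
  have he1 : (1 : ℝ) - (93 / 1000 : ℝ) = (907 / 1000 : ℝ) := by norm_num
  have hHL : binEntropy (93 / 1000 : ℝ) * log 2 ≤ (1072383 / 5000000 : ℝ) :=
    (mul_le_mul ent_93_1000.2 log_two_lt_d9.le (log_nonneg one_le_two) (by norm_num)).trans
      (by norm_num)
  refine stepAt_edge (g := (257 / 2000 : ℝ)) (u₀ := (1 / 100 : ℝ)) (S := (1132602311 / 500000000 : ℝ)) (ℓ := (2472768617 / 1000000000 : ℝ)) (τ := (18573 / 50000 : ℝ))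
    (U₀ := (575646273 / 125000000 : ℝ)) (T := (0 : ℝ)) (by norm_num) (by linarith) h1 (by norm_num) hx (by norm_num)
    (by linarith [log_two_lt_d9]) (by norm_num) (by norm_num) (by norm_num) ?_ ?_ (by norm_num)
    ?_ ?_ ?_ ?_ (by norm_num) ?_ ?_ ?_ (by linarith) ha hb
  · rw [hdd, hqq, hq1]
    linarith [log_257_200000.1, log_9404599_100000000.2, log_90595401_100000000.2]
  · rw [hdd, hqq, hq1]
    linarith [log_9404599_100000000.2, log_90595401_100000000.1]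
  · rw [he1]; linarith [log_93_1000.1, log_907_1000.1]
  · rw [hdd]; linarith [log_257_200000.2]
  · linarith [log_1_100.2]
  · linarith [ent_93_1000.1]
  · unfold edgeBr; linarith [ent_93_1000.1, hHL, log_257_2000.1]
  · unfold edgeBr; linarith [ent_93_1000.1, hHL, log_257_2000.1]
  · linarith [ent_93_1000.2]

theorem edge1 {ε a b : ℝ} (h0 : (93 / 1000 : ℝ) ≤ ε) (h1 : ε ≤ (21 / 200 : ℝ))
    (hd : (99 / 100 : ℝ) ≤ |a - b|) (ha : a ∈ Icc (0 : ℝ) 1) (hb : b ∈ Icc (0 : ℝ) 1) :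
    StepAt ε (capBound (41 / 50 : ℝ) ε) a b := by
  have hx := xRatio_mem (xa := (109 / 100 : ℝ)) (xb := (1119 / 1000 : ℝ)) (by norm_num) h0 h1 (by norm_num)
    (by linarith [ent_93_1000.2]) (by linarith [ent_21_200.1])
  have hdd : (29 / 200 : ℝ) * (1 / 100 : ℝ) = (29 / 20000 : ℝ) := by norm_num
  have hqq : (21 / 200 : ℝ) + (1 - 2 * (21 / 200 : ℝ)) * (29 / 20000 : ℝ) = (212291 / 2000000 : ℝ) := by norm_num
  have hq1 : (1 : ℝ) - (212291 / 2000000 : ℝ) = (1787709 / 2000000 : ℝ) := by norm_num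
  have he1 : (1 : ℝ) - (21 / 200 : ℝ) = (179 / 200 : ℝ) := by norm_num
  have hHL : binEntropy (21 / 200 : ℝ) * log 2 ≤ (58212617 / 250000000 : ℝ) :=
    (mul_le_mul ent_21_200.2 log_two_lt_d9.le (log_nonneg one_le_two) (by norm_num)).trans
      (by norm_num)
  refine stepAt_edge (g := (29 / 200 : ℝ)) (u₀ := (1 / 100 : ℝ)) (S := (1065366107 / 500000000 : ℝ)) (ℓ := (2364726491 / 1000000000 : ℝ)) (τ := (36179 / 100000 : ℝ))
    (U₀ := (575646273 / 125000000 : ℝ)) (T := (-129369 / 125000000 : ℝ)) (by norm_num) (by linarith) h1 (by norm_num) hx (by norm_num)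
    (by linarith [log_two_lt_d9]) (by norm_num) (by norm_num) (by norm_num) ?_ ?_ (by norm_num)
    ?_ ?_ ?_ ?_ (by norm_num) ?_ ?_ ?_ (by linarith) ha hb
  · rw [hdd, hqq, hq1]
    linarith [log_29_20000.1, log_212291_2000000.2, log_1787709_2000000.2]
  · rw [hdd, hqq, hq1]
    linarith [log_212291_2000000.2, log_1787709_2000000.1]
  · rw [he1]; linarith [log_21_200.1, log_179_200.1]
  · rw [hdd]; linarith [log_29_20000.2]
  · linarith [log_1_100.2]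
  · linarith [ent_21_200.1]
  · unfold edgeBr; linarith [ent_21_200.1, hHL, log_29_200.1]
  · unfold edgeBr; linarith [ent_21_200.1, hHL, log_29_200.1]
  · linarith [ent_21_200.2]

/-- Steps for every pair of means at every noise level of the block. -/
theorem stepAt_all {ε a b : ℝ} (h0 : (2 / 25 : ℝ) ≤ ε) (h1 : ε ≤ (21 / 200 : ℝ))
    (ha : a ∈ Icc (0 : ℝ) 1) (hb : b ∈ Icc (0 : ℝ) 1) : StepAt ε (capBound (41 / 50 : ℝ) ε) a b := by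
  rcases le_total |a - b| (2 / 25 : ℝ) with h | g0
  · exact row_small h0 h1 h ha hb
  rcases le_total |a - b| (101 / 1000 : ℝ) with h | g1
  · exact row0 h0 h1 ⟨g0, h⟩ ha hb
  rcases le_total |a - b| (16 / 125 : ℝ) with h | g2
  · exact row1 h0 h1 ⟨g1, h⟩ ha hb
  rcases le_total |a - b| (79 / 500 : ℝ) with h | g3
  · exact row2 h0 h1 ⟨g2, h⟩ ha hb
  rcases le_total |a - b| (93 / 500 : ℝ) with h | g4
  · exact row3 h0 h1 ⟨g3, h⟩ ha hb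
  rcases le_total |a - b| (117 / 500 : ℝ) with h | g5
  · exact row4 h0 h1 ⟨g4, h⟩ ha hb
  rcases le_total |a - b| (387 / 1000 : ℝ) with h | g6
  · exact row5 h0 h1 ⟨g5, h⟩ ha hb
  rcases le_total |a - b| (86 / 125 : ℝ) with h | g7
  · exact row6 h0 h1 ⟨g6, h⟩ ha hb
  rcases le_total |a - b| (114 / 125 : ℝ) with h | g8
  · exact row7 h0 h1 ⟨g7, h⟩ ha hb
  rcases le_total |a - b| (121 / 125 : ℝ) with h | g9
  · exact row8 h0 h1 ⟨g8, h⟩ ha hb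
  rcases le_total |a - b| (197 / 200 : ℝ) with h | g10
  · exact row9 h0 h1 ⟨g9, h⟩ ha hb
  rcases le_total |a - b| (99 / 100 : ℝ) with h | g11
  · exact row10 h0 h1 ⟨g10, h⟩ ha hb
  rcases le_total ε (93 / 1000 : ℝ) with h | h
  · exact edge0 h0 h g11 ha hb
  · exact edge1 h h1 g11 ha hb

end Vale.Agent.P322.BlockC
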